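import Vale.Agent.P218N.Core.Spec

/-! Abstract functional analysis: Fredholm alternative, perturbation, implicit functions. -/

open Set Filter Topology Metric MeasureTheory
open scoped RealInnerProductSpace ContDiff Matrix NNReal

noncomputable section

namespace Vale.Agent.P218N.Core

open Vale.Agent.P218.H313 Vale.Agent.P218N.H Vale.Agent.P218N.End Vale.Agent.P272.K.LIN

section
variable {P E : Type} [NormedAddCommGroup P] [NormedSpace ℂ P] [NormedAddCommGroup E]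
  [NormedSpace ℂ E]

theorem abs_fin (K : E →L[ℂ] E) (hK : IsCompactOperator K) :
    FiniteDimensional ℂ (LinearMap.ker ((1 + K : E →L[ℂ] E) : E →ₗ[ℂ] E)) := by
  set N := LinearMap.ker ((1 + K : E →L[ℂ] E) : E →ₗ[ℂ] E) with hN
  have hc : IsClosed (N : Set E) := ContinuousLinearMap.isClosed_ker (1 + K)
  have he : ∀ v : N, -K (v : E) = v := fun v => by
    have h : (v : E) + K v = 0 := v.2
    exact (eq_neg_of_add_eq_zero_left h).symm
  have h1 : IsCompactOperator (fun v : N => -K (v : E)) := (hK.comp_clm N.subtypeL).neg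
  have h2 := h1.codRestrict (V := N) (fun v => by rw [he]; exact v.2) hc
  refine FiniteDimensional.of_isCompactOperator_id ?_
  have e : (id : N → N) = fun v : N => (⟨-K (v : E), by rw [he]; exact v.2⟩ : N) :=
    funext fun v => Subtype.ext (he v).symm
  rw [e]
  exact h2

theorem abs_fred [CompleteSpace E] (K : E →L[ℂ] E) (hK : IsCompactOperator K)
    (hi : ∀ x, x + K x = 0 → x = 0) : ∃ L : E ≃L[ℂ] E, (L : E →L[ℂ] E) = 1 + K := by
  rcases hK.hasEigenvalue_or_mem_resolventSet (μ := -1) (by norm_num) with h | h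
  · obtain ⟨v, hv⟩ := h.exists_hasEigenvector
    have h1 : K v = (-1 : ℂ) • v := hv.apply_eq_smul
    exact absurd (hi v (by rw [h1]; simp)) hv.2
  · rw [spectrum.mem_resolventSet_iff, ← IsUnit.neg_iff] at h
    have e : -(algebraMap ℂ (E →L[ℂ] E) (-1) - K) = 1 + K := by
      rw [map_neg, map_one]; abel
    rw [e] at h
    obtain ⟨u, hu⟩ := h
    exact ⟨ContinuousLinearEquiv.ofUnit u, by rw [← hu]; rfl⟩

theorem abs_pert [CompleteSpace E] (L : E ≃L[ℂ] E) (T : ℕ → E →L[ℂ] E)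
    (hT : Tendsto T atTop (𝓝 (L : E →L[ℂ] E))) :
    ∃ C : ℝ, 0 ≤ C ∧ ∀ᶠ n in atTop, ∃ L' : E ≃L[ℂ] E, (L' : E →L[ℂ] E) = T n ∧
      ∀ x, ‖L'.symm x‖ ≤ C * ‖x‖ ∧ ‖L'.symm x - L.symm x‖ ≤ C * ‖T n - L‖ * ‖x‖ := by
  set c := ‖(L.symm : E →L[ℂ] E)‖ with hc
  have hc0 : 0 ≤ c := norm_nonneg _
  have h1 : ∀ᶠ n in atTop, IsUnit (T n) :=
    hT.eventually ((Units.isOpen (R := E →L[ℂ] E)).mem_nhds ⟨L.toUnit, rfl⟩)
  have h2 : Tendsto (fun n => c * ‖T n - L‖) atTop (𝓝 0) := by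
    simpa using (tendsto_iff_norm_sub_tendsto_zero.1 hT).const_mul c
  refine ⟨2 * c + 2 * c ^ 2, by positivity, ?_⟩
  filter_upwards [h1, h2.eventually (ge_mem_nhds (show (0 : ℝ) < 1 / 2 by norm_num))] with n hu hn
  obtain ⟨u, hu⟩ := hu
  have hL : ((ContinuousLinearEquiv.ofUnit u : E ≃L[ℂ] E) : E →L[ℂ] E) = T n := by
    rw [← hu]; rfl
  refine ⟨ContinuousLinearEquiv.ofUnit u, hL, fun x => ?_⟩
  set L' := (ContinuousLinearEquiv.ofUnit u : E ≃L[ℂ] E)
  set y := L'.symm x with hy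
  have h3 : T n y = x := by
    rw [← hL]; exact L'.apply_symm_apply x
  have h4 : y - L.symm x = -L.symm ((T n - L) y) := by
    simp [← h3]
  have h5 : ‖y - L.symm x‖ ≤ c * ‖T n - L‖ * ‖y‖ := by
    rw [h4, norm_neg, mul_assoc]
    refine ((L.symm : E →L[ℂ] E).le_opNorm _).trans ?_
    gcongr
    exact ContinuousLinearMap.le_opNorm _ _
  have h6 : ‖L.symm x‖ ≤ c * ‖x‖ := (L.symm : E →L[ℂ] E).le_opNorm x
  have h7 : ‖y‖ ≤ 2 * c * ‖x‖ := by
    have h8 := norm_le_insert' y (L.symm x)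
    nlinarith [norm_nonneg y]
  have h9 : 0 ≤ ‖T n - L‖ := norm_nonneg _
  have h10 := norm_nonneg x
  refine ⟨h7.trans (by nlinarith [sq_nonneg c]), h5.trans ?_⟩
  calc c * ‖T n - L‖ * ‖y‖ ≤ c * ‖T n - L‖ * (2 * c * ‖x‖) := by gcongr
    _ = 2 * c ^ 2 * ‖T n - L‖ * ‖x‖ := by ring
    _ ≤ _ := by gcongr; linarith

theorem abs_ift [CompleteSpace E] (Φ : P × E → E) (r : ℝ) (L : E ≃L[ℂ] E) (hr : 0 < r)
    (hd : DifferentiableOn ℂ Φ (ball 0 r)) (h0 : Φ 0 = 0)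
    (hL : ∀ v, fderiv ℂ Φ 0 (0, v) = L v) : ∃ r₁ > 0, ∃ r₂ > 0, ∃ x : P → E,
      r₁ ≤ r ∧ r₂ ≤ r ∧ DifferentiableOn ℂ x (ball 0 r₁) ∧ x 0 = 0 ∧
      (∀ p ∈ ball (0 : P) r₁, ‖x p‖ < r₂ ∧ Φ (p, x p) = 0 ∧
        ∀ y, ‖y‖ < r₂ → Φ (p, y) = 0 → y = x p) ∧
      ∀ p, fderiv ℂ x 0 p = -L.symm (fderiv ℂ Φ 0 (p, 0)) := by
  set A := fderiv ℂ Φ 0 with hA
  have hΦ0 : HasFDerivAt Φ A 0 := (hd.differentiableAt (ball_mem_nhds _ hr)).hasFDerivAt
  set g : P × E → E := fun z => L.symm (Φ z - A z) with hg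
  have hgd : DifferentiableOn ℂ g (ball 0 r) :=
    L.symm.differentiable.comp_differentiableOn (hd.sub A.differentiableOn)
  have hgo : g =o[𝓝 0] fun z => z := by
    have h1 := hΦ0.isLittleO
    simp only [h0, sub_zero] at h1
    exact ((L.symm : E →L[ℂ] E).isBigO_comp _ _).trans_isLittleO h1
  obtain ⟨ρ, hρ, hρ2, hρ3⟩ : ∃ ρ > 0, 2 * ρ ≤ r ∧ ∀ z : P × E, ‖z‖ < 2 * ρ → ‖g z‖ ≤ 1 / 8 * ‖z‖ := by
    obtain ⟨ε, hε, h⟩ := Metric.eventually_nhds_iff.1 (hgo.def (show (0 : ℝ) < 1 / 8 by norm_num))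
    refine ⟨min ε r / 2, by positivity, by linarith [min_le_right ε r], fun z hz => h ?_⟩
    rw [dist_zero_right]
    linarith [min_le_left ε r]
  have hsub : ∀ z ∈ ball (0 : P × E) ρ, ball z ρ ⊆ ball 0 (2 * ρ) := fun z hz u hu => by
    rw [mem_ball] at *
    linarith [dist_triangle u z 0]
  have hs2 : ball (0 : P × E) (2 * ρ) ⊆ ball 0 r := ball_subset_ball hρ2
  have hs1 : ball (0 : P × E) ρ ⊆ ball 0 r := ball_subset_ball (by linarith)
  have hDg : ∀ z ∈ ball (0 : P × E) ρ, ‖fderiv ℂ g z‖ ≤ 1 / 2 := fun z hz => by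
    have h1 := norm_fderiv_le_of_bdd (M := ρ / 4) hρ (hgd.mono ((hsub z hz).trans hs2))
      fun u hu => by
        have h2 := mem_ball_zero_iff.1 (hsub z hz hu)
        linarith [hρ3 u h2]
    refine h1.trans (le_of_eq ?_)
    field_simp
    norm_num
  have hlip : ∀ z ∈ ball (0 : P × E) ρ, ∀ z' ∈ ball (0 : P × E) ρ,
      ‖g z - g z'‖ ≤ 1 / 2 * ‖z - z'‖ := fun z hz z' hz' =>
    (convex_ball (0 : P × E) ρ).norm_image_sub_le_of_norm_fderiv_le
      (fun u hu => hgd.differentiableAt (isOpen_ball.mem_nhds (hs1 hu))) hDg hz' hz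
  set B : P →L[ℂ] E := (L.symm : E →L[ℂ] E) ∘L A ∘L ContinuousLinearMap.inl ℂ P E with hB
  have hBp : ∀ p, B p = L.symm (A (p, 0)) := fun p => rfl
  have hsplit : ∀ p y, A (p, y) = A (p, 0) + L y := fun p y => by
    rw [← hL, ← map_add]; simp
  have hΨ : ∀ p y, y - L.symm (Φ (p, y)) = -g (p, y) - B p := fun p y => by
    simp only [hg, hBp, map_sub, hsplit p y, map_add, L.symm_apply_apply]
    abel
  set r₁ := min ρ (ρ / 4 / (‖B‖ + 1)) with hr₁
  have hr₁0 : 0 < r₁ := by positivity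
  have hr₁1 : r₁ ≤ ρ := min_le_left _ _
  have hmem : ∀ p ∈ ball (0 : P) r₁, ∀ y ∈ ball (0 : E) ρ, (p, y) ∈ ball (0 : P × E) ρ :=
    fun p hp y hy => by
      rw [mem_ball_zero_iff] at *
      rw [Prod.norm_def]
      exact max_lt (hp.trans_le hr₁1) hy
  have hBs : ∀ p ∈ ball (0 : P) r₁, ‖B p‖ ≤ ρ / 4 := fun p hp => by
    rw [mem_ball_zero_iff] at hp
    have h1 : ‖p‖ ≤ ρ / 4 / (‖B‖ + 1) := hp.le.trans (min_le_right _ _)
    rw [le_div_iff₀ (by positivity)] at h1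
    nlinarith [B.le_opNorm p, norm_nonneg p]
  obtain ⟨x, hxd, hx⟩ := exists_fixed (Φ := fun p y => y - L.symm (Φ (p, y)))
    (U := ball (0 : P) r₁) isOpen_ball (b₀ := 0) (r := ρ / 2) (R := ρ) (κ := 1 / 2) (by positivity)
    (by linarith) (by norm_num) (by norm_num)
    (differentiableOn_snd.sub (L.symm.differentiable.comp_differentiableOn
      (hd.mono fun z hz => hs1 (hmem _ hz.1 _ hz.2))))
    (fun p hp y hy => by
      rw [hΨ, mem_closedBall_zero_iff]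
      have h1 := mem_ball_zero_iff.1 (hmem p hp y hy)
      have h2 := hρ3 (p, y) (by linarith)
      have h3 := norm_sub_le (-g (p, y)) (B p)
      rw [norm_neg] at h3
      linarith [hBs p hp])
    (fun p hp y hy y' hy' => by
      have h1 := hlip _ (hmem p hp y' hy') _ (hmem p hp y hy)
      have e : ‖((p, y') : P × E) - (p, y)‖ = ‖y - y'‖ := by
        simp [Prod.norm_def, norm_sub_rev]
      rw [e] at h1
      rw [hΨ, hΨ]
      convert h1 using 2
      abel)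
  have hfix : ∀ p y, y - L.symm (Φ (p, y)) = y ↔ Φ (p, y) = 0 := fun p y => by
    rw [sub_eq_self, L.symm.map_eq_zero_iff]
  have hx0 : x 0 = 0 :=
    ((hx 0 (mem_ball_self hr₁0)).2.2 0 (mem_ball_self hρ) ((hfix 0 0).2 h0)).symm
  refine ⟨r₁, hr₁0, ρ, hρ, x, by linarith, by linarith, hxd, hx0, fun p hp => ⟨?_,
    (hfix _ _).1 (hx p hp).2.1, fun y hy h => (hx p hp).2.2 y (mem_ball_zero_iff.2 hy)
      ((hfix _ _).2 h)⟩, fun p => ?_⟩
  · linarith [mem_closedBall_zero_iff.1 (hx p hp).1]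
  · have h1 : HasFDerivAt x (fderiv ℂ x 0) 0 :=
      (hxd.differentiableAt (ball_mem_nhds _ hr₁0)).hasFDerivAt
    have h2 : HasFDerivAt Φ A ((fun p => (p, x p)) 0) := by
      simp only [hx0]; exact hΦ0
    have h3 := h2.comp (0 : P) ((hasFDerivAt_id (0 : P)).prodMk h1)
    have h4 : HasFDerivAt (Φ ∘ fun p => (p, x p)) (0 : P →L[ℂ] E) 0 :=
      (hasFDerivAt_const (0 : E) (0 : P)).congr_of_eventuallyEq (by
        filter_upwards [ball_mem_nhds (0 : P) hr₁0] with q hq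
        exact (hfix _ _).1 (hx q hq).2.1)
    have h5 : A (p, fderiv ℂ x 0 p) = 0 := DFunLike.congr_fun (h3.unique h4) p
    rw [hsplit] at h5
    rw [← map_neg, eq_neg_of_add_eq_zero_left h5, neg_neg, L.symm_apply_apply]

theorem abs_basis (K : Submodule ℂ E) (J : E → E) (hK : FiniteDimensional ℂ K)
    (ha : ∀ u v, J (u + v) = J u + J v) (hs : ∀ (r : ℝ) u, J ((r : ℂ) • u) = (r : ℂ) • J u) :
    ∃ (n : ℕ) (k : Fin n → E), (∀ i, k i ∈ K ∧ J (k i) = k i) ∧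
      (∀ r : Fin n → ℝ, ∑ i, (r i : ℂ) • k i = 0 → r = 0) ∧
      ∀ v ∈ K, J v = v → ∃ r : Fin n → ℝ, v = ∑ i, (r i : ℂ) • k i := by
  let W : Submodule ℝ E :=
    { carrier := {v | v ∈ K ∧ J v = v}
      add_mem' := fun {u v} hu hv => ⟨K.add_mem hu.1 hv.1, by rw [ha, hu.2, hv.2]⟩
      zero_mem' := ⟨K.zero_mem, by simpa using hs 0 0⟩
      smul_mem' := fun r v hv => by
        rw [← Complex.coe_smul]
        exact ⟨K.smul_mem _ hv.1, by rw [hs, hv.2]⟩ }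
  have h1 : FiniteDimensional ℝ (K.restrictScalars ℝ) :=
    (inferInstance : FiniteDimensional ℝ K)
  have h2 : FiniteDimensional ℝ W :=
    Submodule.finiteDimensional_of_le (S₂ := K.restrictScalars ℝ) fun v hv => hv.1
  let b := Module.finBasis ℝ W
  refine ⟨_, fun i => b i, fun i => (b i).2, fun r hr => ?_, fun v hv hJ => ?_⟩
  · funext i
    refine Fintype.linearIndependent_iff.1 b.linearIndependent r (Subtype.ext ?_) i
    simpa [Complex.coe_smul] using hr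
  · refine ⟨b.repr ⟨v, hv, hJ⟩, ?_⟩
    have h3 := congrArg Subtype.val (b.sum_repr ⟨v, hv, hJ⟩)
    rw [Submodule.coe_sum] at h3
    simp only [Complex.coe_smul]
    exact h3.symm

end

theorem absStmt : AbsStmt := fun _ _ _ _ _ _ _ =>
  ⟨abs_fin, abs_fred, abs_pert, abs_ift, abs_basis⟩

end Vale.Agent.P218N.Core
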