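import Vale.Agent.P218N.Core.Sys

/-! The asymptotics of the derivative of the slow data at the end of the paths. -/

open Set Filter Topology Metric
open scoped ContDiff

noncomputable section

namespace Vale.Agent.P218N.Core

open Vale.Agent.P218.H313 Vale.Agent.P218N.H Vale.Agent.P218N.End Vale.Agent.P272.K.LIN

set_option linter.unusedSectionVars false

namespace Asy

theorem unif {V : Type} [NormedAddCommGroup V] [NormedSpace ℂ V] {A : ℕ → ℂ × ℂ → V}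
    (hA : ∀ n, IsLinearMap ℂ (A n)) (h : ∀ c, Tendsto (fun n => A n c) atTop (𝓝 0)) {ε : ℝ}
    (hε : 0 < ε) : ∀ᶠ n in atTop, ∀ c, ‖A n c‖ ≤ ε * ‖c‖ := by
  have h0 : ∀ c, ∀ᶠ n in atTop, ‖A n c‖ ≤ ε / 2 := fun c =>
    (h c).norm.eventually (ge_mem_nhds (by simpa using hε))
  filter_upwards [h0 (1, 0), h0 (0, 1)] with n h1 h2 c
  have e : A n c = c.1 • A n (1, 0) + c.2 • A n (0, 1) := by
    rw [← (hA n).map_smul, ← (hA n).map_smul, ← (hA n).map_add]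
    simp
  rw [e]
  refine (norm_add_le _ _).trans ?_
  rw [norm_smul, norm_smul]
  linarith [mul_le_mul (norm_fst_le c) h1 (norm_nonneg _) (norm_nonneg _),
    mul_le_mul (norm_snd_le c) h2 (norm_nonneg _) (norm_nonneg _)]

theorem scale {V : Type} [NormedAddCommGroup V] [NormedSpace ℂ V] {s : ℂ} (hs : ‖s‖ ≤ 1)
    {a z x p : V} {K α : ℝ} (hK : 0 ≤ K) (hα : 0 ≤ α) (h : ‖a - z‖ ≤ K * (α + ‖p‖)) :
    ‖s • a - x‖ ≤ K * (α + ‖s • p‖) + ‖s • z - x‖ := by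
  refine (norm_sub_le_norm_sub_add_norm_sub _ (s • z) _).trans (add_le_add_left ?_ _)
  rw [← smul_sub, norm_smul, norm_smul]
  nlinarith [mul_le_mul_of_nonneg_left h (norm_nonneg s),
    mul_le_mul_of_nonneg_right hs (mul_nonneg hK hα)]

theorem ar {t a c m d e x : ℝ} (h0 : 0 ≤ t) (h1 : 0 ≤ c * m * t) (hd : 0 ≤ d) (he : 0 ≤ e)
    (hx : 0 ≤ x) (h : a ≤ c * (m * d) * x ∨ a ≤ c * (m * (e * x))) :
    t * a ≤ c * m * (t * d + t * e) * x := by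
  rcases h with h | h <;> linarith [mul_le_mul_of_nonneg_left h h0,
    mul_nonneg (mul_nonneg h1 hd) hx, mul_nonneg (mul_nonneg h1 he) hx]

theorem Rc_lin : IsLinearMap ℂ Rc where
  map_add c c' := by
    simp only [Rc, one1_eq_smul _ (_ - _), one1_eq_smul _ (_ + _), Prod.fst_add, Prod.snd_add]
    module
  map_smul z c := by
    simp only [Rc, one1_eq_smul _ (_ - _), one1_eq_smul _ (_ + _), Prod.smul_fst, Prod.smul_snd,
      smul_eq_mul]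
    module

/-- the slow data at the end of the path -/
def t2 : EJ →L[ℂ] WD := (End.tr 1).comp EJ.y2L

theorem t2_eq (j : EJ) : End.tr 1 j.y2 = t2 j := rfl

theorem one_le_TT {zm : ℝ} (h : 1000 ≤ zm) (n : ℕ) : 1 ≤ TT zm n := by
  have : (0 : ℝ) ≤ n := n.cast_nonneg
  rw [TT]
  linarith

theorem norm_inv_le {x : ℝ} (h : 1 ≤ x) : ‖((x : ℝ) : ℂ)⁻¹‖ ≤ 1 := by
  rw [norm_inv, Complex.norm_real, Real.norm_of_nonneg (by linarith)]
  exact inv_le_one_of_one_le₀ h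

variable {w : E3 → ℝ} {D : EndData w} {G : Geo D} {zm : ℝ} {X : Type} [TopologicalSpace X]
  [ChartedSpace R2 X] [T2Space X] [CompactSpace X] [RSm R2 X] (C : Ctx2 G zm X)

/-- the jets of the combination of slow solutions and rotation fields -/
def Zj (μ : Fin D.b → ℂ) (c : Cc D) (n : ℕ) : En D → EJ
  | .inl _ => 0
  | .inr b => μ b • (C.cy b).ph n - (C.cy b).pR n (c b)

theorem Zj_jet (μ : Fin D.b → ℂ) (c : Cc D) (n : ℕ) :
    ∀ e, (ctr (gam zm 0 n) e).IsJet (Zj C μ c n e)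
  | .inl _ => (JS _).zero_mem
  | .inr b => (JS _).sub_mem ((JS _).smul_mem _ ((C.cy b).jet n)) ((C.cy b).Rjet n _)

variable {C} {Φ : Fin D.b → E3 → ℂ} {gb : Fin D.b → ℝ}

theorem Zj_val (hΦ : C.PhiF Φ gb) (μ : Fin D.b → ℂ) (c : Cc D) (n : ℕ) (e : En D) {q : R2}
    (hq : q.1 ∈ Icc (zm + 4) (TT zm n)) :
    ∑ b, μ b * Φ b (pt e q) - G.rotN zm c (pt e q) = G.s e * Yj zm (Zj C μ c n e) q := by
  have h0 : G.z0 < q.1 := by linarith [C.hz, hq.1]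
  have h2 : ∀ b θ, phR b (c b) (q.1, θ) = ev ((C.cy b).pR n (c b)).y (tt zm q.1) θ := fun b θ => by
    rw [(C.cy b).Rval, C.pf.zr_tt 0 n q.1 n.zero_le ⟨by push_cast; linarith [hq.1], hq.2⟩]
  have h3 : ∀ b, G.lift (.inr b) (phR b (c b)) (pt e q) =
      if .inr b = e then phR b (c b) q else 0 := fun b =>
    C.iv.lift_pt ℂ _ _ _ q h0 fun θ => by rw [h2, h2, ev_add_two_pi]
  simp only [Geo.rotN, h3, G.σ_pt e q h0, cut_one (zm := zm) (k := 2) (ζ := q.1)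
    (by push_cast; linarith [hq.1]), hΦ.val _ e n q ⟨by linarith [hq.1], hq.2⟩]
  cases e with
  | inl i => simp [Zj, Yj, ← EJ.yL_apply]
  | inr b =>
    have h4 : phR b (c b) q = _ := h2 b q.2
    simp only [Sum.inr.injEq, mul_ite, mul_zero, Finset.sum_ite_eq, Finset.sum_ite_eq',
      Finset.mem_univ, if_true, Zj, Yj, h4, ← EJ.yL_apply, map_sub, map_smul, ev_sub, ev_smul]
    push_cast
    ring

theorem far (hΦ : C.PhiF Φ gb) {μ : Fin D.b → ℂ} {c : Cc D} {v : C.U} {g : WE D}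
    (h : ∀ p, w p = 0 → C.ti v g p = ∑ b, μ b * Φ b p - G.rotN zm c p) {n : ℕ} (hn : 4 ≤ n)
    (e : En D) : t2 (C.Gi e n (g e)) = t2 (Zj C μ c n e) ∧
      piT (gam zm 3 n) e (C.Gi e n (g e)) = piT (gam zm 0 n) e (Zj C μ c n e) := by
  have h3 : 3 ≤ n := by omega
  have hn' : (4 : ℝ) ≤ n := by exact_mod_cast hn
  obtain ⟨h1, h2⟩ := C.pf.loc 3 n e (C.Gi e n (g e) - Res 3 n (Zj C μ c n e)) h3
    ((JS _).sub_mem (((C.lf e).fam (g e)).jet n h3)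
      (C.pf.jet_res 0 3 n n e _ (by omega) h3 le_rfl (Zj_jet C μ c n e))) fun ζ hζ θ => by
    have h0 : G.z0 < (ζ, θ).1 := by linarith [C.hz, hζ.1]
    have h1 := h _ (G.pt_mem e h0)
    rw [Zj_val hΦ μ c n e ⟨by linarith [hζ.1], hζ.2⟩, Ctx2.ti, Ctx.tot, G.σ_pt e _ h0,
      cut_one (by push_cast; linarith [hζ.1]),
      C.iv.YS_pt (fun _ _ _ => ev_add_two_pi _ _ _) e h0,
      C.yf.loc e _ n _ ((C.lf e).fam (g e)) h3 ⟨by linarith [hζ.1], hζ.2⟩] at h1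
    have h2 : (Res 3 n (Zj C μ c n e)).y = resW 3 n (Zj C μ c n e).y :=
      C.pf.jw_res 0 3 n n e _ 0 (by omega) h3 le_rfl
    rw [← EJ.yL_apply, map_sub, ev_sub, EJ.yL_apply, EJ.yL_apply, h2, C.pf.ev_res,
      C.yf.clp_tt 3 n ζ h3 ⟨by push_cast; linarith [hζ.1], hζ.2⟩]
    simp only [Yj, Complex.ofReal_one] at h1
    linear_combination (G.s e : ℂ) * h1 - (ev (C.Gi e n (g e)).y (tt zm ζ) θ -
      ev (Zj C μ c n e).y (tt zm ζ) θ) * G.s_mul e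
  obtain ⟨h4, h5⟩ := C.pf.piT_res 0 3 n e _ (by omega) h3 (Zj_jet C μ c n e)
  rw [t2_eq, map_sub, sub_eq_zero] at h1
  rw [(C.pf.piT_lin 3 n e).map_sub, sub_eq_zero] at h2
  exact ⟨h1.trans h5, h2.trans h4⟩

theorem res4 {n : ℕ} (hn : 4 ≤ n) (e : En D) (x : WB × WD) :
    End.tr 1 (Res 4 n ((C.B e).G n x)).y2 = End.tr 1 ((C.B e).G n x).y2 ∧
      End.tr 1 (Res 4 n ((C.B e).G n x)).y = End.tr 1 ((C.B e).G n x).y := by
  have h := (C.pf.piT_res 3 4 n e _ (by omega) hn ((C.B e).Gjet n x (by omega))).2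
  exact ⟨h, by rw [EJ.y, EJ.y, tr_mult sym0_le, tr_mult sym0_le, h]⟩

variable (C) {J : Type} [Fintype J] (𝓛 : C.U ≃L[ℂ] C.H)

/-- the dependence of the system on the jets on the overlap -/
def Lam (J : Type) : JJ D zm →L[ℂ] C.EE3 J :=
  ((𝓛.symm : C.H →L[ℂ] C.U).comp (C.L0.comp (ContinuousLinearMap.inr ℂ _ _))).prod
    ((-C.GamL.comp (ContinuousLinearMap.inr ℂ _ _)).prod 0)

theorem Lam_apply (j : JJ D zm) :
    Lam C 𝓛 J j = (𝓛.symm (C.L0 (0, j)), -C.GamL (0, j), 0) := rfl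

theorem Sys_sub (ψh : J → C.H) (l : J → C.U →L[ℂ] ℂ) (Θ Θ' : WE D →L[ℂ] JJ D zm) :
    ‖C.Sys 𝓛 ψh l Θ - C.Sys 𝓛 ψh l Θ'‖ ≤ ‖Lam C 𝓛 J‖ * ‖Θ - Θ'‖ := by
  refine ContinuousLinearMap.opNorm_le_bound _ (by positivity) fun a => ?_
  have e : (a.1, Θ a.2.1) = (a.1, Θ' a.2.1) + (0, (Θ - Θ') a.2.1) := by simp
  have h : (C.Sys 𝓛 ψh l Θ - C.Sys 𝓛 ψh l Θ') a = Lam C 𝓛 J ((Θ - Θ') a.2.1) := by
    rw [sub_apply, Ctx.Sys_apply, Ctx.Sys_apply, Lam_apply, e, map_add,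
      map_add, Prod.mk_sub_mk, Prod.mk_sub_mk, ← map_sub]
    congr 2 <;> abel
  rw [h, mul_assoc]
  exact ContinuousLinearMap.le_opNorm_of_le _ (ContinuousLinearMap.le_opNorm_of_le _
    ((norm_fst_le _).trans (norm_snd_le _)))

theorem pi_le {V : Type} [NormedAddCommGroup V] [NormedSpace ℂ V]
    (Θ : (En D → V) →L[ℂ] JJ D zm) (A : En D → V →L[ℂ] EJ) (h : ∀ x e, (Θ x e).1 = A e (x e)) :
    ‖Θ‖ ≤ ∑ e, ‖A e‖ := by
  have h0 : 0 ≤ ∑ e, ‖A e‖ := Finset.sum_nonneg fun e _ => norm_nonneg (A e)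
  refine ContinuousLinearMap.opNorm_le_bound _ h0 fun x =>
    (pi_norm_le_iff_of_nonneg (by positivity)).2 fun e => ?_
  rw [Submodule.coe_norm, h]
  exact ((A e).le_opNorm _).trans (mul_le_mul (Finset.single_le_sum
    (fun e _ => norm_nonneg (A e)) (Finset.mem_univ e)) (norm_le_pi_norm x e) (norm_nonneg _) h0)

theorem rhs_om (n : ℕ) (hn : 6 ≤ n) (o : En D → WD) :
    C.rhs 𝓛 n hn ((0, 0, o) : Par D J) = -Lam C 𝓛 J (C.Th n hn (0, o)) := by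
  simp [Ctx2.rhs, Lam_apply]

theorem rhs_zero (n : ℕ) (hn : 6 ≤ n) (y : J → ℂ) (c : Cc D) :
    C.rhs 𝓛 n hn ((y, c, 0) : Par D J) = (-𝓛.symm (C.Dc c), 0, y) := by
  simp [Ctx2.rhs, Prod.mk_zero_zero]

variable {C 𝓛}

theorem ident {N : ℕ} {ψ : Fin N ⊕ Fin D.b → E3 → ℝ} {ψh l} (hΦ : C.PhiF Φ gb)
    (hψ : C.PsiD Φ gb ψ ψh l) {a : C.EE3 (Fin N ⊕ Fin D.b)} {y : Fin N ⊕ Fin D.b → ℂ} {c : Cc D}
    (h : C.Sys 𝓛 ψh l C.Ti a = (-𝓛.symm (C.Dc c), 0, y)) (hy : ∀ k, y (.inl k) = 0) :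
    ∀ p, w p = 0 → C.ti a.1 a.2.1 p = ∑ b, y (.inr b) / gb b * Φ b p - G.rotN zm c p := by
  rw [Ctx.Sys_apply, Prod.mk.injEq, Prod.mk.injEq, ← map_neg, 𝓛.symm.injective.eq_iff] at h
  obtain ⟨-, h2, h3⟩ := hψ.ident a.1 a.2.1 a.2.2 c
    (by rw [← sub_eq_zero, add_sub_right_comm, h.1, neg_add_cancel])
    (sub_eq_zero.1 h.2.1) fun k => (congrFun h.2.2 _).trans (hy k)
  intro p hp
  rw [h3 p hp]
  congr 1
  refine Finset.sum_congr rfl fun b _ => ?_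
  rw [← congrFun h.2.2 (.inr b), h2, mul_div_cancel_left₀ _ (Complex.ofReal_ne_zero.2 (hΦ.ne b))]

theorem limY [DecidableEq J] (b : Fin D.b) (e : En D) :
    Tendsto (fun n => ‖((TT zm n : ℝ) : ℂ)⁻¹ • piT (gam zm 0 n) e (Zj C (fun b' =>
      (Pi.single (.inr b) 1 : J ⊕ Fin D.b → ℂ) (.inr b') / gb b') 0 n e)‖) atTop (𝓝 0) ∧
    Tendsto (fun n => ‖((TT zm n : ℝ) : ℂ)⁻¹ • t2 (Zj C (fun b' =>
      (Pi.single (.inr b) 1 : J ⊕ Fin D.b → ℂ) (.inr b') / gb b') 0 n e) - if e = .inr b then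
        (((C.cy b).g / gb b : ℝ) : ℂ) • W.one1 0 1 else 0‖) atTop (𝓝 0) := by
  cases e with
  | inl i => simp [Zj, (C.pf.piT_lin 0 _ _).map_zero]
  | inr b' =>
    simp only [Zj, Pi.zero_apply, map_zero, sub_zero, (C.pf.piT_lin 0 _ _).map_smul, map_smul,
      smul_comm ((TT zm _ : ℝ) : ℂ)⁻¹, ← tendsto_zero_iff_norm_tendsto_zero,
      tendsto_sub_nhds_zero_iff]
    set μ : ℂ := (Pi.single (.inr b) 1 : J ⊕ Fin D.b → ℂ) (.inr b') / gb b' with hμ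
    refine ⟨by simpa only [smul_zero] using (C.cy b').asπ.const_smul μ,
      ((C.cy b').asy.const_smul μ).trans (le_of_eq (congrArg _ ?_))⟩
    rw [hμ]
    by_cases h : b' = b
    · subst h
      rw [smul_smul, Pi.single_eq_same, if_pos rfl, Complex.ofReal_div, one_div_mul_eq_div]
    · simp [h]

theorem limC (e : En D) {ε : ℝ} (hε : 0 < ε) : ∀ᶠ n in atTop, ∀ c : Cc D,
    ‖((√(TT zm n) : ℝ) : ℂ)⁻¹ • piT (gam zm 0 n) e (Zj C 0 c n e)‖ ≤ ε * ‖c‖ ∧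
    ‖((√(TT zm n) : ℝ) : ℂ)⁻¹ • t2 (Zj C 0 c n e) -
      Sum.elim (fun _ => 0) (fun b => ((C.cy b).ρ : ℂ) • Rc (c b)) e‖ ≤ ε * ‖c‖ := by
  cases e with
  | inl i =>
    exact .of_forall fun n c => by simp [Zj, (C.pf.piT_lin 0 _ _).map_zero, mul_nonneg hε.le]
  | inr b =>
    have h1 := unif (fun n => ⟨fun c c' => by
      rw [map_add, (C.pf.piT_lin 0 _ _).map_add, smul_add], fun z c => by
      rw [map_smul, (C.pf.piT_lin 0 _ _).map_smul, smul_comm]⟩) (C.cy b).Rasπ hε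
    have h2 := unif (A := fun n c => ((√(TT zm n) : ℝ) : ℂ)⁻¹ • t2 ((C.cy b).pR n c) -
      -((C.cy b).ρ : ℂ) • Rc c) (fun n => ⟨fun c c' => by
        rw [map_add, map_add, Rc_lin.map_add]; module, fun z c => by
        rw [map_smul, map_smul, Rc_lin.map_smul]; module⟩)
      (fun c => tendsto_sub_nhds_zero_iff.2 ((C.cy b).Rasy c)) hε
    filter_upwards [h1, h2] with n h1 h2 c
    have h3 := mul_le_mul_of_nonneg_left (norm_le_pi_norm c b) hε.le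
    simp only [Zj, Pi.zero_apply, zero_smul, zero_sub, (C.pf.piT_lin 0 _ _).map_neg, map_neg,
      smul_neg, norm_neg, Sum.elim_inr]
    refine ⟨(h1 _).trans h3, le_trans (le_of_eq ?_) ((h2 _).trans h3)⟩
    rw [← norm_neg]
    congr 1
    module

theorem nm_le {A B : Type} [NormedAddCommGroup A] [NormedAddCommGroup B] (a : A × WE D × B)
    (e : En D) : ‖a.2.1 e‖ ≤ ‖a‖ :=
  (norm_le_pi_norm a.2.1 e).trans ((norm_fst_le _).trans (norm_snd_le _))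

theorem nm_sub {A B : Type} [NormedAddCommGroup A] [NormedAddCommGroup B] (a b : A × WE D × B)
    (e : En D) : ‖a.2.1 e - b.2.1 e‖ ≤ ‖a - b‖ := nm_le (a - b) e

theorem Th_inl (n : ℕ) (hn : 6 ≤ n) :
    ‖(C.Th n hn).comp (ContinuousLinearMap.inl ℂ _ _) - C.Ti‖ ≤
      ∑ e, ‖((C.B e).G6 n).comp (ContinuousLinearMap.inl ℂ _ _) - C.Gi e 6‖ :=
  pi_le _ _ fun _ _ => rfl

theorem rhs_le (n : ℕ) (hn : 6 ≤ n) (o : En D → WD) :
    ‖C.rhs 𝓛 n hn ((0, 0, o) : Par D J)‖ ≤ ‖Lam C 𝓛 J‖ *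
      ((∑ e, ‖((C.B e).G6 n).comp (ContinuousLinearMap.inr ℂ _ _)‖) * ‖o‖) := by
  rw [rhs_om, norm_neg]
  exact (Lam C 𝓛 J).le_opNorm_of_le
    ((((C.Th n hn).comp (ContinuousLinearMap.inr ℂ _ _)).le_opNorm o).trans
      (mul_le_mul_of_nonneg_right (pi_le _ _ fun _ _ => rfl) (norm_nonneg _)))

theorem exists_seq {ψh : J → C.H} {l : J → C.U →L[ℂ] ℂ} {L : C.EE3 J ≃L[ℂ] C.EE3 J}
    (hL : (L : C.EE3 J →L[ℂ] _) = C.Sys 𝓛 ψh l C.Ti) : ∃ T : ℕ → C.EE3 J →L[ℂ] C.EE3 J,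
      (∀ n (hn : 6 ≤ n), T n = C.Sys 𝓛 ψh l ((C.Th n hn).comp (ContinuousLinearMap.inl ℂ _ _))) ∧
      ∀ n, ‖T n - L‖ ≤ ‖Lam C 𝓛 J‖ *
        ∑ e, ‖((C.B e).G6 n).comp (ContinuousLinearMap.inl ℂ _ _) - C.Gi e 6‖ := by
  have hΛ := (Lam C 𝓛 J).opNorm_nonneg
  refine ⟨fun n => if hn : 6 ≤ n then
    C.Sys 𝓛 ψh l ((C.Th n hn).comp (ContinuousLinearMap.inl ℂ _ _)) else L,
    fun n hn => dif_pos hn, fun n => ?_⟩
  have h0 : 0 ≤ ‖Lam C 𝓛 J‖ *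
      ∑ e, ‖((C.B e).G6 n).comp (ContinuousLinearMap.inl ℂ _ _) - C.Gi e 6‖ :=
    mul_nonneg hΛ (by positivity)
  beta_reduce
  split_ifs with hn
  · rw [hL]
    exact (Sys_sub C 𝓛 ψh l _ _).trans (mul_le_mul_of_nonneg_left (Th_inl n hn) hΛ)
  · exact ContinuousLinearMap.opNorm_le_bound _ h0 fun x => by
      rw [sub_apply, sub_self, norm_zero]
      exact mul_nonneg h0 (norm_nonneg _)

theorem pert {ψh : J → C.H} {l : J → C.U →L[ℂ] ℂ} {L : C.EE3 J ≃L[ℂ] C.EE3 J}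
    (hL : (L : C.EE3 J →L[ℂ] _) = C.Sys 𝓛 ψh l C.Ti) :
    ∃ α : ℕ → ℝ, (∀ n, 0 ≤ α n) ∧ Tendsto α atTop (𝓝 0) ∧ ∀ᶠ n in atTop,
      ∃ (hn : 6 ≤ n) (L' : C.EE3 J ≃L[ℂ] C.EE3 J), (L' : C.EE3 J →L[ℂ] _) =
        C.Sys 𝓛 ψh l ((C.Th n hn).comp (ContinuousLinearMap.inl ℂ _ _)) ∧
      (∀ x, TT zm n ^ 2 * ‖L'.symm x - L.symm x‖ ≤ α n * ‖x‖) ∧
      ∀ o, TT zm n ^ 2 * ‖L'.symm (C.rhs 𝓛 n hn (0, 0, o))‖ ≤ α n * ‖o‖ := by
  have := C.hf.complete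
  obtain ⟨T, hT0, hT⟩ := exists_seq hL
  have hr := rhs_le (C := C) (𝓛 := 𝓛) (J := J)
  have hΛ := (Lam C 𝓛 J).opNorm_nonneg
  have hδ := tendsto_finsetSum Finset.univ fun e _ => (C.lf e).lim
  have hη := tendsto_finsetSum Finset.univ fun e _ => (C.lf e).om
  simp only [← Finset.mul_sum, Finset.sum_const_zero] at hδ hη
  have hδ0 : ∀ n, 0 ≤ ∑ e, ‖((C.B e).G6 n).comp (ContinuousLinearMap.inl ℂ _ _) - C.Gi e 6‖ :=
    fun n => by positivity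
  have hη0 : ∀ n, 0 ≤ ∑ e, ‖((C.B e).G6 n).comp (ContinuousLinearMap.inr ℂ _ _)‖ :=
    fun n => by positivity
  generalize ‖Lam C 𝓛 J‖ = m at hT hr hΛ
  obtain ⟨C1, hC1, hp⟩ := (C.abs ℂ _).pert L T (tendsto_iff_norm_sub_tendsto_zero.2
    (squeeze_zero (fun _ => norm_nonneg _) (fun n => (hT n).trans (mul_le_mul_of_nonneg_left
      (le_mul_of_one_le_left (hδ0 n) (one_le_pow₀ (one_le_TT C.big n))) hΛ))
      ((hδ.const_mul m).trans_eq (congrArg _ (mul_zero _)))))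
  refine ⟨_, fun n => mul_nonneg (mul_nonneg hC1 hΛ) (add_nonneg
    (mul_nonneg (sq_nonneg _) (hδ0 n)) (mul_nonneg (sq_nonneg _) (hη0 n))),
    ((hδ.add hη).const_mul (C1 * m)).trans_eq (congrArg _ (by rw [add_zero, mul_zero])), ?_⟩
  filter_upwards [hp, eventually_ge_atTop 6] with n ⟨L', h1, h2⟩ hn
  have h3 := mul_nonneg (mul_nonneg hC1 hΛ) (sq_nonneg (TT zm n))
  exact ⟨hn, L', h1.trans (hT0 n hn), fun x => ar (sq_nonneg _) h3 (hδ0 n) (hη0 n)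
    (norm_nonneg x) (.inl ((h2 x).2.trans (mul_le_mul_of_nonneg_right
      (mul_le_mul_of_nonneg_left (hT n) hC1) (norm_nonneg x)))), fun o => ar (sq_nonneg _) h3
    (hδ0 n) (hη0 n) (norm_nonneg o) (.inr ((h2 _).1.trans
      (mul_le_mul_of_nonneg_left (hr n hn o) hC1)))⟩

variable (C) in
theorem exists_out : ∃ K : ℝ, 0 ≤ K ∧ ∀ e n, 3 ≤ n → ∀ f o,
    ‖End.tr 1 ((C.B e).G n (f, o)).y2‖ ≤ K * (TT zm n ^ 2 * ‖f‖ + ‖o‖) ∧
    ‖End.tr 1 ((C.B e).G n (f, 0)).y‖ ≤ K * (TT zm n ^ 2 * ‖f‖) ∧ End.tr 1 (C.Gi e n f).y2 =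
      End.tr 1 ((C.B e).G n (f, piT (gam zm 3 n) e (C.Gi e n f))).y2 := by
  choose K hK0 hK using fun e => (C.lf e).out
  have hKt : ∀ e, K e ≤ ∑ e, K e := fun e =>
    Finset.single_le_sum (fun e _ => hK0 e) (Finset.mem_univ e)
  exact ⟨∑ e, K e, Finset.sum_nonneg fun e _ => hK0 e, fun e n hn f o =>
    ⟨(hK e n hn f o).1.trans (mul_le_mul_of_nonneg_right (hKt e) (by positivity)),
      (hK e n hn f o).2.1.trans ((mul_assoc _ _ _).trans_le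
        (mul_le_mul_of_nonneg_right (hKt e) (by positivity))), (hK e n hn f o).2.2⟩⟩

theorem key (hΦ : C.PhiF Φ gb) {μ : Fin D.b → ℂ} {c : Cc D} {v : C.U} {g : WE D}
    (h : ∀ p, w p = 0 → C.ti v g p = ∑ b, μ b * Φ b p - G.rotN zm c p) {n : ℕ} (hn : 4 ≤ n)
    (e : En D) {K β : ℝ} (hK0 : 0 ≤ K) (hK : ∀ f o,
      ‖End.tr 1 ((C.B e).G n (f, o)).y2‖ ≤ K * (TT zm n ^ 2 * ‖f‖ + ‖o‖))
    (hK' : End.tr 1 (C.Gi e n (g e)).y2 =
      End.tr 1 ((C.B e).G n (g e, piT (gam zm 3 n) e (C.Gi e n (g e)))).y2) {f : WB}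
    (hf : TT zm n ^ 2 * ‖f - g e‖ ≤ β) :
    ‖End.tr 1 (Res 4 n ((C.B e).G n (f, 0))).y2 - t2 (Zj C μ c n e)‖ ≤
      K * (β + ‖piT (gam zm 0 n) e (Zj C μ c n e)‖) := by
  obtain ⟨a1, a2⟩ := far hΦ h hn e
  rw [(res4 hn e _).1, ← a1, ← t2_eq, hK', a2, t2_eq, t2_eq, ← map_sub, ← map_sub,
    Prod.mk_sub_mk, ← t2_eq]
  exact (hK _ _).trans (mul_le_mul_of_nonneg_left (add_le_add hf (by simp)) hK0)

end Asy

open Asy in
theorem Ctx2.outS {w : E3 → ℝ} {D : EndData w} {G : Geo D} {zm : ℝ} {X : Type}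
    [TopologicalSpace X] [ChartedSpace R2 X] [T2Space X] [CompactSpace X] [RSm R2 X]
    (C : Ctx2 G zm X) : C.OutS := by
  intro _ Φ gb N ψ ψh l 𝓛 hΦ hψ L hL
  obtain ⟨K, hK0, hK⟩ := exists_out C
  obtain ⟨α, hα0, hα, hp⟩ := pert hL
  have hT1 := one_le_TT C.big
  obtain ⟨R, hR⟩ : ∃ R : (Fin N ⊕ Fin D.b → ℂ) → Cc D → C.EE3 (Fin N ⊕ Fin D.b),
      ∀ y c, R y c = (-𝓛.symm (C.Dc c), 0, y) := ⟨_, fun _ _ => rfl⟩
  obtain ⟨M, hM⟩ : ∃ M : ℝ, ∀ c, ‖R 0 c‖ ≤ M * ‖c‖ := ⟨_, fun c => by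
    rw [hR]
    exact norm_prod_le_iff.2 ⟨(norm_neg _).trans_le
      (((𝓛.symm : C.H →L[ℂ] C.U).comp C.Dc).le_opNorm c),
      (norm_zero (E := WE D × (Fin N ⊕ Fin D.b → ℂ))).trans_le
        (mul_nonneg (ContinuousLinearMap.opNorm_nonneg _) (norm_nonneg c))⟩⟩
  have hα' : ∀ r : ℝ, Tendsto (fun n => α n * r) atTop (𝓝 0) := fun r => by
    simpa using hα.mul_const r
  refine ⟨2 * K, fun b => (C.cy b).g / gb b, fun b => (C.cy b).ρ,
    fun b => ⟨div_ne_zero (C.cy b).g_ne (hΦ.ne b), (C.cy b).ρ_ne⟩, fun ε hε => ?_⟩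
  have hε' : 0 < ε / (2 * K + 1) := by positivity
  have e1 := eventually_all.2 fun b => eventually_all.2 fun e =>
    ((((hα' ‖R (Pi.single (.inr b) 1) 0‖).add (limY (C := C) (gb := gb) (J := Fin N) b e).1
      ).const_mul K).add (limY (C := C) (gb := gb) (J := Fin N) b e).2).eventually
        (ge_mem_nhds (a := ε) (by simpa using hε))
  filter_upwards [hp, e1, eventually_all.2 fun e => limC (C := C) e hε',
    (hα' M).eventually (ge_mem_nhds hε'), hα.eventually (ge_mem_nhds one_pos),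
    (hα' K).eventually (ge_mem_nhds (half_pos hε)),
    eventually_all.2 fun e => (C.B e).Gy _ (half_pos hε)]
    with n ⟨hn, L', h1, h2, h5⟩ e1 e2 e3 e4 e5 e6
  have h3 : 3 ≤ n := by omega
  have h4 : 4 ≤ n := by omega
  have key : ∀ y c e, (∀ k, y (.inl k) = 0) →
      ‖End.tr 1 (Res 4 n ((C.B e).G n ((L'.symm (C.rhs 𝓛 n hn (y, c, 0))).2.1 e, 0))).y2 -
        t2 (Zj C (fun b => y (.inr b) / gb b) c n e)‖ ≤ K * (α n * ‖R y c‖ +
          ‖piT (gam zm 0 n) e (Zj C (fun b => y (.inr b) / gb b) c n e)‖) := fun y c e hy => by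
    rw [rhs_zero, ← hR]
    exact key hΦ (ident hΦ hψ (a := L.symm (R y c)) (by rw [← hL, ← hR]; exact L.apply_symm_apply _)
      hy) h4 e hK0 (fun f o => (hK e n h3 f o).1) (hK e n h3 _ 0).2.2
      ((mul_le_mul_of_nonneg_left (nm_sub _ _ e) (sq_nonneg _)).trans (h2 _))
  refine ⟨hn, L', h1, fun o e => ?_, fun b e => ?_, fun c e => ?_⟩
  · have a1 := (mul_le_mul_of_nonneg_left (nm_le _ e) (sq_nonneg _)).trans (h5 o)
    have a2 := norm_le_pi_norm o e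
    have a3 := norm_nonneg o
    refine ⟨((congrArg _ (res4 h4 e _).1).trans_le (hK e n h3 _ _).1).trans ?_, ?_⟩
    · exact (mul_le_mul_of_nonneg_left (add_le_add (a1.trans (mul_le_mul_of_nonneg_right e4 a3))
        a2) hK0).trans_eq (by ring)
    · have a4 : ∀ f o, End.tr 1 ((C.B e).G n (f, o)).y =
          End.tr 1 ((C.B e).G n (f, 0)).y + End.tr 1 ((C.B e).G n (0, o)).y := fun f o => by
        simp only [← EJ.yL_apply, ← map_add, Prod.mk_add_mk, add_zero, zero_add]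
      refine (congrArg _ ((res4 h4 e _).2.trans (a4 _ _))).trans_le
        ((norm_add_le_of_le ((hK e n h3 _ 0).2.1.trans (mul_le_mul_of_nonneg_left a1 hK0))
          ((e6 e _).trans (mul_le_mul_of_nonneg_left a2 (half_pos hε).le))).trans ?_)
      linarith [mul_le_mul_of_nonneg_right e5 a3]
  · exact (scale (norm_inv_le (hT1 n)) hK0 (mul_nonneg (hα0 n) (norm_nonneg _))
      (key _ 0 e fun k => by simp)).trans (e1 b e)
  · have a1 := key 0 c e fun _ => rfl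
    simp only [Pi.zero_apply, zero_div] at a1
    refine (scale (norm_inv_le (Real.one_le_sqrt.2 (hT1 n))) hK0
      (mul_nonneg (hα0 n) (norm_nonneg _)) a1).trans ?_
    have a2 : α n * ‖R 0 c‖ ≤ ε / (2 * K + 1) * ‖c‖ :=
      (mul_le_mul_of_nonneg_left (hM c) (hα0 n)).trans
        ((mul_assoc _ _ _).ge.trans (mul_le_mul_of_nonneg_right e3 (norm_nonneg _)))
    refine (add_le_add (mul_le_mul_of_nonneg_left (add_le_add a2 (e2 e c).1) hK0)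
      (e2 e c).2).trans_eq ?_
    field_simp
    ring

end Vale.Agent.P218N.Core
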