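import Vale.Agent.P218N.Core.Spec
import Vale.Agent.P218N.End.Box
import Vale.Agent.P218N.End.ApiTr
import Vale.Agent.P218N.End.ApiReal

/-! The linear theory on the ends. -/

open Set Filter Topology Metric Complex

noncomputable section

namespace Vale.Agent.P218N.Core

open Vale.Agent.P218N.H Vale.Agent.P218N.End Vale.Agent.P218N.End.RE Vale.Agent.P218N.J
  Vale.Agent.P218N.J.PolyP

namespace Bx

variable {w : E3 → ℝ} {D : EndData w} {T T' Z δ zm : ℝ} {γ γ' : End.Path} {Γ Γ' : Ctr} {j j' : EJ}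
  {t t' : ℝ}

/-! ### Real paths -/

theorem nice (h : γ.RealP T) (h1 : δ ≤ 1 / 10) (h0 : 0 < δ) (hT : 1 ≤ δ * T) : γ.Nice 1 δ 0 := by
  have t0 : 0 ≤ T := (pos_of_mul_pos_right (one_pos.trans_le hT) h0.le).le
  have a : ∀ t, 1 ≤ δ * ‖γ.ze t‖ := fun t =>
    hT.trans (by rw [h.norm_ze t0]; gcongr; exact h.T_le t)
  have e : ∀ t, rh 0 (γ.ze t) = 2 := fun t => by simp [rh]
  refine ⟨h.ok, one_pos, h1, fun t => ⟨1, norm_one, le_rfl, ?_, by rw [mul_one]; exact h.g_eq t⟩, a,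
    fun t => ?_, by rw [norm_zero]; exact h0.le⟩
  · simp [e, h.norm_ze t0]
  · rw [e, norm_mul, Complex.norm_ofNat]
    nlinarith [a t]

theorem niceK (h : γ.RealP T) (h1 : δ ≤ 1 / 10) (h0 : 0 < δ) (hT : 1 ≤ δ * T) : γ.NiceK 1 δ := by
  have t0 : 0 ≤ T := (pos_of_mul_pos_right (one_pos.trans_le hT) h0.le).le
  refine ⟨h.ok, one_pos, h1, fun t => ⟨1, norm_one, le_rfl, ?_, by rw [mul_one]; exact h.g_eq t⟩,
    (nice h h1 h0 hT).ze⟩
  simp [h.norm_ze t0, h.im_ze]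

theorem re_mul (h : γ.RealP T) (x : ℝ) (t : ℝ) : (γ.g t * x).re = x * (γ.g t).re := by
  rw [re_mul_ofReal, mul_comm]

theorem iz_eq (h : γ.RealP T) (hT : 1 ≤ T) (t : ℝ) : binv γ.ze t = ((γ.ze t).re⁻¹ : ℝ) := by
  rw [h.iz hT, ofReal_inv, ← h.ze_eq]

theorem cyl_io_eq (h : γ.RealP T) (hT : 1 ≤ T) (t : ℝ) :
    (γ.cyl 0).io t = ((γ.ze t).re⁻¹ / 2 : ℝ) := by
  rw [(real h hT).cyl_io, ofReal_div, ofReal_inv, ← h.ze_eq, mul_inv, mul_comm]
  rfl

theorem cone_io_eq (h : γ.RealP T) (hT : 1 ≤ T) (t : ℝ) :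
    γ.cone.io t = ((γ.ze t).re⁻¹ * (γ.ze t).re⁻¹ : ℝ) := by
  rw [h.cone_io hT, ofReal_mul, ofReal_inv, ← h.ze_eq]

theorem inv_le (h : γ.RealP T) (hT : 0 < T) (t : ℝ) :
    0 ≤ (γ.ze t).re⁻¹ ∧ (γ.ze t).re⁻¹ ≤ T⁻¹ :=
  ⟨inv_nonneg.2 (hT.le.trans (h.T_le t)), inv_anti₀ hT (h.T_le t)⟩

/-- weights between `ζ²` and `exp (ζ / 5)` -/
def WA (γ : End.Path) (φ : BC) : Prop := ∀ t, 2 * ((γ.ze t).re⁻¹ * (γ.g t).re) ≤ (γ.g t * φ t).re ∧
  (γ.g t * φ t).re ≤ 1 / 5 * (γ.g t).re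

theorem wa_pow (h : γ.RealP T) (hT : 16 ≤ T) : WA γ (((2 : ℝ) : ℂ) • binv γ.ze) := fun t => by
  have h1 := (inv_le h (by linarith) t).2.trans (inv_anti₀ (by norm_num) hT)
  rw [BoundedContinuousFunction.smul_apply, iz_eq h (by linarith), smul_eq_mul, ← ofReal_mul,
    re_mul h]
  constructor <;> nlinarith [h.re t]

theorem wa_exp (h : γ.RealP T) (hT : 16 ≤ T) : WA γ (((1 / 8 : ℝ) : ℂ) • 1) := fun t => by
  have h1 := (inv_le h (by linarith) t).2.trans (inv_anti₀ (by norm_num) hT)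
  rw [BoundedContinuousFunction.smul_apply, BoundedContinuousFunction.coe_one, Pi.one_apply,
    smul_eq_mul, mul_one, re_mul h]
  constructor <;> nlinarith [h.re t]

theorem pw_zero (γ : End.Path) (b : ℝ) : γ.pw 0 b = (b : ℂ) • binv γ.ze := by
  ext t
  change _ * (binv γ.ze t * binv (γ.rho 0) t) = _ * binv γ.ze t
  rw [Path.Real.binv_rho]
  ring

theorem norm_iW_pow (h : γ.RealP T) (hT : 1 ≤ T) (e : Γ.g = γ.g) (b t : ℝ) :
    ‖Γ.iW ((b : ℂ) • binv γ.ze) p0 t‖ = (T / (γ.ze t).re) ^ b := by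
  rw [h.ok.norm_iW_iz (δ := 1) (fun t => by rw [one_mul]; exact h.one_le hT t) e,
    h.norm_ze (by linarith) t, show γ.ze p0 = T from h.st, norm_real,
    Real.norm_of_nonneg (by linarith)]

theorem ctr_g (e : En D) : (ctr γ e).g = γ.g := by cases e <;> rfl

theorem ctr_io (e : En D) (h : γ.Real 1) (h' : γ'.Real 1) (hz : γ.ze t = γ'.ze t') :
    (ctr γ e).io t = (ctr γ' e).io t' := by
  cases e
  · exact (h.cone_io t).trans (by rw [hz, ← h'.cone_io]; rfl)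
  · exact (h.cyl_io t).trans (by rw [hz, ← h'.cyl_io]; rfl)

theorem ctr_pg (e : En D) (h : γ.RealP T) (hT : 256 ≤ T) : (ctr γ e).PG (mu e) := by
  cases e
  · exact h.cone_pg (by linarith) _
  · exact cyl_pg h hT

theorem norm_ctr_io (e : En D) (h : γ.RealP T) (hT : 1 ≤ T) (t : ℝ) :
    ‖(ctr γ e).io t‖ ≤ (γ.ze t).re⁻¹ := by
  obtain ⟨a, b⟩ := inv_le h (by linarith) t
  have c := b.trans (inv_le_one_of_one_le₀ hT)
  cases e
  · refine (congrArg norm (cone_io_eq h hT t)).trans_le ?_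
    rw [norm_real, Real.norm_of_nonneg (by positivity)]
    nlinarith
  · refine (congrArg norm (cyl_io_eq h hT t)).trans_le ?_
    rw [norm_real, Real.norm_of_nonneg (by positivity)]
    linarith

theorem norm_ctr_Om (e : En D) (h : γ.Real 1) (t : ℝ) : ‖(ctr γ e).Om t‖ ≤ 2 * ‖γ.ze t‖ ^ 2 := by
  have := h.one_le_norm t
  cases e
  · change ‖γ.ze t * γ.ze t‖ ≤ _
    rw [norm_mul]
    nlinarith
  · refine (congrArg norm (Path.Real.cyl_Om γ t)).trans_le ?_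
    rw [norm_mul, Complex.norm_ofNat]
    nlinarith

theorem mu_le (e : En D) : ∃ K, 0 ≤ K ∧ ∀ m, |mu e m| ≤ K * br m := by
  cases e
  · exact ⟨_, sq_nonneg _, muCone_le _⟩
  · exact ⟨1, zero_le_one, muCyl_le⟩

/-! ### Families of jets which only depend on the point -/

/-- the jets only depend on the point -/
def Loc (J : End.Path → EJ) (Z : ℝ) : Prop := ∀ (T T' : ℝ) (γ γ' : End.Path) (t t' : ℝ), Z ≤ T →
  Z ≤ T' → γ.RealP T → γ'.RealP T' → γ.ze t = γ'.ze t' → EqAt (J γ) t (J γ') t'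

theorem loc_of_cmp {J : End.Path → EJ} (h : ∀ (T T' : ℝ) (γ γ' : End.Path) φ, Z ≤ T → γ.RealP T →
    γ'.RealP T' → Sub φ γ γ' → J γ' = (J γ).cmp φ) : Loc J Z := by
  have k : ∀ {T : ℝ} {γ : End.Path} (t : ℝ), Z ≤ T → γ.RealP T →
      EqAt (J γ) t (J (sg (γ.ze t).re (γ.ze t).re)) 0 := fun {T γ} t a b => by
    have b1 := sg_real (le_refl (γ.ze t).re)
    have e1 := h T T γ γ id a b b ⟨continuousOn_id, mapsTo_id _, fun _ _ => rfl⟩
    have e2 := h T _ γ _ (fun _ => cl t) a b b1 ⟨continuousOn_const, fun _ _ => cl_mem t,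
      fun s _ => by
        rw [ze_cl b.ok, b1.ze_eq, b.ze_eq t, ofReal_re]
        refine congrArg _ (le_antisymm ?_ (b1.T_le s))
        exact (le_re_of_dir one_pos b1.ok b1.dir s).2.trans_eq (by rw [sg, pg_one, ofReal_re])⟩
    have e3 : ∀ f : WB, End.tr t (cmpW id f) = End.tr 0 (cmpW (fun _ => cl t) f) := fun f => by
      rw [TrP.tr_cmpW continuous_cl, TrP.tr_cmpW continuous_const, id]
    rw [e2]
    conv => enter [1]; rw [e1]
    exact ⟨e3 _, e3 _, e3 _, e3 _⟩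
  intro T T' γ γ' t t' a a' b b' e
  have k1 := k t a b
  have k2 := k t' a' b'
  rw [← e] at k2
  exact ⟨k1.1.trans k2.1.symm, k1.2.1.trans k2.2.1.symm, k1.2.2.1.trans k2.2.2.1.symm,
    k1.2.2.2.trans k2.2.2.2.symm⟩

theorem ext_tr {f f' : WB} (h : ∀ t, End.tr t f = End.tr t f') : f = f' :=
  ext_ct fun m t => c_of_tr (h t) m

theorem eqAt_res (hP : PathF D zm) (k n : ℕ) (j : EJ) (t : ℝ) :
    EqAt (Res k n j) t j (clp k n t) :=
  ⟨hP.tr_res k n _ t, hP.tr_res k n _ t, hP.tr_res k n _ t, hP.tr_res k n _ t⟩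

theorem ze_clp (hP : PathF D zm) {k' k n n' : ℕ} (h1 : k' ≤ k) (h2 : k ≤ n) (h3 : n ≤ n') (t : ℝ) :
    (gam zm k n).ze t = (gam zm k' n').ze (clp k n t) := by
  rw [hP.ze, hP.ze, hP.zr_clp k' k n n' t h1 h2 h3]

theorem Loc.res {J : End.Path → EJ} (h : Loc J Z) (hP : PathF D zm) (hZ : Z ≤ zm) {k' k n n' : ℕ}
    (h1 : k' ≤ k) (h2 : k ≤ n) (h3 : n ≤ n') : Res k n (J (gam zm k' n')) = J (gam zm k n) := by
  have e := fun t => h _ _ _ _ _ _ (le_add_of_le_of_nonneg hZ k.cast_nonneg)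
    (le_add_of_le_of_nonneg hZ k'.cast_nonneg) (hP.real k n) (hP.real k' n') (ze_clp hP h1 h2 h3 t)
  have e' := eqAt_res hP k n (J (gam zm k' n'))
  exact EJ.ext' (ext_tr fun t => (e' t).1.trans (e t).1.symm)
    (ext_tr fun t => (e' t).2.1.trans (e t).2.1.symm)
    (ext_tr fun t => (e' t).2.2.1.trans (e t).2.2.1.symm)
    (ext_tr fun t => (e' t).2.2.2.trans (e t).2.2.2.symm)

theorem ev_jw (e : EqAt j t j' t') (hio : Γ.io t = Γ'.io t') (k : Fin 6) (θ : ℝ) :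
    ev (jw Γ j k) t θ = ev (jw Γ' j' k) t' θ := by
  have a : ∀ {f f' : WB}, End.tr t f = End.tr t' f' → ev f t θ = ev f' t' θ := fun h => by
    rw [← sumL_tr, h, sumL_tr]
  have b : ∀ {σ : ℤ → ℂ}, (∀ m, ‖σ m‖ ≤ 1) → ev (mult σ j.y2) t θ = ev (mult σ j'.y2) t' θ :=
    fun h => a (by rw [tr_mult h, tr_mult h, e.1])
  fin_cases k
  exacts [b sym0_le, (Γ.ev_jP j t θ).trans (by rw [hio, a e.2.1, ← Ctr.ev_jP]; rfl), b sym1_le,
    (Γ.ev_jQ j t θ).trans (by rw [hio, a e.2.2.1, ← Ctr.ev_jQ]; rfl), a e.2.2.2, b sym2_le]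

/-- the values of the jets of the height -/
theorem Loc.val {J : End.Path → EJ} (h : Loc J Z) (hP : PathF D zm) (hP' : PathF D (zm - 1))
    (hZ : Z ≤ zm - 1) (h1 : 1 ≤ Z) (e : En D)
    (hj : ∀ (T : ℝ) (γ : End.Path), Z ≤ T → γ.RealP T → (ctr γ e).IsJet (J γ) ∧
      ∀ t θ, ev (J γ).y t θ = yS e ((γ.ze t).re, θ)) (n : ℕ) (t θ : ℝ) (k : Fin 6) :
    ev (jw (ctr (gam zm 0 n) e) (J (gam zm 0 n)) k) t θ = jy e (zr zm 0 n t, θ) k := by
  have a1 : Z ≤ zm - 1 + (0 : ℕ) := by simpa using hZ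
  have a2 : Z ≤ zm + (0 : ℕ) := by linarith
  have r' := hP'.real 0 (n + 2)
  have r := hP.real 0 n
  have hx : zr zm 0 n t ∈ Ioo (zm - 1 + (0 : ℕ)) (TT (zm - 1) (n + 2)) := by
    have := hP.mem 0 n t n.zero_le
    simp only [TT, mem_Icc, mem_Ioo] at this ⊢
    push_cast at this ⊢
    constructor <;> linarith
  have a3 := (hP'.c2 0 (n + 2) e _ (zr zm 0 n t, θ) (hj _ _ a1 r').1 hx).2
  have a4 : ∀ x ∈ Ioo (zm - 1 + (0 : ℕ)) (TT (zm - 1) (n + 2)),
      (gam (zm - 1) 0 (n + 2)).ze (tt (zm - 1) x) = x := fun x hx => by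
    rw [hP'.ze, hP'.zr_tt 0 _ x (Nat.zero_le _) (Ioo_subset_Icc_self hx)]
  rw [jet2_congr (g := fun z => (yS e z : ℂ)) ((continuous_fst.continuousAt.eventually
    (isOpen_Ioo.mem_nhds hx)).mono fun z hz => by
      rw [(hj _ _ a1 r').2, a4 _ hz, ofReal_re])] at a3
  have a5 : (gam zm 0 n).ze t = (gam (zm - 1) 0 (n + 2)).ze (tt (zm - 1) (zr zm 0 n t)) := by
    rw [a4 _ hx, hP.ze]
  rw [jy, a3]
  exact ev_jw (h _ _ _ _ _ _ a2 a1 r r' a5)
    (ctr_io e (real r (h1.trans a2)) (real r' (h1.trans a1)) a5) k θ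

/-! ### The linearised problems -/

variable {jE : En D → End.Path → EJ} {dS πS : En D → ℝ → WD} {C : ℝ}

theorem wt_le_nrm (μ : ℤ → ℝ) (u : BC) (j : EJ) : nm 1 u j ≤ Γ.nrm μ u j := by
  rw [nm_one]; exact le_max_left _ _

theorem cyl_small {v : ℝ × ℝ → ℝ} {J : End.Path → EJ} {d π : ℝ → WD} (h : CylEnd v J d π Z C)
    (h0 : 0 < δ) : ∀ᶠ T : ℝ in atTop, ∀ γ : End.Path, γ.RealP T → ‖J γ‖ ≤ δ := by
  have h1 : Tendsto (fun T : ℝ => C * T ^ (-(9 / 10) : ℝ)) atTop (𝓝 0) := by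
    simpa using (tendsto_rpow_neg_atTop (by norm_num : (0 : ℝ) < 9 / 10)).const_mul C
  filter_upwards [h1.eventually (ge_mem_nhds h0), eventually_ge_atTop Z, eventually_ge_atTop 1]
    with T a b c γ hγ
  refine le_trans ?_ (((wt_le_nrm _ _ _).trans (h.dec T γ b hγ)).trans a)
  rw [← nm_one_one, ← one_mul (nm 1 (Ctr.iW _ _ _) _)]
  refine nm_mono _ _ (fun t => ?_) zero_le_one
  have := hγ.T_le t
  rw [pw_zero, norm_iW_pow hγ c rfl, one_mul]
  exact (norm_one.le.trans_eq' rfl).trans (Real.one_le_rpow_of_pos_of_le_one_of_nonpos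
    (div_pos (by linarith) (by linarith)) ((div_le_one (by linarith)).2 this) (by norm_num))

theorem lbox_cyl {v : ℝ × ℝ → ℝ} {J : End.Path → EJ} {d π : ℝ → WD} (h : CylEnd v J d π Z C) :
    ∃ K : ℝ, ∀ᶠ T : ℝ in atTop, ∀ γ : End.Path, γ.RealP T → ∀ s φ, (γ.cyl 0).Typ s φ →
      ∃ k : Cst, k.C = K ∧ k.A = 0 ∧ k.η ≤ 1 ∧
        LBox k (γ.cyl 0) muCyl s φ 1 (fderiv ℂ (γ.Ecyl 0) (J γ)) := by
  obtain ⟨K, L, hL, h1⟩ := box_cyl one_pos le_rfl
  have d0 : 0 < (10 * L)⁻¹ := by positivity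
  have d1 : L * (10 * L)⁻¹ ≤ 1 := by rw [mul_inv_le_iff₀ (by positivity)]; linarith
  obtain ⟨k, -, k1, k2, k3, k4, h2⟩ := h1 _ d0 d1
  refine ⟨K, ?_⟩
  filter_upwards [cyl_small h d0, eventually_ge_atTop (10 * L)] with T a b γ hγ s φ ht
  have n1 := nice hγ (by rw [one_div]; exact inv_anti₀ (by norm_num) (by linarith)) d0
    (by rw [inv_mul_eq_div, one_le_div (by positivity)]; exact b)
  exact ⟨k, k1, k3, k2.trans d1, (h2 γ 0 1 _ 0 s φ n1 (n1.sg_one (by simp))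
    (by rw [nm_one_one]; exact a γ hγ) ht).lbox (hasFDerivAt_shift (γ.differentiable_Ecyl 0) _ 0)⟩

theorem lbox (hE : RealEnds D jE dS πS Z C) (e : En D) :
    ∃ K : ℝ, ∀ᶠ T : ℝ in atTop, ∀ γ : End.Path, γ.RealP T → ∀ φ, WA γ φ →
      ∃ (k : Cst) (σ : BC), k.C = K ∧ (∀ t, 1 ≤ ‖σ t‖) ∧
        LBox k (ctr γ e) (mu e) sdAll φ σ (fderiv ℂ (EE γ e) (jE e γ)) := by
  rcases e with i | b
  · have c0 : cc i ≠ 0 := inv_ne_zero (D.link i).pos.ne'
    obtain ⟨K, L, hL, h1⟩ := box_cone (A := |C| + 1 + ‖ka i‖ + ‖kd i‖) one_pos le_rfl c0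
      (by positivity)
    have d0 : 0 < (10 * L)⁻¹ := by positivity
    have d1 : L * (10 * L)⁻¹ ≤ 1 := by rw [mul_inv_le_iff₀ (by positivity)]; linarith
    have d2 : (10 * L)⁻¹ ≤ 1 / 10 := by rw [one_div]; exact inv_anti₀ (by norm_num) (by linarith)
    obtain ⟨k, -, k1, -, -, -, -, h2⟩ := h1 _ L d0 d1 le_rfl
    obtain ⟨Z', h3⟩ := (hE.cone i).ref _ d0
    refine ⟨K, ?_⟩
    filter_upwards [eventually_ge_atTop Z', eventually_ge_atTop (10 * L)] with T a b γ hγ φ hφ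
    have n1 := niceK hγ d2 d0 (by rw [inv_mul_eq_div, one_le_div (by positivity)]; exact b)
    obtain ⟨r, -⟩ := h3 T γ a hγ
    have c1 := norm_nonneg (ka i)
    have c2 := norm_nonneg (kd i)
    have c3 := abs_nonneg C
    refine ⟨k, γ.ze, k1, n1.one_le, (h2 γ (ka i) (kd i) _ 0 φ n1 (by linarith) (by linarith) r.y2
      (nm_le ?_ ?_ ?_ ?_) (fun t => le_trans ?_ (hφ t).1) fun t => (hφ t).2).lbox
        (hasFDerivAt_shift (γ.differentiable_Econe _ _ _) _ 0)⟩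
    iterate 4 rw [map_one, one_mul]; linarith [r.y2, r.op, r.oq, r.pt, le_abs_self C]
    obtain ⟨b1, b2⟩ := inv_le hγ (by linarith) t
    have b3 : L * (γ.ze t).re⁻¹ ≤ 1 :=
      (mul_le_mul_of_nonneg_left (b2.trans (inv_anti₀ (by positivity) b)) (by linarith)).trans d1
    rw [cone_io_eq hγ (by linarith), re_mul hγ]
    nlinarith [mul_le_mul_of_nonneg_right b3 (mul_nonneg b1 (hγ.re t))]
  · obtain ⟨K, h1⟩ := lbox_cyl (hE.cyl b)
    refine ⟨K, ?_⟩
    filter_upwards [h1, eventually_ge_atTop 10] with T a c γ hγ φ hφ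
    have n1 := nice (δ := 1 / 10) hγ le_rfl (by norm_num) (by linarith)
    obtain ⟨k, k1, -, -, h2⟩ := a γ hγ sdAll φ (n1.adm0.typA (fun t => le_trans (by
      change _ * (γ.g t * _).re ≤ _
      rw [cyl_io_eq hγ (by linarith), re_mul hγ]
      nlinarith [mul_nonneg (inv_le hγ (by linarith) t).1 (hγ.re t)]) (hφ t).1) fun t => (hφ t).2)
    exact ⟨k, 1, k1, fun t => by simp, h2⟩

theorem slowD_all (f : WB) : Ctr.slowD sdAll f = End.tr 0 f := W.ext fun m => by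
  rw [c_slowD, c_tr]; rfl

theorem res_le {u : BC} {A : ℝ} (hP : PathF D zm) (k n : ℕ) (hA : 0 ≤ A)
    (h : ∀ t, 1 ≤ A * ‖u (clp k n t)‖) (j : EJ) : ‖Res k n j‖ ≤ A * ‖j.wt u‖ := by
  have a : ∀ f : WB, ‖resW k n f‖ ≤ A * ‖W.C u * f‖ := fun f => by
    simpa using wle_pt (w := 1) hA fun t => ⟨_, hP.tr_res k n f t, by simpa using h t⟩
  exact EJ.norm_le _ ((a _).trans (by gcongr; exact (j.wt u).norm_y2_le))
    ((a _).trans (by gcongr; exact (j.wt u).norm_op_le))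
    ((a _).trans (by gcongr; exact (j.wt u).norm_oq_le))
    ((a _).trans (by gcongr; exact (j.wt u).norm_pt_le))

/-- the values at the end point of a boundary layer -/
theorem layer (h : γ.RealP T) (hT : 16 ≤ T) (hg : Γ.g = γ.g) (hio : ∀ t, ‖Γ.io t‖ ≤ (γ.ze t).re⁻¹)
    (hj : Γ.IsJet j) (h0 : End.tr 0 j.y2 = 0) : ‖End.tr 1 j.y‖ ≤
      16 * (γ.ze 1).re⁻¹ * ‖W.C (Γ.iW (((1 / 8 : ℝ) : ℂ) • 1) p1) * j.op‖ := by
  refine W.norm_le_of_le fun m => ?_
  have hN := fun t => ((W.C (Γ.iW (((1 / 8 : ℝ) : ℂ) • 1) p1) * j.op).c m).norm_coe_le_norm t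
  generalize ‖(W.C (Γ.iW (((1 / 8 : ℝ) : ℂ) • 1) p1) * j.op).c m‖ = N at hN ⊢
  have N0 : 0 ≤ N := (norm_nonneg _).trans (hN 0)
  have x0 : ∀ t, 0 < (γ.ze t).re := fun t => by linarith [h.T_le t]
  have hd := fun t => hasDerivAt_re h.ok t
  have key := image_norm_le_of_norm_deriv_right_le_deriv_boundary (f := j.y.c m) (a := 0) (b := 1)
    (B := fun t => 16 * N * (Real.exp (1 / 8 * ((γ.ze t).re - (γ.ze 1).re)) * (γ.ze t).re⁻¹))
    (j.y.c m).continuous.continuousOn (fun t _ => ((hj m).1 t).hasDerivWithinAt) (by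
      rw [EJ.c_y, BoundedContinuousFunction.smul_apply, ← c_tr, h0, W.c_zero, smul_zero, norm_zero]
      have := x0 0
      positivity)
    (fun t => (((((hd t).sub_const _).const_mul _).exp).mul ((hd t).inv (x0 t).ne')).const_mul _)
    (fun t _ => by
      have h1 := hN t
      rw [c_C_mul_apply, norm_mul, h.ok.norm_iW_exp hg] at h1
      have h2 : ‖j.op.c m t‖ ≤ Real.exp (1 / 8 * ((γ.ze t).re - (γ.ze 1).re)) * N := by
        rw [← inv_mul_le_iff₀ (Real.exp_pos _), ← Real.exp_neg, ← mul_neg, neg_sub]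
        exact h1
      obtain ⟨h3, h4⟩ := inv_le h (by linarith) t
      have h5 := h4.trans (inv_anti₀ (by norm_num) hT)
      have h6 : ‖γ.g t‖ = (γ.g t).re := by
        conv_rhs => rw [h.g_eq t, ofReal_re]
      rw [norm_mul, BoundedContinuousFunction.mul_apply, norm_mul, hg, h6, div_eq_mul_inv (-_),
        ← inv_pow]
      have h7 := h.re t
      simp only [Pi.inv_apply]
      have h8 := Real.exp_pos (1 / 8 * ((γ.ze t).re - (γ.ze 1).re))
      generalize Real.exp (1 / 8 * ((γ.ze t).re - (γ.ze 1).re)) = E at *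
      have h9 : 0 ≤ (γ.g t).re * ((γ.ze t).re⁻¹ * (E * N)) := by positivity
      calc _ ≤ (γ.g t).re * ((γ.ze t).re⁻¹ * (E * N)) := by gcongr; exact hio t
        _ ≤ _ := by nlinarith [mul_le_mul_of_nonneg_left h5 h9])
    (right_mem_Icc.2 zero_le_one)
  rw [c_tr]
  simpa [mul_right_comm] using key

theorem loc (hE : RealEnds D jE dS πS Z C) (e : En D) : Loc (jE e) Z := by
  cases e
  · exact loc_of_cmp (hE.cone _).cmp
  · exact loc_of_cmp (hE.cyl _).cmp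

theorem sol (hE : RealEnds D jE dS πS Z C) (e : En D) (hT : Z ≤ T) (h : γ.RealP T) :
    ((ctr γ e).IsJet (jE e γ) ∧ ∀ t θ, ev (jE e γ).y t θ = yS e ((γ.ze t).re, θ)) ∧
      EE γ e (jE e γ) = 0 := by
  cases e
  · exact ⟨⟨((hE.cone _).sol T γ hT h).1, (hE.cone _).ev_y T γ hT h⟩, ((hE.cone _).sol T γ hT h).2⟩
  · exact ⟨⟨((hE.cyl _).sol T γ hT h).1, (hE.cyl _).ev_y T γ hT h⟩, ((hE.cyl _).sol T γ hT h).2⟩

theorem RealEnds.mono (hE : RealEnds D jE dS πS Z C) {Z' : ℝ} (h : Z ≤ Z') :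
    RealEnds D jE dS πS Z' C :=
  ⟨fun b => let a := hE.cyl b
    ⟨fun T γ x => a.sol T γ (h.trans x), fun T γ x => a.ev_y T γ (h.trans x),
      fun T γ x => a.trs T γ (h.trans x), fun T γ x => a.dec T γ (h.trans x),
      fun T T' γ γ' φ x => a.cmp T T' γ γ' φ (h.trans x), fun T γ x => a.real T γ (h.trans x)⟩,
  fun i => let a := hE.cone i
    ⟨fun T γ x => a.sol T γ (h.trans x), fun T γ x => a.ev_y T γ (h.trans x),
      fun T γ x => a.trs T γ (h.trans x), a.ref,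
      fun T T' γ γ' φ x => a.cmp T T' γ γ' φ (h.trans x), fun T γ x => a.real T γ (h.trans x),
      a.kd_eq, a.ka_real⟩⟩

theorem ze_one (hP : PathF D zm) {k n : ℕ} (h : k ≤ n) : (gam zm k n).ze 1 = TT zm n := by
  rw [hP.ze, hP.hi k n 1 h (sub_le_self _ (by positivity))]

theorem tendsto_TT (zm : ℝ) : Tendsto (TT zm) atTop atTop :=
  tendsto_atTop_add_const_right _ _ (tendsto_atTop_add_const_left _ _ tendsto_natCast_atTop_atTop)

theorem box (hP : PathStmt) (hE : RealEnds D jE dS πS Z C) (hZ : 1 ≤ Z) (e : En D) :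
    ∀ᶠ zm in atTop, ∃ B : EndBox zm e, ∀ n, B.jS n = jE e (gam zm 0 n) := by
  obtain ⟨K, hK⟩ := lbox hE e
  obtain ⟨M, M0, hM⟩ := mu_le e
  filter_upwards [(tendsto_atTop_add_const_right _ ((3 : ℕ) : ℝ) tendsto_id).eventually hK,
    eventually_ge_atTop (Z + 1), eventually_ge_atTop 1001] with zm h1 h2 h3
  have P := hP w D zm (by linarith)
  have r := P.real 3
  have t3 : 16 ≤ zm + (3 : ℕ) := by push_cast; linarith
  have hres : ∀ n, 3 ≤ n → Res 3 n (jE e (gam zm 0 n)) = jE e (gam zm 3 n) := fun n hn =>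
    (loc hE e).res P (by linarith) (Nat.zero_le _) hn le_rfl
  choose k₁ σ₁ a1 a2 a3 using fun n => h1 _ (r n) _ (wa_pow (r n) t3)
  choose k₂ σ₂ b1 b2 b3 using fun n => h1 _ (r n) _ (wa_exp (r n) t3)
  choose G g1 g2 g3 g4 using fun n => (a3 n).exists_inv (a2 n) |>.imp fun _ h => forall_and.1 h
    |>.imp_right fun h => forall_and.1 h |>.imp_right forall_and.1
  have K0 : 0 ≤ K := a1 0 ▸ zero_le_one.trans (a3 0).ok.one_le_C
  simp only [slowD_all] at g3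
  have s0 : ∀ (u : BC) (f : WB), End.tr 0 f = 0 → ‖Ctr.slowD sdAll (W.C u * f)‖ = 0 :=
    fun u f h => by rw [slowD_all, norm_tr_C_mul, h, norm_zero, mul_zero]
  have a0 : Z ≤ zm + (0 : ℕ) := by push_cast; linarith
  have om : ∀ n o, ‖(G n (0, 0, o)).wt ((ctr (gam zm 3 n) e).iW (((1 / 8 : ℝ) : ℂ) • 1) p1)‖ ≤
      K * ‖o‖ := fun n o => by
    have := (norm_wt_le_nm _ _ (b2 n)).trans ((b3 n).ap p1 (g1 n (0, 0, o)))
    rwa [s0 _ _ (g3 n _), g2, norm_tr_C_mul, g4, mul_zero, norm_zero, zero_add, add_zero,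
      show (ctr (gam zm 3 n) e).iW _ p1 1 = 1 from Ctr.iW_self _ p1, norm_one, one_mul, b1] at this
  refine ⟨⟨fun n => jE e (gam zm 0 n), fun n => (G n).comp ((ContinuousLinearMap.fst ℂ _ _).prod
    ((0 : WB × WD →L[ℂ] WD).prod (ContinuousLinearMap.snd ℂ _ _))), K + 4 * (1 + M), 1 / 8,
    by norm_num, fun n => (sol hE e a0 (P.real 0 n)).1.1,
    (loc hE e).val P (hP w D _ (by linarith)) (by linarith) hZ e fun T γ a b => (sol hE e a b).1,
    fun n => (sol hE e a0 (P.real 0 n)).2, fun n x _ => g1 n _,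
    fun n x hn => by rw [hres n hn]; exact g2 n _, fun n x _ => g3 n _, fun n x _ => g4 n _,
    fun n v hn c1 c2 c3 c4 => ?_, fun m n f c1 c2 => ?_, fun m n o c1 c2 => ?_, fun ε hε => ?_,
    fun n j hn hj => ?_⟩, fun _ => rfl⟩
  · rw [hres n hn] at c2
    refine (a3 n).unique (a2 n) (by rwa [sub_zero]) (by rw [c2, map_zero])
      (by rw [slowD_all, slowD_all, c3]; exact (map_zero _).symm) (c4.trans ?_)
    rw [← zero_smul ℂ (0 : EJ), piJ_smul, zero_smul, map_zero]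
  · have d1 := (norm_wt_le_nm _ _ (a2 n)).trans ((a3 n).ap p0 (g1 n (f, 0, 0)))
    rw [s0 _ _ (g3 n _), g2, norm_tr_C_mul, g4, norm_zero, mul_zero, zero_add, zero_add, a1] at d1
    have d2 := fun t => norm_iW_pow (r n) (by linarith) (ctr_g e) 2 t
    have d3 : ‖(ctr (gam zm 3 n) e).iW (((2 : ℝ) : ℂ) • binv (gam zm 3 n).ze) p0‖ ≤ 1 :=
      norm_BC_le fun t => by
        have := (r n).T_le t
        rw [d2]
        exact Real.rpow_le_one (div_nonneg (by linarith) (by linarith))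
          ((div_le_one (by linarith)).2 this) zero_le_two
    refine (res_le (A := TT zm m ^ 2) P 3 m (sq_nonneg _) (fun t => ?_) _).trans
      ((mul_le_mul_of_nonneg_left (d1.trans (mul_le_mul_of_nonneg_left
        ((norm_C_mul_le _ _).trans (mul_le_of_le_one_left (norm_nonneg _) d3)) K0))
          (sq_nonneg _)).trans ?_)
    · obtain ⟨e1, e2⟩ := P.mem 3 m t c1
      rw [d2, ← ze_clp P le_rfl c1 c2, P.ze, ofReal_re, Real.rpow_two, ← mul_pow, mul_div_assoc']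
      exact one_le_pow₀ ((one_le_div (by linarith)).2 (by nlinarith))
    · change _ * (K * ‖f‖) ≤ _
      nlinarith [mul_nonneg (mul_nonneg (sq_nonneg (TT zm m)) (norm_nonneg f)) (by linarith : 0 ≤ 1 + M)]
  · refine (res_le (A := Real.exp (-(1 / 8 * ((n : ℝ) - m)))) P 3 m (Real.exp_pos _).le
      (fun t => ?_) _).trans ((mul_le_mul_of_nonneg_left (om n o) (Real.exp_pos _).le).trans ?_)
    · have e1 := (P.mem 3 m t c1).2
      rw [(r n).ok.norm_iW_exp (ctr_g e), ← ze_clp P le_rfl c1 c2, P.ze 3 m, ← Real.exp_add,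
        show (gam zm 3 n).ze p1 = TT zm n from ze_one P (c1.trans c2), ofReal_re, ofReal_re]
      refine Real.one_le_exp ?_
      unfold TT at *
      linarith
    · nlinarith [mul_nonneg (mul_nonneg (Real.exp_pos (-(1 / 8 * ((n : ℝ) - m)))).le (norm_nonneg o))
        (by linarith : 0 ≤ 1 + M)]
  · have d1 : Tendsto (fun n => 16 * (TT zm n)⁻¹ * K) atTop (𝓝 0) := by
      simpa using ((tendsto_TT zm).inv_tendsto_atTop.const_mul 16).mul_const K
    filter_upwards [d1.eventually (ge_mem_nhds hε), eventually_ge_atTop 3] with n d2 hn o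
    have d3 := layer (r n) t3 (ctr_g e) (norm_ctr_io e (r n) (by linarith)) (g1 n (0, 0, o)) (g3 n _)
    have d4 := (inv_le (r n) (by linarith) 1).1
    rw [ze_one P hn, ofReal_re] at d3 d4
    refine d3.trans ((mul_le_mul_of_nonneg_left ((EJ.norm_op_le _).trans (om n o))
      (by positivity)).trans ?_)
    rw [← mul_assoc]
    gcongr
  · have r1 : (gam zm 3 n).Real 1 := real (r n) (by linarith)
    have d1 := (norm_tr_apply_le 1 _).trans (norm_piJ_le (ctr_pg e (r n) (by push_cast; linarith)) hM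
      (fun t => (norm_ctr_io e (r n) (by linarith) t).trans (inv_le_one_of_one_le₀ (r1.le t)))
      (norm_ctr_Om e r1) hj)
    have d2 : ‖(gam zm 3 n).ze‖ ≤ TT zm n := norm_BC_le fun t => by
      rw [(r n).norm_ze (by linarith), P.ze, ofReal_re]
      exact (P.mem 3 n t hn).2
    have d3 := (norm_C_mul_le _ _).trans (mul_le_mul d2 j.norm_pt_le (norm_nonneg _)
      ((norm_nonneg _).trans d2))
    have d4 : 1 ≤ TT zm n := (r1.one_le_norm 0).trans (((gam zm 3 n).ze.norm_coe_le_norm 0).trans d2)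
    have d5 : 2 * ‖j.op‖ + ‖W.C (gam zm 3 n).ze * j.pt‖ + ‖j.y2‖ ≤ 4 * (TT zm n ^ 2 * ‖j‖) := by
      have := mul_le_mul_of_nonneg_right (by nlinarith : TT zm n ≤ TT zm n ^ 2) (norm_nonneg j)
      nlinarith [j.norm_op_le, j.norm_y2_le, mul_le_mul_of_nonneg_right d4 (norm_nonneg j)]
    refine d1.trans ((mul_le_mul_of_nonneg_left d5 (by linarith)).trans ?_)
    nlinarith [mul_nonneg K0 (mul_nonneg (sq_nonneg (TT zm n)) (norm_nonneg j))]

end Bx

theorem boxStmt (hP : PathStmt) : BoxStmt := fun _ _ _ _ _ Z _ hE =>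
  eventually_atTop.1 (eventually_all.2
    (Bx.box hP (Bx.RealEnds.mono hE (le_max_left Z 1)) (le_max_right _ _)))

end Vale.Agent.P218N.Core
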