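import Vale.Agent.P218N.Core.Spec

/-! The output of the core problem. -/

open Set Filter Topology Metric MeasureTheory
open scoped RealInnerProductSpace ContDiff Matrix NNReal

noncomputable section

namespace Vale.Agent.P218N.Core

open Vale.Agent.P218.H313 Vale.Agent.P218N.H Vale.Agent.P218N.End

variable {w : E3 → ℝ} {D : EndData w}

variable (D) in
/-- the parameters `(y, c, ω)`: constraints, rotations, fast data at the end of the paths -/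
abbrev Par (J : Type) : Type := (J → ℂ) × (Fin D.b → ℂ × ℂ) × (En D → WD)

/-- conjugation of the parameters -/
def cjP {J : Type} (x : Par D J) : Par D J := (star x.1, star x.2.1, fun e => W.cj (x.2.2 e))

/-- a real function as a complex function -/
def cF (f : E3 → ℝ) (p : E3) : ℂ := f p

/-- the right hand side `∑ λ_k ψ_k` -/
def sumP {J : Type} [Fintype J] (ψ : J → E3 → ℝ) (l : J → ℂ) (p : E3) : ℂ := ∑ k, l k * ψ k p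

/-- the functions `ψ_k`, solvability of the linear problem -/
structure PsiF (G : Geo D) (zm : ℝ) {J : Type} [Fintype J] (ψ : J → E3 → ℝ) : Prop where
  cont : ∀ k, Continuous (ψ k)
  cpt : ∀ k, HasCompactSupport (ψ k)
  spt : ∀ k p, w p = 0 → zm + 2 ≤ G.σ p → ψ k p = 0
  indep : ∀ μ : J → ℝ, (∀ p, w p = 0 → ∑ k, μ k * ψ k p = 0) → μ = 0
  solv : ∀ f : E3 → ℝ, C2S w f → Bdd w f → ∃ (u : E3 → ℝ) (μ : J → ℝ) (C : ℝ), C2S w u ∧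
    (∀ (e : En D) (q : R2), G.z0 + 1 ≤ q.1 → ‖jet2 (fun z => u (pt e z)) q‖ ≤ C * q.1 ^ 2) ∧
    (∀ p, w p = 0 → G.LG zm (cF u) p = (f p + ∑ k, μ k * ψ k p : ℝ)) ∧
    ∀ k, G.ip (cF u) (cF (ψ k)) = 0

/-- a finite family of relatively compact pieces of patches which covers the core -/
structure Charts (G : Geo D) (zm : ℝ) {κ : Type} (P : κ → Patch (SS w)) (O : κ → Set R2) :
    Prop where
  op : ∀ k, IsOpen (O k)
  rel : ∀ k, ∃ K, IsCompact K ∧ O k ⊆ K ∧ K ⊆ (P k).O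
  lt : ∀ k, ∀ y ∈ O k, G.σ ((P k).φ y) < zm + 5
  cover : ∀ p, w p = 0 → G.σ p < zm + 5 → ∃ k, ∃ y ∈ O k, (P k).φ y = p

/-- The solution of the core problem up to `T = TT zm n`, for parameters in the ball of radius
`r`: the normal graph `u`, the jets `jc` on the ends, the multipliers `lm`, the area `Fc`. -/
structure CoreBox (G : Geo D) (zm : ℝ) {J κ : Type} [Fintype J] (ψ : J → E3 → ℝ)
    (P : κ → Patch (SS w)) (O : κ → Set R2) (jS : En D → EJ) (n : ℕ) (r C : ℝ)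
    (u : Par D J → E3 → ℂ) (jc : Par D J → En D → EJ) (lm : Par D J → J → ℂ)
    (Fc : Par D J → ℂ) : Prop where
  r_pos : 0 < r
  C_pos : 0 < C
  jhol : DifferentiableOn ℂ jc (ball 0 r)
  j0 : jc 0 = jS
  jb : ∀ x ∈ ball (0 : Par D J) r, ‖jc x - jS‖ ≤ C * ‖x‖
  jet : ∀ x ∈ ball (0 : Par D J) r, ∀ e, (ctr (gam zm 4 n) e).IsJet (jc x e)
  sol : ∀ x ∈ ball (0 : Par D J) r, ∀ e, EE (gam zm 4 n) e (jc x e) = 0
  piT_eq : ∀ x ∈ ball (0 : Par D J) r, ∀ e,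
    piT (gam zm 4 n) e (jc x e) = piT (gam zm 4 n) e (jS e) + x.2.2 e
  uend : ∀ x ∈ ball (0 : Par D J) r, ∀ (e : En D) (q : R2), q.1 ∈ Icc (zm + 4) (TT zm n) →
    u x (pt e q) = G.s e * (ev (jc x e).y (tt zm q.1) q.2 - yS e q)
  c2 : ∀ x ∈ ball (0 : Par D J) r, ∀ Q : Patch (SS w), ∀ y ∈ Q.O, G.σ (Q.φ y) < TT zm n →
    ContDiffAt ℝ 2 (fun z => u x (Q.φ z)) y
  uhol : ∀ k, ∀ y ∈ O k,
    DifferentiableOn ℂ (fun x => jet2 (fun z => u x ((P k).φ z)) y) (ball 0 r)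
  ub : ∀ x ∈ ball (0 : Par D J) r, ∀ k, ∀ y ∈ O k,
    ‖jet2 (fun z => u x ((P k).φ z)) y‖ ≤ C * ‖x‖
  eq : ∀ x ∈ ball (0 : Par D J) r, ∀ p, w p = 0 → G.σ p < TT zm n →
    Mh (G.aG zm x.2.1 (u x) p) = kap (G.aG zm x.2.1 (u x) p) * sumP ψ (lm x) p
  om : ∀ x ∈ ball (0 : Par D J) r, ∀ p, w p = 0 → G.σ p < zm + 5 → G.aG zm x.2.1 (u x) p ∈ Om D
  kap_le : ∀ x ∈ ball (0 : Par D J) r, ∀ k, ∀ y ∈ O k,
    ‖kap (G.aG zm x.2.1 (u x) ((P k).φ y)) - 1‖ ≤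
      C * (‖T1 (jet2 (fun z => u x ((P k).φ z)) y)‖ + ‖x.2.1‖)
  ip : ∀ x ∈ ball (0 : Par D J) r, ∀ k, G.ip (u x) (cF (ψ k)) = x.1 k
  dinj : ∀ xs ds : ℕ → Par D J, (∀ m, ‖xs m‖ < r) → (∃ B, ∀ m, ‖ds m‖ ≤ B) →
    (∀ p, w p = 0 → G.σ p ≤ zm + 2 →
      Tendsto (fun m => (fderiv ℂ (fun x => u x p) (xs m) (ds m)).re) atTop (𝓝 0)) →
    ∀ k, Tendsto (fun m => ((ds m).1 k).re) atTop (𝓝 0)
  lhol : DifferentiableOn ℂ lm (ball 0 r)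
  lb : ∀ x ∈ ball (0 : Par D J) r, ‖lm x‖ ≤ C * ‖x‖
  F_eq : ∀ x ∈ ball (0 : Par D J) r, Fc x = (∫ p, (1 - cut zm 4 (G.σ p) : ℝ) *
    lam (G.aG zm x.2.1 (u x) p) ∂(muS w)) + ∑ e, FE zm n e (jc x e)
  Fhol : DifferentiableOn ℂ Fc (ball 0 r)
  dF : ∀ x ∈ ball (0 : Par D J) r, ∀ d, fderiv ℂ Fc x d = -∑ k, lm x k * d.1 k +
    ∑ e, (FluxE (gam zm 4 n) e (jc x e) 1 (fderiv ℂ jc x d e).y +
      TqE (gam zm 4 n) e (jc x e) 1 fun b => al (x.2.1 b) (d.2.1 b))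
  cj : ∀ x ∈ ball (0 : Par D J) r, (∀ e, jc (cjP x) e = (jc x e).cj) ∧ lm (cjP x) = star (lm x) ∧
    Fc (cjP x) = star (Fc x) ∧
    ∀ p, w p = 0 → G.σ p < TT zm n → u (cjP x) p = star (u x p)

/-- the derivative of the slow data at the end of the paths, at the base point -/
structure OutF (zm : ℝ) {N : ℕ} (n : ℕ) (C0 ε : ℝ) (g ρ : Fin D.b → ℝ)
    (dj : Par D (Fin N ⊕ Fin D.b) → En D → EJ) : Prop where
  om : ∀ o e, ‖End.tr 1 (dj (0, 0, o) e).y2‖ ≤ C0 * ‖o‖ ∧ ‖End.tr 1 (dj (0, 0, o) e).y‖ ≤ ε * ‖o‖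
  y : ∀ (b : Fin D.b) (e : En D),
    ‖((TT zm n : ℝ) : ℂ)⁻¹ • End.tr 1 (dj (Pi.single (.inr b) 1, 0, 0) e).y2 -
      (if e = .inr b then (g b : ℂ) • W.one1 0 1 else 0)‖ ≤ ε
  c : ∀ (c : Fin D.b → ℂ × ℂ) (e : En D),
    ‖((√(TT zm n) : ℝ) : ℂ)⁻¹ • End.tr 1 (dj (0, c, 0) e).y2 -
      Sum.elim (fun _ => 0) (fun b => (ρ b : ℂ) • Rc (c b)) e‖ ≤ ε * ‖c‖

/-- the result of the block CORE -/
def CoreStmt : Prop := ∀ (w : E3 → ℝ) (D : EndData w) (jE : En D → Path → EJ)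
  (dS πS : En D → ℝ → WD) (Z C : ℝ), Shr w → (∃ p, w p = 0) → RealEnds D jE dS πS Z C →
  ∃ (G : Geo D) (z1 : ℝ), ∀ zm, z1 ≤ zm → ∃ (N M : ℕ) (ψ : Fin N ⊕ Fin D.b → E3 → ℝ)
    (P : Fin M → Patch (SS w)) (O : Fin M → Set R2) (C0 : ℝ) (g ρ : Fin D.b → ℝ),
    PsiF G zm ψ ∧ Charts G zm P O ∧ (∀ b, g b ≠ 0 ∧ ρ b ≠ 0) ∧ ∀ ε > 0, ∀ᶠ n in atTop,
      ∃ r C' u jc lm Fc,
        CoreBox G zm ψ P O (fun e => Res 4 n (jE e (gam zm 0 n))) n r C' u jc lm Fc ∧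
        OutF zm n C0 ε g ρ (fderiv ℂ jc 0)

end Vale.Agent.P218N.Core
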