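import Vale.Agent.P218N.Core.Mix
import Vale.Agent.P218N.Core.Out

/-! The system of equations of the core problem: definitions and the statements of the steps. -/

open Set Filter Topology Metric MeasureTheory
open scoped RealInnerProductSpace ContDiff Matrix NNReal

noncomputable section

namespace Vale.Agent.P218N.Core

open Vale.Agent.P218.H313 Vale.Agent.P218N.H Vale.Agent.P218N.End Vale.Agent.P272.K.LIN

set_option linter.unusedSectionVars false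

variable {w : E3 → ℝ} {D : EndData w} {G : Geo D} {zm : ℝ}

/-! ### Families of jets on the ends -/

variable (zm) in
/-- a compatible family of jets on the paths `gam zm 3 m` -/
structure Fam (e : En D) (j : ℕ → EJ) : Prop where
  jet : ∀ m, 3 ≤ m → (ctr (gam zm 3 m) e).IsJet (j m)
  res : ∀ m' m, 3 ≤ m' → m' ≤ m → Res 3 m' (j m) = j m'
  bd : ∃ C : ℝ, ∀ m, 3 ≤ m → ‖j m‖ ≤ C * TT zm m ^ 2

variable (zm) in
/-- the function of a jet -/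
def Yj (j : EJ) (q : R2) : ℂ := ev j.y (tt zm q.1) q.2

variable (zm) in
/-- the function of a family of jets -/
def Yinf (j : ℕ → EJ) (q : R2) : ℂ := Yj zm (j (⌈q.1⌉₊ + 3)) q

/-- the linearised equation on the path `gam zm 3 n` -/
def EndBox.dE {e : En D} (B : EndBox zm e) (n : ℕ) : EJ →L[ℂ] WB :=
  fderiv ℂ (EE (gam zm 3 n) e) (Res 3 n (B.jS n))

/-- the solution operator, restricted to the overlap -/
def EndBox.G6 {e : En D} (B : EndBox zm e) (n : ℕ) : WB × WD →L[ℂ] EJ := (Res 3 6).comp (B.G n)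

/-- the solution operators `Gi m` on the infinite end -/
structure LimF {e : En D} (B : EndBox zm e) (Gi : ℕ → WB →L[ℂ] EJ) : Prop where
  base : ∀ k m n, k ≤ m → m ≤ n → Res k m (B.jS n) = Res k m (B.jS m)
  real : ∀ n, (B.jS n).cj = B.jS n
  fam : ∀ f, Fam zm e fun m => Gi m f
  eq : ∀ m f, 3 ≤ m → B.dE m (Gi m f) = resW 3 m f
  dir : ∀ m f, 3 ≤ m → End.tr 0 (Gi m f).y2 = 0
  lim : Tendsto (fun n => TT zm n ^ 2 *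
    ‖(B.G6 n).comp (ContinuousLinearMap.inl ℂ _ _) - Gi 6‖) atTop (𝓝 0)
  om : Tendsto (fun n => TT zm n ^ 2 * ‖(B.G6 n).comp (ContinuousLinearMap.inr ℂ _ _)‖)
    atTop (𝓝 0)
  out : ∃ C : ℝ, 0 ≤ C ∧ ∀ n, 3 ≤ n → ∀ f o,
    ‖End.tr 1 (B.G n (f, o)).y2‖ ≤ C * (TT zm n ^ 2 * ‖f‖ + ‖o‖) ∧
    ‖End.tr 1 (B.G n (f, 0)).y‖ ≤ C * TT zm n ^ 2 * ‖f‖ ∧
    End.tr 1 (Gi n f).y2 = End.tr 1 (B.G n (f, piT (gam zm 3 n) e (Gi n f))).y2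

/-- the functions of jets and of families of jets -/
structure YjF (D : EndData w) (zm : ℝ) : Prop where
  jet : ∀ (n : ℕ) (e : En D) (j : EJ) (q : R2), (ctr (gam zm 3 n) e).IsJet j →
    q.1 ∈ Ioo (zm + 3) (TT zm n) →
    ContDiffAt ℝ 2 (Yj zm j) q ∧ jet2 (Yj zm j) q = jev zm (ctr (gam zm 3 n) e) j q
  fin : ∀ (n : ℕ) (j : En D → EJ) (j0 : JJ D zm), 6 ≤ n →
    (∀ e, (ctr (gam zm 3 n) e).IsJet (j e)) → (∀ e, (j0 e).1 = Res 3 6 (j e)) →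
    YF zm j0 (fun e => Yj zm (j e)) (TT zm n)
  loc : ∀ (e : En D) (j : ℕ → EJ) (m : ℕ) (q : R2), Fam zm e j → 3 ≤ m →
    q.1 ∈ Icc (zm + 3) (TT zm m) → Yinf zm j q = Yj zm (j m) q
  inf : ∀ (j : En D → ℕ → EJ) (j0 : JJ D zm) (T : ℝ), zm + 7 ≤ T → (∀ e, Fam zm e (j e)) →
    (∀ e, (j0 e).1 = j e 6) → YF zm j0 (fun e => Yinf zm (j e)) T
  bd : ∀ (e : En D) (j : ℕ → EJ), Fam zm e j → ∃ C : ℝ, ∀ q : R2, zm + 3 < q.1 →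
    ‖jet2 (Yinf zm j) q‖ ≤ C * q.1 ^ 2
  six : ∀ ζ, zm + 3 ≤ ζ → zr zm 3 6 (tt zm ζ) = min ζ (zm + 7)
  clp_tt : ∀ (k n : ℕ) ζ, k ≤ n → ζ ∈ Icc (zm + k) (TT zm n) → clp k n (tt zm ζ) = tt zm ζ

def LimStmt : Prop := ∀ (w : E3 → ℝ) (D : EndData w) (zm : ℝ), 1000 ≤ zm → PathF D zm →
  YjF D zm ∧ ∀ (e : En D) (B : EndBox zm e), ∃ Gi, LimF B Gi

/-- reality of the area, the fluxes as integrals -/
def Lag2 {e : En D} (B : EndBox zm e) (n : ℕ) : Prop := ∃ r > 0,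
  ∀ j ∈ ball (Res 4 n (B.jS n)) r, FE zm n e j.cj = star (FE zm n e j) ∧ ∀ t dy α,
    ∫ θ in (0 : ℝ)..2 * Real.pi,
      (fluxE e (zr zm 4 n t, θ) (fun k => ev (jw (ctr (gam zm 4 n) e) j k) t θ) (ev dy t θ) +
        tqE e (zr zm 4 n t, θ) (fun k => ev (jw (ctr (gam zm 4 n) e) j k) t θ) α) =
      FluxE (gam zm 4 n) e j t dy + TqE (gam zm 4 n) e j t α

def Lag2Stmt : Prop := ∀ (w : E3 → ℝ) (D : EndData w), ∃ z1 : ℝ, ∀ zm, z1 ≤ zm →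
  ∀ (e : En D) (B : EndBox zm e) (n : ℕ), 4 ≤ n → Lag2 B n

variable (D) in
abbrev Cc : Type := Fin D.b → ℂ × ℂ
variable (D) in
abbrev WE : Type := En D → WB

variable {X : Type} [TopologicalSpace X] [ChartedSpace R2 X] [T2Space X] [CompactSpace X]
  [RSm R2 X]

namespace Ctx
variable (C : Ctx G zm X)

/-! ### The operators on the double -/

/-- the base jets -/
def bH (i : Fin C.Z.𝒞.N) : HH C.Z.𝒞 (J2 (WW D)) :=
  mkH _ fun x => C.Z.𝒞.η i x • G.bJ zm (C.Z.P i).φ (C.Z.𝒞.e i x)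
/-- the variable part of the jets -/
def aL (i : Fin C.Z.𝒞.N) : Cc D × (C.U × JJ D zm) →L[ℂ] HH C.Z.𝒞 (J2 (WW D)) :=
  (embH D _).comp ((ContinuousLinearMap.fst ℂ _ _).prod
    ((C.mI i).comp (ContinuousLinearMap.snd ℂ _ _)))
/-- the sum of the Nemytskii operators -/
def SM (F : J2 (WW D) → ℂ) (z : Cc D × (C.U × JJ D zm)) : C.H :=
  ∑ i ∈ C.Z.A, nemH (C.rH i * C.b1) F (C.bH i + C.aL i z)
/-- the jets at a point -/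
def aX (i : Fin C.Z.𝒞.N) (z : Cc D × (C.U × JJ D zm)) (x : X) : J2 (WW D) :=
  G.bJ zm (C.Z.P i).φ (C.Z.𝒞.e i x) + emb z.1 fun k => C.mI i z.2 k x

structure SMF (F : J2 (WW D) → ℂ) (r : ℝ) : Prop where
  hol : DifferentiableOn ℂ (C.SM F) (ball 0 r)
  om : ∀ z ∈ ball (0 : Cc D × (C.U × JJ D zm)) r, ∀ i ∈ C.Z.A, ∀ x,
    C.Z.pou.ρ i x ≠ 0 → C.b1 x ≠ 0 → C.aX i z x ∈ Om D
  val : ∀ z ∈ ball (0 : Cc D × (C.U × JJ D zm)) r, ∀ x,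
    C.SM F z x = ∑ i ∈ C.Z.A, C.Z.pou.ρ i x * C.b1 x * F (C.aX i z x)
  der : ∀ z ∈ ball (0 : Cc D × (C.U × JJ D zm)) r, ∀ h x, fderiv ℂ (C.SM F) z h x =
    ∑ i ∈ C.Z.A, C.Z.pou.ρ i x * C.b1 x *
      fderiv ℂ F (C.aX i z x) (emb h.1 fun k => C.mI i h.2 k x)

/-- the linearised equation on the double -/
def L0 : C.U × JJ D zm →L[ℂ] C.H :=
  (fderiv ℂ (C.SM Mh) 0).comp (ContinuousLinearMap.inr ℂ _ _) + C.rest
/-- the derivative with respect to the rotations -/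
def Dc : Cc D →L[ℂ] C.H := (fderiv ℂ (C.SM Mh) 0).comp (ContinuousLinearMap.inl ℂ _ _)

/-- the linearised operator on jets, with a right hand side -/
def ML (_ : Ctx G zm X) (f : E3 → ℂ) (φ : R2 → E3) (y : R2) (m : J2 ℂ) : ℂ :=
  Lh (G.bJ zm φ y) m - f (φ y)
/-- the nonlinear operator on jets, with a right hand side -/
def MN (_ : Ctx G zm X) (c : Cc D) (f : E3 → ℂ) (φ : R2 → E3) (y : R2) (m : J2 ℂ) : ℂ :=
  Mh (G.bJ zm φ y + emb c m) - kap (G.bJ zm φ y + emb c m) * f (φ y)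

/-- conjugate elements -/
def Cj (z z' : C.U × JJ D zm) : Prop :=
  (∀ x, Uv _ z'.1 x = star (Uv _ z.1 x)) ∧ ∀ e, (z'.2 e).1 = (z.2 e).1.cj

/-- facts about the operators on the double -/
structure OpS : Prop where
  sm : ∀ F, DifferentiableOn ℂ F (Om D) → ∃ r > 0, C.SMF F r
  L0_eq : ∀ z x, C.L0 z x = ∑ i ∈ C.Z.A, C.Z.pou.ρ i x * C.b1 x *
    Lh (G.bJ zm (C.Z.P i).φ (C.Z.𝒞.e i x)) (fun k => C.mI i z k x) + C.rest z x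
  ell : ∃ (𝓛 : C.U ≃L[ℂ] C.H) (K : C.U × JJ D zm →L[ℂ] C.H), IsCompactOperator K ∧
    ∀ z, C.L0 z = 𝓛 z.1 + K z
  opL : ∀ f, OpF w (C.ML f) fun u p => G.LG zm u p - f p
  opN : ∀ c f, OpF w (C.MN c f) fun u p => Mh (G.aG zm c u p) - kap (G.aG zm c u p) * f p
  sum_b1 : ∀ x, ∑ i ∈ C.Z.A, C.Z.pou.ρ i x * C.b1 x = C.b1 x
  pt_eq : ∀ i ∈ C.Z.A, ∀ x, C.Z.pou.ρ i x ≠ 0 → C.Z.𝒞.e i x ∈ (C.Z.P i).O ∧
    (C.Z.P i).φ (C.Z.𝒞.e i x) = C.Z.pr x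
  T1_mI : ∀ j Yf T v, YF zm j Yf T → ∀ i ∈ C.Z.A, ∀ x, C.Z.pou.ρ i x ≠ 0 →
    G.σ (C.Z.pr x) < zm + 6 → T1 (fun k => C.mI i (v, j) k x) =
      T1 (jet2 (fun z => C.tot v Yf ((C.Z.P i).φ z)) (C.Z.𝒞.e i x))
  cj_mI : ∀ z z', C.Cj z z' → ∀ i x,
    (fun k => C.mI i z' k x) = star fun k => C.mI i z k x
  cj_rest : ∀ z z', C.Cj z z' → ∀ x, C.rest z' x = star (C.rest z x)

/-- the maximum principle for the difference of the two parts -/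
def DMaxS : Prop := ∀ (v : C.U) (j : JJ D zm) (Yf : En D → R2 → ℂ) (T : ℝ), YF zm j Yf T →
  (∀ e, Res 3 6 (j e).1 = (j e).1 ∧ End.tr 0 (j e).1.y2 = 0) → C.CE (C.ML 0) (v, j) →
  C.EQ (C.ML 0) v Yf T → (∀ p, w p = 0 → G.σ p < T → C.tot v Yf p = 0) → v = 0 ∧ j = 0

/-! ### The operators on the ends -/

/-- the jets of the end on the overlap -/
def wS (e : En D) : J2 WB := jw (ctr (gam zm 3 6) e) (Res 3 6 ((C.B e).jS 6))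
/-- the jets of `1 - cut zm 3` -/
def jχ (_ : Ctx G zm X) : J2 WB :=
  fun k => W.C (mkB fun t => (j1 - jz (cut zm 3) (zr zm 3 6 t)) k)
def jw0 (e : En D) : C.U × JJ D zm →L[ℂ] J2 WB :=
  (jwL (ctr (gam zm 3 6) e)).comp ((JS (ctr (gam zm 3 6) e)).subtypeL.comp
    ((ContinuousLinearMap.proj e).comp (ContinuousLinearMap.snd ℂ _ _)))
def Dd (e : En D) : C.U × JJ D zm →L[ℂ] J2 WB := (T1L _).comp
  ((G.s e : ℂ) • (C.TE e).comp (ContinuousLinearMap.fst ℂ _ _) - C.jw0 e)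
/-- the right hand side of the equation on the ends -/
def Gam (z : C.U × JJ D zm) (e : En D) : WB :=
  EW (gam zm 3 6) e (C.wS e + C.jw0 e z) -
    EW (gam zm 3 6) e (C.wS e + C.jw0 e z + jmul C.jχ (C.Dd e z)) -
    FW (gam zm 3 6) e (C.wS e) * C.jχ 0 * C.Dd e z 0
/-- its derivative -/
def GamL : C.U × JJ D zm →L[ℂ] WE D := ContinuousLinearMap.pi fun e =>
  -(fderiv ℂ (EW (gam zm 3 6) e) (C.wS e)).comp ((jmulL C.jχ).comp (C.Dd e)) -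
    (mulW (FW (gam zm 3 6) e (C.wS e) * C.jχ 0)).comp
      ((ContinuousLinearMap.proj 0).comp (C.Dd e))

/-- `F` represents `f` on the ends up to `T` -/
def Rep (_ : Ctx G zm X) (f : E3 → ℂ) (F : WE D) (T : ℝ) : Prop := ∀ (e : En D) (q : R2),
  q.1 ∈ Ioo (zm + 3) T → ev (F e) (tt zm q.1) q.2 = G.s e * FP e q (jy e q) * f (pt e q)

/-- facts about the operators on the ends -/
structure GamS : Prop where
  hol : Differentiable ℂ C.Gam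
  zero : C.Gam 0 = 0
  der : HasFDerivAt C.Gam C.GamL 0
  cpt : IsCompactOperator C.GamL
  cj : ∀ z z', C.Cj z z' → ∀ e, C.Gam z' e = W.cj (C.Gam z e)
  nl : ∀ (n : ℕ) (j : En D → EJ) (v : C.U) (j0 : JJ D zm) (c : Cc D) (f : E3 → ℂ), 6 ≤ n →
    (∀ e, (ctr (gam zm 3 n) e).IsJet (j e)) → (∀ e, (j0 e).1 = Res 3 6 (j e)) →
    (∀ p, w p = 0 → zm + 3 ≤ G.σ p → f p = 0) →
    (∀ e, EE (gam zm 3 n) e (Res 3 n ((C.B e).jS n) + j e) = C.Gam (v, j0) e) →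
    C.EQ (C.MN c f) v (fun e => Yj zm (j e)) (TT zm n) ∧
      ∀ e, EE (gam zm 4 n) e (Res 4 n ((C.B e).jS n + j e)) = 0
  lin : ∀ (n : ℕ) (j : En D → EJ) (v : C.U) (j0 : JJ D zm) (f : E3 → ℂ) (F : WE D), 6 ≤ n →
    (∀ e, (ctr (gam zm 3 n) e).IsJet (j e)) → (∀ e, (j0 e).1 = Res 3 6 (j e)) →
    C.Rep f F (TT zm n) → (∀ e, (C.B e).dE n (j e) = resW 3 n (C.GamL (v, j0) e + F e)) →
    C.EQ (C.ML f) v (fun e => Yj zm (j e)) (TT zm n)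

/-- full jets of polynomial growth -/
def Mod2 (_ : Ctx G zm X) (u : E3 → ℂ) : Prop := ∃ B : ℝ, ∀ (e : En D) (q : R2), G.z0 + 1 ≤ q.1 →
  ‖jet2 (fun z => u (pt e z)) q‖ ≤ B * q.1 ^ 2

/-- solutions of the linear system on the infinite ends -/
def LinS : Prop := ∀ (j : En D → ℕ → EJ) (v : C.U) (j0 : JJ D zm) (f : E3 → ℂ) (F : WE D),
  (∀ e, Fam zm e (j e)) → (∀ e, (j0 e).1 = j e 6) → (∀ T, C.Rep f F T) →
  (∀ x, C.L0 (v, j0) x = C.b1 x * f (C.Z.pr x)) →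
  (∀ e m, 6 ≤ m → (C.B e).dE m (j e m) = resW 3 m (C.GamL (v, j0) e + F e)) →
  C2S w (C.tot v fun e => Yinf zm (j e)) ∧ C.Mod2 (C.tot v fun e => Yinf zm (j e)) ∧
    G.Mod (C.tot v fun e => Yinf zm (j e)) ∧ C.CE (C.ML f) (v, j0) ∧
    (∀ T, C.EQ (C.ML f) v (fun e => Yinf zm (j e)) T) ∧
    ∀ p, w p = 0 → G.LG zm (C.tot v fun e => Yinf zm (j e)) p = f p

/-- the unknowns of the linear system -/
abbrev EE3 (J : Type) : Type := C.U × WE D × (J → ℂ)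

/-- the combination of the functions `ψ` on the double -/
def sH {J : Type} [Fintype J] (ψh : J → C.H) : (J → ℂ) →L[ℂ] C.H :=
  ∑ k, (ContinuousLinearMap.proj k).smulRight (ψh k)

/-- `(v, g, λ) ↦ (v, Θ g)` -/
def zT {J : Type} (Θ : WE D →L[ℂ] JJ D zm) : C.EE3 J →L[ℂ] C.U × JJ D zm :=
  (ContinuousLinearMap.fst ℂ _ _).prod
    (Θ.comp ((ContinuousLinearMap.fst ℂ _ _).comp (ContinuousLinearMap.snd ℂ _ _)))

/-- the linear system -/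
def Sys {J : Type} [Fintype J] (𝓛 : C.U ≃L[ℂ] C.H) (ψh : J → C.H) (l : J → C.U →L[ℂ] ℂ)
    (Θ : WE D →L[ℂ] JJ D zm) : C.EE3 J →L[ℂ] C.EE3 J :=
  ((𝓛.symm : C.H →L[ℂ] C.U).comp (C.L0.comp (C.zT Θ) - (C.sH ψh).comp
    ((ContinuousLinearMap.snd ℂ _ _).comp (ContinuousLinearMap.snd ℂ _ _)))).prod
  (((ContinuousLinearMap.fst ℂ _ _).comp (ContinuousLinearMap.snd ℂ _ _) -
    C.GamL.comp (C.zT Θ)).prod
  ((ContinuousLinearMap.pi l).comp (ContinuousLinearMap.fst ℂ _ _)))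

theorem Sys_apply {J : Type} [Fintype J] (𝓛 : C.U ≃L[ℂ] C.H) (ψh : J → C.H)
    (l : J → C.U →L[ℂ] ℂ) (Θ : WE D →L[ℂ] JJ D zm) (a : C.EE3 J) : C.Sys 𝓛 ψh l Θ a =
    (𝓛.symm (C.L0 (a.1, Θ a.2.1) - C.sH ψh a.2.2), a.2.1 - C.GamL (a.1, Θ a.2.1),
      fun k => l k a.1) := rfl

theorem sH_apply {J : Type} [Fintype J] (ψh : J → C.H) (l : J → ℂ) (x : X) :
    C.sH ψh l x = ∑ k, l k * ψh k x := by
  simp only [sH, sum_apply, Hol.sum_apply]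
  rfl

/-- the solution operator on the overlap at the level `n` -/
def Th (n : ℕ) (hn : 6 ≤ n) : WE D × (En D → WD) →L[ℂ] JJ D zm := ContinuousLinearMap.pi fun e =>
  (((C.B e).G6 n).codRestrict (JS (ctr (gam zm 3 6) e)) fun x =>
    C.pf.jet_res 3 3 6 n e _ le_rfl (by norm_num) hn ((C.B e).Gjet n x (by omega))).comp
    (((ContinuousLinearMap.proj e).comp (ContinuousLinearMap.fst ℂ _ _)).prod
      ((ContinuousLinearMap.proj e).comp (ContinuousLinearMap.snd ℂ _ _)))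

theorem Th_apply (n : ℕ) (hn : 6 ≤ n) (x : WE D × (En D → WD)) (e : En D) :
    (C.Th n hn x e).1 = Res 3 6 ((C.B e).G n (x.1 e, x.2 e)) := rfl

end Ctx

/-- all ingredients, second part -/
structure Ctx2 (G : Geo D) (zm : ℝ) (X : Type) [TopologicalSpace X] [ChartedSpace R2 X]
    extends Ctx G zm X where
  cy : ∀ b, CylBox zm b (B (.inr b))
  Gi : En D → ℕ → WB →L[ℂ] EJ
  big : 1000 ≤ zm
  lf : ∀ e, LimF (B e) (Gi e)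
  yf : YjF D zm
  mx : ∀ u : E3 → ℂ, C2S w u → G.Mod u → (∀ p, w p = 0 → zm ≤ G.σ p → G.LG zm u p = 0) →
    (∀ p, w p = 0 → G.σ p ≤ zm + 1 / 3 → u p = 0) → ∀ p, w p = 0 → u p = 0
  rot : ∀ c, C2S w (G.rotN zm c) ∧ G.Mod (G.rotN zm c) ∧ ∀ (P : Patch (SS w)), ∀ y ∈ P.O,
    fderiv ℂ Mh (G.bJ zm P.φ y) (emb c 0) = G.LG zm (G.rotN zm c) (P.φ y)
  lag : ∀ (e : En D) (n : ℕ), 4 ≤ n → ∃ r > 0,
    DifferentiableOn ℂ (FE zm n e) (ball (Res 4 n ((B e).jS n)) r) ∧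
    ∀ j ∈ ball (Res 4 n ((B e).jS n)) r, (ctr (gam zm 4 n) e).IsJet j →
      EE (gam zm 4 n) e j = 0 →
      (∀ t α, TqE (gam zm 4 n) e j t α = TqE (gam zm 4 n) e j 1 α) ∧
      ∀ v, (ctr (gam zm 4 n) e).IsJet v → fderiv ℂ (FE zm n e) j v =
        FluxE (gam zm 4 n) e j 1 v.y - ∫ t in (0 : ℝ)..1,
          (deriv (cut zm 4) (zr zm 4 n t) * gr 4 n t : ℝ) * FluxE (gam zm 4 n) e j t v.y
  lag2 : ∀ (e : En D) (n : ℕ), 4 ≤ n → Lag2 (B e) n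

namespace Ctx2
variable (C : Ctx2 G zm X)

/-- the solution operator on the overlap for the infinite ends -/
def Ti : WE D →L[ℂ] JJ D zm := ContinuousLinearMap.pi fun e =>
  ((C.Gi e 6).codRestrict (JS (ctr (gam zm 3 6) e)) fun x =>
    ((C.lf e).fam x).jet 6 (by norm_num)).comp (ContinuousLinearMap.proj e)

theorem Ti_apply (g : WE D) (e : En D) : (C.Ti g e).1 = C.Gi e 6 (g e) := rfl

/-- the total function on the infinite surface -/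
def ti (v : C.U) (g : WE D) : E3 → ℂ := C.tot v fun e => Yinf zm fun m => C.Gi e m (g e)

/-- the cut off slow solutions -/
structure PhiF (Φ : Fin D.b → E3 → ℂ) (gb : Fin D.b → ℝ) : Prop where
  c2 : ∀ b, C2S w (Φ b)
  md : ∀ b, G.Mod (Φ b)
  lo : ∀ b p, w p = 0 → G.σ p ≤ zm + 1 → Φ b p = 0
  spt : ∀ b p, w p = 0 → G.σ p ∉ Ioo (zm + 1) (zm + 2) → G.LG zm (Φ b) p = 0
  real : ∀ b p, w p = 0 → (G.LG zm (Φ b) p).im = 0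
  c1 : ∀ b, CkFn R2 1 (C.Z.upF (G.LG zm (Φ b)))
  ip : ∀ b' b, G.ip (Φ b') (G.LG zm (Φ b)) = if b' = b then (gb b : ℂ) else 0
  ne : ∀ b, gb b ≠ 0
  val : ∀ b (e : En D) n (q : R2), q.1 ∈ Icc (zm + 2) (TT zm n) →
    Φ b (pt e q) = if e = .inr b then G.s e * Yj zm ((C.cy b).ph n) q else 0

def PhiS : Prop := ∃ Φ gb, C.PhiF Φ gb

/-- the functions `ψ` -/
structure PsiD (Φ : Fin D.b → E3 → ℂ) (gb : Fin D.b → ℝ) {N : ℕ} (ψ : Fin N ⊕ Fin D.b → E3 → ℝ)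
    (ψh : Fin N ⊕ Fin D.b → C.H) (l : Fin N ⊕ Fin D.b → C.U →L[ℂ] ℂ) : Prop where
  cont : ∀ k, Continuous (ψ k)
  cpt : ∀ k, HasCompactSupport (ψ k)
  spt : ∀ k p, w p = 0 → zm + 2 ≤ G.σ p → ψ k p = 0
  indep : ∀ μ : Fin N ⊕ Fin D.b → ℝ, (∀ p, w p = 0 → ∑ k, μ k * ψ k p = 0) → μ = 0
  up : ∀ k x, ψh k x = C.Z.upF (cF (ψ k)) x
  l_eq : ∀ k v, l k v = G.ip (C.dv v) (cF (ψ k))
  l_tot : ∀ k v Yf, G.ip (C.tot v Yf) (cF (ψ k)) = l k v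
  ident : ∀ v g lm c, C.L0 (v, C.Ti g) + C.Dc c = C.sH ψh lm → g = C.GamL (v, C.Ti g) →
    (∀ k, l (.inl k) v = 0) → (∀ k, lm (.inl k) = 0) ∧ (∀ b, l (.inr b) v = gb b * lm (.inr b)) ∧
      ∀ p, w p = 0 → C.ti v g p = ∑ b, lm (.inr b) * Φ b p - G.rotN zm c p

/-- the facts about the operators -/
structure Facts : Prop where
  op : C.OpS
  dmax : C.DMaxS
  gam : C.GamS
  lin : C.LinS

def KerS : Prop := C.Facts → ∀ Φ gb, C.PhiF Φ gb → ∃ (N : ℕ) (ψ : Fin N ⊕ Fin D.b → E3 → ℝ)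
  (ψh : Fin N ⊕ Fin D.b → C.H) (l : Fin N ⊕ Fin D.b → C.U →L[ℂ] ℂ), C.PsiD Φ gb ψ ψh l

/-- `𝓛` is the principal part of `L0` -/
def IsL (𝓛 : C.U ≃L[ℂ] C.H) : Prop := ∃ K : C.U × JJ D zm →L[ℂ] C.H, IsCompactOperator K ∧
  ∀ z, C.L0 z = 𝓛 z.1 + K z

/-- the limit system is invertible -/
def InvS : Prop := C.Facts → ∀ Φ gb (N : ℕ) (ψ : Fin N ⊕ Fin D.b → E3 → ℝ) ψh l 𝓛,
  C.PhiF Φ gb → C.PsiD Φ gb ψ ψh l → C.IsL 𝓛 →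
  ∃ L : C.EE3 (Fin N ⊕ Fin D.b) ≃L[ℂ] C.EE3 (Fin N ⊕ Fin D.b),
    (L : C.EE3 (Fin N ⊕ Fin D.b) →L[ℂ] _) = C.Sys 𝓛 ψh l C.Ti

/-- solvability of the linear problem -/
def SolvS : Prop := C.Facts → ∀ Φ gb (N : ℕ) (ψ : Fin N ⊕ Fin D.b → E3 → ℝ) ψh l 𝓛,
  C.PsiD Φ gb ψ ψh l → Function.Surjective (C.Sys 𝓛 ψh l C.Ti) → PsiF G zm ψ

/-- the right hand side of the system for the derivative in the direction `d` -/
def rhs {J : Type} (𝓛 : C.U ≃L[ℂ] C.H) (n : ℕ) (hn : 6 ≤ n) (d : Par D J) : C.EE3 J :=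
  (-𝓛.symm (C.Dc d.2.1 + C.L0 (0, C.Th n hn (0, d.2.2))), C.GamL (0, C.Th n hn (0, d.2.2)), d.1)

/-- the asymptotics of the derivative -/
def OutS : Prop := C.Facts → ∀ Φ gb (N : ℕ) (ψ : Fin N ⊕ Fin D.b → E3 → ℝ) ψh l 𝓛,
  C.PhiF Φ gb → C.PsiD Φ gb ψ ψh l →
  ∀ L : C.EE3 (Fin N ⊕ Fin D.b) ≃L[ℂ] C.EE3 (Fin N ⊕ Fin D.b),
    (L : C.EE3 (Fin N ⊕ Fin D.b) →L[ℂ] _) = C.Sys 𝓛 ψh l C.Ti →
  ∃ (C0 : ℝ) (g ρ : Fin D.b → ℝ), (∀ b, g b ≠ 0 ∧ ρ b ≠ 0) ∧ ∀ ε > 0, ∀ᶠ n in atTop,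
    ∃ (hn : 6 ≤ n) (L' : C.EE3 (Fin N ⊕ Fin D.b) ≃L[ℂ] C.EE3 (Fin N ⊕ Fin D.b)),
      (L' : C.EE3 (Fin N ⊕ Fin D.b) →L[ℂ] _) =
        C.Sys 𝓛 ψh l ((C.Th n hn).comp (ContinuousLinearMap.inl ℂ _ _)) ∧
      OutF zm n C0 ε g ρ fun d e =>
        Res 4 n ((C.B e).G n ((L'.symm (C.rhs 𝓛 n hn d)).2.1 e, d.2.2 e))

/-- the solution of the nonlinear system at the level `n` -/
structure NL {J : Type} [Fintype J] (ψh : J → C.H) (l : J → C.U →L[ℂ] ℂ) (n : ℕ) (r B r0 : ℝ)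
    (z : Par D J → C.U × JJ D zm) (j : Par D J → En D → EJ) (lm : Par D J → J → ℂ) : Prop where
  six : 6 ≤ n
  r_pos : 0 < r
  B_pos : 0 < B
  zhol : DifferentiableOn ℂ z (ball 0 r)
  jhol : DifferentiableOn ℂ j (ball 0 r)
  lhol : DifferentiableOn ℂ lm (ball 0 r)
  bd : ∀ x ∈ ball (0 : Par D J) r, ‖z x‖ ≤ B * ‖x‖ ∧ ‖j x‖ ≤ B * ‖x‖ ∧ ‖lm x‖ ≤ B * ‖x‖ ∧
    ‖fderiv ℂ z x‖ ≤ B
  small : ∀ x ∈ ball (0 : Par D J) r, ‖(x.2.1, z x)‖ < r0 ∧ ‖j x‖ < r0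
  jet : ∀ x ∈ ball (0 : Par D J) r, ∀ e, (ctr (gam zm 3 n) e).IsJet (j x e)
  res : ∀ x ∈ ball (0 : Par D J) r, ∀ e, ((z x).2 e).1 = Res 3 6 (j x e)
  eq1 : ∀ x ∈ ball (0 : Par D J) r, C.SM Mh (x.2.1, z x) + C.rest (z x) =
    C.SM kap (x.2.1, z x) * C.sH ψh (lm x)
  eq2 : ∀ x ∈ ball (0 : Par D J) r, ∀ e,
    EE (gam zm 3 n) e (Res 3 n ((C.B e).jS n) + j x e) = C.Gam (z x) e
  pi : ∀ x ∈ ball (0 : Par D J) r, ∀ e, piT (gam zm 3 n) e (j x e) = x.2.2 e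
  ell : ∀ x ∈ ball (0 : Par D J) r, ∀ k, l k (z x).1 = x.1 k
  cj : ∀ x ∈ ball (0 : Par D J) r, C.Cj (z x) (z (cjP x)) ∧ (∀ e, j (cjP x) e = (j x e).cj) ∧
    lm (cjP x) = star (lm x)

/-- the implicit function theorem -/
def IftS : Prop := C.Facts → ∀ Φ gb (N : ℕ) (ψ : Fin N ⊕ Fin D.b → E3 → ℝ) ψh l 𝓛,
  C.PsiD Φ gb ψ ψh l → ∀ (n : ℕ) (hn : 6 ≤ n)
    (L' : C.EE3 (Fin N ⊕ Fin D.b) ≃L[ℂ] C.EE3 (Fin N ⊕ Fin D.b)),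
    (L' : C.EE3 (Fin N ⊕ Fin D.b) →L[ℂ] _) =
      C.Sys 𝓛 ψh l ((C.Th n hn).comp (ContinuousLinearMap.inl ℂ _ _)) → ∀ r0 > 0,
    ∃ r B z j lm, C.NL ψh l n r B r0 z j lm ∧ ∀ d e,
      fderiv ℂ j 0 d e = (C.B e).G n ((L'.symm (C.rhs 𝓛 n hn d)).2.1 e, d.2.2 e)

/-- the normal graph -/
def uN {J : Type} (z : Par D J → C.U × JJ D zm) (j : Par D J → En D → EJ) (x : Par D J) :
    E3 → ℂ := C.tot (z x).1 fun e => Yj zm (j x e)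
/-- the jets on the ends -/
def jN {J : Type} (n : ℕ) (j : Par D J → En D → EJ) (x : Par D J) (e : En D) : EJ :=
  Res 4 n ((C.B e).jS n + j x e)
/-- the Gaussian area -/
def FN {J : Type} (n : ℕ) (z : Par D J → C.U × JJ D zm) (j : Par D J → En D → EJ)
    (x : Par D J) : ℂ := (∫ p, (1 - cut zm 4 (G.σ p) : ℝ) *
      lam (G.aG zm x.2.1 (C.uN z j x) p) ∂(muS w)) + ∑ e, FE zm n e (C.jN n j x e)

/-- the equation on the surface -/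
structure EqF {J : Type} [Fintype J] (ψ : J → E3 → ℝ) (n : ℕ) (r : ℝ)
    (z : Par D J → C.U × JJ D zm) (j : Par D J → En D → EJ) (lm : Par D J → J → ℂ) : Prop where
  sol : ∀ x ∈ ball (0 : Par D J) r, ∀ e, EE (gam zm 4 n) e (C.jN n j x e) = 0
  eq : ∀ x ∈ ball (0 : Par D J) r, ∀ p, w p = 0 → G.σ p < TT zm n →
    Mh (G.aG zm x.2.1 (C.uN z j x) p) = kap (G.aG zm x.2.1 (C.uN z j x) p) * sumP ψ (lm x) p
  om : ∀ x ∈ ball (0 : Par D J) r, ∀ p, w p = 0 → G.σ p < zm + 5 + 1 / 3 →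
    G.aG zm x.2.1 (C.uN z j x) p ∈ Om D

def EqS : Prop := C.Facts → ∀ Φ gb (N : ℕ) (ψ : Fin N ⊕ Fin D.b → E3 → ℝ) ψh l,
  C.PsiD Φ gb ψ ψh l → ∀ n r B r0 z j lm, C.SMF Mh r0 → C.SMF kap r0 →
    C.NL ψh l n r B r0 z j lm → C.EqF ψ n r z j lm

/-- the first variation -/
def FVS : Prop := C.Facts → ∀ Φ gb (N : ℕ) (ψ : Fin N ⊕ Fin D.b → E3 → ℝ) ψh l,
  C.PsiD Φ gb ψ ψh l → ∀ n, ∃ r1 > 0, ∀ r B r0 z j lm, r0 ≤ r1 →
    C.NL ψh l n r B r0 z j lm → C.EqF ψ n r z j lm →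
    DifferentiableOn ℂ (C.FN n z j) (ball 0 r) ∧ ∀ x ∈ ball (0 : Par D (Fin N ⊕ Fin D.b)) r,
      C.FN n z j (cjP x) = star (C.FN n z j x) ∧ ∀ d,
      fderiv ℂ (C.FN n z j) x d = -∑ k, lm x k * d.1 k +
        ∑ e, (FluxE (gam zm 4 n) e (C.jN n j x e) 1 (fderiv ℂ (C.jN n j) x d e).y +
          TqE (gam zm 4 n) e (C.jN n j x e) 1 fun b => al (x.2.1 b) (d.2.1 b))

/-- the charts -/
def ChartS : Prop := C.Facts → ∃ (M : ℕ) (P : Fin M → Patch (SS w)) (O : Fin M → Set R2)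
  (r1 K : ℝ), 0 < r1 ∧ 0 < K ∧ Charts G zm P O ∧
  (∀ k, ∀ y ∈ O k, ∃ A : C.U × JJ D zm →L[ℂ] J2 ℂ, ‖A‖ ≤ K ∧ ∀ v j Yf T, YF zm j Yf T →
    jet2 (fun q => C.tot v Yf ((P k).φ q)) y = A (v, j)) ∧
  ∀ k, ∀ y ∈ O k, ∀ (c : Cc D) (m : J2 ℂ), ‖c‖ ≤ r1 → ‖m‖ ≤ r1 →
    ‖kap (G.bJ zm (P k).φ y + emb c m) - 1‖ ≤ K * (‖T1 m‖ + ‖c‖)

/-- the constraints determine the derivative -/
def DinjS : Prop := ∀ Φ gb (N : ℕ) (ψ : Fin N ⊕ Fin D.b → E3 → ℝ) ψh l,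
  C.PsiD Φ gb ψ ψh l → ∀ n r B r0 z j lm, C.NL ψh l n r B r0 z j lm →
  ∀ xs ds : ℕ → Par D (Fin N ⊕ Fin D.b), (∀ m, ‖xs m‖ < r) → (∃ B, ∀ m, ‖ds m‖ ≤ B) →
    (∀ p, w p = 0 → G.σ p ≤ zm + 2 →
      Tendsto (fun m => (fderiv ℂ (fun x => C.uN z j x p) (xs m) (ds m)).re) atTop (𝓝 0)) →
    ∀ k, Tendsto (fun m => ((ds m).1 k).re) atTop (𝓝 0)

end Ctx2

end Vale.Agent.P218N.Core
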