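import Mathlib.Analysis.Complex.Schwarz
import Vale.Agent.P218N.Core.Sys

/-! The charts of the core; the constraints determine the derivative. -/

open Set Filter Topology Metric MeasureTheory
open scoped RealInnerProductSpace ContDiff Matrix NNReal

noncomputable section

namespace Vale.Agent.P218N.Core

open Vale.Agent.P218.H313 Vale.Agent.P218N.H Vale.Agent.P218N.End Vale.Agent.P272.K.LIN

set_option linter.unusedSectionVars false

variable {w : E3 → ℝ} {D : EndData w} {G : Geo D} {zm : ℝ}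

namespace ChartP

theorem norm_T1_le (m : J2 ℂ) : ‖T1 m‖ ≤ ‖m‖ := by
  refine (pi_norm_le_iff_of_nonneg (norm_nonneg _)).2 fun k => ?_
  fin_cases k <;> first | exact norm_le_pi_norm m _ | simp [T1]

theorem norm_jmul_le (a b : J2 ℂ) : ‖jmul a b‖ ≤ 4 * (‖a‖ * ‖b‖) := by
  have h : ∀ k l, ‖a k * b l‖ ≤ ‖a‖ * ‖b‖ := fun k l => by
    rw [norm_mul]
    exact mul_le_mul (norm_le_pi_norm a k) (norm_le_pi_norm b l) (norm_nonneg _) (norm_nonneg _)
  have h0 : 0 ≤ ‖a‖ * ‖b‖ := by positivity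
  have h2 : ∀ k l, ‖2 * (a k * b l)‖ ≤ 2 * (‖a‖ * ‖b‖) := fun k l => by
    rw [norm_mul, Complex.norm_two]; linarith [h k l]
  refine (pi_norm_le_iff_of_nonneg (by positivity)).2 fun k => ?_
  fin_cases k
  · exact (h 0 0).trans (by linarith)
  · exact (norm_add_le _ _).trans (by linarith [h 1 0, h 0 1])
  · exact (norm_add_le _ _).trans (by linarith [h 2 0, h 0 2])
  · exact norm_add₃_le.trans (by linarith [h 3 0, h2 1 1, h 0 3])
  · exact (norm_add_le _ _).trans (by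
      linarith [h 4 0, h 1 2, h 2 1, h 0 4, norm_add₃_le (a := a 4 * b 0) (b := a 1 * b 2)
        (c := a 2 * b 1)])
  · exact norm_add₃_le.trans (by linarith [h 5 0, h2 2 2, h 0 5])

theorem jz_bd (zm : ℝ) : ∃ K : ℝ, 0 ≤ K ∧ ∀ ζ ∈ Icc (zm + 3) (zm + 5), ‖jz (cut zm 3) ζ‖ ≤ K := by
  have hc : Continuous fun ζ => jz (cut zm 3) ζ :=
    continuous_pi fun k => (contDiff_jz (contDiff_cut zm 3) k).continuous
  obtain ⟨K, hK⟩ := isCompact_Icc.exists_bound_of_continuousOn (s := Icc (zm + 3) (zm + 5))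
    hc.continuousOn
  exact ⟨max K 0, le_max_right _ _, fun ζ h => (hK ζ h).trans (le_max_left _ _)⟩

/-- a holomorphic function is Lipschitz at the points of a compact set -/
theorem lip {E : Type} [NormedAddCommGroup E] [NormedSpace ℂ E] [ProperSpace E] {f : E → ℂ}
    {O K : Set E} (hO : IsOpen O) (hf : DifferentiableOn ℂ f O) (hK : IsCompact K) (hs : K ⊆ O) :
    ∃ δ > 0, ∃ L : ℝ, 0 ≤ L ∧ ∀ b ∈ K, ∀ a, ‖a‖ < δ → ‖f (b + a) - f b‖ ≤ L * ‖a‖ := by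
  obtain ⟨δ, hδ, hsub⟩ := hK.exists_cthickening_subset_open hO hs
  obtain ⟨B, hB⟩ := (hK.cthickening (r := δ)).exists_bound_of_continuousOn
    (hf.continuousOn.mono hsub)
  refine ⟨δ, hδ, 2 * max B 0 / δ, by positivity, fun b hb a ha => ?_⟩
  have h1 : ball b δ ⊆ cthickening δ K := ball_subset_closedBall.trans
    (closedBall_subset_cthickening hb δ)
  have := Complex.dist_le_div_mul_dist_of_mapsTo_ball (f := f) (c := b) (z := b + a)
    (R₂ := 2 * max B 0) (hf.mono (h1.trans hsub)) (fun z hz => by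
      rw [mem_closedBall, dist_eq_norm]
      linarith [norm_sub_le (f z) (f b), hB z (h1 hz), hB b (h1 (mem_ball_self hδ)),
        le_max_left B 0]) (by simpa using ha)
  simpa [dist_eq_norm] using this

variable {X : Type} [TopologicalSpace X] [ChartedSpace R2 X] [T2Space X] [CompactSpace X]
  [RSm R2 X] (C : Ctx G zm X)

/-- the pieces of the patches -/
def OO (i : Fin C.Z.𝒞.N) : Set R2 := (C.Z.𝒞.e i).target ∩ (C.Z.𝒞.e i).symm ⁻¹'
  {x | i ∈ C.Z.A ∧ C.Z.pou.ρ i x ≠ 0 ∧ G.σ (C.Z.pr x) < zm + 5}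

theorem OO_ex {i : Fin C.Z.𝒞.N} {y : R2} (hy : y ∈ OO C i) : ∃ x, y = C.Z.𝒞.e i x ∧ i ∈ C.Z.A ∧
    C.Z.pou.ρ i x ≠ 0 ∧ G.σ (C.Z.pr x) < zm + 5 :=
  ⟨_, ((C.Z.𝒞.e i).right_inv hy.1).symm, hy.2⟩

theorem ball_sub {i : Fin C.Z.𝒞.N} (hi : i ∈ C.Z.A) :
    closedBall (C.Z.𝒞.c i) (3 / 2 * C.Z.𝒞.r i) ⊆ (C.Z.P i).O := by
  intro y hy
  have h1 := C.Z.𝒞.sub i (closedBall_subset_closedBall (by linarith [C.Z.𝒞.r_pos i]) hy)
  have := (C.tf.chart i hi _ ((C.Z.𝒞.e i).map_target h1)).1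
  rwa [(C.Z.𝒞.e i).right_inv h1] at this

theorem charts : Charts G zm C.Z.P (OO C) where
  op i := by
    refine (C.Z.𝒞.e i).isOpen_inter_preimage_symm (isOpen_const.inter (IsOpen.inter ?_ ?_))
    · exact isOpen_ne_fun (ckFn_continuous (C.Z.pou.sm i)) continuous_const
    · exact isOpen_lt (G.σ_sm.continuous.comp (ckFn_continuous C.Z.pr_sm)) continuous_const
  rel i := by
    by_cases hi : i ∈ C.Z.A
    · refine ⟨_, isCompact_closedBall _ _, fun y hy => ?_, ball_sub C hi⟩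
      obtain ⟨x, rfl, -, h, -⟩ := OO_ex C hy
      exact (C.Z.pou.spt i x h).2
    · exact ⟨∅, isCompact_empty, fun y hy => hi hy.2.1, empty_subset _⟩
  lt i y hy := by
    obtain ⟨x, rfl, hi, h, h5⟩ := OO_ex C hy
    rwa [(C.tf.chart i hi x (C.Z.pou.spt i x h).1).2.1]
  cover p hp h5 := by
    obtain ⟨x, rfl, hx⟩ := C.tf.ex p hp (by linarith)
    obtain ⟨i, -, hρ⟩ := Finset.exists_ne_zero_of_sum_ne_zero
      ((C.Z.pou.sum x).trans_ne one_ne_zero)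
    have hi := C.act hρ hx (by linarith)
    have hs := (C.Z.pou.spt i x hρ).1
    refine ⟨i, C.Z.𝒞.e i x, ⟨(C.Z.𝒞.e i).map_source hs, ?_⟩, (C.tf.chart i hi x hs).2.1⟩
    rw [mem_preimage, (C.Z.𝒞.e i).left_inv hs]
    exact ⟨hi, hρ, h5⟩

/-- the jet at a point -/
def aU (i : Fin C.Z.𝒞.N) (x : X) : C.U × JJ D zm →L[ℂ] J2 ℂ :=
  (ContinuousLinearMap.pi fun k => (evC ℂ x).comp (Uj C.Z.𝒞 i k)).comp
    (ContinuousLinearMap.fst ℂ _ _)

theorem aU_le (i : Fin C.Z.𝒞.N) (x : X) (z : C.U × JJ D zm) :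
    ‖aU C i x z‖ ≤ (∑ i, ‖C.UJ i‖) * ‖z‖ := by
  have h0 : ‖C.UJ i‖ ≤ ∑ i, ‖C.UJ i‖ :=
    Finset.single_le_sum (f := fun i => ‖C.UJ i‖) (fun i _ => (C.UJ i).opNorm_nonneg)
      (Finset.mem_univ i)
  have h1 : 0 ≤ ∑ i, ‖C.UJ i‖ := (C.UJ i).opNorm_nonneg.trans h0
  refine (pi_norm_le_iff_of_nonneg (by positivity)).2 fun k => ?_
  refine ((C.UJ i z.1 k).norm_apply_le x).trans ((norm_le_pi_norm (C.UJ i z.1) k).trans ?_)
  exact ((C.UJ i).le_opNorm _).trans (mul_le_mul h0 (norm_fst_le z) (norm_nonneg _) h1)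

theorem aU_eq {i : Fin C.Z.𝒞.N} {x : X} (hi : i ∈ C.Z.A) (hρ : C.Z.pou.ρ i x ≠ 0)
    (z : C.U × JJ D zm) :
    aU C i x z = jet2 (fun y => C.dv z.1 ((C.Z.P i).φ y)) (C.Z.𝒞.e i x) := by
  refine Eq.trans (funext fun k => ?_) (C.jc_eq hi (C.Z.pou.spt i x hρ).1 (Uv _ z.1))
  have := Uj_apply C.Z.𝒞 i k z.1 x
  rw [C.Z.pou.η_eq hρ, Complex.ofReal_one, one_mul] at this
  exact this

/-- the jet on an end -/
def aE (e : En D) (q : R2) : C.U × JJ D zm →L[ℂ] J2 ℂ :=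
  ContinuousLinearMap.pi fun k => (evL (tt zm q.1) q.2).comp
    ((ContinuousLinearMap.proj k).comp (C.jw0 e))

theorem aE_eq (e : En D) (q : R2) (z : C.U × JJ D zm) :
    aE C e q z = jev zm (ctr (gam zm 3 6) e) (z.2 e).1 q := by
  funext k
  exact congrArg (fun f : J2 WB => ev (f k) (tt zm q.1) q.2) (jwL_apply _ _)

theorem aE_le (e : En D) (q : R2) (z : C.U × JJ D zm) : ‖aE C e q z‖ ≤ ‖z‖ := by
  rw [aE_eq]
  refine (pi_norm_le_iff_of_nonneg (norm_nonneg _)).2 fun k => ?_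
  exact (norm_ev_le _ _ _).trans ((C.pf.jw_le _ _ _ _ _).trans
    ((norm_le_pi_norm z.2 e).trans (norm_snd_le z)))

theorem jets : ∃ K : ℝ, 0 < K ∧ ∀ k, ∀ y ∈ OO C k, ∃ A : C.U × JJ D zm →L[ℂ] J2 ℂ, ‖A‖ ≤ K ∧
    ∀ v j Yf T, YF zm j Yf T → jet2 (fun q => C.tot v Yf ((C.Z.P k).φ q)) y = A (v, j) := by
  obtain ⟨Kj, hKj, hj⟩ := jz_bd zm
  set K0 := ∑ i, ‖C.UJ i‖ with hK0
  have h0 : 0 ≤ K0 := Finset.sum_nonneg fun i _ => (C.UJ i).opNorm_nonneg
  refine ⟨K0 + 4 * (Kj * (K0 + 1)) + 1, by positivity, fun i y hy => ?_⟩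
  obtain ⟨x, rfl, hi, hρ, h5⟩ := OO_ex C hy
  obtain ⟨a1, a2, -⟩ := C.tf.chart i hi x (C.Z.pou.spt i x hρ).1
  by_cases h3 : G.σ (C.Z.pr x) < zm + 3 + 1 / 3
  · refine ⟨aU C i x, ContinuousLinearMap.opNorm_le_bound _ (by positivity) fun z => ?_,
      fun v j Yf T _ => ?_⟩
    · refine (aU_le C i x z).trans (mul_le_mul_of_nonneg_right ?_ (norm_nonneg _))
      have : 0 ≤ Kj * (K0 + 1) := by positivity
      linarith
    · rw [aU_eq C hi hρ, jet2_congr (C.tot_lo v Yf _ a1 (by rwa [a2]))]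
  · obtain ⟨e, b1, b2, b3, b4⟩ := C.act_end hi hρ (by linarith)
    have hq : (C.Z.𝒞.e i x).1 ∈ Ioo (zm + 3) (zm + 7) := ⟨by linarith, by linarith⟩
    refine ⟨aU C i x - (jmulL (jz (cut zm 3) (C.Z.𝒞.e i x).1)).comp
      (aU C i x - (G.s e : ℂ) • aE C e (C.Z.𝒞.e i x)),
      ContinuousLinearMap.opNorm_le_bound _ (by positivity) fun z => ?_, fun v j Yf T hY => ?_⟩
    · have c1 := aU_le C i x z
      have c2 : ‖(G.s e : ℂ) • aE C e (C.Z.𝒞.e i x) z‖ ≤ ‖z‖ := by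
        have := aE_le C e (C.Z.𝒞.e i x) z
        rcases G.s_sq e with h | h <;> simpa [h] using this
      have c3 : ‖aU C i x z - (G.s e : ℂ) • aE C e (C.Z.𝒞.e i x) z‖ ≤ (K0 + 1) * ‖z‖ := by
        linarith [norm_sub_le (aU C i x z) ((G.s e : ℂ) • aE C e (C.Z.𝒞.e i x) z)]
      have c4 := mul_le_mul (hj (C.Z.𝒞.e i x).1 ⟨hq.1.le, by linarith⟩) c3 (norm_nonneg _) hKj
      have c5 := norm_jmul_le (jz (cut zm 3) (C.Z.𝒞.e i x).1)
        (aU C i x z - (G.s e : ℂ) • aE C e (C.Z.𝒞.e i x) z)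
      simp only [sub_apply, smul_apply, ContinuousLinearMap.comp_apply, jmulL_apply]
      refine (norm_sub_le _ _).trans ?_
      nlinarith [norm_nonneg z]
    · simp only [sub_apply, smul_apply, ContinuousLinearMap.comp_apply, jmulL_apply]
      rw [aU_eq C hi hρ, aE_eq, b1, (C.tot_jet hY v e hq).2, hY.jet e _ hq]

theorem kap_le : ∃ r1 K : ℝ, 0 < r1 ∧ 0 ≤ K ∧ ∀ k, ∀ y ∈ OO C k, ∀ (c : Cc D) (m : J2 ℂ),
    ‖c‖ ≤ r1 → ‖m‖ ≤ r1 →
    ‖kap (G.bJ zm (C.Z.P k).φ y + emb c m) - 1‖ ≤ K * (‖T1 m‖ + ‖c‖) := by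
  have hK : IsCompact (⋃ i ∈ C.Z.A, G.bJ zm (C.Z.P i).φ ''
      closedBall (C.Z.𝒞.c i) (3 / 2 * C.Z.𝒞.r i)) :=
    C.Z.A.isCompact_biUnion fun i hi => (isCompact_closedBall _ _).image_of_continuousOn
      fun y hy => (C.iv.base _ y (ball_sub C hi hy)).2.2.2.2.2.2.2.continuousAt.continuousWithinAt
  obtain ⟨δ, hδ, L, hL, h⟩ := lip C.jf.opn C.jf.dkap hK (by
    refine iUnion₂_subset fun i hi => ?_
    rintro _ ⟨y, hy, rfl⟩
    exact (C.iv.base _ y (ball_sub C hi hy)).2.1)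
  have hn := norm_nonneg (embL D)
  refine ⟨δ / (‖embL D‖ + 1), L * ‖embL D‖, by positivity, by positivity,
    fun i y hy c m hc hm => ?_⟩
  obtain ⟨x, rfl, hi, hρ, -⟩ := OO_ex C hy
  have hb := (C.Z.pou.spt i x hρ).2
  have e1 := (embL D).le_opNorm (c, T1 m)
  rw [embL_apply] at e1
  have e2 : ‖(c, T1 m)‖ ≤ δ / (‖embL D‖ + 1) := max_le hc ((norm_T1_le m).trans hm)
  have e3 : ‖(c, T1 m)‖ ≤ ‖T1 m‖ + ‖c‖ :=
    max_le (le_add_of_nonneg_left (norm_nonneg _)) (le_add_of_nonneg_right (norm_nonneg _))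
  have e4 : ‖emb c (T1 m)‖ < δ := by
    refine (e1.trans (mul_le_mul_of_nonneg_left e2 hn)).trans_lt ?_
    rw [← mul_div_assoc, div_lt_iff₀ (by positivity)]
    nlinarith
  have := h _ (mem_biUnion hi (mem_image_of_mem _ hb)) _ e4
  rw [(C.iv.base _ _ (ball_sub C hi hb)).2.2.2.2.2.2.1,
    ← (C.jf.low _ c m (T1 m) (T1_T1 m).symm).1] at this
  refine this.trans ?_
  rw [mul_assoc]
  exact mul_le_mul_of_nonneg_left (e1.trans (mul_le_mul_of_nonneg_left e3 hn)) hL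

theorem yf0 {T : ℝ} (hT : zm + 7 ≤ T) : YF zm (0 : JJ D zm) (fun _ _ => 0) T where
  le := hT
  per _ _ _ := rfl
  c2 _ _ _ := contDiffAt_const
  jet e q _ := by
    rw [jet2_zero]
    funext k
    have : jw (ctr (gam zm 3 6) e) 0 = 0 := (jwL_apply _ _).symm.trans (map_zero _)
    simp [jev, this]

theorem tot0_cont (v : C.U) : ContinuousOn (C.tot v fun _ _ => 0) (SS w) := by
  have : C2S w (C.tot v fun _ _ => 0) := fun P y hy =>
    C.tot_c2 (yf0 (T := max (zm + 7) (G.σ (P.φ y) + 1)) (le_max_left _ _)) v P hy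
      ((lt_add_one _).trans_le (le_max_right _ _))
  exact (C.iv.cont _ _ this this).1

theorem tot_low (v : C.U) (Yf : En D → R2 → ℂ) {x : X} (hx : 0 < C.Z.τ x)
    (h : G.σ (C.Z.pr x) ≤ zm + 2) : C.tot v Yf (C.Z.pr x) = Uv _ v x := by
  rw [Ctx.tot, cut_zero (by push_cast; linarith), C.dv_pr v hx]; simp

/-- dominated convergence -/
theorem ip_lim {ψ : E3 → ℝ} (hc : Continuous ψ) (hs : HasCompactSupport ψ)
    (h2 : ∀ p, w p = 0 → zm + 2 ≤ G.σ p → ψ p = 0) (v : ℕ → C.U) {B : ℝ} (hB : ∀ m, ‖v m‖ ≤ B)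
    (hv : ∀ x, 0 < C.Z.τ x → G.σ (C.Z.pr x) ≤ zm + 2 →
      Tendsto (fun m => (Uv _ (v m) x).re) atTop (𝓝 0)) :
    Tendsto (fun m => (G.ip (C.tot (v m) fun _ _ => 0) (cF ψ)).re) atTop (𝓝 0) := by
  have hw : MeasurableSet (SS w) := by
    have : SS w = ⋃ n : ℕ, {p | w p = 0 ∧ G.σ p ≤ n} := by
      ext p
      simp only [mem_iUnion, mem_ofPred_eq]
      exact ⟨fun h => ⟨⌈G.σ p⌉₊, h, Nat.le_ceil _⟩, fun ⟨_, h, _⟩ => h⟩
    rw [this]
    exact MeasurableSet.iUnion fun n => (G.cpt n).measurableSet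
  have hae : ∀ᵐ p ∂muS w, w p = 0 := ae_restrict_mem hw
  obtain ⟨R, hR⟩ := hs.isBounded.subset_ball 0
  have hR' : ∀ p, R ≤ ‖p‖ → ψ p = 0 := fun p hp => by
    by_contra h
    have := hR (subset_tsupport _ h)
    rw [mem_ball_zero_iff] at this
    linarith
  have cψ : ContinuousOn (cF ψ) (SS w) := (Complex.continuous_ofReal.comp hc).continuousOn
  have co : ContinuousOn (fun p => ((G.om p : ℝ) : ℂ)) (SS w) :=
    Complex.continuous_ofReal.comp_continuousOn C.iv.om_cont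
  have i0 : Integrable (fun p => cF ψ p * (G.om p : ℝ)) (muS w) :=
    C.vf.int _ (cψ.mul co) ⟨R, fun p _ hp => by simp [cF, hR' p hp]⟩
  have i1 : ∀ m, Integrable (fun p => C.tot (v m) (fun _ _ => 0) p * cF ψ p * (G.om p : ℝ))
      (muS w) := fun m =>
    C.vf.int _ (((tot0_cont C _).mul cψ).mul co) ⟨R, fun p _ hp => by simp [cF, hR' p hp]⟩
  have e : ∀ m, (G.ip (C.tot (v m) fun _ _ => 0) (cF ψ)).re =
      ∫ p, (C.tot (v m) (fun _ _ => 0) p * cF ψ p * (G.om p : ℝ)).re ∂muS w := fun m =>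
    (integral_re (i1 m)).symm
  simp_rw [e]
  have key := tendsto_integral_of_dominated_convergence (μ := muS w) (f := fun _ => (0 : ℝ))
    (F := fun m p => (C.tot (v m) (fun _ _ => 0) p * cF ψ p * (G.om p : ℝ)).re)
    (fun p => ‖Uv C.Z.𝒞‖ * B * ‖cF ψ p * (G.om p : ℝ)‖) (fun m => (i1 m).re.aestronglyMeasurable)
    (i0.norm.const_mul _) (fun m => ?_) ?_
  · simpa using key
  · filter_upwards [hae] with p hp
    by_cases h : zm + 2 ≤ G.σ p
    · simp [cF, h2 p hp h]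
    obtain ⟨x, rfl, hx⟩ := C.tf.ex p hp (by linarith)
    refine (Complex.abs_re_le_norm _).trans ?_
    rw [mul_assoc, norm_mul, tot_low C _ _ hx (by linarith)]
    refine mul_le_mul_of_nonneg_right ?_ (norm_nonneg _)
    exact ((Uv _ (v m)).norm_apply_le x).trans (((Uv C.Z.𝒞).le_opNorm _).trans
      (mul_le_mul_of_nonneg_left (hB m) (norm_nonneg _)))
  · filter_upwards [hae] with p hp
    by_cases h : zm + 2 ≤ G.σ p
    · simp [cF, h2 p hp h]
    obtain ⟨x, rfl, hx⟩ := C.tf.ex p hp (by linarith)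
    have := ((hv x hx (by linarith)).mul_const (ψ (C.Z.pr x))).mul_const (G.om (C.Z.pr x))
    simpa [tot_low C _ _ hx (not_le.1 h).le, cF] using this

end ChartP

variable {X : Type} [TopologicalSpace X] [ChartedSpace R2 X] [T2Space X] [CompactSpace X]
  [RSm R2 X] (C : Ctx2 G zm X)

open ChartP in
theorem Ctx2.chartS : C.ChartS := by
  intro _
  obtain ⟨K, hK, h1⟩ := jets C.toCtx
  obtain ⟨r1, K', hr, hK', h2⟩ := kap_le C.toCtx
  refine ⟨_, C.Z.P, OO C.toCtx, r1, K + K', hr, by positivity, charts C.toCtx, fun k y hy => ?_,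
    fun k y hy c m hc hm => (h2 k y hy c m hc hm).trans ?_⟩
  · obtain ⟨A, hA, h⟩ := h1 k y hy
    exact ⟨A, hA.trans (le_add_of_nonneg_right hK'), h⟩
  · exact mul_le_mul_of_nonneg_right (le_add_of_nonneg_left hK.le) (by positivity)

open ChartP in
theorem Ctx2.dinjS : C.DinjS := by
  intro Φ gb N ψ ψh l hP n r B r0 z j lm hN xs ds hx ⟨B', hB'⟩ hlim k
  have hb : ∀ m, xs m ∈ ball (0 : Par D (Fin N ⊕ Fin D.b)) r := fun m => mem_ball_zero_iff.2 (hx m)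
  have hz : ∀ m, HasFDerivAt z (fderiv ℂ z (xs m)) (xs m) := fun m =>
    (hN.zhol.differentiableAt (isOpen_ball.mem_nhds (hb m))).hasFDerivAt
  have hd : ∀ (T : C.U →L[ℂ] ℂ) m, fderiv ℂ (fun x => T (z x).1) (xs m) (ds m) =
      T (fderiv ℂ z (xs m) (ds m)).1 := fun T m =>
    congrArg (fun L => L (ds m)) (T.hasFDerivAt.comp (xs m) (hz m).fst).fderiv
  have e1 : ∀ m, (ds m).1 k = l k (fderiv ℂ z (xs m) (ds m)).1 := fun m => by
    rw [← hd]
    have : (fun x => l k (z x).1) =ᶠ[𝓝 (xs m)] fun x => x.1 k := by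
      filter_upwards [isOpen_ball.mem_nhds (hb m)] with x hx using hN.ell x hx k
    rw [this.fderiv_eq]
    exact (congrArg (fun T => T (ds m)) ((ContinuousLinearMap.proj k).comp
      (ContinuousLinearMap.fst ℂ (Fin N ⊕ Fin D.b → ℂ) _)).fderiv).symm
  simp_rw [e1, ← hP.l_tot k _ fun _ _ => 0]
  refine ip_lim C.toCtx (hP.cont k) (hP.cpt k) (hP.spt k) _ (B := B * B') (fun m => ?_)
    fun x h0 h2 => ?_
  · exact (norm_fst_le _).trans (((fderiv ℂ z (xs m)).le_opNorm _).trans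
      (mul_le_mul (hN.bd _ (hb m)).2.2.2 (hB' m) (norm_nonneg _) hN.B_pos.le))
  · have := hlim _ (C.Z.mem x).1 h2
    simp only [Ctx2.uN, tot_low C.toCtx _ _ h0 h2] at this
    exact this.congr fun m => congrArg Complex.re (hd ((evC ℂ x).comp (Uv _)) m)

end Vale.Agent.P218N.Core
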