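import Vale.Agent.P218N.Core.Spec

/-! The context of the assembly: cutoff functions, jet algebra, the operators of the system. -/

open Set Filter Topology Metric MeasureTheory
open scoped RealInnerProductSpace ContDiff Matrix NNReal

noncomputable section

namespace Vale.Agent.P218N.Core

open Vale.Agent.P218.H313 Vale.Agent.P218N.H Vale.Agent.P218N.End Vale.Agent.P272.K.LIN

set_option linter.unusedSectionVars false

/-! ### Cutoff functions -/

section cut
variable {zm ζ : ℝ} {k : ℕ}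

theorem contDiff_st : ContDiff ℝ ∞ st :=
  Real.smoothTransition.contDiff.comp ((contDiff_const.mul contDiff_id).sub contDiff_const)

theorem contDiff_cut (zm : ℝ) (k : ℕ) : ContDiff ℝ ∞ (cut zm k) :=
  contDiff_st.comp ((contDiff_id.sub contDiff_const).sub contDiff_const)

theorem st_zero {x : ℝ} (h : x ≤ 1 / 3) : st x = 0 :=
  Real.smoothTransition.zero_of_nonpos (by linarith)

theorem st_one {x : ℝ} (h : 2 / 3 ≤ x) : st x = 1 :=
  Real.smoothTransition.one_of_one_le (by linarith)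

theorem cut_zero (h : ζ ≤ zm + k + 1 / 3) : cut zm k ζ = 0 := st_zero (by linarith)

theorem cut_one (h : zm + k + 2 / 3 ≤ ζ) : cut zm k ζ = 1 := st_one (by linarith)

theorem cut_nonneg : 0 ≤ cut zm k ζ := Real.smoothTransition.nonneg _

theorem cut_le_one : cut zm k ζ ≤ 1 := Real.smoothTransition.le_one _

theorem lt_of_cut_ne_zero (h : cut zm k ζ ≠ 0) : zm + k + 1 / 3 < ζ :=
  not_le.1 fun h' => h (cut_zero h')

theorem lt_of_cut_ne_one (h : cut zm k ζ ≠ 1) : ζ < zm + k + 2 / 3 :=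
  not_le.1 fun h' => h (cut_one h')

theorem jz_congr {f g : ℝ → ℝ} (h : f =ᶠ[𝓝 ζ] g) : jz f ζ = jz g ζ := by
  unfold jz
  rw [h.self_of_nhds, h.deriv_eq, h.deriv.deriv_eq]

theorem jz_const (c ζ : ℝ) : jz (fun _ => c) ζ = (c : ℂ) • j1 := by
  ext k; fin_cases k <;> simp [jz, j1]

theorem jz_cut_zero (h : ζ < zm + k + 1 / 3) : jz (cut zm k) ζ = 0 := by
  rw [jz_congr (g := fun _ => 0), jz_const]
  · simp
  · filter_upwards [Iio_mem_nhds h] with x hx using cut_zero (le_of_lt hx)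

theorem jz_cut_one (h : zm + k + 2 / 3 < ζ) : jz (cut zm k) ζ = j1 := by
  rw [jz_congr (g := fun _ => 1), jz_const]
  · simp
  · filter_upwards [Ioi_mem_nhds h] with x hx using cut_one (le_of_lt hx)

theorem contDiff_jz {f : ℝ → ℝ} (hf : ContDiff ℝ ∞ f) (k : Fin 6) :
    ContDiff ℝ ∞ fun ζ => jz f ζ k := by
  have h1 : ContDiff ℝ ∞ (deriv f) := hf.iterate_deriv 1
  have h2 : ContDiff ℝ ∞ (deriv (deriv f)) := h1.iterate_deriv 1
  have e := Complex.ofRealCLM.contDiff (n := ∞)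
  fin_cases k
  · exact e.comp hf
  · exact e.comp h1
  · exact contDiff_const
  · exact e.comp h2
  · exact contDiff_const
  · exact contDiff_const

theorem star_jz (f : ℝ → ℝ) (ζ : ℝ) : star (jz f ζ) = jz f ζ := by
  ext k; fin_cases k <;> simp [jz]

theorem be2_one (h1 : zm + 3 + 2 / 9 ≤ ζ) (h2 : ζ ≤ zm + 6 + 1 / 3) : be2 zm ζ = 1 := by
  rw [be2, st_one (by linarith), cut_zero (by push_cast; linarith)]; ring

end cut

/-! ### Jet algebra -/

section jets
variable {R : Type} [CommRing R]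

theorem jmul_zero_left (b : J2 R) : jmul 0 b = 0 := by ext k; fin_cases k <;> simp [jmul]
theorem jmul_zero (a : J2 R) : jmul a 0 = 0 := by ext k; fin_cases k <;> simp [jmul]
theorem j1_jmul (b : J2 ℂ) : jmul j1 b = b := by ext k; fin_cases k <;> simp [jmul, j1]
theorem jmul_add (a b c : J2 R) : jmul a (b + c) = jmul a b + jmul a c := by
  ext k; fin_cases k <;> simp [jmul] <;> ring
theorem T1_T1 {V : Type} [Zero V] (a : J2 V) : T1 (T1 a) = T1 a := by
  ext k; fin_cases k <;> simp [T1]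
theorem T1_zero {V : Type} [Zero V] : T1 (0 : J2 V) = 0 := by ext k; fin_cases k <;> simp [T1]

theorem map_jmul {R' : Type} [CommRing R'] (f : R →+* R') (a b : J2 R) :
    (fun k => f (jmul a b k)) = jmul (fun k => f (a k)) fun k => f (b k) := by
  ext k; fin_cases k <;> simp [jmul, map_ofNat]

theorem map_T1 {V V' : Type} [Zero V] [Zero V'] (f : V → V') (h : f 0 = 0) (a : J2 V) :
    (fun k => f (T1 a k)) = T1 fun k => f (a k) := by
  ext k; fin_cases k <;> simp [T1, h]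

theorem star_jmul (a b : J2 ℂ) : star (jmul a b) = jmul (star a) (star b) :=
  map_jmul (starRingEnd ℂ) a b

theorem star_T1 (a : J2 ℂ) : star (T1 a) = T1 (star a) := map_T1 (starRingEnd ℂ) (map_zero _) a

theorem star_j1 : star j1 = j1 := by ext k; fin_cases k <;> simp [j1]

variable {A : Type} [NormedCommRing A] [NormedAlgebra ℂ A]

/-- the truncation as a linear map -/
def T1L (V : Type) [NormedAddCommGroup V] [NormedSpace ℂ V] : J2 V →L[ℂ] J2 V :=
  ContinuousLinearMap.pi ![ContinuousLinearMap.proj 0, ContinuousLinearMap.proj 1,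
    ContinuousLinearMap.proj 2, 0, 0, 0]

@[simp] theorem T1L_apply {V : Type} [NormedAddCommGroup V] [NormedSpace ℂ V] (a : J2 V) :
    T1L V a = T1 a := by ext k; fin_cases k <;> rfl

/-- multiplication by `a k` of the component `l` -/
def mp (a : J2 A) (k l : Fin 6) : J2 A →L[ℂ] A :=
  (ContinuousLinearMap.mul ℂ A (a k)).comp (ContinuousLinearMap.proj l)

/-- the Leibniz rule as a linear map -/
def jmulL (a : J2 A) : J2 A →L[ℂ] J2 A :=
  ContinuousLinearMap.pi ![mp a 0 0, mp a 1 0 + mp a 0 1, mp a 2 0 + mp a 0 2,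
    mp a 3 0 + (mp a 1 1 + mp a 1 1) + mp a 0 3, mp a 4 0 + mp a 1 2 + mp a 2 1 + mp a 0 4,
    mp a 5 0 + (mp a 2 2 + mp a 2 2) + mp a 0 5]

@[simp] theorem jmulL_apply (a b : J2 A) : jmulL a b = jmul a b := by
  ext k; fin_cases k <;> simp [jmulL, jmul, mp, two_mul]

/-- the unscaled jet as a linear map -/
def jwL (Γ : Ctr) : EJ →L[ℂ] J2 WB :=
  ContinuousLinearMap.pi ![EJ.yL, (mulW (W.C Γ.io)).comp EJ.opL, EJ.ytL,
    (mulW (W.C Γ.io)).comp EJ.oqL, EJ.ptL, EJ.yttL]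

@[simp] theorem jwL_apply (Γ : Ctr) (j : EJ) : jwL Γ j = jw Γ j := by
  ext1 k; fin_cases k <;> rfl

end jets

variable {w : E3 → ℝ} {D : EndData w}

/-- the embedding of the variables as a linear map -/
def embL (D : EndData w) : (Fin D.b → ℂ × ℂ) × J2 ℂ →L[ℂ] J2 (WW D) :=
  ContinuousLinearMap.pi fun k => (if k = 0 then ContinuousLinearMap.fst ℂ _ _ else 0).prod
    ((0 : _ →L[ℂ] (Fin D.b → ℂ)).prod ((0 : _ →L[ℂ] C3).prod ((0 : _ →L[ℂ] C3).prod
      ((ContinuousLinearMap.proj k).comp (ContinuousLinearMap.snd ℂ _ _)))))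

@[simp] theorem embL_apply (c : Fin D.b → ℂ × ℂ) (m : J2 ℂ) : embL D (c, m) = emb c m := by
  ext1 k
  by_cases h : k = 0 <;> simp [embL, emb, h]

theorem emb_add (c c' : Fin D.b → ℂ × ℂ) (m m' : J2 ℂ) :
    emb (c + c') (m + m') = emb c m + emb c' m' := by
  simpa using (embL D).map_add (c, m) (c', m')

theorem emb_zero : emb (D := D) 0 0 = 0 := (embL_apply 0 0).symm.trans (embL D).map_zero

theorem star_emb (c : Fin D.b → ℂ × ℂ) (m : J2 ℂ) : star (emb c m) = emb (star c) (star m) := by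
  ext1 k
  by_cases h : k = 0 <;> simp [emb, h, Prod.star_def]

theorem pJ_add_emb (b : J2 (WW D)) (c : Fin D.b → ℂ × ℂ) (m : J2 ℂ) : pJ (b + emb c m) = pJ b := by
  ext1 k; simp [pJ, emb]

theorem nV_add_emb (b : J2 (WW D)) (c : Fin D.b → ℂ × ℂ) (m : J2 ℂ) : nV (b + emb c m) = nV b := by
  simp [nV, emb]

section hol
variable {Y : Type} {ϖ : Y → Y → ℝ≥0}

/-- constants as a linear map -/
def constC (ϖ : Y → Y → ℝ≥0) (A : Type) [NormedAddCommGroup A] [NormedSpace ℂ A] :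
    A →L[ℂ] Hol ϖ A :=
  LinearMap.mkContinuous ⟨⟨Hol.const, fun _ _ => Hol.ext fun _ => rfl⟩,
    fun _ _ => Hol.ext fun _ => rfl⟩ 1 fun a => (Hol.norm_const_le a).trans_eq (one_mul _).symm

/-- evaluation -/
def evC (A : Type) [NormedAddCommGroup A] [NormedSpace ℂ A] (x : Y) : Hol ϖ A →L[ℂ] A :=
  LinearMap.mkContinuous ⟨⟨fun f => f x, fun _ _ => rfl⟩, fun _ _ => rfl⟩ 1
    fun f => (f.norm_apply_le x).trans_eq (one_mul _).symm

@[simp] theorem evC_apply {A : Type} [NormedAddCommGroup A] [NormedSpace ℂ A] (x : Y)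
    (f : Hol ϖ A) : evC A x f = f x := rfl

/-- the embedding of the variables, for Hölder functions -/
def embH (D : EndData w) (ϖ : Y → Y → ℝ≥0) :
    (Fin D.b → ℂ × ℂ) × J2 (Hol ϖ ℂ) →L[ℂ] Hol ϖ (J2 (WW D)) :=
  (constC ϖ _).comp ((embL D).comp ((ContinuousLinearMap.inl ℂ _ _).comp
    (ContinuousLinearMap.fst ℂ _ _))) +
  ∑ k : Fin 6, (mapC ((embL D).comp ((ContinuousLinearMap.inr ℂ _ _).comp
    (ContinuousLinearMap.single ℂ (fun _ => ℂ) k)))).comp
      ((ContinuousLinearMap.proj k).comp (ContinuousLinearMap.snd ℂ _ _))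

theorem embH_apply (c : Fin D.b → ℂ × ℂ) (m : J2 (Hol ϖ ℂ)) (x : Y) :
    embH D ϖ (c, m) x = emb c fun k => m k x := by
  have e : (c, fun k => m k x) = (c, (0 : J2 ℂ)) +
      ∑ k : Fin 6, ((0 : Fin D.b → ℂ × ℂ), (Pi.single k (m k x) : J2 ℂ)) := by
    rw [Prod.ext_iff]
    simp [Prod.fst_sum, Prod.snd_sum, Finset.univ_sum_single]
  rw [← embL_apply, e, map_add, map_sum]
  simp only [embH, add_apply, sum_apply, Hol.add_apply, Hol.sum_apply]
  rfl

/-- complex conjugation -/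
def cjH (f : Hol ϖ ℂ) : Hol ϖ ℂ := Hol.map (Complex.conjCLE : ℂ →L[ℝ] ℂ) f

@[simp] theorem cjH_apply (f : Hol ϖ ℂ) (x : Y) : cjH f x = star (f x) := rfl

open Classical in
/-- a function as an element of the Hölder space -/
def mkH {A : Type} [NormedAddCommGroup A] (ϖ : Y → Y → ℝ≥0) (f : Y → A) : Hol ϖ A :=
  if h : (∃ C, ∀ x, ‖f x‖ ≤ C) ∧ ∃ C, ∀ x y, ‖f x - f y‖ ≤ C * ϖ x y then ⟨f, h.1, h.2⟩ else 0

end hol

variable {X : Type} [TopologicalSpace X] [ChartedSpace R2 X] [T2Space X] [CompactSpace X]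
  [RSm R2 X]

theorem mkH_apply (𝒞 : Cov R2 X) {A : Type} [NormedAddCommGroup A] [NormedSpace ℝ A] {f : X → A}
    (hf : CkFn R2 1 f) (x : X) : mkH (𝒞.w (1 / 2)) f x = f x := by
  rw [mkH, dif_pos ⟨Cov.ck_bdd (ckFn_continuous hf), 𝒞.ck_hol (by norm_num) (by norm_num) hf⟩]

theorem Uj_apply (𝒞 : Cov R2 X) (i : Fin 𝒞.N) (k : Fin 6) (v : UU 𝒞) (x : X) :
    Uj 𝒞 i k v x = 𝒞.η i x * jc 𝒞 i (Uv 𝒞 v) x k := by
  have := congrFun (v.2.2 i x) k
  exact this

theorem Uv_ck (𝒞 : Cov R2 X) (v : UU 𝒞) : CkFn R2 2 (Uv 𝒞 v : X → ℂ) := v.2.1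

theorem UU_ext (𝒞 : Cov R2 X) {v v' : UU 𝒞} (h : ∀ x, Uv 𝒞 v x = Uv 𝒞 v' x) : v = v' := by
  have e : v.1.1 = v'.1.1 := Hol.ext h
  refine Subtype.ext (Prod.ext e (funext fun i => Hol.ext fun x => ?_))
  rw [v.2.2, v'.2.2, e]

theorem Pou.η_eq {𝒞 : Cov R2 X} (ρ : Pou 𝒞) {i : Fin 𝒞.N} {x : X} (h : ρ.ρ i x ≠ 0) :
    𝒞.η i x = 1 :=
  𝒞.η_eq_one (ρ.spt i x h).1 (closedBall_subset_closedBall (by linarith [𝒞.r_pos i])
    (ρ.spt i x h).2)

/-- all ingredients of the construction -/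
structure Ctx (G : Geo D) (zm : ℝ) (X : Type) [TopologicalSpace X] [ChartedSpace R2 X] where
  Z : Dbl G zm X
  B : ∀ e : En D, EndBox zm e
  hz : G.z0 + 1 ≤ zm
  pf : PathF D zm
  jf : JetF D
  iv : InvF G zm
  ef : EndF G zm
  vf : VarF G
  gf : GreenF G zm
  hf : HolF Z.𝒞 Z.pou
  tf : TransF Z
  nem : NemStmt
  abs : AbsStmt

end Vale.Agent.P218N.Core
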