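import Vale.Agent.P218N.Core.Lag
import Vale.Agent.P218N.End.ApiReal
import Vale.Agent.P218N.End.ApiFar

/-! The rotation fields on cylindrical ends. -/

open Set Filter Topology Metric Asymptotics Complex
open scoped ContDiff

noncomputable section

namespace Vale.Agent.P218N.Core.CylR

open Vale.Agent.P218N.End End.Path End.Path.Real

/-! ### Bounded and decaying functions -/

/-- the first variable tends to infinity -/
def FF : Filter (ℝ × ℝ) := comap Prod.fst atTop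

theorem ev_FF {q : ℝ × ℝ → Prop} : (∀ᶠ p in FF, q p) ↔ ∃ s₀ : ℝ, ∀ p : ℝ × ℝ, s₀ ≤ p.1 → q p := by
  rw [FF, eventually_comap, eventually_atTop]
  exact exists_congr fun s => ⟨fun h p hp => h _ hp p rfl, fun h b hb p hp => h p (hp ▸ hb)⟩

variable {u w v : ℝ × ℝ → ℝ}

theorem dec_iff : Decays u ↔ Per u ∧ ∀ k, iteratedFDeriv ℝ k u =o[FF] fun _ => (1 : ℝ) := by
  simp only [isLittleO_iff, norm_one, mul_one, ev_FF]
  exact ⟨fun h => ⟨h.toPer, fun k c hc => h.small k c hc⟩,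
    fun h => ⟨h.1.smooth, h.1.per, fun k c hc => h.2 k hc⟩⟩

/-- all derivatives are bounded -/
def Bd (u : ℝ × ℝ → ℝ) : Prop := Per u ∧ ∀ k, iteratedFDeriv ℝ k u =O[FF] fun _ => (1 : ℝ)

theorem bd_of (h : Decays u) : Bd u := ⟨h.toPer, fun k => ((dec_iff.1 h).2 k).isBigO⟩

theorem per_mul (hu : Per u) (hw : Per w) : Per fun p => u p * w p :=
  ⟨hu.smooth.mul hw.smooth, fun s θ => by rw [hu.per, hw.per]⟩

theorem per_add (hu : Per u) (hw : Per w) : Per fun p => u p + w p :=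
  ⟨hu.smooth.add hw.smooth, fun s θ => by rw [hu.per, hw.per]⟩

theorem mul_O (hu : Per u) (hw : Per w) (k : ℕ) : iteratedFDeriv ℝ k (fun p => u p * w p) =O[FF]
    fun p => ∑ i ∈ Finset.range (k + 1), (k.choose i : ℝ) *
      (‖iteratedFDeriv ℝ i u p‖ * ‖iteratedFDeriv ℝ (k - i) w p‖) :=
  IsBigO.of_norm_le fun p => by
    simpa only [mul_assoc] using norm_iteratedFDeriv_mul_le hu.smooth hw.smooth p
      (n := k) (by exact_mod_cast le_top)

theorem add_eq (hu : Per u) (hw : Per w) (k : ℕ) : iteratedFDeriv ℝ k (fun p => u p + w p) =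
    fun p => iteratedFDeriv ℝ k u p + iteratedFDeriv ℝ k w p :=
  fun_iteratedFDeriv_add (hu.smooth.of_le (by exact_mod_cast le_top))
    (hw.smooth.of_le (by exact_mod_cast le_top))

theorem Bd.mul (hu : Bd u) (hw : Bd w) : Bd fun p => u p * w p :=
  ⟨per_mul hu.1 hw.1, fun k => (mul_O hu.1 hw.1 k).trans (IsBigO.fun_sum fun i _ => by
    simpa only [mul_one] using ((hu.2 i).norm_left.mul (hw.2 (k - i)).norm_left).const_mul_left _)⟩

theorem dec_mul (hu : Decays u) (hw : Bd w) : Decays fun p => u p * w p :=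
  dec_iff.2 ⟨per_mul hu.toPer hw.1, fun k => (mul_O hu.toPer hw.1 k).trans_isLittleO
    (IsLittleO.fun_sum fun i _ => by simpa only [mul_one] using
      (((dec_iff.1 hu).2 i).norm_left.mul_isBigO (hw.2 (k - i)).norm_left).const_mul_left _)⟩

theorem Bd.add (hu : Bd u) (hw : Bd w) : Bd fun p => u p + w p :=
  ⟨per_add hu.1 hw.1, fun k => by rw [add_eq hu.1 hw.1]; exact (hu.2 k).add (hw.2 k)⟩

theorem dec_add (hu : Decays u) (hw : Decays w) : Decays fun p => u p + w p :=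
  dec_iff.2 ⟨per_add hu.toPer hw.toPer, fun k => by
    rw [add_eq hu.toPer hw.toPer]; exact ((dec_iff.1 hu).2 k).add ((dec_iff.1 hw).2 k)⟩

theorem Bd.dir (h : Bd u) (e : ℝ × ℝ) : Bd fun p => fderiv ℝ u p e :=
  ⟨h.1.dir e, fun k => (IsBigO.of_bound ‖e‖ (Eventually.of_forall fun p => by
    refine (norm_iteratedFDeriv_clm_apply_const (N := ∞) (h.1.smooth.fderiv_right (m := ∞)
      (by simp)).contDiffAt (by exact_mod_cast le_top)).trans ?_
    rw [norm_iteratedFDeriv_fderiv])).trans (h.2 (k + 1))⟩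

theorem Bd.ds (h : Bd u) : Bd (ds u) := h.dir _

theorem Bd.dt (h : Bd u) : Bd (dt u) := h.dir _

theorem bd_snd {φ : ℝ → ℝ} (h : ContDiff ℝ ∞ φ) (hp : ∀ θ, φ (θ + 2 * Real.pi) = φ θ) :
    Bd fun p => φ p.2 := by
  refine ⟨⟨h.comp contDiff_snd, fun _ θ => hp θ⟩, fun k => ?_⟩
  have h1 : Function.Periodic (iteratedFDeriv ℝ k φ) (2 * Real.pi) := fun θ => by
    rw [← iteratedFDeriv_comp_add_right, funext hp]
  obtain ⟨C, hC⟩ := isBounded_iff_forall_norm_le.1 (h1.isBounded_of_continuous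
    Real.two_pi_pos.ne' (h.continuous_iteratedFDeriv (by exact_mod_cast le_top)))
  refine IsBigO.of_bound (C * ‖ContinuousLinearMap.snd ℝ ℝ ℝ‖ ^ k) (Eventually.of_forall fun p => ?_)
  have h2 := (ContinuousLinearMap.snd ℝ ℝ ℝ).iteratedFDeriv_comp_right h p
    (i := k) (by exact_mod_cast le_top)
  rw [show (fun p : ℝ × ℝ => φ p.2) = φ ∘ ContinuousLinearMap.snd ℝ ℝ ℝ from rfl, h2]
  refine (ContinuousMultilinearMap.norm_compContinuousLinearMap_le _ _).trans ?_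
  simp only [Finset.prod_const, Finset.card_univ, Fintype.card_fin, norm_one, mul_one]
  exact mul_le_mul_of_nonneg_right (hC _ ⟨_, rfl⟩) (by positivity)

theorem bd_comp (hv : Decays v) {G : ℝ → ℝ} (hG : ContDiff ℝ ∞ G) : Bd fun p => G (v p) := by
  refine ⟨⟨hG.comp hv.smooth, fun s θ => by rw [hv.per]⟩, fun k => ?_⟩
  have h1 : ∀ i : ℕ, ∃ C, ∀ x ∈ Icc (-1 : ℝ) 1, ‖iteratedFDeriv ℝ i G x‖ ≤ C := fun i =>
    isCompact_Icc.exists_bound_of_continuousOn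
      (hG.continuous_iteratedFDeriv (by exact_mod_cast le_top)).continuousOn
  choose C hC using h1
  have h2 : ∀ᶠ p in FF, ∀ i ∈ Finset.range (k + 1), ‖iteratedFDeriv ℝ i v p‖ ≤ 1 :=
    (eventually_all_finset _).2 fun i _ => ev_FF.2 (hv.small i 1 one_pos)
  refine IsBigO.of_bound (k.factorial * (∑ i ∈ Finset.range (k + 1), |C i|) * 1 ^ k) ?_
  filter_upwards [h2] with p hp
  rw [norm_one, mul_one]
  refine norm_iteratedFDeriv_comp_le hG hv.smooth (by exact_mod_cast le_top) p (fun i hi => ?_)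
    fun i _ hi => by simpa using hp i (by simpa [Nat.lt_succ_iff] using hi)
  have h3 := hp 0 (by simp)
  rw [norm_iteratedFDeriv_zero, Real.norm_eq_abs] at h3
  exact (hC i _ (abs_le.1 h3)).trans ((le_abs_self _).trans (Finset.single_le_sum
    (f := fun i => |C i|) (fun _ _ => abs_nonneg _) (by simpa [Nat.lt_succ_iff] using hi)))

theorem Bd.abs_le (h : Bd u) : ∃ K, ∀ s, 0 ≤ s → ∀ θ, |u (s, θ)| ≤ K := by
  obtain ⟨C, hC⟩ := (h.2 0).bound
  obtain ⟨s₀, hs⟩ := ev_FF.1 hC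
  obtain ⟨K, hK⟩ := h.1.exists_bound 0 s₀
  refine ⟨max K C, fun s h0 θ => ?_⟩
  rcases le_total s s₀ with h1 | h1
  · exact (hK s ⟨h0, h1⟩ θ).trans (le_max_left _ _)
  · exact le_trans (by simpa using hs (s, θ) h1) (le_max_right _ _)

theorem Bd.lft_le (h : Bd u) : ∃ K, 0 ≤ K ∧ ∀ γ : Path, ‖lft γ.zc u‖ ≤ K := by
  obtain ⟨K, hK⟩ := h.abs_le
  obtain ⟨K', hK'⟩ := h.dt.dt.abs_le
  have := (abs_nonneg _).trans (hK 0 le_rfl 0)
  exact ⟨5 * max K K', by positivity, fun γ => h.1.norm_lft_le (rng_zc γ)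
    (fun t θ => (hK _ (Real.sqrt_nonneg _) θ).trans (le_max_left _ _))
    fun t θ => (hK' _ (Real.sqrt_nonneg _) θ).trans (le_max_right _ _)⟩

/-! ### Functions of linear growth -/

/-- `z u + w` -/
def mw (u w : ℝ × ℝ → ℝ) (p : ℝ × ℝ) : ℝ := p.1 * u p + w p

theorem per_mw (hu : Per u) (hw : Per w) : Per (mw u w) :=
  per_add (per_mul ⟨contDiff_fst, fun _ _ => rfl⟩ hu) hw

theorem ds_mw (hu : Per u) (hw : Per w) : ds (mw u w) = mw (ds u) fun p => u p + ds w p := by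
  funext ⟨s, θ⟩
  refine ((per_mw hu hw).hasDerivAt_ds s θ).unique
    ((((hasDerivAt_id s).mul (hu.hasDerivAt_ds s θ)).add (hw.hasDerivAt_ds s θ)).congr_deriv ?_)
  simp only [mw, id]
  ring

theorem dt_mw (hu : Per u) (hw : Per w) : dt (mw u w) = mw (dt u) (dt w) := by
  funext ⟨s, θ⟩
  exact ((per_mw hu hw).hasDerivAt_dt s θ).unique
    (((hu.hasDerivAt_dt s θ).const_mul s).add (hw.hasDerivAt_dt s θ))

theorem lft_mw (hu : Per u) (hw : Per w) (γ : Path) :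
    lft γ.zc (mw u w) = W.C γ.zB * lft γ.zc u + lft γ.zc w := ext_ev fun t θ => by
  rw [ev_add, ev_mul, ev_C, (per_mw hu hw).ev_lft (rng_zc γ), hu.ev_lft (rng_zc γ),
    hw.ev_lft (rng_zc γ), zB_apply, mw]
  push_cast
  rfl

/-- linear growth -/
def Gr (f : ℝ × ℝ → ℝ) : Prop := ∃ u w, Bd u ∧ Bd w ∧ f = mw u w

theorem Gr.ds {f : ℝ × ℝ → ℝ} (h : Gr f) : Gr (ds f) :=
  let ⟨_, _, hu, hw, e⟩ := h; ⟨_, _, hu.ds, hu.add hw.ds, e ▸ ds_mw hu.1 hw.1⟩

theorem Gr.dt {f : ℝ × ℝ → ℝ} (h : Gr f) : Gr (dt f) :=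
  let ⟨_, _, hu, hw, e⟩ := h; ⟨_, _, hu.dt, hw.dt, e ▸ dt_mw hu.1 hw.1⟩

theorem norm_C_mul {x : BC} {f : WB} {a b : ℝ} (hx : ‖x‖ ≤ a) (hf : ‖f‖ ≤ b) :
    ‖W.C x * f‖ ≤ a * b :=
  (norm_mul_le _ _).trans (by
    rw [W.norm_C]; exact mul_le_mul hx hf (norm_nonneg _) ((norm_nonneg _).trans hx))

theorem Gr.lft_le {f : ℝ × ℝ → ℝ} (h : Gr f) :
    ∃ K, 0 ≤ K ∧ ∀ (γ : Path) (T : ℝ), 1 ≤ T → ‖γ.zB‖ ≤ T → ‖lft γ.zc f‖ ≤ K * T := by
  obtain ⟨u, w, hu, hw, rfl⟩ := h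
  obtain ⟨K, K0, hK⟩ := hu.lft_le
  obtain ⟨L, L0, hL⟩ := hw.lft_le
  refine ⟨K + L, by positivity, fun γ T h1 h2 => ?_⟩
  rw [lft_mw hu.1 hw.1]
  refine (norm_add_le_of_le (norm_C_mul h2 (hK γ)) (hL γ)).trans ?_
  nlinarith

theorem Gr.jet_le {f : ℝ × ℝ → ℝ} (h : Gr f) : ∃ K, 0 ≤ K ∧ ∀ (γ : Path) (T : ℝ), γ.Real 1 →
    1 ≤ T → ‖γ.zB‖ ≤ T → ‖jetC f γ‖ ≤ K * T ^ 2 := by
  obtain ⟨K1, a1, h1⟩ := h.lft_le
  obtain ⟨K2, a2, h2⟩ := h.dt.dt.lft_le
  obtain ⟨K3, a3, h3⟩ := h.ds.lft_le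
  obtain ⟨K4, a4, h4⟩ := h.ds.ds.lft_le
  obtain ⟨K5, a5, h5⟩ := h.ds.dt.lft_le
  refine ⟨K1 + K2 + K3 + K4 + K5, by positivity, fun γ T hγ hT hz => ?_⟩
  have t1 : T ≤ T ^ 2 := by nlinarith
  have k : ∀ K, 0 ≤ K → K * T ≤ K * T ^ 2 ∧ 0 ≤ K * T := fun K hK =>
    ⟨mul_le_mul_of_nonneg_left t1 hK, by positivity⟩
  have b1 := k K1 a1
  have b2 := k K2 a2
  have b3 := k K3 a3
  have b4 := k K4 a4
  have b5 := k K5 a5
  have d1 := hγ.norm_dB_le
  refine EJ.norm_le _ ?_ ?_ ?_ ?_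
  · exact (norm_sub_le_of_le (h1 γ T hT hz) (h2 γ T hT hz)).trans (by linarith)
  · exact (norm_C_mul hz (h3 γ T hT hz)).trans (by linarith)
  · refine (norm_add_le_of_le (norm_C_mul (a := 1) ?_ (h4 γ T hT hz))
      (norm_C_mul ((norm_neg _).trans_le d1) (h3 γ T hT hz))).trans (by linarith)
    rw [norm_smul, norm_one]
    norm_num
  · exact (norm_C_mul d1 (h5 γ T hT hz)).trans (by linarith)

/-! ### The constant path -/

/-- the constant path -/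
def cp (T : ℝ) : Path := ⟨(T : ℂ) • 1, 0⟩

theorem cp_ze (T t : ℝ) : (cp T).ze t = T := by simp [cp]

theorem cp_real (T : ℝ) : (cp T).RealP T :=
  ⟨⟨fun _ _ => rfl, fun t => by
    rw [show ((cp T).ze : ℝ → ℂ) = fun _ => (T : ℂ) from funext (cp_ze T)]
    exact hasDerivAt_const t _⟩, cp_ze T 0, fun _ => rfl, fun _ => le_rfl⟩

theorem cp_zc (T t : ℝ) : (cp T).zc t = √T := by rw [zc, cp_ze, ofReal_re]

theorem cp_zB (T : ℝ) (f : WB) : W.C (cp T).zB * f = ((√T : ℝ) : ℂ) • f := ext_ev fun t θ => by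
  rw [ev_mul, ev_C, zB_apply, cp_zc, ev_smul]

theorem cp_far : Tendsto cp atTop far := fun _ hs =>
  let ⟨Z, hZ⟩ := eventually_far.1 hs
  (eventually_ge_atTop Z).mono fun T hT => hZ _ (RE.real (cp_real T) hT)

theorem inv0 : Tendsto (fun T : ℝ => ((√T : ℝ) : ℂ)⁻¹) atTop (𝓝 0) := by
  simpa [Function.comp_def] using
    (continuous_ofReal.tendsto 0).comp Real.tendsto_sqrt_atTop.inv_tendsto_atTop

theorem sq_ne : ∀ᶠ T : ℝ in atTop, ((√T : ℝ) : ℂ) ≠ 0 :=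
  (eventually_gt_atTop 0).mono fun _ h => ofReal_ne_zero.2 (Real.sqrt_pos.2 h).ne'

theorem lft_cp (h : Decays u) : Tendsto (fun T => lft (cp T).zc u) atTop (𝓝 0) :=
  (Cyl.lft0 h).comp cp_far

theorem mw0 (hu : Decays u) (hw : Decays w) :
    Tendsto (fun T : ℝ => ((√T : ℝ) : ℂ)⁻¹ • lft (cp T).zc (mw u w)) atTop (𝓝 0) := by
  refine Tendsto.congr' (sq_ne.mono fun T h => ?_)
    (by simpa using (lft_cp hu).add (inv0.smul (lft_cp hw)))
  simp only [lft_mw hu.toPer hw.toPer, cp_zB, smul_add, inv_smul_smul₀ h]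

theorem tr0 {f : ℝ → WB} {c : ℝ → ℂ} (h : Tendsto (fun T => c T • f T) atTop (𝓝 0)) :
    Tendsto (fun T => c T • End.tr 1 (f T)) atTop (𝓝 0) := by
  simpa [Function.comp_def] using ((End.tr 1).continuous.tendsto 0).comp h

/-- linear growth with the asymptotics `d` -/
structure As (f : ℝ × ℝ → ℝ) (d : WD) : Prop where
  gr : Gr f
  y2 : Tendsto (fun T : ℝ => ((√T : ℝ) : ℂ)⁻¹ • End.tr 1 (jetC f (cp T)).y2) atTop (𝓝 d)
  pi : Tendsto (fun T : ℝ => ((√T : ℝ) : ℂ)⁻¹ •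
    End.tr 1 (((cp T).cyl 0).piJ muCyl (jetC f (cp T)))) atTop (𝓝 0)

theorem as_rem (hu : Decays u) (hw : Decays w)
    (hs : Tendsto (fun T : ℝ => ((√T : ℝ) : ℂ) • lft (cp T).zc (ds u)) atTop (𝓝 0)) :
    As (mw u w) 0 := by
  have p := per_mw hu.toPer hw.toPer
  have d := dec_add hu hw.ds
  have h1 : Tendsto (fun T : ℝ => ((√T : ℝ) : ℂ)⁻¹ • (jetC (mw u w) (cp T)).y2) atTop (𝓝 0) := by
    have := (mw0 hu hw).sub (mw0 hu.dt.dt hw.dt.dt)
    rw [← dt_mw hu.dt.toPer hw.dt.toPer, ← dt_mw hu.toPer hw.toPer, sub_zero] at this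
    simpa only [← smul_sub] using! this
  have h2 : Tendsto (fun T : ℝ => ((√T : ℝ) : ℂ)⁻¹ • (jetC (mw u w) (cp T)).op) atTop (𝓝 0) := by
    refine Tendsto.congr' (sq_ne.mono fun T h => ?_) (by simpa only [add_zero] using hs.add (lft_cp d))
    simp only [jetC, jetG_op, cp_zB, inv_smul_smul₀ h, ds_mw hu.toPer hw.toPer,
      lft_mw hu.ds.toPer d.toPer]
  have h3 : Tendsto (fun T : ℝ => ((√T : ℝ) : ℂ)⁻¹ • (W.C (cp T).zB * (jetC (mw u w) (cp T)).pt))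
      atTop (𝓝 0) := by
    refine Tendsto.congr' ((eventually_ge_atTop 1).mono fun T h => ?_)
      (by simpa using (mw0 hu.ds.dt d.dt).const_smul (1 / 2 : ℂ))
    beta_reduce
    rw [Cyl.zB_pt p (RE.real (cp_real T) h), ds_mw hu.toPer hw.toPer, dt_mw hu.ds.toPer d.toPer,
      smul_comm, one_div]
  refine ⟨⟨_, _, bd_of hu, bd_of hw, rfl⟩, tr0 h1, tr0 (squeeze_zero_norm' ?_ (by
    simpa using (((h2.norm.const_mul 2).add h3.norm).add h1.norm).const_mul (1 + 1)))⟩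
  filter_upwards [eventually_ge_atTop 256] with T hT
  have r := RE.real (cp_real T) (by linarith : 1 ≤ T)
  have := RE.norm_piJ_le (s := (cp T).zB) (RE.cyl_pg (cp_real T) hT) muCyl_le (fun t => by
    rw [r.cyl_io, norm_inv, norm_mul, Complex.norm_ofNat]
    exact inv_le_one_of_one_le₀ (by linarith [r.one_le_norm t])) (fun t => by
    rw [Real.cyl_Om, norm_mul, Complex.norm_ofNat, r.zc_sq, zB_apply, norm_pow]) (p.isJet_jetC r)
  simp only [norm_smul]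
  refine (mul_le_mul_of_nonneg_left this (norm_nonneg _)).trans_eq ?_
  ring

theorem as_main {φ : ℝ → ℝ} (h : ContDiff ℝ ∞ φ) (hp : ∀ θ, φ (θ + 2 * Real.pi) = φ θ) {d : WD}
    (hd : ∀ θ, W.sumL θ d = φ θ) (hm : ∀ m : ℤ, d.c m = 0 ∨ (m : ℝ) ^ 2 = 1) :
    As (mw (fun p => φ p.2) fun _ => 0) ((2 : ℂ) • d) := by
  have b1 := bd_snd h hp
  have b2 : Bd fun _ => 0 := bd_snd (φ := fun _ => 0) contDiff_const fun _ => rfl
  have p := per_mw b1.1 b2.1
  set f := mw (fun p => φ p.2) fun _ => 0 with hf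
  have e1 : ∀ T, (jetC f (cp T)).y = ((√T : ℝ) : ℂ) • cst d := fun T => ext_ev fun t θ => by
    rw [p.ev_jetC_y, ev_smul, ev_cst, hd, cp_zc, hf, mw, add_zero, ofReal_mul]
  have e2 : ∀ T, (jetC f (cp T)).op = ((√T : ℝ) : ℂ) • cst d := fun T => ext_ev fun t θ => by
    rw [p.ev_jetC_op, ev_smul, ev_cst, hd, cp_zc, ofReal_mul, (p.hasDerivAt_ds _ θ).unique
      (((hasDerivAt_id _).mul_const (φ θ)).add_const 0), one_mul]
  refine ⟨⟨_, _, b1, b2, rfl⟩, tendsto_const_nhds.congr' (sq_ne.mono fun T hT => ?_),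
    tr0 (squeeze_zero_norm' (a := fun T : ℝ => T⁻¹ * ‖cst d‖) ?_
      (by simpa using tendsto_inv_atTop_zero.mul_const ‖cst d‖))⟩
  · ext m
    simp only [W.c_smul, c_tr, EJ.c_y2, e1, BoundedContinuousFunction.smul_apply, c_cst_apply,
      smul_eq_mul, br]
    rcases hm m with h0 | h0
    · simp [h0]
    · rw [h0]
      field_simp
      push_cast
      ring
  · filter_upwards [eventually_ge_atTop 256, sq_ne] with T hT h0
    have r := RE.real (cp_real T) (by linarith : 1 ≤ T)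
    refine W.norm_le_of_le fun m => norm_BC_le fun t => ?_
    have h1 := ((cst d).c m).norm_coe_le_norm t
    rw [W.c_smul, BoundedContinuousFunction.smul_apply,
      (RE.cyl_pg (cp_real T) hT).c_piJ (p.isJet_jetC r), e1, e2, la_eq]
    simp only [W.c_smul, BoundedContinuousFunction.smul_apply, c_cst_apply, smul_eq_mul] at h1 ⊢
    rcases hm m with h2 | h2
    · simp only [h2, mul_zero, add_zero, norm_zero]
      positivity
    · have h3 : muCyl m = -(1 / 2) := by rw [muCyl, h2]; norm_num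
      have h4 := norm_nu_le' ((muCyl m : ℂ) / 2 * ((cp T).cyl 0).io t)
      generalize nu _ = ν at h4 ⊢
      rw [h3, r.cyl_io, cp_ze] at h4
      rw [h3, show ∀ x : ℂ, ((√T : ℝ) : ℂ)⁻¹ * ((1 / 4 + ν) * ((√T : ℝ) * x) +
        ((-(1 / 2) : ℝ) : ℂ) / 2 * ((√T : ℝ) * x)) = ν * x from fun x => by
          push_cast; field_simp; ring, norm_mul]
      refine mul_le_mul (h4.trans_eq ?_) h1 (norm_nonneg _) (by positivity)
      simp only [norm_mul, norm_div, norm_inv, Complex.norm_real, Complex.norm_ofNat, norm_neg,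
        Real.norm_eq_abs, abs_of_nonneg (by linarith : 0 ≤ T)]
      norm_num
      ring

/-! ### The decay of the end -/

theorem zs (hv : Decays v) (he : ∀ᶠ s₀ in atTop, ∀ p : ℝ × ℝ, s₀ ≤ p.1 → CylEq v p) :
    Tendsto (fun T : ℝ => ((√T : ℝ) : ℂ) • lft (cp T).zc (ds v)) atTop (𝓝 0) :=
  ((Cyl.op hv he).comp cp_far).congr fun T => cp_zB T _

theorem zst (hv : Decays v) (he : ∀ᶠ s₀ in atTop, ∀ p : ℝ × ℝ, s₀ ≤ p.1 → CylEq v p) :
    Tendsto (fun T : ℝ => ((√T : ℝ) : ℂ) • lft (cp T).zc (dt (ds v))) atTop (𝓝 0) := by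
  obtain ⟨Z, C, hZ, h⟩ := RE.dec farCyl hv he
  refine squeeze_zero_norm' (a := fun T : ℝ => 48 * C * T ^ (-(2 / 5) : ℝ)) ?_
    (by simpa using (tendsto_rpow_neg_atTop (by norm_num : (0 : ℝ) < 2 / 5)).const_mul (48 * C))
  filter_upwards [eventually_ge_atTop Z] with T hT
  obtain ⟨⟨hj, -⟩, h1⟩ := h T _ hT (cp_real T)
  have T0 : 0 < T := by linarith
  have r := RE.real (cp_real T) (by linarith : 1 ≤ T)
  have e : ((cp T).cyl 0).iW ((cp T).pw 0 (-(9 / 10))) p0 = 1 := by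
    rw [Ctr.iW, show ((cp T).cyl 0).g = 0 from rfl, zero_mul, map_zero, neg_zero, ex_zero]
  rw [e, Ctr.nrm, EJ.wt_one, map_one, one_mul, max_le_iff] at h1
  have h2 := AB.norm_smul_pt_cyl one_half_pos (by linarith : 128 / (1 / 2) ≤ T) T0
    (RE.cyl_adm (cp_real T) (by linarith)) hj 0 (z := T) (Real.sqrt_nonneg T) (by
      rw [← Path.cyl_Om, Real.cyl_Om, cp_ze, Real.sq_sqrt T0.le, norm_mul, Complex.norm_ofNat,
        Complex.norm_real, Real.norm_of_nonneg T0.le]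
      nlinarith)
  have e2 : ((√T : ℝ) : ℂ) • lft (cp T).zc (dt (ds v)) =
      cst ((2 : ℂ) • (T : ℂ) • End.tr 0 (jetC v (cp T)).pt) := ext_ev fun t θ => by
    have h0 := r.zc_ne 0
    have h3 := r.zc_sq 0
    rw [ev_smul, hv.ds.dt.toPer.ev_lft (rng_zc _), ev_cst, map_smul, map_smul, sumL_tr,
      hv.toPer.ev_jetC_pt r, ← cp_ze T 0, h3]
    simp only [cp_zc, smul_eq_mul] at h0 ⊢
    push_cast
    field_simp
  have h4 := (norm_tr_apply_le 0 _).trans h1.2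
  have h5 := (norm_tr_apply_le 0 _).trans ((EJ.norm_y2_le _).trans h1.1)
  have h6 : √T * T ^ (-(9 / 10) : ℝ) = T ^ (-(2 / 5) : ℝ) := by
    rw [Real.sqrt_eq_rpow, ← Real.rpow_add T0]
    norm_num
  rw [e2, norm_cst_apply, norm_smul, Complex.norm_ofNat, ← h6]
  nlinarith [mul_le_mul_of_nonneg_left (add_le_add h4 h5) (Real.sqrt_nonneg T)]

/-- a smooth function which agrees with `1 / (1 + x)` near zero -/
def GG (x : ℝ) : ℝ := (1 + x) / ((1 + x) ^ 2 + expNegInvGlue (-(1 / 2) - x))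

theorem GG_sm : ContDiff ℝ ∞ GG := by
  refine (contDiff_const.add contDiff_id).div (((contDiff_const.add contDiff_id).pow 2).add
    (expNegInvGlue.contDiff.comp (contDiff_const.sub contDiff_id))) fun x => ne_of_gt ?_
  rcases eq_or_ne (1 + x) 0 with h | h
  · exact add_pos_of_nonneg_of_pos (sq_nonneg _) (expNegInvGlue.pos_of_pos (by linarith))
  · exact add_pos_of_pos_of_nonneg (by positivity) (expNegInvGlue.nonneg _)

theorem GG_eq {x : ℝ} (h : -(1 / 2) ≤ x) : GG x = (1 + x)⁻¹ := by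
  have : 1 + x ≠ 0 := by linarith
  rw [GG, expNegInvGlue.zero_of_nonpos (by linarith)]
  field_simp
  ring

theorem lft_mul (hu : Per u) (hw : Per w) (γ : Path) :
    lft γ.zc (fun p => u p * w p) = lft γ.zc u * lft γ.zc w := ext_ev fun t θ => by
  rw [ev_mul, (per_mul hu hw).ev_lft (rng_zc γ), hu.ev_lft (rng_zc γ), hw.ev_lft (rng_zc γ),
    ofReal_mul]

theorem mul0 (hu : Per u) (hw : Bd w)
    (h : Tendsto (fun T : ℝ => ((√T : ℝ) : ℂ) • lft (cp T).zc u) atTop (𝓝 0)) :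
    Tendsto (fun T : ℝ => ((√T : ℝ) : ℂ) • lft (cp T).zc fun p => u p * w p) atTop (𝓝 0) := by
  obtain ⟨K, -, hK⟩ := hw.lft_le
  refine squeeze_zero_norm (fun T => ?_) (by simpa only [norm_zero, zero_mul] using h.norm.mul_const K)
  rw [lft_mul hu hw.1, ← smul_mul_assoc]
  exact (norm_mul_le _ _).trans (mul_le_mul_of_nonneg_left (hK _) (norm_nonneg _))

theorem as_rot (hv : Decays v) (he : ∀ᶠ s₀ in atTop, ∀ p : ℝ × ℝ, s₀ ≤ p.1 → CylEq v p)
    {φ ψ : ℝ → ℝ} (h : ContDiff ℝ ∞ φ) (hp : ∀ θ, φ (θ + 2 * Real.pi) = φ θ)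
    (h' : ContDiff ℝ ∞ ψ) (hp' : ∀ θ, ψ (θ + 2 * Real.pi) = ψ θ) :
    As (mw (fun p => dt v p * (GG (v p) * φ p.2)) fun p => ds v p * ((1 + v p) * ψ p.2)) 0 := by
  have b1 := (bd_comp hv GG_sm).mul (bd_snd h hp)
  have b2 := (bd_of hv.dt).mul
    ((bd_comp hv (contDiff_infty_iff_deriv.1 GG_sm).2).mul (bd_snd h hp))
  have d1 := dec_mul hv.dt b1
  refine as_rem d1 (dec_mul hv.ds ((bd_comp hv (G := fun x => 1 + x) (by fun_prop)).mul
    (bd_snd h' hp'))) ?_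
  have p1 := per_mul hv.ds.dt.toPer b1.1
  have p2 := per_mul hv.ds.toPer b2.1
  refine Tendsto.congr (fun T => ?_) (by simpa only [add_zero] using
    (mul0 hv.ds.dt.toPer b1 (zst hv he)).add (mul0 hv.ds.toPer b2 (zs hv he)))
  rw [← smul_add]
  refine congrArg _ (ext_ev fun t θ => ?_)
  rw [ev_add, p1.ev_lft (rng_zc _), p2.ev_lft (rng_zc _), d1.ds.toPer.ev_lft (rng_zc _),
    ← ofReal_add, (d1.toPer.hasDerivAt_ds _ θ).unique ((hv.dt.toPer.hasDerivAt_ds _ θ).mul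
      (((GG_sm.differentiable (by simp) _).hasDerivAt.comp _
        (hv.toPer.hasDerivAt_ds _ θ)).mul_const (φ θ))), hv.toPer.dt_ds]
  congr 1
  simp only
  ring

/-! ### Transfer to the paths of the core -/

open Vale.Agent.P218.H313 Vale.Agent.P218N.H

variable {w₀ : E3 → ℝ} {D : EndData w₀} {zm : ℝ}

/-- the properties of the jets `P n` -/
structure Fam (b : Fin D.b) (zm : ℝ) (P : ℕ → EJ) (d : WD) : Prop where
  jet : ∀ n, ((gam zm 0 n).cyl 0).IsJet (P n)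
  bd : ∃ C, 0 ≤ C ∧ ∀ n, ‖P n‖ ≤ C * TT zm n ^ 2
  y2 : Tendsto (fun n => ((√(TT zm n) : ℝ) : ℂ)⁻¹ • End.tr 1 (P n).y2) atTop (𝓝 d)
  pi : Tendsto (fun n => ((√(TT zm n) : ℝ) : ℂ)⁻¹ • piT (D := D) (gam zm 0 n) (.inr b) (P n))
    atTop (𝓝 0)

theorem As.fam {f : ℝ × ℝ → ℝ} {d : WD} (h : As f d) (H : PathF D zm) (hz : 256 ≤ zm)
    (b : Fin D.b) : Fam b zm (fun n => jetC f (gam zm 0 n)) d := by
  have p : Per f := let ⟨_, _, hu, hw, e⟩ := h.gr; e ▸ per_mw hu.1 hw.1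
  have hT : ∀ n, 256 ≤ TT zm n := fun n => by
    rw [TT]; linarith [Nat.cast_nonneg (α := ℝ) n]
  have r : ∀ n, (gam zm 0 n).Real 1 := fun n => RE.real (H.real 0 n) (by push_cast; linarith)
  have r' : ∀ n, (cp (TT zm n)).Real 1 := fun n => RE.real (cp_real _) (by linarith [hT n])
  have e : ∀ n, (gam zm 0 n).ze 1 = (cp (TT zm n)).ze 1 := fun n => by
    rw [cp_ze, H.ze, H.hi 0 n 1 n.zero_le (sub_le_self _ (by positivity))]
  have q := fun n => RE.eqAt_jetC p (r n) (r' n) (e n)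
  have t : Tendsto (TT zm) atTop atTop :=
    tendsto_atTop_add_const_right _ _ (tendsto_atTop_add_const_left _ _ tendsto_natCast_atTop_atTop)
  obtain ⟨K, K0, hK⟩ := h.gr.jet_le
  refine ⟨fun n => p.isJet_jetC (r n), ⟨K, K0, fun n => hK _ _ (r n) (by linarith [hT n])
    (norm_BC_le fun s => ?_)⟩, (h.y2.comp t).congr fun n => congrArg _ (q n).1.symm,
    (h.pi.comp t).congr fun n => congrArg _ ((q n).piJ (RE.cyl_pg (H.real 0 n)
      (by push_cast; linarith)) (RE.cyl_pg (cp_real _) (hT n)) (p.isJet_jetC (r n))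
        (p.isJet_jetC (r' n)) (by rw [(r n).cyl_io, (r' n).cyl_io, e])).symm⟩
  rw [zB_apply, Complex.norm_real, zc, H.ze, ofReal_re, Real.norm_of_nonneg (Real.sqrt_nonneg _)]
  exact Real.sqrt_le_iff.2 ⟨by linarith [hT n], (H.mem 0 n s n.zero_le).2.trans (by
    nlinarith [hT n])⟩

theorem Fam.comb {b : Fin D.b} {P Q : ℕ → EJ} {d e : WD} (h : Fam b zm P d) (h' : Fam b zm Q e)
    (H : PathF D zm) (x y : ℂ) : Fam b zm (fun n => x • P n + y • Q n) (x • d + y • e) := by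
  obtain ⟨C, C0, hC⟩ := h.bd
  obtain ⟨C', C0', hC'⟩ := h'.bd
  refine ⟨fun n => ((h.jet n).smul x).add ((h'.jet n).smul y),
    ⟨‖x‖ * C + ‖y‖ * C', by positivity, fun n => (norm_add_le _ _).trans ?_⟩,
    ((h.y2.const_smul x).add (h'.y2.const_smul y)).congr fun n => ?_,
    Tendsto.congr (fun n => ?_)
      (by simpa only [smul_zero, add_zero] using (h.pi.const_smul x).add (h'.pi.const_smul y))⟩
  · rw [norm_smul, norm_smul]
    nlinarith [mul_le_mul_of_nonneg_left (hC n) (norm_nonneg x),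
      mul_le_mul_of_nonneg_left (hC' n) (norm_nonneg y)]
  · simp only [EJ.add_y2, EJ.smul_y2, map_add, map_smul, smul_add, smul_comm x, smul_comm y]
  · rw [(H.piT_lin 0 n _).map_add, (H.piT_lin 0 n _).map_smul, (H.piT_lin 0 n _).map_smul, smul_add,
      smul_comm x, smul_comm y]

theorem sumL_Rc (c : ℂ × ℂ) (θ : ℝ) :
    W.sumL θ (Rc c) = 2 * (c.1 * Real.cos θ + c.2 * Real.sin θ) := by
  rw [Rc, map_add, W.sumL_one1, W.sumL_one1]
  simp only [Int.cast_one, Int.cast_neg, one_mul, neg_mul, smul_eq_mul, ofReal_cos, ofReal_sin]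
  rw [← neg_mul, exp_mul_I, exp_mul_I, Complex.cos_neg, Complex.sin_neg]
  linear_combination (-2 * c.2 * Complex.sin θ) * I_mul_I

theorem one (hw : Shr w₀) (D : EndData w₀) (b : Fin D.b) (H : PathF D zm) (hz : 256 ≤ zm)
    (hs : ∀ p : ℝ × ℝ, √zm ≤ p.1 → |D.v b p| ≤ 1 / 2) (α β : ℝ) :
    ∃ P, Fam b zm P (-(((√2)⁻¹ : ℝ) : ℂ) • Rc (α, β)) ∧
      ∀ n t θ, ev (P n).y t θ = phR b (α, β) (zr zm 0 n t, θ) := by
  have hv := D.vdec b
  have a1 := as_main (φ := fun θ => (-(β * Real.sin θ) - α * Real.cos θ) / √2) (by fun_prop)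
    (fun θ => by simp) (d := (-(((√2)⁻¹ : ℝ) : ℂ) / 2) • Rc (α, β)) (fun θ => by
      rw [map_smul, sumL_Rc, smul_eq_mul]; push_cast; ring) fun m => by
      by_cases h1 : m = 1
      · simp [h1]
      · by_cases h2 : m = -1
        · simp [h2]
        · simp [Rc, W.c_one1, h1, h2]
  have a2 := as_rot hv (eventually_cylEq hw D b)
    (φ := fun θ => (β * Real.cos θ - α * Real.sin θ) / √2) (by fun_prop) (fun θ => by simp)
    (ψ := fun θ => √2 * (-(β * Real.sin θ) - α * Real.cos θ)) (by fun_prop) (fun θ => by simp)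
  have p : ∀ {f d}, As f d → Per f := fun h => let ⟨_, _, hu, hw, e⟩ := h.gr; e ▸ per_mw hu.1 hw.1
  have a3 := (a1.fam H hz b).comb (a2.fam H hz b) H 1 1
  simp only [one_smul, add_zero] at a3
  rw [smul_smul, mul_div_cancel₀ _ (two_ne_zero' ℂ)] at a3
  refine ⟨_, a3, fun n t θ => ?_⟩
  have z1 := (H.mem 0 n t n.zero_le).1
  rw [Nat.cast_zero, add_zero] at z1
  have z0 : 0 < zr zm 0 n t := by linarith
  obtain ⟨e1, e2⟩ := LagS.jet_comp hv.toPer (Real.hasDerivAt_sqrt z0.ne') θ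
  have e0 : jy (D := D) (.inr b) (zr zm 0 n t, θ) 0 = D.v b (√(zr zm 0 n t), θ) := rfl
  have e3 : jy (D := D) (.inr b) (zr zm 0 n t, θ) 1 = _ := e1
  have e4 : jy (D := D) (.inr b) (zr zm 0 n t, θ) 2 = _ := e2
  have h1 := (abs_le.1 (hs (√(zr zm 0 n t), θ) (Real.sqrt_le_sqrt z1))).1
  rw [EJ.add_y, ev_add, (p a1).ev_jetC_y, (p a2).ev_jetC_y, phR, e0, e3, e4, zc, H.ze, ofReal_re]
  simp only [mw, GG_eq h1]
  have s0 : ((√(zr zm 0 n t) : ℝ) : ℂ) ≠ 0 := ofReal_ne_zero.2 (Real.sqrt_pos.2 z0).ne'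
  have s2 : ((√2 : ℝ) : ℂ) ≠ 0 := by simp
  have s3 : ((√2 : ℝ) : ℂ) ^ 2 = 2 := by rw [← ofReal_pow, Real.sq_sqrt zero_le_two, ofReal_ofNat]
  push_cast
  generalize ((√(zr zm 0 n t) : ℝ) : ℂ) = z at s0 ⊢
  generalize ((√2 : ℝ) : ℂ) = q at s2 s3 ⊢
  generalize (1 + (D.v b (√(zr zm 0 n t), θ) : ℂ)) = x
  rw [div_eq_mul_inv _ x]
  generalize x⁻¹ = y
  field_simp
  rw [s3]
  ring

theorem exists_pR {w : E3 → ℝ} (hw : Shr w) (D : EndData w) (b : Fin D.b) : ∃ z1 : ℝ, ∀ zm, z1 ≤ zm → PathF D zm →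
  ∃ (pR : ℕ → ℂ × ℂ →L[ℂ] EJ) (C ρ : ℝ), 0 ≤ C ∧ ρ ≠ 0 ∧ (∀ n c, ((gam zm 0 n).cyl 0).IsJet (pR n c)) ∧
    (∀ n c t θ, ev (pR n c).y t θ = phR b c (zr zm 0 n t, θ)) ∧ (∀ n, ‖pR n‖ ≤ C * TT zm n ^ 2) ∧
    (∀ c, Tendsto (fun n => ((√(TT zm n) : ℝ) : ℂ)⁻¹ • End.tr 1 (pR n c).y2) atTop (𝓝 (-(ρ : ℂ) • Rc c))) ∧
    ∀ c, Tendsto (fun n => ((√(TT zm n) : ℝ) : ℂ)⁻¹ • piT (D := D) (gam zm 0 n) (.inr b) (pR n c)) atTop (𝓝 0) := by
  obtain ⟨z1, h1⟩ := eventually_atTop.1 ((Real.tendsto_sqrt_atTop.eventually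
    ((D.vdec b).abs_le one_half_pos)).and (eventually_ge_atTop 256))
  refine ⟨z1, fun zm hz H => ?_⟩
  obtain ⟨P, hP, eP⟩ := one hw D b H (h1 zm hz).2 (h1 zm hz).1 1 0
  obtain ⟨Q, hQ, eQ⟩ := one hw D b H (h1 zm hz).2 (h1 zm hz).1 0 1
  obtain ⟨C, C0, hC⟩ := hP.bd
  obtain ⟨C', C0', hC'⟩ := hQ.bd
  have k := fun c : ℂ × ℂ => hP.comb hQ H c.1 c.2
  refine ⟨fun n => (ContinuousLinearMap.fst ℂ ℂ ℂ).smulRight (P n) +
    (ContinuousLinearMap.snd ℂ ℂ ℂ).smulRight (Q n), C + C', (√2)⁻¹, by positivity, by positivity,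
    fun n c => (k c).jet n, fun n c t θ => ?_, fun n => ?_, fun c => ?_, fun c => (k c).pi⟩
  · change ev (c.1 • P n + c.2 • Q n).y t θ = _
    rw [EJ.add_y, EJ.smul_y, EJ.smul_y, ev_add, ev_smul, ev_smul, eP, eQ]
    simp only [phR, ofReal_one, ofReal_zero]
    ring
  · refine ContinuousLinearMap.opNorm_le_bound _ (by positivity) fun c => ?_
    change ‖c.1 • P n + c.2 • Q n‖ ≤ _
    refine (norm_add_le _ _).trans ?_
    rw [norm_smul, norm_smul]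
    nlinarith [mul_le_mul (norm_fst_le c) (hC n) (norm_nonneg _) (norm_nonneg _),
      mul_le_mul (norm_snd_le c) (hC' n) (norm_nonneg _) (norm_nonneg _)]
  · refine (k c).y2.trans_eq (congrArg _ (W.ext_sumL fun θ => ?_))
    simp only [map_add, map_smul, sumL_Rc, smul_eq_mul, ofReal_one, ofReal_zero]
    ring

end Vale.Agent.P218N.Core.CylR
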