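import Vale.Agent.P218N.Core.Jet
import Vale.Agent.P218N.End.ApiTr

/-! The universal real path: facts about functions of one real variable. -/

open Set Filter Topology

noncomputable section

namespace Vale.Agent.P218N.Core.PathP

open Vale.Agent.P218N.End Vale.Agent.P218N.J

variable {zm t x y ζ : ℝ} {i k n : ℕ}

theorem tau_succ (k : ℕ) : tau (k + 1) = tau k + (1 / 2) ^ (k + 1) := by
  unfold tau
  ring

theorem tau_mono : Monotone tau := monotone_nat_of_le_succ fun k => by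
  rw [tau_succ]
  exact le_add_of_nonneg_right (by positivity)

theorem tau_zero : tau 0 = 0 := by simp [tau]

theorem tau_nonneg (k : ℕ) : 0 ≤ tau k := tau_zero.ge.trans (tau_mono k.zero_le)

theorem tau_le_one (k : ℕ) : tau k ≤ 1 := sub_le_self _ (by positivity)

theorem sm_lo (h : x ≤ 0) : sm x = 0 := by simp [sm, PolyP.cl_of_nonpos h]

theorem sm_hi (h : 1 ≤ x) : sm x = 1 := by norm_num [sm, PolyP.cl_of_one_le h]

theorem sm_mem (x : ℝ) : sm x ∈ Icc (0 : ℝ) 1 :=
  ⟨PolyP.sm_zero.ge.trans (PolyP.sm_le le_rfl (cl_mem x).1 (cl_mem x).2),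
    (PolyP.sm_le (cl_mem x).1 (cl_mem x).2 le_rfl).trans PolyP.sm_one.le⟩

theorem sm'_lo (h : x ≤ 0) : sm' x = 0 := by simp [sm', PolyP.cl_of_nonpos h]

theorem sm'_hi (h : 1 ≤ x) : sm' x = 0 := by simp [sm', PolyP.cl_of_one_le h]

theorem sm'_mem (x : ℝ) : sm' x ∈ Icc (0 : ℝ) 6 := by
  have := cl_mem x
  unfold sm'
  constructor <;> nlinarith [this.1, this.2]

theorem hasDerivAt_sm (x : ℝ) : HasDerivAt sm (sm' x) x := PolyP.hasDerivAt_smcl x

theorem continuous_sm' : Continuous sm' := by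
  have := continuous_cl
  unfold sm'
  fun_prop

theorem smi_mem (y : ℝ) : smi y ∈ Icc (0 : ℝ) 1 := by
  have h1 := Real.arcsin_mem_Icc (1 - 2 * y)
  have h2 := Real.pi_pos
  have h3 := Real.sin_le_sin_of_le_of_le_pi_div_two (x := Real.arcsin (1 - 2 * y) / 3)
    (y := Real.pi / 6) (by linarith [h1.1]) (by linarith) (by linarith [h1.2])
  have h4 := Real.sin_le_sin_of_le_of_le_pi_div_two (y := Real.arcsin (1 - 2 * y) / 3)
    (x := -(Real.pi / 6)) (by linarith) (by linarith [h1.2]) (by linarith [h1.1])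
  rw [Real.sin_neg] at h4
  rw [Real.sin_pi_div_six] at h3 h4
  unfold smi
  constructor <;> linarith

theorem sm_smi (h : y ∈ Icc (0 : ℝ) 1) : sm (smi y) = y := by
  have h1 := Real.sin_three_mul (Real.arcsin (1 - 2 * y) / 3)
  rw [mul_div_cancel₀ _ three_ne_zero,
    Real.sin_arcsin (by linarith [h.2]) (by linarith [h.1])] at h1
  rw [sm, cl_of_mem (smi_mem y), smi]
  linear_combination (1 / 2) * h1

theorem smi_sm (h : x ∈ Icc (0 : ℝ) 1) : smi (sm x) = x := by
  have h1 := sm_smi (sm_mem x)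
  have h2 := smi_mem (sm x)
  have e : ∀ u ∈ Icc (0 : ℝ) 1, sm u = PolyP.sm u := fun u hu => by rw [sm, cl_of_mem hu]; rfl
  rw [e _ h2] at h1
  rcases lt_trichotomy (smi (sm x)) x with a | a | a
  · exact absurd (h1.trans (e x h)) (PolyP.sm_lt h2.1 a h.2).ne
  · exact a
  · exact absurd (h1.trans (e x h)) (PolyP.sm_lt h.1 a h2.2).ne'

theorem smi_zero : smi 0 = 0 := by
  simpa [sm_lo] using smi_sm (x := 0) ⟨le_rfl, zero_le_one⟩

theorem smi_one : smi 1 = 1 := by
  simpa [sm_hi] using smi_sm (x := 1) ⟨zero_le_one, le_rfl⟩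

theorem pow_half (i : ℕ) : (2 : ℝ) ^ i * (1 / 2) ^ i = 1 := by
  rw [← mul_pow]
  norm_num

theorem ar_lo (h : t ≤ tau i) : 2 ^ (i + 1) * (t - tau i) ≤ 0 :=
  mul_nonpos_of_nonneg_of_nonpos (by positivity) (sub_nonpos.2 h)

theorem ar_hi (h : tau (i + 1) ≤ t) : 1 ≤ 2 ^ (i + 1) * (t - tau i) := by
  rw [← pow_half (i + 1)]
  exact mul_le_mul_of_nonneg_left (by linarith [tau_succ i]) (by positivity)

theorem ar_mem (h : t ∈ Icc (tau i) (tau (i + 1))) : 2 ^ (i + 1) * (t - tau i) ∈ Icc (0 : ℝ) 1 := by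
  refine ⟨mul_nonneg (by positivity) (sub_nonneg.2 h.1), ?_⟩
  rw [← pow_half (i + 1)]
  exact mul_le_mul_of_nonneg_left (by linarith [tau_succ i, h.2]) (by positivity)

theorem cover {f : ℕ → ℝ} (h : k ≤ n) (ht : t ∈ Icc (f k) (f (n + 1))) :
    ∃ i, k ≤ i ∧ i ≤ n ∧ t ∈ Icc (f i) (f (i + 1)) := by
  induction n, h using Nat.le_induction with
  | base => exact ⟨k, le_rfl, le_rfl, ht⟩
  | succ n h ih =>
    rcases le_total t (f (n + 1)) with a | a
    · obtain ⟨i, h1, h2, h3⟩ := ih ⟨ht.1, a⟩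
      exact ⟨i, h1, by omega, h3⟩
    · exact ⟨n + 1, by omega, le_rfl, a, ht.2⟩

theorem zr_piece (h1 : k ≤ i) (h2 : i ≤ n) (ht : t ∈ Icc (tau i) (tau (i + 1))) :
    zr zm k n t = zm + i + sm (2 ^ (i + 1) * (t - tau i)) := by
  rw [zr, ← Finset.Ico_add_one_right_eq_Icc, ← Finset.sum_Ico_consecutive _ h1 (by omega),
    Finset.sum_eq_sum_Ico_succ_bot (by omega : i < n + 1),
    Finset.sum_congr rfl (g := fun _ => 1) fun j hj => sm_hi (ar_hi
      ((tau_mono (Finset.mem_Ico.1 hj).2).trans ht.1)),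
    Finset.sum_eq_zero fun j hj => sm_lo (ar_lo (ht.2.trans (tau_mono (Finset.mem_Ico.1 hj).1)))]
  simp only [Finset.sum_const, Nat.card_Ico, nsmul_eq_mul, Nat.cast_sub h1]
  ring

theorem tt_piece (h : ζ ∈ Icc (zm + i) (zm + (i + 1 : ℕ))) :
    tt zm ζ = tau i + (1 / 2) ^ (i + 1) * smi (ζ - zm - i) := by
  have h1 := h.1
  have h2 := h.2
  push_cast at h2
  rw [tt, tsum_eq_sum (s := Finset.range (i + 1)) fun j hj => ?_, Finset.sum_range_succ,
    cl_of_mem ⟨by linarith, by linarith⟩, Finset.sum_congr rfl (g := fun j => (1 / 2) ^ (j + 1))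
      fun j hj => ?_]
  · congr 1
    clear h h1 h2
    induction i with
    | zero => simp [tau]
    | succ i ih => rw [Finset.sum_range_succ, ih, tau_succ]
  · have : (j : ℝ) + 1 ≤ i := by exact_mod_cast Finset.mem_range.1 hj
    rw [PolyP.cl_of_one_le (by linarith), smi_one, mul_one]
  · have : (i : ℝ) + 1 ≤ j := by exact_mod_cast not_lt.1 (mt Finset.mem_range.2 hj)
    rw [PolyP.cl_of_nonpos (by linarith), smi_zero, mul_zero]

theorem continuous_tt (zm : ℝ) : Continuous (tt zm) := by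
  have h : Continuous smi := by
    have := Real.continuous_arcsin
    unfold smi
    fun_prop
  have := continuous_cl
  refine continuous_tsum (u := fun j : ℕ => (1 / 2 : ℝ) ^ (j + 1)) (fun j => by fun_prop)
    ((summable_nat_add_iff 1).2 summable_geometric_two) fun j ζ => ?_
  rw [Real.norm_of_nonneg (mul_nonneg (by positivity) (smi_mem _).1)]
  exact mul_le_of_le_one_right (by positivity) (smi_mem _).2

theorem clp_apply (k n : ℕ) (t : ℝ) : clp k n t = max (tau k) (min t (tau (n + 1))) := rfl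

theorem clp_mem (h : k ≤ n) (t : ℝ) : clp k n t ∈ Icc (tau k) (tau (n + 1)) :=
  ⟨le_max_left _ _, max_le (tau_mono (by omega)) (min_le_right _ _)⟩

theorem clp_of_mem (h : t ∈ Icc (tau k) (tau (n + 1))) : clp k n t = t := by
  rw [clp_apply, min_eq_left h.2, max_eq_right h.1]

theorem clp_lo (ht : t ≤ tau k) : clp k n t = tau k := by
  rw [clp_apply, max_eq_left ((min_le_left _ _).trans ht)]

theorem clp_hi (h : k ≤ n) (ht : tau (n + 1) ≤ t) : clp k n t = tau (n + 1) := by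
  rw [clp_apply, min_eq_right ht, max_eq_right (tau_mono (by omega))]

theorem zr_lo (ht : t ≤ tau k) : zr zm k n t = zm + k := by
  rw [zr, Finset.sum_eq_zero fun j hj =>
    sm_lo (ar_lo (ht.trans (tau_mono (Finset.mem_Icc.1 hj).1))), add_zero]

theorem zr_hi (h : k ≤ n) (ht : tau (n + 1) ≤ t) : zr zm k n t = TT zm n := by
  rw [zr, TT, Finset.sum_congr rfl (g := fun _ => 1) fun j hj => sm_hi (ar_hi
    ((tau_mono (Nat.succ_le_succ (Finset.mem_Icc.1 hj).2)).trans ht))]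
  simp only [Finset.sum_const, Nat.card_Icc, nsmul_eq_mul, Nat.cast_sub (by omega : k ≤ n + 1)]
  push_cast
  ring

theorem zr_clp_self (h : k ≤ n) (t : ℝ) : zr zm k n (clp k n t) = zr zm k n t := by
  rcases le_total t (tau k) with a | a
  · rw [clp_lo a, zr_lo a, zr_lo le_rfl]
  rcases le_total t (tau (n + 1)) with b | b
  · rw [clp_of_mem ⟨a, b⟩]
  · rw [clp_hi h b, zr_hi h b, zr_hi h le_rfl]

theorem zr_clp {k' n' : ℕ} (h1 : k' ≤ k) (h : k ≤ n) (h2 : n ≤ n') (t : ℝ) :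
    zr zm k' n' (clp k n t) = zr zm k n t := by
  obtain ⟨i, a, b, c⟩ := cover h (clp_mem h t)
  rw [← zr_clp_self h t, zr_piece a b c, zr_piece (h1.trans a) (b.trans h2) c]

theorem zr_mem (h : k ≤ n) (t : ℝ) : zr zm k n t ∈ Icc (zm + k) (TT zm n) := by
  obtain ⟨i, a, b, c⟩ := cover h (clp_mem h t)
  have a' : (k : ℝ) ≤ i := by exact_mod_cast a
  have b' : (i : ℝ) ≤ n := by exact_mod_cast b
  have := sm_mem (2 ^ (i + 1) * (clp k n t - tau i))
  rw [← zr_clp_self h t, zr_piece a b c, TT]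
  constructor <;> linarith [this.1, this.2]

theorem zr_tt (h : k ≤ n) (hζ : ζ ∈ Icc (zm + k) (TT zm n)) : zr zm k n (tt zm ζ) = ζ := by
  obtain ⟨i, a, b, c⟩ := cover (f := fun i : ℕ => zm + i) h (t := ζ)
    (by simpa [TT, add_assoc] using hζ)
  have h1 := smi_mem (ζ - zm - i)
  have h2 := c.2
  have h3 : (0 : ℝ) < (1 / 2) ^ (i + 1) := by positivity
  push_cast at h2
  rw [zr_piece a b (t := tt zm ζ), tt_piece c, add_sub_cancel_left, ← mul_assoc, pow_half, one_mul,
    sm_smi ⟨by linarith [c.1], by linarith⟩]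
  · ring
  · rw [tt_piece c, tau_succ]
    constructor <;> nlinarith [h1.1, h1.2]

theorem tt_zr (h : k ≤ n) (t : ℝ) : tt zm (zr zm k n t) = clp k n t := by
  obtain ⟨i, a, b, c⟩ := cover h (clp_mem h t)
  have h1 := sm_mem (2 ^ (i + 1) * (clp k n t - tau i))
  rw [← zr_clp_self h t, zr_piece a b c, tt_piece (i := i) ⟨by linarith [h1.1], by
    push_cast; linarith [h1.2]⟩, show ∀ s : ℝ, zm + i + s - zm - i = s from fun s => by ring,
    smi_sm (ar_mem c), ← mul_assoc, mul_comm _ ((2 : ℝ) ^ (i + 1)), pow_half]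
  ring

theorem hasDerivAt_zr (zm : ℝ) (k n : ℕ) (t : ℝ) : HasDerivAt (zr zm k n) (gr k n t) t :=
  (HasDerivAt.fun_sum fun j _ => ((hasDerivAt_sm _).comp t
    (((hasDerivAt_id t).sub_const (tau j)).const_mul (2 ^ (j + 1)))).congr_deriv
      (by simp [mul_comm])).const_add _

theorem continuous_zr (zm : ℝ) (k n : ℕ) : Continuous (zr zm k n) :=
  continuous_iff_continuousAt.2 fun t => (hasDerivAt_zr zm k n t).continuousAt

theorem continuous_gr (k n : ℕ) : Continuous (gr k n) := by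
  have := continuous_sm'
  unfold gr
  fun_prop

theorem gr_nonneg (k n : ℕ) (t : ℝ) : 0 ≤ gr k n t :=
  Finset.sum_nonneg fun _ _ => mul_nonneg (by positivity) (sm'_mem _).1

theorem gr_lo (ht : t ≤ tau k) : gr k n t = 0 := Finset.sum_eq_zero fun j hj => by
  rw [sm'_lo (ar_lo (ht.trans (tau_mono (Finset.mem_Icc.1 hj).1))), mul_zero]

theorem gr_hi (ht : tau (n + 1) ≤ t) : gr k n t = 0 := Finset.sum_eq_zero fun j hj => by
  rw [sm'_hi (ar_hi ((tau_mono (Nat.succ_le_succ (Finset.mem_Icc.1 hj).2)).trans ht)), mul_zero]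

theorem gam_ze (zm : ℝ) (k n : ℕ) (t : ℝ) : (gam zm k n).ze t = (zr zm k n t : ℝ) := by
  refine mkB_apply (f := fun t => (zr zm k n t : ℂ))
    (Complex.continuous_ofReal.comp (continuous_zr zm k n))
    (C := |zm + k| + ∑ _j ∈ Finset.Icc k n, 1) (fun t => ?_) t
  rw [Complex.norm_real, Real.norm_eq_abs]
  refine (abs_add_le _ _).trans (add_le_add le_rfl ?_)
  rw [abs_of_nonneg (Finset.sum_nonneg fun _ _ => (sm_mem _).1)]
  exact Finset.sum_le_sum fun _ _ => (sm_mem _).2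

theorem gam_g (zm : ℝ) (k n : ℕ) (t : ℝ) : (gam zm k n).g t = (gr k n t : ℝ) := by
  refine mkB_apply (f := fun t => (gr k n t : ℂ))
    (Complex.continuous_ofReal.comp (continuous_gr k n))
    (C := ∑ j ∈ Finset.Icc k n, 2 ^ (j + 1) * 6) (fun t => ?_) t
  rw [Complex.norm_real, Real.norm_of_nonneg (gr_nonneg k n t)]
  exact Finset.sum_le_sum fun _ _ => mul_le_mul_of_nonneg_left (sm'_mem _).2 (by positivity)

theorem gam_real (zm : ℝ) (k n : ℕ) : (gam zm k n).RealP (zm + k) := by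
  refine ⟨⟨fun t ht => ?_, fun t => ?_⟩, ?_, fun t => ?_, fun t => ?_⟩
  · rw [gam_g]
    rcases not_and_or.1 ht with h | h
    · rw [gr_lo ((not_le.1 h).le.trans (tau_nonneg k)), Complex.ofReal_zero]
    · rw [gr_hi ((tau_le_one _).trans (not_le.1 h).le), Complex.ofReal_zero]
  · rw [show ((gam zm k n).ze : ℝ → ℂ) = _ from funext (gam_ze zm k n), gam_g]
    exact (hasDerivAt_zr zm k n t).ofReal_comp
  · rw [gam_ze, zr_lo (tau_nonneg k)]
  · rw [gam_g, Complex.ofReal_im]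
  · rw [gam_g, Complex.ofReal_re]
    exact gr_nonneg k n t

theorem int_zr (h : k ≤ n) (f : ℝ → ℂ) (hf : ContinuousOn f (Icc (zm + k) (TT zm n))) :
    ∫ t in (0 : ℝ)..1, (gr k n t : ℝ) * f (zr zm k n t) = ∫ ζ in (zm + k)..TT zm n, f ζ := by
  have := intervalIntegral.integral_deriv_smul_comp'' (a := 0) (b := 1) (f := zr zm k n)
    (f' := gr k n) (g := f) (continuous_zr zm k n).continuousOn
    (fun t _ => (hasDerivAt_zr zm k n t).hasDerivWithinAt) (continuous_gr k n).continuousOn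
    (hf.mono (by rintro _ ⟨t, -, rfl⟩; exact zr_mem h t))
  rw [zr_lo (tau_nonneg k), zr_hi h (tau_le_one _)] at this
  exact this

end Vale.Agent.P218N.Core.PathP
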