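import Vale.Agent.P218N.Core.Defs
import Vale.Agent.P218N.Core.PathA

/-! The universal real path: contours, restriction of jets, the equations. -/

open Set Filter Topology
open scoped ContDiff ComplexConjugate

noncomputable section

namespace Vale.Agent.P218N.Core.PathP

open Vale.Agent.P218.H313 Vale.Agent.P218N.H Vale.Agent.P218N.End Vale.Agent.P218N.J

variable {w : E3 → ℝ} {D : EndData w} {zm T : ℝ} {γ γ' : Path} {k n k' n' : ℕ}

/-! ### Contours along real paths -/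

/-- the value of `1/Ω` -/
def ioE : En D → ℂ → ℂ
  | .inl _, z => z⁻¹ * z⁻¹
  | .inr _, z => z⁻¹ * 2⁻¹

theorem ctr_g (γ : Path) (e : En D) : (ctr γ e).g = γ.g := by cases e <;> rfl

theorem admP0 (h : γ.RealP T) (hT : 1000 ≤ T) : AdmP (1 / 2) T T 0 γ :=
  h.admP (P := (γ.ze 1).re) (by linarith) (fun t => (le_re_of_dir one_pos h.ok h.dir t).2)
    (by rw [norm_zero]; exact one_div_nonneg.2 (by linarith [h.T_le 1]))

theorem cv0 (h : γ.RealP T) (hT : 1000 ≤ T) : γ.CV 0 :=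
  admP_cv (h.one_le (by linarith)) (by linarith) (admP0 h hT)

theorem ctr_io (h : γ.RealP T) (hT : 1000 ≤ T) (e : En D) (t : ℝ) :
    (ctr γ e).io t = ioE e (γ.ze t) := by
  cases e with
  | inl i => exact h.cone_io (by linarith) t
  | inr b => exact ((cv0 h hT).io t).trans (by simp [ioE, J.Om, rh, mul_comm])

theorem ctr_pg (h : γ.RealP T) (hT : 1000 ≤ T) (e : En D) : (ctr γ e).PG (mu e) := by
  cases e with
  | inl i => exact h.cone_pg (by linarith) _
  | inr b => exact admP_pg' one_half_pos (h.one_le (by linarith)) (by linarith) (admP0 h hT)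

theorem ctr_ok (h : γ.RealP T) (hT : 1000 ≤ T) (e : En D) : (ctr γ e).Ok := by
  cases e with
  | inr b => exact (cv0 h hT).ok h.ok
  | inl i =>
    refine ⟨h.ok.spt, BoundedContinuousFunction.ext (ctr_pg h hT (.inl i)).inv, fun t => ?_⟩
    have h0 := (cv0 h hT).ze_ne t
    have h1 : HasDerivAt (binv γ.ze) (-γ.g t / γ.ze t ^ 2) t := by
      rw [show (binv γ.ze : ℝ → ℂ) = _ from funext (cv0 h hT).iz]
      exact (h.ok.der t).inv h0
    refine (h1.mul h1).congr_deriv ?_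
    simp only [ctr, Path.cone, BoundedContinuousFunction.smul_apply,
      BoundedContinuousFunction.mul_apply, (cv0 h hT).iz, smul_eq_mul]
    field_simp
    ring

theorem io_le (h : γ.RealP T) (hT : 1000 ≤ T) (e : En D) : ‖(ctr γ e).io‖ ≤ 1 :=
  norm_BC_le fun t => by
    have h1 : ‖(γ.ze t)⁻¹‖ ≤ 1 := by
      rw [norm_inv]
      exact inv_le_one_of_one_le₀ (h.one_le (by linarith) t)
    rw [ctr_io h hT]
    cases e with
    | inl i => exact (norm_mul_le _ _).trans (mul_le_one₀ h1 (norm_nonneg _) h1)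
    | inr b => exact (norm_mul_le _ _).trans (mul_le_one₀ h1 (norm_nonneg _) (by norm_num))

theorem isRl (h : γ.RealP T) : γ.IsRl := Path.isRl_iff.2 ⟨h.im_ze, h.im⟩

theorem ctr_cj (h : γ.RealP T) (e : En D) : (ctr γ e).cj = ctr γ e := by
  cases e with
  | inl i => exact (isRl h).cone
  | inr b => exact_mod_cast (isRl h).cyl 0

theorem mu_neg (e : En D) (m : ℤ) : mu e (-m) = mu e m := by
  cases e with
  | inl i => exact muCone_neg _ m
  | inr b => exact muCyl_neg m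

theorem cj_piJ {Γ : Ctr} {μ : ℤ → ℝ} (hμ : ∀ m, μ (-m) = μ m) (h : Γ.PG μ) (j : EJ) :
    W.cj (Γ.piJ μ j) = Γ.cj.piJ μ j.cj := by
  have e : ∀ m, Γ.cj.nuB (μ m) = star (Γ.nuB (μ m)) := fun m => by
    rw [Ctr.nuB, Ctr.nuB, Ctr.kk_cj, star_nem fun t => conj_nu (h.slit m t)]
  unfold Ctr.piJ
  rw [W.cj_add, W.cj_add, W.cj_add, W.cj_smul,
    cj_mult fun m => by simp [hμ, br_neg, map_ofNat],
    W.cj_diag (T' := fun m => if m = 0 then ContinuousLinearMap.mul ℂ BC (Γ.cj.nuB (μ m)) else 0)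
      fun m x => by
        by_cases hm : m = 0
        · simp [hm, e 0]
        · simp [hm],
    W.cj_diag (T' := fun m => ContinuousLinearMap.mul ℂ BC
      (((m : ℂ) * Complex.I)⁻¹ • (Γ.cj.Om * Γ.cj.nuB (μ m)))) fun m x => by
        rw [e m, hμ]
        simp [Ctr.cj]]
  simp [map_ofNat]

theorem piT_lin (γ : Path) (e : En D) : IsLinearMap ℂ (piT γ e) := by
  refine ⟨fun a b => ?_, fun z a => ?_⟩
  · simp only [piT, Ctr.piJ, EJ.add_op, EJ.add_pt, EJ.add_y2, map_add, smul_add]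
    abel
  · simp only [piT, Ctr.piJ, EJ.smul_op, EJ.smul_pt, EJ.smul_y2, map_add, map_smul, smul_add,
      smul_comm z]

theorem same (h : γ.RealP T) {Γ : Ctr} (hg : Γ.g = γ.g) {y P : BC} (hy : Γ.Der y P) {u v : ℝ}
    (huv : γ.ze u = γ.ze v) : y u = y v := by
  have := TrP.incr_le one_pos h.ok.der h.dir (fun t => hg ▸ hy t) (u := v) (v := u) (ε := ‖P‖) (p := 0)
    fun x _ => by simpa using P.norm_coe_le_norm x
  simpa [huv, sub_eq_zero] using this

theorem same_y2 (h : γ.RealP T) {e : En D} {j : EJ} (hj : (ctr γ e).IsJet j) {u v : ℝ}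
    (huv : γ.ze u = γ.ze v) : End.tr u j.y2 = End.tr v j.y2 := W.ext fun m => by
  rw [c_tr, c_tr, j.c_y2, BoundedContinuousFunction.smul_apply,
    BoundedContinuousFunction.smul_apply, same h (ctr_g γ e) (hj.der_y m) huv]

theorem c_op {Γ : Ctr} (ho : Γ.Ok) (j : EJ) (m : ℤ) (t : ℝ) :
    j.op.c m t = Γ.Om t * (Γ.jP j).c m t := by
  rw [Ctr.c_jP, BoundedContinuousFunction.mul_apply, mul_left_comm, ho.io_mul]

theorem same_pi (h : γ.RealP T) (hT : 1000 ≤ T) {e : En D} {j : EJ} (hj : (ctr γ e).IsJet j)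
    {u v : ℝ} (huv : γ.ze u = γ.ze v) :
    End.tr u ((ctr γ e).piJ (mu e) j) = End.tr v ((ctr γ e).piJ (mu e) j) := W.ext fun m => by
  have h1 : (ctr γ e).io u = (ctr γ e).io v := by rw [ctr_io h hT, ctr_io h hT, huv]
  have h2 : (ctr γ e).Om u = (ctr γ e).Om v := by
    have a := (ctr_pg h hT e).inv u
    have b := (ctr_pg h hT e).inv v
    rw [h1] at a
    linear_combination (ctr γ e).Om v * a - (ctr γ e).Om u * b
  rw [c_tr, c_tr, (ctr_pg h hT e).c_piJ hj, (ctr_pg h hT e).c_piJ hj, c_op (ctr_ok h hT e),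
    c_op (ctr_ok h hT e), h1, h2, same h (ctr_g γ e) (hj.der_y m) huv,
    same h (ctr_g γ e) (hj.der_P m) huv]

theorem jw_inj {Γ : Ctr} (ho : Γ.Ok) (j : EJ) (h : ∀ i, jw Γ j i = 0) : j = 0 := by
  have h0 : j.y = 0 := h 0
  have h1 : Γ.jP j = 0 := h 1
  have h3 : Γ.jQ j = 0 := h 3
  have h5 : j.ytt = 0 := h 5
  refine EJ.ext' ?_ ?_ ?_ (h 4)
  · rw [j.y2_eq, h0, h5, sub_zero]; rfl
  · rw [← ho.Om_jP j, h1, mul_zero]; rfl
  · rw [← ho.Om_jQ j, h3, mul_zero]; rfl

theorem jw_le {Γ : Ctr} (h : ‖Γ.io‖ ≤ 1) (j : EJ) (i : Fin 6) : ‖jw Γ j i‖ ≤ ‖j‖ := by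
  have e : ∀ f : WB, ‖W.C Γ.io * f‖ ≤ ‖f‖ := fun f => (norm_mul_le _ _).trans
    (mul_le_of_le_one_left (norm_nonneg _) ((W.norm_C _).trans_le h))
  fin_cases i
  exacts [j.norm_y_le, (e _).trans j.norm_op_le, j.norm_yt_le, (e _).trans j.norm_oq_le,
    j.norm_pt_le, j.norm_ytt_le]

theorem jw_cj {Γ : Ctr} (h : Γ.cj = Γ) (j : EJ) (i : Fin 6) : jw Γ j.cj i = W.cj (jw Γ j i) := by
  have h1 := Γ.jP_cj j
  have h2 := Γ.jQ_cj j
  rw [h] at h1 h2
  fin_cases i
  exacts [j.y_cj, h1, j.yt_cj, h2, j.pt_cj, j.ytt_cj]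

/-! ### Restriction -/

theorem c_resW (f : WB) (m : ℤ) : (resW k n f).c m = resB k n (f.c m) := W.c_diag_const _ f m

theorem resB_apply (f : BC) (t : ℝ) : resB k n f t = f (clp k n t) := rfl

theorem tr_res (f : WB) (t : ℝ) : End.tr t (resW k n f) = End.tr (clp k n t) f :=
  W.ext fun m => by rw [c_tr, c_tr, c_resW, resB_apply]

theorem ev_res (f : WB) (t θ : ℝ) : ev (resW k n f) t θ = ev f (clp k n t) θ := by
  rw [← sumL_tr, tr_res, sumL_tr]

theorem resW_le (f : WB) : ‖resW k n f‖ ≤ ‖f‖ :=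
  W.norm_le_of_hasSum f.hasSum fun m => by
    rw [c_resW]
    exact (f.c m).norm_compContinuous_le _

theorem res_le (j : EJ) : ‖Res k n j‖ ≤ ‖j‖ :=
  EJ.norm_le _ ((resW_le _).trans j.norm_y2_le) ((resW_le _).trans j.norm_op_le)
    ((resW_le _).trans j.norm_oq_le) ((resW_le _).trans j.norm_pt_le)

theorem res_res (h1 : k' ≤ k) (h : k ≤ n) (h2 : n ≤ n') (j : EJ) :
    Res k n (Res k' n' j) = Res k n j := by
  have e : ∀ f, resW k n (resW k' n' f) = resW k n f := fun f => ext_ev fun t θ => by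
    rw [ev_res, ev_res, ev_res, clp_of_mem ⟨(tau_mono h1).trans (clp_mem h t).1,
      (clp_mem h t).2.trans (tau_mono (by omega))⟩]
  exact EJ.ext' (e _) (e _) (e _) (e _)

theorem res_cj (j : EJ) : Res k n j.cj = (Res k n j).cj := by
  have e : ∀ f, resW k n (W.cj f) = W.cj (resW k n f) := fun f => ext_ev fun t θ => by
    rw [ev_res, ev_cj, ev_cj, ev_res]
  exact EJ.ext' (e _) (e _) (e _) (e _)

theorem mult_res {σ : ℤ → ℂ} {K : ℝ} (hσ : ∀ m, ‖σ m‖ ≤ K) (f : WB) :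
    mult σ (resW k n f) = resW k n (mult σ f) := W.ext fun m => by
  simp only [c_mult hσ, c_resW, map_smul]

theorem gam_T (hz : 1000 ≤ zm) (k : ℕ) : 1000 ≤ zm + k := hz.trans (le_add_of_nonneg_right k.cast_nonneg)

theorem ze_res (h1 : k' ≤ k) (h : k ≤ n) (h2 : n ≤ n') (t : ℝ) :
    (gam zm k' n').ze (clp k n t) = (gam zm k n).ze t := by
  rw [gam_ze, gam_ze, zr_clp h1 h h2]

theorem jw_res (hz : 1000 ≤ zm) (h1 : k' ≤ k) (h : k ≤ n) (h2 : n ≤ n') (e : En D) (j : EJ)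
    (i : Fin 6) : jw (ctr (gam zm k n) e) (Res k n j) i =
      resW k n (jw (ctr (gam zm k' n') e) j i) := by
  have e1 : ∀ f, W.C (ctr (gam zm k n) e).io * resW k n f =
      resW k n (W.C (ctr (gam zm k' n') e).io * f) := fun f => ext_ev fun t θ => by
    rw [ev_res, ev_mul, ev_mul, ev_res, ev_C, ev_C, ctr_io (gam_real ..) (gam_T hz _),
      ctr_io (gam_real ..) (gam_T hz _), ze_res h1 h h2]
  fin_cases i
  exacts [mult_res symb_y _, e1 _, mult_res symb_yt _, e1 _, rfl, mult_res symb_ytt _]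

theorem jet_res (hz : 1000 ≤ zm) (h1 : k' ≤ k) (h : k ≤ n) (h2 : n ≤ n') (e : En D) {j : EJ}
    (hj : (ctr (gam zm k' n') e).IsJet j) : (ctr (gam zm k n) e).IsJet (Res k n j) := by
  have key : ∀ {y P : BC}, (ctr (gam zm k' n') e).Der y P →
      (ctr (gam zm k n) e).Der (resB k n y) (resB k n P) := fun {y P} hy t => by
    rw [ctr_g]
    refine TrP.der_cmp one_pos (gam_real zm k' n').ok.der (gam_real zm k' n').dir
      (ctr_g (gam zm k' n') e ▸ hy) P.continuous (clp k n).continuous ?_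
    rw [show (fun t => (gam zm k' n').ze (clp k n t)) = _ from funext (ze_res h1 h h2)]
    exact (gam_real zm k n).ok.der t
  have e0 : (Res k n j).y = resW k n j.y := jw_res hz h1 h h2 e j 0
  have e1 : (ctr (gam zm k n) e).jP (Res k n j) = resW k n ((ctr (gam zm k' n') e).jP j) :=
    jw_res hz h1 h h2 e j 1
  have e3 : (ctr (gam zm k n) e).jQ (Res k n j) = resW k n ((ctr (gam zm k' n') e).jQ j) :=
    jw_res hz h1 h h2 e j 3
  have e4 : (Res k n j).pt = resW k n j.pt := rfl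
  rw [Ctr.isJet_iff, e0, e1, e3, e4]
  simp only [c_resW]
  exact ⟨fun m => key (hj.der_y m), fun m => key (hj.der_P m), fun m => by rw [hj.c_pt, map_smul]⟩

theorem piT_res (hz : 1000 ≤ zm) (h1 : k' ≤ k) (h : k ≤ n) (e : En D) {j : EJ}
    (hj : (ctr (gam zm k' n) e).IsJet j) :
    piT (gam zm k n) e (Res k n j) = piT (gam zm k' n) e j ∧
      End.tr 1 (Res k n j).y2 = End.tr 1 j.y2 := by
  have h3 : (gam zm k' n).ze (clp k n 1) = (gam zm k' n).ze 1 := by
    rw [ze_res h1 h le_rfl, gam_ze, gam_ze, zr_hi h (tau_le_one _), zr_hi (h1.trans h) (tau_le_one _)]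
  refine ⟨?_, (tr_res _ _).trans (same_y2 (gam_real ..) hj h3)⟩
  rw [piT, piT, ← same_pi (gam_real ..) (gam_T hz _) hj h3]
  refine W.ext fun m => ?_
  have e0 : (Res k n j).y = resW k n j.y := jw_res hz h1 h le_rfl e j 0
  have e1 : (Res k n j).op = resW k n j.op := rfl
  rw [c_tr, c_tr, (ctr_pg (gam_real ..) (gam_T hz _) e).c_piJ (jet_res hz h1 h le_rfl e hj),
    (ctr_pg (gam_real ..) (gam_T hz _) e).c_piJ hj, e0, e1, c_resW, c_resW, resB_apply, resB_apply,
    ctr_io (gam_real ..) (gam_T hz _), ctr_io (gam_real ..) (gam_T hz _), ze_res h1 h le_rfl]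

/-! ### The equations -/

theorem per_deriv {V : Type} [NormedAddCommGroup V] [NormedSpace ℝ V] {u : ℝ → V} {c : ℝ}
    (h : Function.Periodic u c) : Function.Periodic (deriv u) c := fun θ => by
  rw [← deriv_comp_add_const, h.funext]

theorem sumL_toD_sm {u : ℝ → ℝ} (hu : ContDiff ℝ ∞ u) (hp : Function.Periodic u (2 * Real.pi))
    (θ : ℝ) : W.sumL θ (toD fun θ => (u θ : ℂ)) = u θ := by
  have h1 : ContDiff ℝ ∞ (deriv u) := hu.deriv'
  have h2 : ContDiff ℝ ∞ (deriv (deriv u)) := h1.deriv'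
  have bd : ∀ {v : ℝ → ℝ}, Continuous v → Function.Periodic v (2 * Real.pi) →
      ∃ K, ∀ θ, ‖v θ‖ ≤ K := fun hv hp => by
    obtain ⟨K, hK⟩ := (hp.isBounded_of_continuous Real.two_pi_pos.ne' hv).exists_norm_le
    exact ⟨K, fun θ => hK _ ⟨θ, rfl⟩⟩
  obtain ⟨K0, b0⟩ := bd hu.continuous hp
  obtain ⟨K2, b2⟩ := bd h2.continuous (per_deriv (per_deriv hp))
  exact (toD_C2 (K := max K0 K2) (u1 := fun θ => (deriv u θ : ℝ))
    (u2 := fun θ => (deriv (deriv u) θ : ℝ)) (fun θ => by simp only [hp θ])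
    (fun θ => (hu.differentiable (by simp) θ).hasDerivAt.ofReal_comp)
    (fun θ => (h1.differentiable (by simp) θ).hasDerivAt.ofReal_comp)
    (Complex.continuous_ofReal.comp h2.continuous)
    (fun θ => ((Complex.norm_real _).trans_le (b0 θ)).trans (le_max_left _ _))
    fun θ => ((Complex.norm_real _).trans_le (b2 θ)).trans (le_max_right _ _)).2.1 θ

theorem kaf_sm (i : Fin D.a) : ContDiff ℝ ∞ (kaf i) :=
  contDiff_const.mul ((D.link i).smooth.deriv'.deriv'.inner ℝ (D.link i).nsmooth)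

theorem kaf_per (i : Fin D.a) : Function.Periodic (kaf i) (2 * Real.pi) := fun θ => by
  have h : Function.Periodic (D.γ i) (2 * Real.pi) := (D.link i).per
  rw [kaf, kaf, per_deriv (per_deriv h) θ, (D.link i).nper]

theorem sumL_ka (i : Fin D.a) (θ : ℝ) : W.sumL θ (ka i) = (kaf i θ : ℝ) :=
  sumL_toD_sm (kaf_sm i) (kaf_per i) θ

theorem sumL_kd (i : Fin D.a) (θ : ℝ) : W.sumL θ (kd i) = (kdf i θ : ℝ) :=
  sumL_toD_sm (contDiff_const.mul (kaf_sm i).deriv')
    (fun θ => congrArg (cc i * ·) (per_deriv (kaf_per i) θ)) θ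

section poly
variable {R S F : Type} [CommRing R] [CommRing S] [FunLike F R S] [RingHomClass F R S] (φ : F)

theorem map_Epol (b : Bool) (z iz h c κ κ' : R) (m : J2 R) : φ (Epol b z iz h c κ κ' m) =
    Epol b (φ z) (φ iz) (φ h) (φ c) (φ κ) (φ κ') fun i => φ (m i) := by
  cases b <;> simp [Epol, map_cylE, map_coneE, map_ofNat]

theorem map_Fpol (b : Bool) (z iz h c κ : R) (m : J2 R) : φ (Fpol b z iz h c κ m) =
    Fpol b (φ z) (φ iz) (φ h) (φ c) (φ κ) fun i => φ (m i) := by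
  cases b <;> simp [Fpol, map_cylD, map_coneD, map_ofNat]

end poly

theorem gam_iz (hz : 1000 ≤ zm) (t : ℝ) : binv (gam zm k n).ze t = ((zr zm k n t : ℝ) : ℂ)⁻¹ := by
  rw [(cv0 (gam_real ..) (gam_T hz _)).iz, gam_ze]

theorem ev_EW (hz : 1000 ≤ zm) (e : En D) (m : J2 WB) (t θ : ℝ) :
    ev (EW (gam zm k n) e m) t θ = EP e (zr zm k n t, θ) fun i => ev (m i) t θ := by
  rw [← evA_apply]
  cases e <;> simp only [EW, EP, map_Epol, evA_apply, ev_C, ev_algebraMap, ev_cst, ev_zero, gam_ze,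
    gam_iz hz, sumL_ka, sumL_kd]

theorem ev_FW (hz : 1000 ≤ zm) (e : En D) (m : J2 WB) (t θ : ℝ) :
    ev (FW (gam zm k n) e m) t θ = FP e (zr zm k n t, θ) fun i => ev (m i) t θ := by
  rw [← evA_apply]
  cases e <;> simp only [FW, FP, map_Fpol, evA_apply, ev_C, ev_algebraMap, ev_cst, ev_zero, gam_ze,
    gam_iz hz, sumL_ka]

theorem EE_eq (hz : 1000 ≤ zm) (e : En D) (j : EJ) :
    EE (gam zm k n) e j = EW (gam zm k n) e (jw (ctr (gam zm k n) e) j) := ext_ev fun t θ => by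
  have h0 : ((zr zm k n t : ℝ) : ℂ) ≠ 0 := gam_ze zm k n t ▸ (cv0 (gam_real ..) (gam_T hz _)).ze_ne t
  have h1 := ctr_io (gam_real zm k n) (gam_T hz _) e t
  rw [ev_EW hz]
  cases e with
  | inl i =>
    simp only [ctr, ioE, gam_ze] at h1
    simp only [EE, EP, Epol, ctr, jw, Path.ev_Econe, sumL_ka, sumL_kd, gam_iz hz, gam_ze,
      Bool.false_eq_true, if_false, Matrix.cons_val, Ctr.ev_jP, Ctr.ev_jQ, h1]
    congr 1 <;> field_simp
  | inr b =>
    simp only [ctr, ioE, gam_ze] at h1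
    simp only [EE, EP, Epol, ctr, jw, Path.ev_Ecyl, gam_iz hz, gam_ze, if_true, Matrix.cons_val,
      Ctr.ev_jP, Ctr.ev_jQ, h1, Path.Oh_apply, (cv0 (gam_real ..) (gam_T hz _)).hh, zero_div,
      zero_mul]
    congr 1 <;> field_simp

theorem dEpol {R : Type} [NormedCommRing R] [NormedAlgebra ℂ R] (b : Bool) (z iz h c κ κ' : R) :
    Differentiable ℂ (Epol b z iz h c κ κ') := by
  cases b <;> unfold Epol cylE coneE cylD coneD cylB <;>
    simp only [Bool.false_eq_true, if_false, if_true] <;> fun_prop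

theorem dEW (γ : Path) (e : En D) : Differentiable ℂ (EW γ e) := by
  cases e <;> exact dEpol _ _ _ _ _ _ _

theorem dEP (e : En D) (q : R2) : Differentiable ℂ (EP e q) := by
  cases e <;> exact dEpol _ _ _ _ _ _ _

theorem dEE (γ : Path) (e : En D) : Differentiable ℂ (EE γ e) := by
  cases e <;> unfold EE Path.Econe Path.Ecyl cylE coneE cylD coneD cylB <;> fun_prop

theorem EP_cj (e : En D) (q : R2) (m : J2 ℂ) : EP e q (star m) = star (EP e q m) := by
  cases e <;> simp only [EP, ← starRingEnd_apply, map_Epol, map_inv₀, Complex.conj_ofReal, map_zero,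
    map_ofNat] <;> rfl

theorem ev_dEW (hz : 1000 ≤ zm) (e : En D) (m v : J2 WB) (t θ : ℝ) :
    ev (fderiv ℂ (EW (gam zm k n) e) m v) t θ =
      fderiv ℂ (EP e (zr zm k n t, θ)) (fun i => ev (m i) t θ) fun i => ev (v i) t θ := by
  let L : J2 WB →L[ℂ] J2 ℂ :=
    ContinuousLinearMap.pi fun i => (evL t θ).comp (ContinuousLinearMap.proj i)
  have h1 := (evL t θ).hasFDerivAt.comp m (dEW (gam zm k n) e m).hasFDerivAt
  have h2 := (dEP e (zr zm k n t, θ) (L m)).hasFDerivAt.comp m L.hasFDerivAt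
  rw [show evL t θ ∘ EW (gam zm k n) e = EP e (zr zm k n t, θ) ∘ L from
    funext fun m => ev_EW hz e m t θ] at h1
  exact congrArg (fun A : J2 WB →L[ℂ] ℂ => A v) (h1.unique h2)

theorem EE_res (hz : 1000 ≤ zm) (h1 : k' ≤ k) (h : k ≤ n) (h2 : n ≤ n') (e : En D) (j : EJ) :
    EE (gam zm k n) e (Res k n j) = resW k n (EE (gam zm k' n') e j) := ext_ev fun t θ => by
  simp only [EE_eq hz, ev_res, ev_EW hz, jw_res hz h1 h h2, zr_clp h1 h h2]

theorem dEE_res (hz : 1000 ≤ zm) (h1 : k' ≤ k) (h : k ≤ n) (h2 : n ≤ n') (e : En D) (j v : EJ) :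
    fderiv ℂ (EE (gam zm k n) e) (Res k n j) (Res k n v) =
      resW k n (fderiv ℂ (EE (gam zm k' n') e) j v) := by
  have a := (dEE (gam zm k n) e (Res k n j)).hasFDerivAt.comp j (Res k n).hasFDerivAt
  have b := (resW k n).hasFDerivAt.comp j (dEE (gam zm k' n') e j).hasFDerivAt
  rw [show EE (gam zm k n) e ∘ Res k n = resW k n ∘ EE (gam zm k' n') e from
    funext (EE_res hz h1 h h2 e)] at a
  exact congrArg (fun A : EJ →L[ℂ] WB => A v) (a.unique b)

end Vale.Agent.P218N.Core.PathP
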