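import Vale.Agent.P218N.Core.Spec
import Vale.Agent.P218N.Core.PathB

/-! The universal real path: jets as functions, compactness, the statement `PathStmt`. -/

open Set Filter Topology Metric
open scoped ContDiff BoundedContinuousFunction

noncomputable section

namespace Vale.Agent.P218N.Core.PathP

open Vale.Agent.P218.H313 Vale.Agent.P218N.H Vale.Agent.P218N.End Vale.Agent.P218N.J

variable {w : E3 → ℝ} {D : EndData w} {zm T : ℝ} {γ : Path} {k n : ℕ}

/-! ### Jets as functions of `(ζ, θ)` -/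

section fn
variable {Γ : Ctr} {a b b' : WB} {q : R2}

theorem le_of_mem {ζ : ℝ} (h : ζ ∈ Ioo (zm + k) (TT zm n)) : k ≤ n := by
  have : (k : ℝ) < (n + 1 : ℕ) := by
    push_cast
    linarith [h.1, h.2, show TT zm n = zm + n + 1 from rfl]
  exact Nat.lt_succ_iff.1 (by exact_mod_cast this)

theorem der_tt (hg : Γ.g = (gam zm k n).g) (h : ∀ m, Γ.Der (a.c m) (b.c m)) {ζ : ℝ}
    (hζ : ζ ∈ Ioo (zm + k) (TT zm n)) (θ : ℝ) :
    HasDerivAt (fun x => ev a (tt zm x) θ) (ev b (tt zm ζ) θ) ζ := by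
  have h1 : HasDerivAt (fun x => (gam zm k n).ze (tt zm x)) 1 ζ := by
    refine (hasDerivAt_id ζ).ofReal_comp.congr_of_eventuallyEq ?_
    filter_upwards [Ioo_mem_nhds hζ.1 hζ.2] with x hx
    rw [gam_ze, zr_tt (le_of_mem hζ) (Ioo_subset_Icc_self hx), id]
  exact (TrP.der_cmp (y := fun t => ev a t θ) (P := fun t => ev b t θ) one_pos
    (gam_real zm k n).ok.der (gam_real zm k n).dir (fun t => hg ▸ hasDerivAt_ev_t h t θ)
    (by fun_prop) (continuous_tt zm) h1).congr_deriv (one_mul _)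

theorem cont_tt (zm : ℝ) (f : WB) : Continuous (evx f (tt zm)) :=
  (continuous_ev f).comp (((continuous_tt zm).comp continuous_fst).prodMk continuous_snd)

theorem ev_mem (hq : q.1 ∈ Ioo (zm + k) (TT zm n)) :
    ∀ᶠ v : R2 in 𝓝 q, v.1 ∈ Ioo (zm + k) (TT zm n) :=
  continuousAt_fst.preimage_mem_nhds (Ioo_mem_nhds hq.1 hq.2)

theorem fder_tt (hg : Γ.g = (gam zm k n).g) (h : ∀ m, Γ.Der (a.c m) (b.c m))
    (h' : ∀ m : ℤ, b'.c m = ((m : ℂ) * Complex.I) • a.c m) (hq : q.1 ∈ Ioo (zm + k) (TT zm n)) :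
    HasFDerivAt (evx a (tt zm)) (d2 (evx b (tt zm) q, evx b' (tt zm) q)) q :=
  (hasStrictFDerivAt_of_partials (F := evx a (tt zm)) (F1 := evx b (tt zm)) (F2 := evx b' (tt zm))
    ((ev_mem hq).mono fun v hv => der_tt hg h hv v.2)
    (Eventually.of_forall fun v => hasDerivAt_ev_theta h' (tt zm v.1) v.2)
    (cont_tt zm b).continuousAt (cont_tt zm b').continuousAt).hasFDerivAt

theorem c1_tt (hg : Γ.g = (gam zm k n).g) (h : ∀ m, Γ.Der (a.c m) (b.c m))
    (h' : ∀ m : ℤ, b'.c m = ((m : ℂ) * Complex.I) • a.c m) (hq : q.1 ∈ Ioo (zm + k) (TT zm n)) :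
    ContDiffAt ℝ 1 (evx a (tt zm)) q :=
  contDiffAt_one_iff.2 ⟨fun p => d2 (evx b (tt zm) p, evx b' (tt zm) p), _, ev_mem hq,
    (d2.continuous.comp ((cont_tt zm b).prodMk (cont_tt zm b'))).continuousOn,
    fun _ hv => fder_tt hg h h' hv⟩

theorem c2 (hg : Γ.g = (gam zm k n).g) {j : EJ} (hj : Γ.IsJet j)
    (hq : q.1 ∈ Ioo (zm + k) (TT zm n)) :
    ContDiffAt ℝ 2 (evx j.y (tt zm)) q ∧ jet2 (evx j.y (tt zm)) q = jev zm Γ j q := by
  refine ⟨(contDiffAt_succ_iff_hasFDerivAt (n := 1)).2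
    ⟨fun p => d2 (evx (Γ.jP j) (tt zm) p, evx j.yt (tt zm) p),
      ⟨_, ev_mem hq, fun v hv => fder_tt hg hj.der_y j.c_yt hv⟩, d2.contDiff.contDiffAt.comp q
      ((c1_tt hg hj.der_P hj.c_pt hq).prodMk (c1_tt hg hj.der_yt j.c_ytt hq))⟩, ?_⟩
  have h1 := d2.hasFDerivAt.comp q
    ((fder_tt hg hj.der_P hj.c_pt hq).prodMk (fder_tt hg hj.der_yt j.c_ytt hq))
  have h2 := h1.congr_of_eventuallyEq (f₁ := fderiv ℝ (evx j.y (tt zm)))
    ((ev_mem hq).mono fun v hv => (fder_tt hg hj.der_y j.c_yt hv).fderiv)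
  unfold jet2
  rw [h2.fderiv, (fder_tt hg hj.der_y j.c_yt hq).fderiv]
  ext i
  fin_cases i <;> simp [jev, jw, evx]

end fn

theorem loc (hz : 1000 ≤ zm) (h : k ≤ n) (e : En D) {j : EJ} (hj : (ctr (gam zm k n) e).IsJet j)
    (h0 : ∀ ζ ∈ Icc (zm + n) (TT zm n), ∀ θ, ev j.y (tt zm ζ) θ = 0) :
    End.tr 1 j.y2 = 0 ∧ piT (gam zm k n) e j = 0 := by
  have hk : (k : ℝ) ≤ n := by exact_mod_cast h
  have hT : zm + n < TT zm n := lt_add_one _
  have h1 : ∀ θ, ev ((ctr (gam zm k n) e).jP j) (tt zm (TT zm n)) θ = 0 := fun θ => by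
    have hc : IsClosed {ζ | ev ((ctr (gam zm k n) e).jP j) (tt zm ζ) θ = 0} :=
      isClosed_eq (by have := continuous_tt zm; fun_prop) continuous_const
    refine closure_minimal (s := Ioo (zm + n) (TT zm n)) (fun ζ hζ => ?_) hc
      (by rw [closure_Ioo hT.ne]; exact ⟨hT.le, le_rfl⟩)
    refine (der_tt (ctr_g _ e) hj.der_y ⟨by linarith [hζ.1], hζ.2⟩ θ).unique
      ((hasDerivAt_const ζ 0).congr_of_eventuallyEq ?_)
    filter_upwards [Ioo_mem_nhds hζ.1 hζ.2] with x hx using h0 x (Ioo_subset_Icc_self hx) θ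
  have h2 : ∀ {f : WB} {t : ℝ}, (∀ θ, ev f t θ = 0) → ∀ m, f.c m t = 0 := fun hf m => by
    simp [c_eq_integral_ev, hf]
  have h3 : (gam zm k n).ze 1 = (gam zm k n).ze (tt zm (TT zm n)) := by
    rw [gam_ze, gam_ze, zr_hi h (tau_le_one _), zr_tt h ⟨by linarith, le_rfl⟩]
  have h4 := h2 (h0 _ ⟨hT.le, le_rfl⟩)
  rw [piT, same_y2 (gam_real ..) hj h3, same_pi (gam_real ..) (gam_T hz _) hj h3]
  refine ⟨W.ext fun m => ?_, W.ext fun m => ?_⟩
  · rw [c_tr, j.c_y2, BoundedContinuousFunction.smul_apply, h4, smul_zero, W.c_zero]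
  · rw [c_tr, (ctr_pg (gam_real ..) (gam_T hz _) e).c_piJ hj,
      c_op (ctr_ok (gam_real ..) (gam_T hz _) e), h4, h2 h1, W.c_zero]
    ring

theorem isClosed_der (Γ : Ctr) : IsClosed {p : BC × BC | Γ.Der p.1 p.2} := by
  have : {p : BC × BC | Γ.Der p.1 p.2} = ⋂ t, {p | p.1 t = p.1 0 + intI 0 t (Γ.g * p.2)} := by
    ext p
    rw [mem_iInter]
    refine ⟨fun h t => ?_, fun h t => ?_⟩
    · exact sub_eq_iff_eq_add'.1 (intervalIntegral.integral_eq_sub_of_hasDerivAt (fun x _ => h x)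
        ((Γ.g * p.2).continuous.intervalIntegrable _ _)).symm
    · rw [show (p.1 : ℝ → ℂ) = _ from funext h]
      exact (((Γ.g * p.2).continuous.integral_hasStrictDerivAt 0 t).hasDerivAt).const_add _
  rw [this]
  exact isClosed_iInter fun t => isClosed_eq (by fun_prop) (by fun_prop)

theorem closed (Γ : Ctr) : IsClosed (JS Γ : Set EJ) := by
  have c : ∀ (L : EJ →L[ℂ] WB) (m : ℤ), Continuous fun j => (L j).c m := fun L m =>
    ((W.cL m).comp L).continuous
  have : (JS Γ : Set EJ) = ⋂ m : ℤ, {j | Γ.Der (j.y.c m) (Γ.io * j.op.c m)} ∩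
      ({j | Γ.Der (Γ.io * j.op.c m) (Γ.io * j.oq.c m)} ∩
        {j | j.pt.c m = ((m : ℂ) * Complex.I) • (Γ.io * j.op.c m)}) := by
    ext j
    rw [mem_iInter]
    rfl
  rw [this]
  refine isClosed_iInter fun m => IsClosed.inter ?_ (IsClosed.inter ?_ ?_)
  · exact (isClosed_der Γ).preimage ((c EJ.yL m).prodMk (continuous_const.mul (c EJ.opL m)))
  · exact (isClosed_der Γ).preimage
      ((continuous_const.mul (c EJ.opL m)).prodMk (continuous_const.mul (c EJ.oqL m)))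
  · exact isClosed_eq (c EJ.ptL m) ((continuous_const.mul (c EJ.opL m)).fun_const_smul _)

/-! ### Compactness -/

section cpt
variable {E : Type} [NormedAddCommGroup E] [NormedSpace ℂ E]

/-- the theorem of Arzela and Ascoli for operators into `BC` -/
theorem cptB (S : E →L[ℂ] BC) {K : ℝ} (hK : 0 ≤ K) (h0 : ∀ x t, S x (cl t) = S x t)
    (h : ∀ x u v, ‖S x u - S x v‖ ≤ K * ‖x‖ * |u - v|) : IsCompactOperator S := by
  let R : E →L[ℂ] (Icc (0 : ℝ) 1 →ᵇ ℂ) := (BoundedContinuousFunction.compContinuousCLM ℂ ℂ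
    ⟨Subtype.val, continuous_subtype_val⟩).comp S
  let X : (Icc (0 : ℝ) 1 →ᵇ ℂ) →L[ℂ] BC := BoundedContinuousFunction.compContinuousCLM ℂ ℂ
    ⟨fun t => ⟨cl t, cl_mem t⟩, continuous_cl.subtype_mk _⟩
  have hR : IsCompactOperator R := by
    refine ⟨closure (R '' closedBall 0 1), BoundedContinuousFunction.arzela_ascoli
      (closedBall 0 ‖S‖) (isCompact_closedBall _ _) _ ?_ ?_, mem_of_superset
      (closedBall_mem_nhds 0 one_pos) fun x hx => subset_closure ⟨x, hx, rfl⟩⟩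
    · rintro _ t ⟨x, hx, rfl⟩
      rw [mem_closedBall_zero_iff] at hx ⊢
      exact ((S x).norm_coe_le_norm t).trans (S.unit_le_opNorm x hx)
    · refine Metric.equicontinuous_of_continuity_modulus (fun r => K * r)
        (Continuous.tendsto' (by fun_prop) _ _ (mul_zero K)) _ ?_
      rintro u v ⟨_, x, hx, rfl⟩
      rw [mem_closedBall_zero_iff] at hx
      rw [dist_eq_norm, Subtype.dist_eq, Real.dist_eq]
      exact (h x u v).trans (mul_le_mul_of_nonneg_right (mul_le_of_le_one_right hK hx)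
        (abs_nonneg _))
  have e : (S : E → BC) = X ∘ R := funext fun x => BoundedContinuousFunction.ext fun t =>
    (h0 x t).symm
  rw [e]
  exact hR.clm_comp X

/-- operators into `W A` with compact modes and small tails -/
theorem cptW {A : Type} [NormedAddCommGroup A] [NormedSpace ℂ A] [CompleteSpace A]
    (S : E →L[ℂ] W A) (hc : ∀ m, IsCompactOperator ((W.cL m).comp S))
    (h : ∀ ε > 0, ∃ s₀ : Finset ℤ, ∀ x (s : Finset ℤ), (∀ m ∈ s, m ∉ s₀) →
      ∑ m ∈ s, ‖(S x).c m‖ ≤ ε * ‖x‖) : IsCompactOperator S := by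
  refine isCompactOperator_of_tendsto (l := atTop)
    (F := fun s : Finset ℤ => ∑ m ∈ s, (W.oneL m).comp ((W.cL m).comp S))
    (Metric.tendsto_atTop.2 fun ε hε => ?_) (Eventually.of_forall fun s =>
      (compactOperator (RingHom.id ℂ) E (W A)).sum_mem fun m _ => (hc m).clm_comp (W.oneL m))
  obtain ⟨s₀, h⟩ := h _ (half_pos hε)
  refine ⟨s₀, fun s hs => ?_⟩
  rw [dist_eq_norm]
  refine (ContinuousLinearMap.opNorm_le_bound _ (half_pos hε).le fun x =>
    W.norm_le_of_sum_le fun r => ?_).trans_lt (half_lt_self hε)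
  refine le_trans (le_of_eq ?_) (h x (r.filter (· ∉ s)) fun m hm a => (Finset.mem_filter.1 hm).2 (hs a))
  rw [Finset.sum_filter]
  refine Finset.sum_congr rfl fun m _ => ?_
  rw [_root_.sub_apply, _root_.sum_apply, W.c_sub, ← W.cL_apply, map_sum]
  simp only [ContinuousLinearMap.comp_apply, W.cL_apply, W.oneL_apply, W.c_one1,
    Finset.sum_ite_eq]
  split_ifs <;> simp

theorem cpt_pi {ι F : Type} [Fintype ι] [DecidableEq ι] [NormedAddCommGroup F] [NormedSpace ℂ F]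
    (S : E →L[ℂ] ι → F) (h : ∀ i, IsCompactOperator ((ContinuousLinearMap.proj i).comp S)) :
    IsCompactOperator S := by
  have e : S = ∑ i, (ContinuousLinearMap.single ℂ (fun _ => F) i).comp
      ((ContinuousLinearMap.proj i).comp S) := ContinuousLinearMap.ext fun x => by
    rw [_root_.sum_apply]
    exact (Finset.univ_sum_single (S x)).symm
  rw [e]
  exact (compactOperator (RingHom.id ℂ) E (ι → F)).sum_mem fun i _ =>
    (h i).clm_comp (ContinuousLinearMap.single ℂ (fun _ => F) i)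

theorem cptJ (h : γ.RealP T) {Γ : Ctr} (hg : Γ.g = γ.g) (S : E →L[ℂ] WB) (U V : E → WB)
    (hU : ∀ x, ‖U x‖ ≤ ‖x‖) (hV : ∀ x, ‖V x‖ ≤ ‖x‖)
    (h1 : ∀ x (m : ℤ), (U x).c m = ((m : ℂ) * Complex.I) • (S x).c m)
    (h2 : ∀ x m, Γ.Der ((S x).c m) ((V x).c m)) : IsCompactOperator S := by
  refine cptW S (fun m => cptB _ (norm_nonneg Γ.g)
    (fun x t => same h hg (h2 x m) (PolyP.ze_cl h.ok t)) fun x u v => ?_) fun ε hε => ?_
  · refine convex_univ.norm_image_sub_le_of_norm_hasDerivWithin_le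
      (fun t _ => (h2 x m t).hasDerivWithinAt) (fun t _ => ?_) (mem_univ v) (mem_univ u)
    exact (norm_mul_le _ _).trans (mul_le_mul (Γ.g.norm_coe_le_norm t)
      ((((V x).c m).norm_coe_le_norm t).trans (((V x).norm_c_le m).trans (hV x)))
      (norm_nonneg _) (norm_nonneg _))
  · obtain ⟨N, hN⟩ := exists_nat_ge ε⁻¹
    refine ⟨Finset.Icc (-N) N, fun x s hs => le_trans ?_ (mul_le_mul_of_nonneg_left
      (((U x).sum_norm_le s).trans (hU x)) hε.le)⟩
    rw [Finset.mul_sum]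
    refine Finset.sum_le_sum fun m hm => ?_
    have h3 : (N : ℤ) ≤ |m| := by
      have := hs m hm
      rw [Finset.mem_Icc, ← abs_le] at this
      exact (not_le.1 this).le
    have h4 : 1 ≤ ε * |(m : ℝ)| := by
      rw [← inv_mul_le_iff₀ hε, mul_one]
      exact hN.trans (by exact_mod_cast h3)
    rw [h1, norm_smul, norm_mul, Complex.norm_I, mul_one, Complex.norm_intCast, ← mul_assoc]
    exact le_mul_of_one_le_left (norm_nonneg _) h4

end cpt

theorem cpt (h : γ.RealP T) (hT : 1000 ≤ T) (e : En D) (S : JS (ctr γ e) →L[ℂ] J2 WB)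
    (hS : ∀ j, S j = T1 (jw (ctr γ e) j.1)) : IsCompactOperator S := by
  have le := fun i (j : JS (ctr γ e)) => jw_le (io_le h hT e) j.1 i
  have z : ∀ i, (∀ j, S j i = 0) → IsCompactOperator ((ContinuousLinearMap.proj i).comp S) :=
    fun i hi => by
      rw [show (ContinuousLinearMap.proj i).comp S = 0 from ContinuousLinearMap.ext hi]
      exact isCompactOperator_zero
  refine cpt_pi S fun i => ?_
  fin_cases i
  · refine cptJ h (ctr_g γ e) _ _ _ (le 2) (le 1) (fun j m => ?_) fun j m => ?_ <;>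
      rw [ContinuousLinearMap.comp_apply, hS]
    exacts [j.1.c_yt m, Ctr.IsJet.der_y j.2 m]
  · refine cptJ h (ctr_g γ e) _ _ _ (le 4) (le 3) (fun j m => ?_) fun j m => ?_ <;>
      rw [ContinuousLinearMap.comp_apply, hS]
    exacts [Ctr.IsJet.c_pt j.2 m, Ctr.IsJet.der_P j.2 m]
  · refine cptJ h (ctr_g γ e) _ _ _ (le 5) (le 4) (fun j m => ?_) fun j m => ?_ <;>
      rw [ContinuousLinearMap.comp_apply, hS]
    exacts [j.1.c_ytt m, Ctr.IsJet.der_yt j.2 m]
  all_goals exact z _ fun j => by rw [hS]; rfl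

/-! ### Functions as elements of `WB` -/

theorem der_theta {G : R2 → ℂ} {ζ θ : ℝ} (hG : DifferentiableAt ℝ G (ζ, θ)) :
    HasDerivAt (fun θ => G (ζ, θ)) (fderiv ℝ G (ζ, θ) (0, 1)) θ :=
  hG.hasFDerivAt.comp_hasDerivAt θ ((hasDerivAt_const θ ζ).prodMk (hasDerivAt_id θ))

theorem cont_zr (h : k ≤ n) {G : R2 → ℂ} (hG : ∀ q : R2, zm + k ≤ q.1 → ContinuousAt G q) :
    Continuous fun p : R2 => G (zr zm k n p.1, p.2) :=
  continuous_iff_continuousAt.2 fun p =>
    ContinuousAt.comp (f := fun p : R2 => (zr zm k n p.1, p.2)) (hG _ (zr_mem h p.1).1)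
      (((continuous_zr zm k n).comp continuous_fst).prodMk continuous_snd).continuousAt

theorem bd_zr (h : k ≤ n) {G : R2 → ℂ} (hG : ∀ q : R2, zm + k ≤ q.1 → ContinuousAt G q)
    (hp : ∀ t, Function.Periodic (fun θ => G (zr zm k n t, θ)) (2 * Real.pi)) :
    ∃ K, ∀ t θ, ‖G (zr zm k n t, θ)‖ ≤ K := by
  obtain ⟨K, hK⟩ := ((isCompact_Icc (a := zm + k) (b := TT zm n)).prod
    (isCompact_Icc (a := (0 : ℝ)) (b := 2 * Real.pi))).exists_bound_of_continuousOn
    fun q hq => (hG q hq.1.1).continuousWithinAt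
  refine ⟨K, fun t θ => ?_⟩
  obtain ⟨θ', h1, h2⟩ := (hp t).exists_mem_Ico₀ Real.two_pi_pos θ
  exact (congrArg norm h2).trans_le (hK (_, θ') ⟨zr_mem h t, Ico_subset_Icc_self h1⟩)

theorem toW (h : k ≤ n) {F : R2 → ℂ} (hF : ∀ q : R2, zm + k ≤ q.1 → ContDiffAt ℝ 2 F q)
    (hp : ∀ ζ θ, F (ζ, θ + 2 * Real.pi) = F (ζ, θ)) :
    ∃ f : WB, ∀ t θ, ev f t θ = F (zr zm k n t, θ) := by
  have lo := fun t => (zr_mem (zm := zm) h t).1
  obtain ⟨F1, e1⟩ : ∃ F1 : R2 → ℂ, F1 = fun q => fderiv ℝ F q (0, 1) := ⟨_, rfl⟩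
  obtain ⟨F2, e2⟩ : ∃ F2 : R2 → ℂ, F2 = fun q => fderiv ℝ F1 q (0, 1) := ⟨_, rfl⟩
  have s1 : ∀ q : R2, zm + k ≤ q.1 → ContDiffAt ℝ 1 F1 q := fun q hq =>
    e1 ▸ ((hF q hq).fderiv_right (m := 1) (by norm_num)).clm_apply contDiffAt_const
  have s2 : ∀ q : R2, zm + k ≤ q.1 → ContinuousAt F2 q := fun q hq =>
    e2 ▸ (((s1 q hq).fderiv_right (m := 0) (by norm_num)).clm_apply contDiffAt_const).continuousAt
  have d1 : ∀ t θ, HasDerivAt (fun θ => F (zr zm k n t, θ)) (F1 (zr zm k n t, θ)) θ := fun t θ =>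
    e1 ▸ der_theta ((hF (zr zm k n t, θ) (lo t)).differentiableAt (by simp))
  have d2 : ∀ t θ, HasDerivAt (fun θ => F1 (zr zm k n t, θ)) (F2 (zr zm k n t, θ)) θ := fun t θ =>
    e2 ▸ der_theta ((s1 (zr zm k n t, θ) (lo t)).differentiableAt (by simp))
  have p0 : ∀ t, Function.Periodic (fun θ => F (zr zm k n t, θ)) (2 * Real.pi) := fun t => hp _
  obtain ⟨K0, b0⟩ := bd_zr h (fun q hq => (hF q hq).continuousAt) p0
  obtain ⟨K2, b2⟩ := bd_zr h s2 fun t =>
    periodic_of_hasDerivAt (periodic_of_hasDerivAt (p0 t) (d1 t)) (d2 t)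
  exact ⟨_, (toW_C2 (K := max K0 K2) (cont_zr h fun q hq => (hF q hq).continuousAt) p0 d1 d2
    (fun t => continuous_iff_continuousAt.2 fun θ => ContinuousAt.comp
      (f := fun θ : ℝ => (zr zm k n t, θ)) (s2 _ (lo t)) (Continuous.prodMk_right _).continuousAt)
    (fun t θ => (b0 t θ).trans (le_max_left _ _)) fun t θ => (b2 t θ).trans (le_max_right _ _)).1⟩

end PathP

open PathP Vale.Agent.P218N.End

theorem pathStmt : PathStmt := fun _ _ zm hz =>
  { real := gam_real zm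
    ze := gam_ze zm
    g := gam_g zm
    cok := fun k _ e => ctr_ok (gam_real ..) (gam_T hz k) e
    mem := fun _ _ t h => zr_mem h t
    lo := fun _ _ _ => zr_lo
    hi := fun _ _ _ => zr_hi
    zr_clp := fun _ _ _ _ t h1 h h2 => zr_clp h1 h h2 t
    zr_tt := fun _ _ _ => zr_tt
    tt_zr := fun _ _ t h => tt_zr h t
    tt_cont := continuous_tt zm
    ev_res := fun _ _ => ev_res
    tr_res := fun _ _ => tr_res
    resW_le := fun _ _ => resW_le
    res_le := fun _ _ => res_le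
    res_res := fun _ _ _ _ j h1 h h2 => res_res h1 h h2 j
    res_cj := fun _ _ => res_cj
    jet_res := fun _ _ _ _ e _ h1 h h2 => jet_res hz h1 h h2 e
    jw_res := fun _ _ _ _ e j i h1 h h2 => jw_res hz h1 h h2 e j i
    jw_inj := fun k _ e => jw_inj (ctr_ok (gam_real ..) (gam_T hz k) e)
    jw_le := fun k _ e => jw_le (io_le (gam_real ..) (gam_T hz k) e)
    jw_cj := fun _ _ e => jw_cj (ctr_cj (gam_real ..) e)
    EE_eq := fun _ _ => EE_eq hz
    ev_EW := fun _ _ => ev_EW hz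
    ev_FW := fun _ _ => ev_FW hz
    dEW := fun _ _ => dEW _
    dEE := fun _ _ => dEE _
    dEP := dEP
    ev_dEW := fun _ _ => ev_dEW hz
    EE_res := fun _ _ _ _ e j h1 h h2 => EE_res hz h1 h h2 e j
    dEE_res := fun _ _ _ _ e j v h1 h h2 => dEE_res hz h1 h h2 e j v
    EP_cj := EP_cj
    jet_cj := fun _ _ e _ hj => ctr_cj (gam_real ..) e ▸ hj.cj
    piT_cj := fun k _ e j => by
      rw [piT, piT, cj_tr, cj_piJ (mu_neg e) (ctr_pg (gam_real ..) (gam_T hz k) e),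
        ctr_cj (gam_real ..)]
    piT_lin := fun _ _ => piT_lin _
    piT_res := fun _ _ _ e _ h1 h => piT_res hz h1 h e
    loc := fun _ _ e _ h => loc hz h e
    start := fun k _ _ _ _ hj => same_y2 (gam_real ..) hj
      (by rw [gam_ze, gam_ze, zr_lo le_rfl, zr_lo (tau_nonneg k)])
    c2 := fun _ _ e _ _ hj hq => c2 (ctr_g _ e) hj hq
    closed := closed
    cpt := fun k _ e => cpt (gam_real ..) (gam_T hz k) e
    int := fun _ _ f h => int_zr h f
    toW := fun _ _ _ h => toW h }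

end Vale.Agent.P218N.Core
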