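import Vale.Agent.P218N.Core.CylB
import Vale.Agent.P218N.Core.CylR
import Vale.Agent.P218N.Core.PathC

/-! The slow solutions on cylindrical ends. -/

namespace Vale.Agent.P218N.Core

theorem cylStmt : CylStmt := cylStmt_of pathStmt @CylR.exists_pR

end Vale.Agent.P218N.Core
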