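import Vale.Agent.P218N.Core.Spec
import Vale.Agent.P218N.End.ApiFar
import Vale.Agent.P218N.End.ApiReal

/-! The slow solution on a cylindrical end. -/

open Set Filter Topology Metric Complex

noncomputable section

namespace Vale.Agent.P218N.Core.CylP

open Vale.Agent.P218.H313 Vale.Agent.P218N.H Vale.Agent.P218N.End End.Ctr End.Path.Real

/-- the jet of the function `ζ` -/
def jZ (γ : Path) : EJ := (W.C γ.ze, W.C (γ.cyl 0).Om, 0, 0)

theorem jz_y (γ : Path) : (jZ γ).y = W.C γ.ze :=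
  (mult_C sym0_le _).trans (by simp [br])

theorem jz_jet {γ : Path} (h : γ.Real 1) : (γ.cyl 0).IsJet (jZ γ) := by
  have e : ∀ t θ, ev ((γ.cyl 0).jP (jZ γ)) t θ = 1 := fun t θ => by
    rw [ev_jP]
    change _ * ev (W.C _) t θ = 1
    rw [ev_C, h.cyl_ok.io_mul t 1 |>.symm, mul_one]
  refine isJet_of_ev (fun t θ => ?_) (fun t θ => ?_) fun t θ => ?_
  · simp only [jz_y, ev_C, e, mul_one]
    exact h.ok.der t
  · simp only [e, ev_jQ]
    exact (hasDerivAt_const t _).congr_deriv (by change _ = _ * (_ * ev 0 t θ); simp)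
  · simp only [e]
    exact (hasDerivAt_const θ _).congr_deriv (ev_zero t θ).symm

theorem Mod_jz (γ : Path) : (2 : ℂ) • Ctr.Mod muCyl (jZ γ) = 0 := by
  have e : (jZ γ).ytt = 0 := (mult_C sym2_le _).trans (by simp)
  rw [two_Mod_cyl, jz_y, e]
  refine ext_ev fun t θ => ?_
  change ev (4 * 0 - W.C _ + 0 + _) t θ = _
  simp [cyl_Om]

theorem hd_line {E : EJ → WB} (hE : Differentiable ℂ E) (j v : EJ) :
    HasDerivAt (fun z : ℂ => E (j + z • v)) (fderiv ℂ E j v) 0 :=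
  (hE j).hasFDerivAt.comp_hasDerivAt_of_eq 0
    (by simpa using ((hasDerivAt_id (0 : ℂ)).smul_const v).const_add j) (by simp)

theorem dE_cj {E : EJ → WB} (hE : Differentiable ℂ E) (h : ∀ j, E j.cj = W.cj (E j)) {j : EJ}
    (hj : j.cj = j) (v : EJ) : fderiv ℂ E j v.cj = W.cj (fderiv ℂ E j v) := ext_ev fun t θ => by
  have h1 := ((evL t θ).hasFDerivAt.comp_hasDerivAt 0 (hd_line hE j v)).conj_conj
  rw [map_zero] at h1
  refine ((evL t θ).hasFDerivAt.comp_hasDerivAt 0 (hd_line hE j v.cj)).unique ?_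
  rw [ev_cj]
  refine h1.congr_of_eventuallyEq (Eventually.of_forall fun z => ?_)
  simp only [Function.comp_apply, evL_apply]
  rw [← ev_cj, ← h, EJ.cj_add, EJ.cj_smul, hj, conj_conj]

/-- the linearised nonlinear terms in weighted norms -/
theorem dN_le : ∃ N, 0 ≤ N ∧ ∀ (γ : Path) (u w : BC) (j v : EJ) (ε : ℝ),
    (∀ i, ‖γ.bC 0 i‖ ≤ 1 ∧ ‖u * γ.bC 0 i‖ ≤ ε) → nm 1 1 j < 1 → nm 1 u j < ε →
    ‖W.C (u * w) * (fderiv ℂ (γ.Ecyl 0) j v - (2 : ℂ) • Ctr.Mod muCyl v)‖ ≤ N * (ε * nm 1 w v) := by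
  obtain ⟨N, N0, hN⟩ := Ncyl_lip
  refine ⟨N, N0, fun γ u w j v ε hb h1 h2 => ?_⟩
  have h3 : HasDerivAt (fun z : ℂ => W.C (u * w) * (γ.Ecyl 0 (j + z • v) -
      z • (2 : ℂ) • Ctr.Mod muCyl v)) _ 0 := HasDerivAt.const_mul _
    ((hd_line (γ.differentiable_Ecyl 0) j v).fun_sub
      (by simpa using (hasDerivAt_id (0 : ℂ)).smul_const ((2 : ℂ) • Ctr.Mod muCyl v)))
  have h4 : ∀ (u : BC) (ε : ℝ), nm 1 u j < ε → ∀ᶠ z : ℂ in 𝓝 0, nm 1 u (j + z • v) < ε :=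
    fun u ε h => ((continuous_nm 1 u).comp (by fun_prop : Continuous fun z : ℂ => j + z • v)
      ).continuousAt.eventually (gt_mem_nhds (by simpa using h))
  have h0 := (nm_nonneg _ _ _).trans h2.le
  refine h3.le_of_lip' (mul_nonneg N0 (mul_nonneg h0 (nm_nonneg _ _ _))) ?_
  filter_upwards [h4 1 1 h1, h4 u ε h2] with z a1 a2
  have h5 := (hN γ 0 1 u w (j + z • v) j ε (by simp) (by simp [Path.Oh]) hb a1.le h1.le a2.le
    h2.le).1
  rw [Path.Ncyl, Path.Ncyl, sub_sub_sub_comm, ← smul_sub, ← Mod_sub, add_sub_cancel_left, Mod_smul,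
    nm_smul, smul_comm] at h5
  rw [← mul_sub, zero_smul, zero_smul, sub_zero, sub_zero, add_zero, sub_right_comm]
  exact h5.trans_eq (by ring)

theorem _root_.Vale.Agent.P218N.End.LBox.ap_nrm {k : Cst} {Γ : Ctr} {μ : ℤ → ℝ}
    {s : ℤ → Icc (0 : ℝ) 1} {φ σ : BC} {L : EJ →L[ℂ] WB} (h : LBox k Γ μ s φ σ L)
    (hσ : ∀ t, 1 ≤ ‖σ t‖) {v : EJ} (hj : Γ.IsJet v) :
    Γ.nrm μ (Γ.iW φ p0) v ≤ k.D * (‖fwd s (End.tr 0 v.y2)‖ +
      Γ.dsz s φ (End.tr 1 v.y2) (End.tr 1 (Γ.piJ μ v)) (L v)) := by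
  have h0 := nm_nonneg σ 1 v
  have := ((h.box (δ := nm σ 1 v + 1) (by linarith) 0).ap_nrm hσ (sub_zero v) hj
    (by simp) (by rw [nm_zero]; change 0 ≤ nm σ 1 v + 1; linarith)).1
  simp only [sub_zero, map_zero] at this
  exact this

theorem continuous_piJ (Γ : Ctr) (μ : ℤ → ℝ) : Continuous (Γ.piJ μ) := by
  refine Differentiable.continuous (𝕜 := ℂ) ?_
  unfold piJ
  fun_prop

theorem continuous_nrm (Γ : Ctr) (μ : ℤ → ℝ) (w : BC) : Continuous (Γ.nrm μ w) := by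
  refine Continuous.max ?_ (continuous_const.mul (continuous_piJ Γ μ)).norm
  simpa only [← nm_one] using continuous_nm 1 w

theorem continuous_cj : Continuous EJ.cj :=
  (Isometry.of_dist_eq fun a b => by rw [dist_eq_norm, dist_eq_norm, ← EJ.cj_sub, EJ.norm_cj]
    ).continuous

theorem tr_le_nrm (Γ : Ctr) (μ : ℤ → ℝ) (w : BC) (j : EJ) (t : ℝ) :
    ‖w t‖ * ‖End.tr t j.y2‖ ≤ Γ.nrm μ w j ∧ ‖w t‖ * ‖End.tr t (Γ.piJ μ j)‖ ≤ Γ.nrm μ w j := by
  rw [← norm_tr_C_mul, ← norm_tr_C_mul]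
  exact ⟨(norm_tr_apply_le _ _).trans ((j.wt w).norm_y2_le.trans (le_max_left _ _)),
    (norm_tr_apply_le _ _).trans (le_max_right _ _)⟩

/-- the weight `ζ ^ p` on the path `n` -/
def ww (zm : ℝ) (n : ℕ) (p : ℝ) : BC := ((gam zm 0 n).cyl 0).iW ((gam zm 0 n).pw 0 p) p0

/-- the weighted norm on the path `n` -/
def NN (zm : ℝ) (n : ℕ) (p : ℝ) (j : EJ) : ℝ := ((gam zm 0 n).cyl 0).nrm muCyl (ww zm n p) j

theorem ww_add (zm : ℝ) (n : ℕ) (p q : ℝ) : ww zm n (p + q) = ww zm n p * ww zm n q := by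
  rw [ww, ww, ww, ← iW_add, Path.pw, Path.pw, Path.pw, ← add_smul, ← add_mul, ofReal_add]

variable {w : E3 → ℝ} {D : EndData w} {zm : ℝ} (H : PathF D zm) (hz : 256 ≤ zm)
include H hz

omit hz in
theorem realP (n : ℕ) : (gam zm 0 n).RealP zm := by simpa using H.real 0 n

theorem real (n : ℕ) : (gam zm 0 n).Real 1 := RE.real (realP H n) (by linarith)

omit hz in
theorem zr_mem (n : ℕ) (t : ℝ) : zm ≤ zr zm 0 n t ∧ zr zm 0 n t ≤ TT zm n := by
  simpa using H.mem 0 n t (Nat.zero_le n)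

omit hz in
theorem zr_one (n : ℕ) : zr zm 0 n 1 = TT zm n :=
  H.hi 0 n 1 (Nat.zero_le n) (sub_le_self _ (by positivity))

theorem nice {δ : ℝ} (h1 : δ ≤ 1 / 10) (h0 : 0 < δ) (h : 1 / δ ≤ zm) (n : ℕ) :
    (gam zm 0 n).Nice (1 / 2) δ 0 :=
  nice_of_admP one_half_pos (RE.cyl_adm (realP H n) (by linarith)) le_rfl
    (by rw [norm_zero]; positivity) h0 h1 h

theorem norm_ww (n : ℕ) (p t : ℝ) : ‖ww zm n p t‖ = (zm / zr zm 0 n t) ^ p := by
  have h := nice H hz (δ := 1 / 10) le_rfl (by norm_num) (by linarith) n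
  have h1 := (zr_mem H n t).1
  rw [ww, h.norm_iW_pw, h.Z_apply, h.Z_apply, show ((p0 : ℝ)) = 0 from rfl, (realP H n).st, H.ze]
  congr 1
  simp only [rh, zero_mul, add_zero, norm_div, Complex.norm_real, Complex.norm_ofNat]
  rw [Real.norm_of_nonneg (by linarith), Real.norm_of_nonneg (by linarith),
    div_div_div_cancel_right₀ two_ne_zero]

theorem pg (n : ℕ) : ((gam zm 0 n).cyl 0).PG muCyl := RE.cyl_pg (realP H n) hz

theorem NN_res (b : Fin D.b) {m n : ℕ} (h : m ≤ n) (p : ℝ) {j : EJ}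
    (hj : ((gam zm 0 n).cyl 0).IsJet j) : NN zm m p (Res 0 m j) ≤ NN zm n p j := by
  have e : ∀ t, RE.EqAt (Res 0 m j) t j (clp 0 m t) := fun t =>
    ⟨H.tr_res _ _ _ _, H.tr_res _ _ _ _, H.tr_res _ _ _ _, H.tr_res _ _ _ _⟩
  have e1 := fun t => H.zr_clp 0 0 m n t le_rfl (Nat.zero_le m) h
  refine (RE.nrm_le zero_le_one fun t => ⟨_, e t, (e t).piJ (pg H hz m) (pg H hz n)
    (H.jet_res 0 0 m n (.inr b) j le_rfl (Nat.zero_le m) h hj) hj ?_, ?_⟩).trans_eq (one_mul _)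
  · rw [(real H hz m).cyl_io, (real H hz n).cyl_io, H.ze, H.ze, e1]
  · rw [norm_ww H hz, norm_ww H hz, e1, one_mul]

theorem qq_pos (n : ℕ) : 0 < zm / TT zm n :=
  div_pos (by linarith) (by linarith [(zr_mem H n 0).1, (zr_mem H n 0).2])

theorem norm_le_NN (n : ℕ) {p : ℝ} (hp : 0 ≤ p) (j : EJ) :
    ‖j‖ ≤ ((zm / TT zm n) ^ p)⁻¹ * NN zm n p j := by
  have h0 := Real.rpow_pos_of_pos (qq_pos H hz n) p
  rw [← nm_one_one]
  refine (nm_mono 1 j (w' := ww zm n p) (fun t => ?_) (inv_pos.2 h0).le).trans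
    (mul_le_mul_of_nonneg_left (by rw [nm_one]; exact le_max_left _ _) (inv_pos.2 h0).le)
  rw [norm_ww H hz, le_inv_mul_iff₀ h0]
  simp only [BoundedContinuousFunction.coe_one, Pi.one_apply, norm_one, mul_one]
  have := zr_mem H n t
  exact Real.rpow_le_rpow (qq_pos H hz n).le
    (div_le_div_of_nonneg_left (by linarith) (by linarith) this.2) hp

omit hz in
theorem jz_res {m n : ℕ} (h : m ≤ n) : Res 0 m (jZ (gam zm 0 n)) = jZ (gam zm 0 m) := by
  have e1 := fun t => H.zr_clp 0 0 m n t le_rfl (Nat.zero_le m) h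
  refine EJ.ext' (ext_ev fun t θ => (H.ev_res _ _ _ _ _).trans ?_)
    (ext_ev fun t θ => (H.ev_res _ _ _ _ _).trans ?_) (map_zero (resW 0 m)) (map_zero (resW 0 m))
  · change ev (W.C _) _ _ = ev (W.C _) _ _
    rw [ev_C, ev_C, H.ze, H.ze, e1]
  · change ev (W.C _) _ _ = ev (W.C _) _ _
    rw [ev_C, ev_C, cyl_Om, cyl_Om, H.ze, H.ze, e1]

omit H hz in
theorem tendsto_qq {p : ℝ} (hp : 0 < p) : Tendsto (fun n => (zm / TT zm n) ^ p) atTop (𝓝 0) := by
  have h : Tendsto (TT zm) atTop atTop :=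
    tendsto_atTop_add_const_right _ _ (tendsto_atTop_add_const_left _ _ tendsto_natCast_atTop_atTop)
  exact (h.const_div_atTop zm).rpow_const_nhds_zero hp

theorem exists_psi (b : Fin D.b) {jS : ℕ → EJ} {k : Cst}
    (hres : ∀ m n, m ≤ n → Res 0 m (jS n) = jS m) (hre : ∀ n, (jS n).cj = jS n)
    (hL : ∀ n, ∀ p ∈ Icc (0 : ℝ) (9 / 20), LBox k ((gam zm 0 n).cyl 0) muCyl sdCyl
      ((gam zm 0 n).pw 0 p) 1 (fderiv ℂ ((gam zm 0 n).Ecyl 0) (jS n)))
    (hs : ∀ n, k.D * ‖W.C (ww zm n (1 / 10)) *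
      fderiv ℂ ((gam zm 0 n).Ecyl 0) (jS n) (jZ (gam zm 0 n))‖ ≤ zm / 2) :
    ∃ Ψ : ℕ → EJ, (∀ n, ((gam zm 0 n).cyl 0).IsJet (Ψ n) ∧
      fderiv ℂ ((gam zm 0 n).Ecyl 0) (jS n) (jZ (gam zm 0 n) + Ψ n) = 0 ∧ (Ψ n).cj = Ψ n ∧
      NN zm n (1 / 10) (Ψ n) ≤ zm / 2) ∧ ∀ m n, m ≤ n → Res 0 m (Ψ n) = Ψ m := by
  set L := fun n => fderiv ℂ ((gam zm 0 n).Ecyl 0) (jS n) with hLd
  have h1 := fun n => hL n (1 / 10) (by norm_num)
  have s1 : ∀ t, 1 ≤ ‖(1 : BC) t‖ := by simp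
  have jr := fun m n j h => H.jet_res 0 0 m n (.inr b) j le_rfl (Nat.zero_le m) h
  choose ψ a1 a2 a3 a4 _ using fun n => (h1 n).exists_sol p0 (-L n (jZ (gam zm 0 n))) 0 0
  have a5 : ∀ n, fwd sdCyl (End.tr 0 (ψ n).y2) = 0 ∧ bwd sdCyl (End.tr 1 (ψ n).y2) = 0 := fun n => by
    have := a3 n
    rw [(h1 n).slowD_eq] at this
    constructor <;> ext1 m <;> have := congrArg (fun d : WD => d.c m) this <;>
      simp only [W.c_add, c_fwd, c_bwd] at this ⊢ <;> split_ifs at this ⊢ <;> simp_all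
  have a6 : ∀ n, NN zm n (1 / 10) (ψ n) ≤ zm / 2 := fun n => by
    refine ((h1 n).ap_nrm s1 (a1 n)).trans (le_of_eq_of_le ?_ (hs n))
    rw [Ctr.dsz, (a5 n).1, (a5 n).2, a4, a2]
    simp only [norm_zero, add_zero, mul_zero, zero_add, mul_neg, norm_neg]
    rfl
  have a7 : ∀ m n v, m ≤ n → L m (Res 0 m v) = resW 0 m (L n v) := fun m n v h => by
    have := H.dEE_res 0 0 m n (.inr b) (jS n) v le_rfl (Nat.zero_le m) h
    rwa [hres m n h] at this
  have a8 : ∀ m n, m ≤ n → L m (jZ (gam zm 0 m) + Res 0 m (ψ n)) = 0 := fun m n h => by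
    rw [← jz_res H h, ← map_add, a7 m n _ h, map_add, a2, add_neg_cancel, map_zero]
  have a9 : ∀ n, (ψ n).cj = ψ n := fun n => by
    have r := (real H hz n).isRl
    have e : (jZ (gam zm 0 n)).cj = jZ (gam zm 0 n) :=
      EJ.isRl_of (W.isRl_C (congrArg Path.ze r)) (W.isRl_C (congrArg Ctr.Om (r.cyl 0)))
        W.isRl_zero W.isRl_zero
    have e1 := dE_cj ((gam zm 0 n).differentiable_Ecyl 0) (r.Ecyl 0) (hre n)
    refine (h1 n).unique s1 ((H.jet_cj 0 n (.inr b) _ (a1 n)).sub (a1 n)) ?_ ?_ ?_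
    · rw [e1, a2, W.cj_neg, ← e1, e]
    · rw [EJ.y2_cj, ← cj_slowD sdCyl_neg, a3, W.cj_zero]
    · exact (H.piT_cj 0 n (.inr b) _).trans
        ((congrArg W.cj (a4 n)).trans (W.cj_zero.trans (a4 n).symm))
  have b1 : ∀ n n', n ≤ n' → NN zm n (2 / 5) (Res 0 n (ψ n') - ψ n) ≤
      k.D * (zm * (zm / TT zm n) ^ (3 / 10 : ℝ)) := fun n n' h => by
    have c1 := tr_le_nrm ((gam zm 0 n).cyl 0) muCyl (ww zm n (1 / 10)) (Res 0 n (ψ n')) 1
    have c2 := (NN_res H hz b h (1 / 10) (a1 n')).trans (a6 n')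
    have c3 : fwd sdCyl (End.tr 0 (Res 0 n (ψ n') - ψ n).y2) = 0 := by
      have : clp 0 n 0 = 0 := by
        have : 0 ≤ tau (n + 1) := sub_nonneg.2 (pow_le_one₀ (by norm_num) (by norm_num))
        change max (tau 0) (min 0 _) = 0
        rw [min_eq_left this]
        simp [tau]
      rw [EJ.sub_y2, map_sub, map_sub, (a5 n).1, sub_zero]
      exact (congrArg (fwd sdCyl) (H.tr_res 0 n _ 0)).trans (by rw [this]; exact (a5 n').1)
    have c4 : L n (Res 0 n (ψ n') - ψ n) = 0 := by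
      rw [map_sub, a2, sub_neg_eq_add, add_comm, ← map_add, a8 n n' h]
    have ok := (h1 n).ok
    refine ((hL n (2 / 5) (by norm_num)).ap_nrm s1 ((jr n n' _ h (a1 n')).sub (a1 n))).trans
      (mul_le_mul_of_nonneg_left ?_ (by linarith [ok.le_D, ok.one_le_C, ok.η0, ok.Ac0]))
    have c5 : ‖ww zm n (2 / 5) 1‖ = (zm / TT zm n) ^ (3 / 10 : ℝ) * ‖ww zm n (1 / 10) 1‖ := by
      rw [norm_ww H hz, norm_ww H hz, zr_one H, ← Real.rpow_add (qq_pos H hz n)]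
      norm_num
    have c6 := mul_le_mul_of_nonneg_left (norm_bwd_le sdCyl (End.tr 1 (Res 0 n (ψ n')).y2))
      (norm_nonneg (ww zm n (1 / 10) 1))
    rw [c3, Ctr.dsz, piJ_sub, EJ.sub_y2, map_sub, map_sub, map_sub, (a5 n).2, a4, sub_zero, sub_zero]
    change _ + (‖ww zm n (2 / 5) 1‖ * _ + ‖_ * L n _‖) ≤ _
    rw [c4, mul_zero, norm_zero, norm_zero, zero_add, add_zero, c5, mul_assoc, mul_comm zm]
    refine mul_le_mul_of_nonneg_left ?_ (Real.rpow_nonneg (qq_pos H hz n).le _)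
    linarith [c1.1.trans c2, c1.2.trans c2]
  have b2 : ∀ m, CauchySeq fun n => Res 0 m (ψ n) := fun m => Metric.cauchySeq_iff'.2 fun ε hε => by
    have t1 := (((tendsto_qq (zm := zm) (by norm_num : (0 : ℝ) < 3 / 10)).const_mul zm).const_mul
      k.D).const_mul ((zm / TT zm m) ^ (2 / 5 : ℝ))⁻¹
    obtain ⟨n, c1, c2⟩ := ((eventually_ge_atTop m).and (t1.eventually (gt_mem_nhds
      (by simpa using hε)))).exists
    refine ⟨n, fun n' h => lt_of_le_of_lt ?_ c2⟩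
    rw [dist_eq_norm, ← H.res_res 0 0 m n (ψ n') le_rfl (Nat.zero_le m) c1, ← map_sub]
    exact (norm_le_NN H hz m (by norm_num) _).trans (mul_le_mul_of_nonneg_left
      ((NN_res H hz b c1 _ ((jr n n' _ h (a1 n')).sub (a1 n))).trans (b1 n n' h))
      (inv_nonneg.2 (Real.rpow_nonneg (qq_pos H hz m).le _)))
  choose Ψ hΨ using fun m => cauchySeq_tendsto_of_complete (b2 m)
  refine ⟨Ψ, fun m => ⟨?_, ?_, ?_, ?_⟩, fun m n h => ?_⟩
  · exact (H.closed _).mem_of_tendsto (hΨ m)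
      ((eventually_ge_atTop m).mono fun n h => jr m n _ h (a1 n))
  · exact (isClosed_eq (f := fun v => L m (jZ (gam zm 0 m) + v)) (by fun_prop)
      continuous_const).mem_of_tendsto (hΨ m) ((eventually_ge_atTop m).mono (a8 m))
  · exact (isClosed_eq continuous_cj continuous_id).mem_of_tendsto (hΨ m)
      (Eventually.of_forall fun n => (H.res_cj 0 m _).symm.trans (congrArg _ (a9 n)))
  · exact (isClosed_le (continuous_nrm _ _ _) continuous_const).mem_of_tendsto (hΨ m)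
      ((eventually_ge_atTop m).mono fun n h => (NN_res H hz b h _ (a1 n)).trans (a6 n))
  · refine tendsto_nhds_unique (((Res 0 m).continuous.tendsto _).comp (hΨ n)) ?_
    exact (hΨ m).congr fun i => (H.res_res 0 0 m n _ le_rfl (Nat.zero_le m) h).symm

omit H hz in
/-- the linear theory and the size of the source -/
theorem exists_box : ∃ (k : Cst) (ε z1 : ℝ), 0 < ε ∧ 256 ≤ z1 ∧ ∀ zm, z1 ≤ zm → PathF D zm →
    ∀ (n : ℕ) (j : EJ), NN zm n (-(9 / 10)) j ≤ ε →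
    (∀ p ∈ Icc (0 : ℝ) (9 / 20), LBox k ((gam zm 0 n).cyl 0) muCyl sdCyl
      ((gam zm 0 n).pw 0 p) 1 (fderiv ℂ ((gam zm 0 n).Ecyl 0) j)) ∧
    k.D * ‖W.C (ww zm n (1 / 10)) * fderiv ℂ ((gam zm 0 n).Ecyl 0) j (jZ (gam zm 0 n))‖ ≤
      zm / 2 := by
  obtain ⟨C, L, hL, hB⟩ := box_cyl one_half_pos (by norm_num)
  obtain ⟨N, N0, hN⟩ := dN_le
  obtain ⟨δ, h0, h1, h2, -⟩ := far_const le_rfl hL one_pos (by norm_num : (0 : ℝ) < 1 / 80)
  obtain ⟨k, ok, -, -, -, -, hk⟩ := hB δ h0 h1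
  have hD : 1 ≤ k.D := by linarith [ok.le_D, ok.one_le_C, ok.η0, ok.Ac0]
  obtain ⟨ε, e0, e1, e2⟩ : ∃ ε > 0, ε ≤ δ ∧ k.D * (N * (2 * ε)) ≤ 1 / 4 := by
    refine ⟨min δ (1 / (8 * k.D * (N + 1))), by positivity, min_le_left _ _, ?_⟩
    have := (le_div_iff₀ (by positivity)).1 (min_le_right δ (1 / (8 * k.D * (N + 1))))
    have h3 : 0 < min δ (1 / (8 * k.D * (N + 1))) := by positivity
    nlinarith [mul_pos h3 (one_pos.trans_le hD)]
  refine ⟨k, ε, max 256 (1 / ε), e0, le_max_left _ _, fun zm hz H n j hj => ?_⟩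
  obtain ⟨hz, hz'⟩ := max_le_iff.1 hz
  have hn := nice H hz (by linarith) h0 ((one_div_le_one_div_of_le e0 e1).trans hz') n
  have x0 : ∀ t, 0 < zm / zr zm 0 n t ∧ zm / zr zm 0 n t ≤ 1 := fun t =>
    have := (zr_mem H n t).1
    ⟨div_pos (by linarith) (by linarith), div_le_one_of_le₀ this (by linarith)⟩
  have a1 : nm 1 (ww zm n (-(9 / 10))) j ≤ ε := by rw [nm_one]; exact (le_max_left _ _).trans hj
  have a2 : nm 1 1 j ≤ ε := (nm_mono 1 j (w' := ww zm n (-(9 / 10))) (fun t => by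
    rw [norm_ww H hz, one_mul]
    simpa using Real.one_le_rpow_of_pos_of_le_one_of_nonpos (x0 t).1 (x0 t).2 (by norm_num))
    zero_le_one).trans (by rwa [one_mul])
  refine ⟨fun p hp => (hk _ 0 1 j 0 _ _ hn (hn.sg_one (by simp)) (a2.trans e1) (hn.typB
    (by linarith) (by linarith [hp.1]) hp.2)).lbox
      (hasFDerivAt_shift ((gam zm 0 n).differentiable_Ecyl 0) j 0), ?_⟩
  have r := real H hz n
  have a3 : ∀ u : BC, (∀ t, ‖u t‖ ≤ ‖((gam zm 0 n).ze t)⁻¹‖) → ‖ww zm n (-(9 / 10)) * u‖ ≤ 2 * ε :=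
    fun u hu => norm_BC_le fun t => by
      have b1 := (zr_mem H n t).1
      have b2 := Real.rpow_le_rpow_of_exponent_ge (x0 t).1 (x0 t).2 (by norm_num : (-1 : ℝ) ≤ -(9 / 10))
      have b3 := hu t
      rw [H.ze, norm_inv, norm_real, Real.norm_of_nonneg (by linarith)] at b3
      rw [Real.rpow_neg_one, inv_div] at b2
      rw [BoundedContinuousFunction.mul_apply, norm_mul, norm_ww H hz]
      refine (mul_le_mul b2 b3 (norm_nonneg _) (div_nonneg (by linarith) (by linarith))).trans ?_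
      rw [div_mul_eq_mul_div, mul_inv_cancel₀ (by linarith), div_le_iff₀ (by linarith)]
      rw [div_le_iff₀ e0] at hz'
      linarith
  have a4 := hN (gam zm 0 n) (ww zm n (-(9 / 10))) (ww zm n 1) j (jZ (gam zm 0 n)) (2 * ε)
    (fun i => ⟨(hn.bC_le i).trans (by linarith), a3 _ fun t => by
      fin_cases i
      · simp [Path.bC]
      · exact (congrArg norm (r.binv_ze t)).le
      · refine (congrArg norm (r.cyl_io t)).le.trans ?_
        rw [mul_inv, norm_mul]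
        exact mul_le_of_le_one_left (norm_nonneg _) (by norm_num)
      · simp [Path.bC, Path.hh]
      · simp [Path.bC, Path.hh]⟩) (by linarith) (by linarith)
  have a5 : nm 1 (ww zm n 1) (jZ (gam zm 0 n)) ≤ 2 * zm := by
    have b : ∀ t, ‖ww zm n 1 t‖ * ‖(gam zm 0 n).ze t‖ = zm := fun t => by
      have b1 := (zr_mem H n t).1
      rw [norm_ww H hz, H.ze, norm_real, Real.norm_of_nonneg (by linarith), Real.rpow_one,
        div_mul_cancel₀ _ (by linarith)]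
    refine nm_le ?_ ?_ ?_ ?_
    · refine (congrArg norm (map_mul W.C _ _)).ge.trans ((W.norm_C _).trans_le
        (norm_BC_le fun t => (norm_mul _ _).trans_le ?_))
      linarith [b t]
    · refine (congrArg norm (map_mul W.C _ _)).ge.trans ((W.norm_C _).trans_le
        (norm_BC_le fun t => (norm_mul _ _).trans_le ?_))
      rw [cyl_Om, norm_mul, Complex.norm_ofNat]
      linarith [b t]
    · change ‖_ * 0‖ ≤ _
      rw [mul_zero, norm_zero]; linarith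
    · change ‖_ * (_ * 0)‖ ≤ _
      rw [mul_zero, mul_zero, norm_zero]; linarith
  rw [Mod_jz, sub_zero, ← ww_add, show (-(9 / 10) + 1 : ℝ) = 1 / 10 by norm_num, ← mul_assoc N] at a4
  calc _ ≤ k.D * (N * (2 * ε) * (2 * zm)) := by gcongr; exact a4.trans (by gcongr)
    _ ≤ 1 / 4 * (2 * zm) := by rw [← mul_assoc]; gcongr
    _ = _ := by ring

end Vale.Agent.P218N.Core.CylP
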