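import Vale.Agent.P218N.Core.CylA

/-! The slow solution on a cylindrical end: asymptotics and assembly. -/

open Set Filter Topology Metric Complex

noncomputable section

namespace Vale.Agent.P218N.Core

open Vale.Agent.P218.H313 Vale.Agent.P218N.H Vale.Agent.P218N.End End.Ctr End.Path.Real

namespace CylP

variable {w : E3 → ℝ} {D : EndData w} {zm : ℝ} (H : PathF D zm) (hz : 256 ≤ zm)
include H

theorem res_eq_cmp {m n : ℕ} (h : m ≤ n) (j : EJ) :
    Sub (clp 0 m) (gam zm 0 n) (gam zm 0 m) ∧ Res 0 m j = j.cmp (clp 0 m) := by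
  have h0 : 0 ≤ tau (m + 1) := sub_nonneg.2 (pow_le_one₀ (by norm_num) (by norm_num))
  have h1 : tau (m + 1) ≤ 1 := sub_le_self _ (by positivity)
  have e : ∀ t, clp 0 m t = max 0 (min t (tau (m + 1))) := fun t => by simp [clp, tau]
  have e1 : ∀ t, clp 0 m (cl t) = clp 0 m t := fun t => by
    simp only [e, cl, max_def, min_def]
    split_ifs <;> linarith
  have s : Sub (clp 0 m) (gam zm 0 n) (gam zm 0 m) := ⟨(clp 0 m).continuous.continuousOn,
    fun t _ => by rw [e]; exact ⟨le_max_left _ _, max_le zero_le_one ((min_le_right _ _).trans h1)⟩,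
    fun t _ => by rw [H.ze, H.ze, H.zr_clp 0 0 m n t le_rfl (Nat.zero_le m) h]⟩
  exact ⟨s, RE.cmp_of_eqAt s fun t => by
    rw [e1]; exact ⟨H.tr_res _ _ _ _, H.tr_res _ _ _ _, H.tr_res _ _ _ _, H.tr_res _ _ _ _⟩⟩

include hz

theorem norm_jz (n : ℕ) : ‖jZ (gam zm 0 n)‖ ≤ 2 * TT zm n := by
  have b : ∀ t, ‖(gam zm 0 n).ze t‖ ≤ TT zm n := fun t => by
    have := zr_mem H n t
    rw [H.ze, norm_real, Real.norm_of_nonneg (by linarith)]
    exact this.2
  have h0 := (norm_nonneg _).trans (b 0)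
  refine EJ.norm_le _ ((W.norm_C _).trans_le (norm_BC_le fun t => by linarith [b t]))
    ((W.norm_C _).trans_le (norm_BC_le fun t => ?_)) (norm_zero.trans_le (by linarith))
    (norm_zero.trans_le (by linarith))
  rw [cyl_Om, norm_mul, Complex.norm_ofNat]
  linarith [b t]

theorem norm_pi_jz (n : ℕ) :
    ‖End.tr 1 (((gam zm 0 n).cyl 0).piJ muCyl (jZ (gam zm 0 n)))‖ ≤ 4 := by
  have r := real H hz n
  have h0 := r.ze_ne 1
  have e : End.tr 1 (((gam zm 0 n).cyl 0).piJ muCyl (jZ (gam zm 0 n))) =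
      W.C (nu (-(4 * (gam zm 0 n).ze 1)⁻¹) * (2 * (gam zm 0 n).ze 1)) := by
    ext1 m
    rw [c_tr, (pg H hz n).c_piJ (jz_jet r), jz_y]
    change _ * (W.C _ : WB).c m 1 + _ = _
    simp only [W.C_apply, W.c_one1]
    split_ifs with a
    · subst a
      rw [la_eq, cyl_Om, r.cyl_io, show ((muCyl 0 : ℝ) : ℂ) = -1 by simp [muCyl],
        show -1 / 2 * (2 * (gam zm 0 n).ze 1)⁻¹ = -(4 * (gam zm 0 n).ze 1)⁻¹ by field_simp; ring]
      ring
    · simp
  rw [e, W.norm_C, norm_mul]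
  refine (mul_le_mul_of_nonneg_right (norm_nu_le' _) (norm_nonneg _)).trans_eq ?_
  rw [mul_assoc, ← norm_mul, show -(4 * (gam zm 0 n).ze 1)⁻¹ * (2 * (gam zm 0 n).ze 1) = -2⁻¹ by
    field_simp; ring]
  norm_num

theorem tendsto_div {x : ℕ → WD} (h : ∀ n, ‖ww zm n (1 / 10) 1‖ * ‖x n‖ ≤ zm) :
    Tendsto (fun n => ((TT zm n : ℝ) : ℂ)⁻¹ • x n) atTop (𝓝 0) := by
  refine squeeze_zero_norm (fun n => ?_) (tendsto_qq (zm := zm) (by norm_num : (0 : ℝ) < 9 / 10))
  have h1 := h n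
  have h2 := qq_pos H hz n
  have h3 : 0 < TT zm n := by linarith [(zr_mem H n 0).1, (zr_mem H n 0).2]
  have h4 := Real.rpow_add h2 (9 / 10) (1 / 10)
  rw [norm_ww H hz, zr_one H] at h1
  rw [show (9 / 10 + 1 / 10 : ℝ) = 1 by norm_num, Real.rpow_one] at h4
  rw [norm_smul, norm_inv, norm_real, Real.norm_of_nonneg h3.le]
  refine le_of_mul_le_mul_left ?_ (by linarith : 0 < zm)
  rw [← mul_assoc, ← div_eq_mul_inv, mul_comm zm (_ ^ _)]
  conv_lhs => rw [h4, mul_assoc]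
  exact mul_le_mul_of_nonneg_left h1 (Real.rpow_nonneg h2.le _)

end CylP

open CylP

/-- the rotation fields -/
def PRStmt : Prop := ∀ {w : E3 → ℝ} (_ : Shr w) (D : EndData w) (b : Fin D.b),
  ∃ z1 : ℝ, ∀ zm, z1 ≤ zm → PathF D zm →
  ∃ (pR : ℕ → ℂ × ℂ →L[ℂ] EJ) (C ρ : ℝ), 0 ≤ C ∧ ρ ≠ 0 ∧
    (∀ n c, ((gam zm 0 n).cyl 0).IsJet (pR n c)) ∧
    (∀ n c t θ, ev (pR n c).y t θ = phR b c (zr zm 0 n t, θ)) ∧ (∀ n, ‖pR n‖ ≤ C * TT zm n ^ 2) ∧
    (∀ c, Tendsto (fun n => ((√(TT zm n) : ℝ) : ℂ)⁻¹ • End.tr 1 (pR n c).y2) atTop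
      (𝓝 (-(ρ : ℂ) • Rc c))) ∧
    ∀ c, Tendsto (fun n => ((√(TT zm n) : ℝ) : ℂ)⁻¹ •
      piT (D := D) (gam zm 0 n) (.inr b) (pR n c)) atTop (𝓝 0)

theorem cylStmt_of (hP : PathStmt) (hR : PRStmt) : CylStmt := by
  intro w D jE dS πS Z C hw hE
  choose z2 h2 using hR hw D
  obtain ⟨k, ε, z1, e0, hz1, hk⟩ := exists_box (D := D)
  have t1 : Tendsto (fun T : ℝ => C * T ^ (-(9 / 10) : ℝ)) atTop (𝓝 0) := by
    simpa using (tendsto_rpow_neg_atTop (by norm_num : (0 : ℝ) < 9 / 10)).const_mul C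
  obtain ⟨z, hz⟩ := eventually_atTop.1 ((eventually_ge_atTop (1000 : ℝ)).and
    ((eventually_ge_atTop z1).and ((eventually_ge_atTop Z).and
      ((eventually_all.2 fun b => eventually_ge_atTop (z2 b)).and
        (t1.eventually (ge_mem_nhds e0))))))
  refine ⟨z, fun zm hzm b B hB => ?_⟩
  obtain ⟨a1, a2, a3, a4, a5⟩ := hz zm hzm
  have H := hP w D zm a1
  have hz := hz1.trans a2
  have E := hE.cyl b
  obtain ⟨pR, C', ρ, c0, c1, c2, c3, c4, c5, c6⟩ := h2 b zm (a4 b) H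
  have b1 := fun n => hk zm a2 H n (B.jS n) (by
    rw [hB]; exact (E.dec zm _ a3 (realP H n)).trans a5)
  obtain ⟨Ψ, d1, d2⟩ := exists_psi H hz b (jS := B.jS) (fun m n h => by
      rw [hB, hB, (res_eq_cmp H h _).2]
      exact (E.cmp zm zm _ _ _ a3 (realP H n) (realP H m) (res_eq_cmp H h 0).1).symm)
    (fun n => by
      have := E.real zm _ a3 (realP H n)
      rw [hB]
      exact EJ.isRl_of (isRl_iff_ev.2 fun t θ => (this t θ).1) (isRl_iff_ev.2 fun t θ => (this t θ).2.1)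
        (isRl_iff_ev.2 fun t θ => (this t θ).2.2.1) (isRl_iff_ev.2 fun t θ => (this t θ).2.2.2))
    (fun n => (b1 n).1) fun n => (b1 n).2
  have d3 := fun n t => tr_le_nrm ((gam zm 0 n).cyl 0) muCyl (ww zm n (1 / 10)) (Ψ n) t
  have d4 : ∀ n, zm ≤ TT zm n := fun n => (zr_mem H n 0).1.trans (zr_mem H n 0).2
  refine ⟨⟨fun n => jZ (gam zm 0 n) + Ψ n, pR, C' + 3, 1, ρ, one_ne_zero, c1,
    fun n => (jz_jet (real H hz n)).add (d1 n).1, fun n => (d1 n).2.1,
    fun m n h => by rw [map_add, jz_res H h, d2 m n h], fun n => ?_, fun n t θ => ?_, fun n => ?_,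
    ?_, ?_, c2, c3, fun n => (c4 n).trans (by gcongr; linarith), c5, c6⟩⟩
  · have r := (real H hz n).isRl
    rw [EJ.cj_add, (d1 n).2.2.1]
    exact congrArg (· + Ψ n) (EJ.isRl_of (W.isRl_C (congrArg Path.ze r))
      (W.isRl_C (congrArg Ctr.Om (r.cyl 0))) W.isRl_zero W.isRl_zero)
  · have f1 := (d3 n t).1.trans (d1 n).2.2.2
    have f2 : ‖ev (Ψ n).y t θ‖ ≤ ‖End.tr t (Ψ n).y2‖ := by
      rw [← sumL_tr, EJ.y, tr_mult sym0_le]
      exact (W.norm_sumL_le _ _).trans ((norm_mult_apply_le sym0_le _).trans_eq (one_mul _))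
    have f3 := (zr_mem H n t).1
    have f4 : 0 < zm / zr zm 0 n t := div_pos (by linarith) (by linarith)
    have f5 := Real.rpow_le_rpow_of_exponent_ge f4 (div_le_one_of_le₀ f3 (by linarith))
      (by norm_num : (1 / 10 : ℝ) ≤ 1)
    rw [norm_ww H hz] at f1
    rw [Real.rpow_one] at f5
    have f6 := (mul_le_mul f5 f2 (norm_nonneg _) (f4.le.trans f5)).trans f1
    rw [EJ.add_y, ev_add, jz_y, ev_C, H.ze]
    intro f7
    rw [← neg_eq_iff_add_eq_zero.2 f7, norm_neg, norm_real, Real.norm_of_nonneg (by linarith),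
      div_mul_cancel₀ _ (by linarith)] at f6
    linarith
  · have f1 := norm_le_NN H hz n (by norm_num : (0 : ℝ) ≤ 1 / 10) (Ψ n)
    have f2 := qq_pos H hz n
    have f3 := Real.rpow_le_rpow_of_exponent_ge f2 (div_le_one_of_le₀ (d4 n) (by linarith [d4 n]))
      (by norm_num : (1 / 10 : ℝ) ≤ 1)
    rw [Real.rpow_one] at f3
    have f4 := f1.trans (mul_le_mul (inv_anti₀ f2 f3) (d1 n).2.2.2 (nrm_nonneg _ _ _ _)
      (inv_pos.2 f2).le)
    rw [inv_div, mul_div_assoc', div_mul_cancel₀ _ (by linarith)] at f4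
    refine (norm_add_le_of_le (norm_jz H hz n) f4).trans ?_
    nlinarith [d4 n, mul_nonneg c0 (sq_nonneg (TT zm n))]
  · have f1 := (tendsto_div H hz fun n => ((d3 n 1).1.trans (d1 n).2.2.2).trans
      (by linarith)).const_add (W.one1 0 1)
    rw [add_zero] at f1
    rw [ofReal_one, one_smul]
    refine f1.congr fun n => ?_
    have f2 : ((TT zm n : ℝ) : ℂ) ≠ 0 := ofReal_ne_zero.2 (by linarith [d4 n])
    rw [EJ.add_y2, map_add, smul_add]
    congr 1
    change _ = _ • End.tr 1 (W.C _)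
    rw [tr_C, H.ze, zr_one H, ← map_smul, smul_eq_mul, inv_mul_cancel₀ f2]
    rfl
  · have f1 := (tendsto_div H hz fun n => ((d3 n 1).2.trans (d1 n).2.2.2).trans (by linarith)).add
      (tendsto_div H hz (x := fun n => End.tr 1 (((gam zm 0 n).cyl 0).piJ muCyl (jZ (gam zm 0 n))))
        fun n => (mul_le_mul (by
          rw [norm_ww H hz, zr_one H]
          exact Real.rpow_le_one (qq_pos H hz n).le (div_le_one_of_le₀ (d4 n) (by linarith [d4 n]))
            (by norm_num)) (norm_pi_jz H hz n) (norm_nonneg _) zero_le_one).trans (by linarith))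
    rw [add_zero] at f1
    refine f1.congr fun n => ?_
    rw [← smul_add, ← map_add, ← piJ_add, add_comm]
    rfl

end Vale.Agent.P218N.Core
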