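import Vale.Agent.P218N.End.JS2

/-! Functions on a cylindrical end which are bounded, or tend to zero, with all derivatives. -/

open Set Filter Topology Complex
open scoped ContDiff

noncomputable section

namespace Vale.Agent.P218N.End

namespace Cd

/-- functions on the cylinder -/
abbrev F : Type := ℝ × ℝ → ℝ

variable {f g u v : F} {r r' : F → Prop} {k : ℕ} {a b c : ℝ} {e : ℝ × ℝ}

/-- far out on the cylinder -/
def Fz : Filter (ℝ × ℝ) := comap Prod.fst atTop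

theorem ev_Fz {P : ℝ × ℝ → Prop} : (∀ᶠ p in Fz, P p) ↔ ∃ s : ℝ, ∀ p : ℝ × ℝ, s ≤ p.1 → P p := by
  simp only [Fz, eventually_comap, eventually_atTop]
  exact exists_congr fun s => ⟨fun h p hp => h _ hp p rfl, fun h _ hx p hp => h p (hp ▸ hx)⟩

theorem ev_nhds {P : ℝ × ℝ → Prop} (h : ∀ᶠ p in Fz, P p) : ∀ᶠ p in Fz, ∀ᶠ q in 𝓝 p, P q := by
  obtain ⟨s, hs⟩ := ev_Fz.1 h
  exact ev_Fz.2 ⟨s + 1, fun p hp => (continuousAt_fst.eventually
    (eventually_ge_nhds (by linarith : s < p.1))).mono hs⟩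

/-- the directional derivative -/
def dr (e : ℝ × ℝ) (u : F) : F := fun p => fderiv ℝ u p e

theorem per_const (c : ℝ) : Per fun _ => c := ⟨contDiff_const, fun _ _ => rfl⟩
theorem per_fst : Per Prod.fst := ⟨contDiff_fst, fun _ _ => rfl⟩
theorem per_add (hf : Per f) (hg : Per g) : Per (f + g) :=
  ⟨hf.smooth.add hg.smooth, fun s θ => congrArg₂ (· + ·) (hf.per s θ) (hg.per s θ)⟩
theorem per_mul (hf : Per f) (hg : Per g) : Per (f * g) :=
  ⟨hf.smooth.mul hg.smooth, fun s θ => congrArg₂ (· * ·) (hf.per s θ) (hg.per s θ)⟩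

theorem dr_const (c : ℝ) : dr e (fun _ => c) = fun _ => 0 := funext fun p => by simp [dr]
theorem dr_fst : dr e Prod.fst = fun _ => e.1 := funext fun p => by simp [dr, fderiv_fst]
theorem dr_add (hf : Per f) (hg : Per g) : dr e (f + g) = dr e f + dr e g := funext fun p =>
  congrArg (· e) ((hf.hasFDerivAt p).add (hg.hasFDerivAt p)).fderiv
theorem dr_mul (hf : Per f) (hg : Per g) : dr e (f * g) = dr e f * g + f * dr e g :=
  funext fun p => (congrArg (· e) ((hf.hasFDerivAt p).mul (hg.hasFDerivAt p)).fderiv).trans (by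
    simp [dr]; ring)
theorem dr_congr (h : f =ᶠ[Fz] g) : dr e f =ᶠ[Fz] dr e g :=
  (ev_nhds h).mono fun _ hp => congrArg (fun L : ℝ × ℝ →L[ℝ] ℝ => L e) (EventuallyEq.fderiv_eq hp)

/-- the property holds for the derivatives of order less than `k` -/
def Cl (r : F → Prop) : ℕ → F → Prop
  | 0, _ => True
  | k + 1, u => r u ∧ ∀ e : ℝ × ℝ, ‖e‖ ≤ 1 → Cl r k (dr e u)

theorem Cl.lo : ∀ {k : ℕ} {u : F}, Cl r (k + 1) u → Cl r k u
  | 0, _, _ => trivial
  | _ + 1, _, h => ⟨h.1, fun e he => (h.2 e he).lo⟩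

theorem Cl.imp (h : ∀ f, r f → r' f) : ∀ {k : ℕ} {u : F}, Cl r k u → Cl r' k u
  | 0, _, _ => trivial
  | _ + 1, _, a => ⟨h _ a.1, fun e he => (a.2 e he).imp h⟩

/-- ideals of the ring of bounded functions -/
structure Good (r : F → Prop) : Prop where
  add : ∀ {f g}, r f → r g → r (f + g)
  mul : ∀ {f g}, r f → BoundedAtFilter Fz g → r (f * g)
  congr : ∀ {f g}, f =ᶠ[Fz] g → r f → r g

theorem good_bd : Good (BoundedAtFilter Fz) :=
  ⟨.add, .mul, fun h a => Asymptotics.IsBigO.congr' a h EventuallyEq.rfl⟩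

theorem good_zr : Good (ZeroAtFilter Fz) :=
  ⟨.add, .mul_boundedAtFilter, fun h a => Tendsto.congr' h a⟩

theorem Cl.add (h : Good r) : ∀ {k : ℕ} {f g : F}, Per f → Per g → Cl r k f → Cl r k g →
    Cl r k (f + g)
  | 0, _, _, _, _, _, _ => trivial
  | _ + 1, _, _, hf, hg, a, b => ⟨h.add a.1 b.1, fun e he =>
      dr_add hf hg ▸ Cl.add h (hf.dir e) (hg.dir e) (a.2 e he) (b.2 e he)⟩

theorem Cl.mul (h : Good r) : ∀ {k : ℕ} {f g : F}, Per f → Per g → Cl r k f →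
    Cl (BoundedAtFilter Fz) k g → Cl r k (f * g)
  | 0, _, _, _, _, _, _ => trivial
  | _ + 1, _, _, hf, hg, a, b => ⟨h.mul a.1 b.1, fun e he =>
      dr_mul hf hg ▸ Cl.add h (per_mul (hf.dir e) hg) (per_mul hf (hg.dir e))
        (Cl.mul h (hf.dir e) hg (a.2 e he) b.lo) (Cl.mul h hf (hg.dir e) a.lo (b.2 e he))⟩

theorem Cl.congr (h : Good r) : ∀ {k : ℕ} {f g : F}, f =ᶠ[Fz] g → Cl r k f → Cl r k g
  | 0, _, _, _, _ => trivial
  | _ + 1, _, _, e, a => ⟨h.congr e a.1, fun e' he => Cl.congr h (dr_congr e) (a.2 e' he)⟩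

/-- the property holds for all derivatives -/
structure Cs (r : F → Prop) (u : F) : Prop where
  per : Per u
  cl : ∀ k, Cl r k u

/-- bounded with all derivatives -/
abbrev Bd : F → Prop := Cs (BoundedAtFilter Fz)
/-- small with all derivatives -/
abbrev Zr : F → Prop := Cs (ZeroAtFilter Fz)

theorem Cs.self (h : Cs r u) : r u := (h.cl 1).1
theorem Cs.dr (h : Cs r u) (he : ‖e‖ ≤ 1) : Cs r (dr e u) :=
  ⟨h.per.dir e, fun k => (h.cl (k + 1)).2 e he⟩
theorem Bd.ds (h : Bd u) : Bd (ds u) := h.dr (by simp [Prod.norm_def])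
theorem Bd.dt (h : Bd u) : Bd (dt u) := h.dr (by simp [Prod.norm_def])
theorem Zr.ds (h : Zr u) : Zr (ds u) := h.dr (by simp [Prod.norm_def])
theorem Zr.dt (h : Zr u) : Zr (dt u) := h.dr (by simp [Prod.norm_def])
theorem Zr.bd (h : Zr u) : Bd u := ⟨h.per, fun k => (h.cl k).imp fun _ a => a.boundedAtFilter⟩
theorem Bd.add (hf : Bd f) (hg : Bd g) : Bd (f + g) :=
  ⟨per_add hf.per hg.per, fun k => Cl.add good_bd hf.per hg.per (hf.cl k) (hg.cl k)⟩
theorem Zr.add (hf : Zr f) (hg : Zr g) : Zr (f + g) :=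
  ⟨per_add hf.per hg.per, fun k => Cl.add good_zr hf.per hg.per (hf.cl k) (hg.cl k)⟩
theorem Bd.mul (hf : Bd f) (hg : Bd g) : Bd (f * g) :=
  ⟨per_mul hf.per hg.per, fun k => Cl.mul good_bd hf.per hg.per (hf.cl k) (hg.cl k)⟩
theorem Zr.mul (hf : Zr f) (hg : Bd g) : Zr (f * g) :=
  ⟨per_mul hf.per hg.per, fun k => Cl.mul good_zr hf.per hg.per (hf.cl k) (hg.cl k)⟩
theorem Zr.congr (hf : Zr f) (hg : Per g) (h : f =ᶠ[Fz] g) : Zr g :=
  ⟨hg, fun k => Cl.congr good_zr h (hf.cl k)⟩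

theorem zr_of (h : Decays v) : Zr v := by
  refine ⟨h.toPer, fun k => ?_⟩
  induction k generalizing v with
  | zero => trivial
  | succ k ih =>
    refine ⟨NormedAddGroup.tendsto_nhds_zero.2 fun ε hε => ?_, fun e he => ih (h.dir he)⟩
    obtain ⟨s, hs⟩ := (h.abs_le (half_pos hε)).exists
    exact ev_Fz.2 ⟨s, fun p hp => (hs p hp).trans_lt (half_lt_self hε)⟩

theorem bd_const (c : ℝ) : Bd fun _ => c := by
  refine ⟨per_const c, fun k => ?_⟩
  induction k generalizing c with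
  | zero => trivial
  | succ k ih => exact ⟨const_boundedAtFilter _ _, fun e _ => dr_const c ▸ ih 0⟩

theorem zr_zero : Zr fun _ => 0 := by
  refine ⟨per_const 0, fun k => ?_⟩
  induction k with
  | zero => trivial
  | succ k ih => exact ⟨tendsto_const_nhds, fun e _ => by rwa [dr_const]⟩

/-- `a cos θ + b sin θ` -/
def tg (a b : ℝ) : F := fun p => a * Real.cos p.2 + b * Real.sin p.2

theorem per_tg (a b : ℝ) : Per (tg a b) := ⟨by unfold tg; fun_prop, fun s θ => by simp [tg]⟩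

theorem dr_tg : dr e (tg a b) = tg (e.2 * b) (-(e.2 * a)) := funext fun p =>
  (congrArg (· e) ((hasFDerivAt_snd.cos.const_mul a).add
    (hasFDerivAt_snd.sin.const_mul b)).fderiv).trans (by simp [tg]; ring)

theorem bd_tg (a b : ℝ) : Bd (tg a b) := by
  refine ⟨per_tg a b, fun k => ?_⟩
  induction k generalizing a b with
  | zero => trivial
  | succ k ih =>
    refine ⟨Asymptotics.IsBigO.of_bound (|a| + |b|) (Eventually.of_forall fun p => ?_),
      fun e _ => dr_tg ▸ ih _ _⟩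
    simp only [tg, Pi.one_apply, norm_one, mul_one]
    refine (norm_add_le _ _).trans (add_le_add ?_ ?_) <;> rw [norm_mul] <;>
      refine mul_le_of_le_one_right (norm_nonneg _) ?_
    exacts [Real.abs_cos_le_one _, Real.abs_sin_le_one _]

/-- a smooth function which is the inverse on `[1/2, ∞)` -/
def iv (x : ℝ) : ℝ := x / (x ^ 2 + Real.smoothTransition (1 - 2 * x))

theorem iv_eq {x : ℝ} (h : 1 / 2 ≤ x) : iv x = x⁻¹ := by
  rw [iv, Real.smoothTransition.zero_of_nonpos (by linarith), add_zero]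
  field_simp

theorem per_iv (h : Per u) : Per fun p => iv (u p) := by
  refine ⟨(ContDiff.div contDiff_id ((contDiff_id.pow 2).add (Real.smoothTransition.contDiff.comp
    (contDiff_const.sub (contDiff_const.mul contDiff_id)))) fun x => ?_).comp h.smooth,
    fun s θ => congrArg iv (h.per s θ)⟩
  rcases eq_or_ne x 0 with rfl | hx
  · simp
  · exact (add_pos_of_pos_of_nonneg (sq_pos_of_ne_zero hx) (Real.smoothTransition.nonneg _)).ne'

theorem dr_iv (h : Per u) (h1 : ∀ᶠ p in Fz, 1 / 2 ≤ u p) : dr e (fun p => iv (u p)) =ᶠ[Fz]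
    dr e u * ((fun p => iv (u p)) * ((fun p => iv (u p)) * fun _ => -1)) := by
  filter_upwards [h1, ev_nhds h1] with p a b
  have h2 := ((hasDerivAt_inv (by linarith : u p ≠ 0)).comp_hasFDerivAt p
    (h.hasFDerivAt p)).congr_of_eventuallyEq (f₁ := fun p => iv (u p)) (b.mono fun q => iv_eq)
  refine (congrArg (· e) h2.fderiv).trans ?_
  simp [dr, iv_eq a, sq]
  ring

theorem bd_iv (h : Per u) (h1 : ∀ᶠ p in Fz, 1 / 2 ≤ u p) (h2 : ∀ e, ‖e‖ ≤ 1 → Bd (dr e u)) :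
    Bd fun p => iv (u p) := by
  have h3 := per_iv h
  refine ⟨h3, fun k => ?_⟩
  induction k with
  | zero => trivial
  | succ k ih =>
    refine ⟨Asymptotics.IsBigO.of_bound 2 (h1.mono fun p a => ?_), fun e he =>
      Cl.congr good_bd (dr_iv h h1).symm (Cl.mul good_bd (h.dir e) (per_mul h3 (per_mul h3
        (per_const _))) ((h2 e he).cl k) (Cl.mul good_bd h3 (per_mul h3 (per_const _)) ih
          (Cl.mul good_bd h3 (per_const _) ih ((bd_const _).cl k))))⟩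
    rw [iv_eq a, Pi.one_apply, norm_one, mul_one, norm_inv, Real.norm_of_nonneg (by linarith)]
    exact inv_le_of_inv_le₀ two_pos (by linarith)

theorem ev_fst (s : ℝ) : ∀ᶠ p in Fz, s ≤ p.1 := ev_Fz.2 ⟨s, fun _ h => h⟩

theorem bd_ivz : Bd fun p => iv p.1 :=
  bd_iv per_fst (ev_fst _) fun _ _ => dr_fst ▸ bd_const _

/-- functions which tend to a constant -/
def Nr (c : ℝ) (u : F) : Prop := ∃ f, Zr f ∧ u = f + fun _ => c

theorem Zr.nr (h : Zr u) : Nr 0 u := ⟨u, h, (add_zero u).symm⟩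
theorem Nr.zr (h : Nr c u) (hc : c = 0) : Zr u := by
  obtain ⟨f, h, rfl⟩ := h
  exact hc ▸ h.add zr_zero
theorem Nr.bd (h : Nr c u) : Bd u := by
  obtain ⟨f, h, rfl⟩ := h
  exact h.bd.add (bd_const c)
theorem nr_const (c : ℝ) : Nr c fun _ => c := ⟨_, zr_zero, (zero_add _).symm⟩
theorem Nr.add (hf : Nr a f) (hg : Nr b g) : Nr (a + b) (f + g) := by
  obtain ⟨f, hf, rfl⟩ := hf
  obtain ⟨g, hg, rfl⟩ := hg
  exact ⟨_, hf.add hg, funext fun p => by simp only [Pi.add_apply]; ring⟩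
theorem Nr.mul (hf : Nr a f) (hg : Nr b g) : Nr (a * b) (f * g) := by
  have := hg.bd
  obtain ⟨f, hf, rfl⟩ := hf
  obtain ⟨g, hg, rfl⟩ := hg
  exact ⟨_, (hf.mul this).add (hg.mul (bd_const a)),
    funext fun p => by simp only [Pi.add_apply, Pi.mul_apply]; ring⟩
theorem Nr.sub (hf : Nr a f) (hg : Nr b g) : Nr (a - b) (f - g) := by
  convert hf.add (hg.mul (nr_const (-1))) using 1
  · ring
  · exact funext fun p => by simp only [Pi.add_apply, Pi.mul_apply, Pi.sub_apply]; ring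
theorem Nr.sq (hf : Nr a f) : Nr (a ^ 2) (f ^ 2) := by simpa only [pow_two] using hf.mul hf

theorem Nr.half (h : Nr c u) (hc : c = 1) : ∀ᶠ p in Fz, 1 / 2 ≤ u p := by
  obtain ⟨f, h, rfl⟩ := h
  exact (h.self.add_const c).eventually (eventually_ge_nhds (by norm_num [hc]))

theorem Nr.iv (h : Nr c u) (hc : c = 1) : Bd fun p => iv (u p) :=
  bd_iv h.bd.per (h.half hc) fun _ he => h.bd.dr he

/-- The scaled derivative `z ∂_z v` tends to zero with all derivatives. -/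
theorem zr_zds (hv : Decays v) (he : ∀ᶠ s₀ in atTop, ∀ p : ℝ × ℝ, s₀ ≤ p.1 → CylEq v p) :
    Zr (Prod.fst * ds v) := by
  have h := zr_of hv
  have y1 : Nr (1 + 0) (1 + v) := (nr_const 1).add h.nr
  have yt := h.dt.nr
  have hB := (h.ds.mul (h.ds.bd.mul (bd_const 2⁻¹))).nr
  have hu := h.ds.mul bd_ivz
  have hq := (h.ds.ds.mul (bd_const 2⁻¹)).nr.sub (hu.mul (bd_const 2⁻¹)).nr
  have hp := (h.ds.dt.mul (bd_ivz.mul (bd_const 2⁻¹))).nr
  have b1 := (nr_const 1).add ((nr_const 4).mul hB)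
  have hU : Nr _ (cylU v _ _ _) := (((y1.sq.mul b1).add yt.sq).mul y1).add
    ((((nr_const 8).mul y1).mul yt).mul hp)
  have hR : Nr _ (cylR v _ _ _ _ _) := (((((y1.sq.add yt.sq).mul y1).mul (((nr_const 4).mul hq).add
    ((nr_const 2).mul hu.nr))).add (((nr_const 8).mul yt.sq).mul hB)).add (b1.mul
      (((y1.mul h.dt.dt.nr).sub y1.sq).sub ((nr_const 2).mul yt.sq)))).add
        (((y1.sq.mul b1).add yt.sq).mul y1.sq)
  refine ((hR.zr (by norm_num)).mul (hU.iv (by norm_num))).congr (per_mul per_fst h.per.ds) ?_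
  filter_upwards [hU.half (by norm_num), ev_Fz.2 he.exists, ev_fst 1] with p a b c
  rw [CylEq, cylE_zero, sub_eq_zero] at b
  have e1 : (2 * p.1 ^ 2)⁻¹ * (p.1 * ds v p) ^ 2 = ds v p * (ds v p * 2⁻¹) := by field_simp
  have e2 : (p.1 ^ 2)⁻¹ * (p.1 * ds v p) = ds v p * p.1⁻¹ := by field_simp
  have e3 : ds (ds v) p / 2 - ds v p / (2 * p.1) = ds (ds v) p * 2⁻¹ - ds v p * p.1⁻¹ * 2⁻¹ := by
    field_simp
  have e4 : dt (ds v) p / (2 * p.1) = dt (ds v) p * (p.1⁻¹ * 2⁻¹) := by field_simp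
  rw [e1, e2, e3, e4, ← iv_eq (by linarith : 1 / 2 ≤ p.1)] at b
  rw [Pi.mul_apply, iv_eq a, mul_inv_eq_iff_eq_mul₀ (by linarith)]
  exact b

theorem Zr.tendsto_lft (h : Zr v) {ι : Type*} {l : Filter ι}
    {σ : ι → ℝ → ℝ} (h1 : ∀ i, Rng (σ i)) (h2 : ∀ s₀ : ℝ, ∀ᶠ i in l, ∀ t, s₀ ≤ σ i t) :
    Tendsto (fun i => lft (σ i) v) l (𝓝 0) := by
  refine NormedAddGroup.tendsto_nhds_zero.2 fun ε hε => ?_
  have k := fun {f : F} (hf : Zr f) =>
    NormedAddGroup.tendsto_nhds_zero.1 hf.self (ε / 10) (by positivity)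
  obtain ⟨s₀, a⟩ := ev_Fz.1 ((k h).and (k h.dt.dt))
  filter_upwards [h2 s₀] with i b
  refine (h.per.norm_lft_le (h1 i) (fun t θ => (a _ (b t)).1.le)
    fun t θ => (a _ (b t)).2.le).trans_lt ?_
  linarith

theorem Bd.abs_le (h : Bd u) : ∃ K, ∀ p : ℝ × ℝ, 0 ≤ p.1 → |u p| ≤ K := by
  obtain ⟨K, hK⟩ := h.self.bound
  obtain ⟨s, hs⟩ := ev_Fz.1 hK
  obtain ⟨K', hK'⟩ := h.per.exists_bound 0 s
  refine ⟨max K K', fun p hp => (le_total s p.1).elim (fun a => le_max_of_le_left ?_)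
    fun a => le_max_of_le_right (hK' _ ⟨hp, a⟩ _)⟩
  simpa using hs p a

theorem Bd.lft_le (h : Bd u) : ∃ K, 0 ≤ K ∧ ∀ γ : Path, ‖lft γ.zc u‖ ≤ K := by
  obtain ⟨K, hK⟩ := h.abs_le
  obtain ⟨K', hK'⟩ := h.dt.dt.abs_le
  exact ⟨5 * max K |K'|, by positivity, fun γ => h.per.norm_lft_le (Path.Real.rng_zc γ)
    (fun t θ => le_max_of_le_left (hK _ (Real.sqrt_nonneg _)))
    fun t θ => le_max_of_le_right ((hK' _ (Real.sqrt_nonneg _)).trans (le_abs_self _))⟩

end Cd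

end Vale.Agent.P218N.End
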