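import Vale.Agent.P218N.Core.Box

/-! The slow solution of the linearised equation on a cylindrical end. -/

open Set Filter Topology Metric Complex
open scoped ComplexConjugate

noncomputable section

namespace Vale.Agent.P218N.Core

open Vale.Agent.P218N.H Vale.Agent.P218N.End Vale.Agent.P218N.End.RE Vale.Agent.P218N.J
  Vale.Agent.P218N.J.PolyP

namespace Bx

variable {w : E3 → ℝ} {D : EndData w} {T Z C zm : ℝ} {γ : End.Path} {v : ℝ × ℝ → ℝ}
  {J : End.Path → EJ} {d π : ℝ → WD}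

/-- the jet of `ζ - 2` -/
def jL (γ : End.Path) : EJ := (W.C (γ.ze - 2), W.C ((2 : ℂ) • γ.ze), 0, 0)

theorem jL_y (γ : End.Path) : (jL γ).y = W.C (γ.ze - 2) ∧ (jL γ).yt = 0 ∧ (jL γ).ytt = 0 :=
  EJ.y_eq_of (fun m => by
    rw [W.C_apply, W.c_one1, W.c_zero]
    split_ifs with h
    · simp [h]
    · simp) (fun m => by simp) (sub_zero _).symm

theorem jL_op (γ : End.Path) : (jL γ).op = W.C ((2 : ℂ) • γ.ze) := rfl

theorem isJet_jL (h : γ.Real 1) : (γ.cyl 0).IsJet (jL γ) := by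
  have e : ∀ t θ, ev ((γ.cyl 0).jP (jL γ)) t θ = 1 := fun t θ => by
    rw [Ctr.ev_jP, jL_op, ev_C, h.cyl_io]
    exact inv_mul_cancel₀ (mul_ne_zero two_ne_zero (h.ze_ne t))
  refine Ctr.isJet_of_ev (fun t θ => ?_) (fun t θ => ?_) fun t θ => ?_
  · simp only [e, (jL_y γ).1, ev_C, mul_one]
    exact (h.ok.der t).sub_const 2
  · simp only [e, Ctr.ev_jQ]
    exact (hasDerivAt_const t _).congr_deriv (by simp [jL, EJ.oq])
  · simp only [e]
    exact (hasDerivAt_const θ _).congr_deriv (by simp [jL, EJ.pt])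

theorem loc_jL : Loc jL Z := fun _ _ γ γ' t t' _ _ _ _ e =>
  ⟨(tr_C t _).trans ((congrArg (fun z => W.C (z - 2)) e).trans (tr_C t' (γ'.ze - 2)).symm),
    (tr_C t _).trans ((congrArg (fun z => W.C (2 * z)) e).trans (tr_C t' ((2 : ℂ) • γ'.ze)).symm),
    (map_zero _).trans (map_zero _).symm, (map_zero _).trans (map_zero _).symm⟩

theorem isRl_jL (h : γ.Real 1) : (jL γ).IsRl :=
  EJ.isRl_of (W.isRl_C (star_BC_eq_iff.2 fun t => by simp [h.ze_im]))
    (W.isRl_C (star_BC_eq_iff.2 fun t => by simp [h.ze_im])) W.isRl_zero W.isRl_zero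

theorem Mod_jL (γ : End.Path) : (2 : ℂ) • Ctr.Mod muCyl (jL γ) = -4 := ext_ev fun t θ => by
  rw [two_Mod_cyl, (jL_y γ).1, (jL_y γ).2.2]
  simp [jL, EJ.oq, EJ.op]
  ring

theorem norm_pi_jL (h : γ.RealP T) (hT : 256 ≤ T) (t : ℝ) :
    ‖End.tr t ((γ.cyl 0).piJ muCyl (jL γ))‖ ≤ 5 := by
  have r : γ.Real 1 := real h (by linarith)
  refine (W.norm_le_of_le (b := W.one1 0 (1 : ℂ)) (C := 5) fun m => ?_).trans (by simp)
  rw [c_tr, (cyl_pg h hT).c_piJ (isJet_jL r), (jL_y γ).1, jL_op, W.C_apply, W.C_apply, W.c_one1,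
    W.c_one1, W.c_one1]
  split_ifs with a
  · have h0 := r.ze_ne t
    have h1 := norm_nu_le' ((muCyl m : ℂ) / 2 * (γ.cyl 0).io t)
    rw [la_eq]
    generalize nu _ = n at h1 ⊢
    have e : (1 / 4 + n) * ((2 : ℂ) • γ.ze) t + (muCyl m : ℂ) / 2 * (γ.ze - 2) t =
        n * (2 * γ.ze t) + 1 := by
      simp [a, muCyl]
      ring
    have h2 := norm_pos_iff.2 (mul_ne_zero two_ne_zero h0)
    rw [r.cyl_io, norm_mul, norm_inv, ← mul_assoc, le_mul_inv_iff₀ h2, a] at h1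
    rw [e, norm_one]
    refine (norm_add_le _ _).trans ?_
    rw [norm_mul, norm_one]
    norm_num [muCyl] at h1 ⊢
    linarith
  · simp

/-- the inverse weight `(T / ζ) ^ p` -/
def wp (γ : End.Path) (p : ℝ) : BC := (γ.cyl 0).iW ((p : ℂ) • binv γ.ze) p0

theorem norm_wp (h : γ.RealP T) (hT : 1 ≤ T) (p t : ℝ) : ‖wp γ p t‖ = (T / (γ.ze t).re) ^ p :=
  norm_iW_pow h hT rfl p t

theorem src_le (h : CylEnd v J d π Z C) {ε : ℝ} (hε : 0 < ε) : ∀ᶠ T : ℝ in atTop,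
    ∀ γ : End.Path, γ.RealP T →
      ‖W.C (wp γ (3 / 10)) * fderiv ℂ (γ.Ecyl 0) (J γ) (jL γ)‖ ≤ ε * T := by
  obtain ⟨N, N0, hN⟩ := Ncyl_lip
  have l1 := tendsto_rpow_neg_atTop (by norm_num : (0 : ℝ) < 9 / 10)
  have l2 : Tendsto (fun T : ℝ => N * ((|C| + 1) * T ^ (-(9 / 10) : ℝ) * 2) + 4 * T⁻¹) atTop
      (𝓝 0) := by
    simpa using (((l1.const_mul (|C| + 1)).mul_const 2).const_mul N).add
      (tendsto_inv_atTop_zero.const_mul 4)
  filter_upwards [l2.eventually (ge_mem_nhds hε), cyl_small h one_half_pos, eventually_ge_atTop Z,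
    eventually_ge_atTop 10] with T a b c e γ hγ
  have n1 := nice (δ := 1 / 10) hγ le_rfl (by norm_num) (by linarith)
  have t0 : 0 < T := by linarith
  have x0 : ∀ t, 0 < T / (γ.ze t).re := fun t => div_pos t0 (by linarith [hγ.T_le t])
  have x1 : ∀ t, T / (γ.ze t).re ≤ 1 := fun t => (div_le_one (by linarith [hγ.T_le t])).2 (hγ.T_le t)
  have e1 : ∀ t, ‖(wp γ (-(9 / 10)) * binv γ.ze) t‖ = (T / (γ.ze t).re) ^ (1 / 10 : ℝ) * T⁻¹ :=
    fun t => by
      rw [BoundedContinuousFunction.mul_apply, norm_mul, norm_wp hγ (by linarith),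
        iz_eq hγ (by linarith), norm_real, Real.norm_of_nonneg (inv_le hγ t0 t).1,
        show (1 / 10 : ℝ) = -(9 / 10) + 1 by norm_num, Real.rpow_add_one (x0 t).ne']
      field_simp
  have e2 : ‖wp γ (-(9 / 10)) * binv γ.ze‖ ≤ T⁻¹ := norm_BC_le fun t => by
    rw [e1]
    exact mul_le_of_le_one_left (by positivity) (Real.rpow_le_one (x0 t).le (x1 t) (by norm_num))
  have p0' : 0 < T ^ (-(9 / 10) : ℝ) := by positivity
  have e3 : T⁻¹ ≤ (|C| + 1) * T ^ (-(9 / 10) : ℝ) := by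
    rw [← Real.rpow_neg_one]
    exact (Real.rpow_le_rpow_of_exponent_le (by linarith) (by norm_num)).trans
      (le_mul_of_one_le_left p0'.le (by linarith [abs_nonneg C]))
  have e4 : nm 1 (wp γ (-(9 / 10))) (J γ) < (|C| + 1) * T ^ (-(9 / 10) : ℝ) := by
    have := (wt_le_nrm _ _ _).trans (h.dec T γ c hγ)
    rw [pw_zero] at this
    exact this.trans_lt (mul_lt_mul_of_pos_right (by linarith [le_abs_self C]) p0')
  have e5 : nm 1 1 (J γ) < 1 := by rw [nm_one_one]; linarith [b γ hγ]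
  have e6 : nm 1 (binv γ.ze) (jL γ) ≤ 2 := by
    have k : ∀ x : BC, (∀ t, ‖x t‖ ≤ 2 * ‖γ.ze t‖) → ‖W.C (binv γ.ze) * W.C x‖ ≤ 2 := fun x hx => by
      rw [← map_mul, W.norm_C]
      refine norm_BC_le fun t => ?_
      rw [BoundedContinuousFunction.mul_apply, norm_mul, n1.iz_apply, norm_inv,
        inv_mul_le_iff₀ (norm_pos_iff.2 (n1.ze_ne t)), mul_comm]
      exact hx t
    refine nm_le (k _ fun t => (norm_sub_le _ _).trans ?_) (k _ fun t => (norm_mul _ _).le.trans ?_)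
      (by simp [jL, EJ.oq]) (by simp [jL, EJ.pt])
    · have := n1.ze t
      simp only [BoundedContinuousFunction.coe_ofNat, Pi.ofNat_apply, Complex.norm_ofNat]
      linarith
    · simp
  have hb : ∀ i, ‖γ.bC 0 i‖ ≤ 1 ∧ ‖wp γ (-(9 / 10)) * γ.bC 0 i‖ ≤
      (|C| + 1) * T ^ (-(9 / 10) : ℝ) := fun i => by
    refine ⟨(n1.bC_le i).trans (by norm_num), le_trans ?_ (e2.trans e3)⟩
    refine norm_BC_le fun t => le_trans ?_ ((_ : BC).norm_coe_le_norm t)
    rw [BoundedContinuousFunction.mul_apply, BoundedContinuousFunction.mul_apply, norm_mul, norm_mul]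
    gcongr
    fin_cases i
    · simp [Path.bC]
    · rfl
    · change ‖binv γ.ze t * binv (γ.rho 0) t‖ ≤ _
      rw [Path.Real.binv_rho, norm_mul]
      exact mul_le_of_le_one_right (norm_nonneg _) (by norm_num)
    · simp [Path.bC, Path.hh]
    · simp [Path.bC, Path.hh]
  have d1 : HasDerivAt (fun z : ℂ => J γ + z • jL γ) (jL γ) 0 := by
    simpa using ((hasDerivAt_id (0 : ℂ)).smul_const (jL γ)).const_add (J γ)
  have d2 : HasDerivAt (fun z : ℂ => W.C (wp γ (-(9 / 10)) * binv γ.ze) * γ.Ncyl 0 (J γ + z • jL γ))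
      (W.C (wp γ (-(9 / 10)) * binv γ.ze) * (fderiv ℂ (γ.Ecyl 0) (J γ) (jL γ) - -4)) 0 := by
    refine HasDerivAt.const_mul _ (HasDerivAt.fun_sub
      ((γ.differentiable_Ecyl 0 _).hasFDerivAt.comp_hasDerivAt_of_eq 0 d1 (by simp)) ?_)
    have e : ∀ z : ℂ, (2 : ℂ) • Ctr.Mod muCyl (J γ + z • jL γ) =
        (2 : ℂ) • Ctr.Mod muCyl (J γ) + z • (-4 : WB) := fun z => by
      have := Ctr.Mod_sub (μ := muCyl) (J γ + z • jL γ) (J γ)
      rw [add_sub_cancel_left, Mod_smul, eq_sub_iff_add_eq'] at this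
      rw [← this, ← Mod_jL γ, smul_add, smul_comm z]
    simp only [e]
    exact (((hasDerivAt_id (0 : ℂ)).smul_const (-4 : WB)).const_add _).congr_deriv (one_smul _ _)
  have c1 : ∀ (u : BC) (A : ℝ), nm 1 u (J γ) < A → ∀ᶠ z : ℂ in 𝓝 0, nm 1 u (J γ + z • jL γ) < A :=
    fun u A hA => ((continuous_nm 1 u).continuousAt.comp d1.continuousAt).eventually
      (gt_mem_nhds (by simpa using hA))
  have d3 := d2.le_of_lip' (C := N * ((|C| + 1) * T ^ (-(9 / 10) : ℝ) * 2)) (by positivity) (by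
    filter_upwards [c1 _ _ e4, c1 _ _ e5] with z z1 z2
    have := (hN γ 0 1 _ (binv γ.ze) _ _ _ (by simp) (by simp [Path.Oh]) hb z2.le e5.le z1.le
      e4.le).1
    rw [add_sub_cancel_left, nm_smul] at this
    rw [← mul_sub, zero_smul, add_zero, sub_zero]
    refine this.trans ?_
    rw [mul_assoc N, mul_assoc _ 2, mul_comm 2]
    gcongr)
  refine (wle (w := wp γ (-(9 / 10)) * binv γ.ze) t0.le (fun t => ?_) _).trans ?_
  · rw [e1, norm_wp hγ (by linarith), mul_left_comm, mul_inv_cancel₀ t0.ne', mul_one]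
    exact Real.rpow_le_rpow_of_exponent_ge (x0 t) (x1 t) (by norm_num)
  · rw [mul_comm ε]
    refine mul_le_mul_of_nonneg_left (le_trans ?_ a) t0.le
    rw [mul_sub] at d3
    refine (norm_le_insert' _ _).trans ((add_comm _ _).le.trans (add_le_add d3 ?_))
    refine (norm_C_mul_le _ _).trans ?_
    rw [norm_neg, ← map_ofNat (algebraMap ℂ WB) 4, norm_algebraMap', Complex.norm_ofNat, mul_comm]
    gcongr

theorem fderiv_cj {E : EJ → WB} (hE : Differentiable ℂ E) (h : ∀ j, E j.cj = W.cj (E j)) {j : EJ}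
    (hj : j.IsRl) (u : EJ) : fderiv ℂ E j u.cj = W.cj (fderiv ℂ E j u) := by
  have d : ∀ u : EJ, HasDerivAt (fun z : ℂ => E (j + z • u)) (fderiv ℂ E j u) 0 := fun u =>
    (hE j).hasFDerivAt.comp_hasDerivAt_of_eq 0 (by
      simpa using ((hasDerivAt_id (0 : ℂ)).smul_const u).const_add j) (by simp)
  have d1 := HasDerivAt.comp_semilinear (σ' := starRingEnd ℂ) W.cjL (d u)
  rw [map_zero] at d1
  refine (d u.cj).unique (d1.congr_of_eventuallyEq (Eventually.of_forall fun z => ?_))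
  change _ = W.cj (E _)
  rw [← h, EJ.cj_add, hj, EJ.cj_smul, conj_conj]

theorem continuous_nrm (Γ : Ctr) (μ : ℤ → ℝ) (u : BC) : Continuous (Γ.nrm μ u) := by
  have h : Differentiable ℂ (Γ.piJ μ) := by unfold Ctr.piJ; fun_prop
  have h1 := continuous_nm 1 u
  rw [funext (nm_one u)] at h1
  exact h1.max (continuous_const.mul h.continuous).norm

theorem tr_le_nrm {Γ : Ctr} {μ : ℤ → ℝ} (u : BC) (j : EJ) (t : ℝ) :
    ‖u t‖ * ‖End.tr t j.y2‖ ≤ Γ.nrm μ u j ∧ ‖u t‖ * ‖End.tr t (Γ.piJ μ j)‖ ≤ Γ.nrm μ u j := by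
  rw [← norm_tr_C_mul, ← norm_tr_C_mul]
  exact ⟨(norm_tr_apply_le _ _).trans ((y2_le_nm 1 u j).trans (wt_le_nrm μ u j)),
    (norm_tr_apply_le _ _).trans (le_max_right _ _)⟩

theorem one_le_pw {T x X p : ℝ} (h0 : 0 < T) (h1 : T ≤ x) (h2 : x ≤ X) (hp : p ≤ 1) :
    1 ≤ X / T * (T / x) ^ p := by
  have x0 : 0 < x := h0.trans_le h1
  have h3 := Real.rpow_le_rpow_of_exponent_ge (div_pos h0 x0) ((div_le_one x0).2 h1) hp
  rw [Real.rpow_one] at h3
  calc 1 ≤ X / x := (one_le_div x0).2 h2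
    _ = X / T * (T / x) := by field_simp
    _ ≤ _ := mul_le_mul_of_nonneg_left h3 (div_nonneg (x0.le.trans h2) h0.le)

theorem tendsto_pw (zm T : ℝ) {p : ℝ} (hp : 0 < p) :
    Tendsto (fun n => (T / TT zm n) ^ p) atTop (𝓝 0) := by
  have := (tendsto_const_nhds (x := T)).div_atTop (tendsto_TT zm) |>.rpow_const (Or.inr hp.le)
  rwa [Real.zero_rpow hp.ne'] at this

theorem tendsto_inv_TT {f : ℕ → WD} {g : ℕ → ℝ} (h0 : 0 < zm) (hg : Tendsto g atTop (𝓝 0))
    (h : ∀ n, ‖f n‖ ≤ TT zm n * g n) :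
    Tendsto (fun n => ((TT zm n : ℝ) : ℂ)⁻¹ • f n) atTop (𝓝 0) := by
  refine squeeze_zero_norm (fun n => ?_) hg
  have : 0 < TT zm n := by unfold TT; positivity
  rw [norm_smul, norm_inv, norm_real, Real.norm_of_nonneg this.le, inv_mul_le_iff₀ this]
  exact h n

/-- the slow solution -/
structure Slow (zm : ℝ) (jS ph : ℕ → EJ) : Prop where
  jet : ∀ n, ((gam zm 0 n).cyl 0).IsJet (ph n)
  eq : ∀ n, fderiv ℂ ((gam zm 0 n).Ecyl 0) (jS n) (ph n) = 0
  res : ∀ m n, m ≤ n → Res 0 m (ph n) = ph m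
  real : ∀ n, (ph n).cj = ph n
  ne : ∀ n t θ, ev (ph n).y t θ ≠ 0
  bd : ∀ n, ‖ph n‖ ≤ 3 * TT zm n ^ 2
  asy : Tendsto (fun n => ((TT zm n : ℝ) : ℂ)⁻¹ • End.tr 1 (ph n).y2) atTop
    (𝓝 (((1 : ℝ) : ℂ) • W.one1 0 1))
  asπ : Tendsto (fun n => ((TT zm n : ℝ) : ℂ)⁻¹ •
    End.tr 1 (((gam zm 0 n).cyl 0).piJ muCyl (ph n))) atTop (𝓝 0)

theorem slow (hP : PathStmt) (b : Fin D.b) (h : CylEnd v J d π Z C) :
    ∀ᶠ zm in atTop, ∃ ph, Slow zm (fun n => J (gam zm 0 n)) ph := by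
  obtain ⟨K, hK⟩ := lbox_cyl h
  filter_upwards [hK, src_le h (ε := (2 * (|K| + 1))⁻¹) (by positivity), eventually_ge_atTop Z,
    eventually_ge_atTop 1000] with zm h1 h2 h3 h4
  have P := hP w D zm h4
  have r : ∀ n, (gam zm 0 n).RealP zm := fun n => by simpa using P.real 0 n
  have r1 : ∀ n, (gam zm 0 n).Real 1 := fun n => real (r n) (by linarith)
  have z0 : 0 < zm := by linarith
  have pg := fun n => cyl_pg (r n) (by linarith)
  have hw := fun n => norm_wp (r n) (by linarith)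
  have ty : ∀ n {p : ℝ}, 0 ≤ p → p ≤ 9 / 20 → ((gam zm 0 n).cyl 0).Typ sdCyl
      ((p : ℂ) • binv (gam zm 0 n).ze) := fun n p a1 a2 => pw_zero _ p ▸
    (nice (δ := 1 / 40) (r n) (by norm_num) (by norm_num) (by linarith)).typB (by norm_num)
      (by linarith) a2
  have hT : ∀ n t, ((gam zm 0 n).ze t).re ≤ TT zm n := fun n t => by
    rw [P.ze, ofReal_re]; exact (P.mem 0 n t n.zero_le).2
  have hT1 : ∀ n, zm ≤ TT zm n := fun n => ((r n).T_le 0).trans (hT n 0)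
  set L := fun n => fderiv ℂ ((gam zm 0 n).Ecyl 0) (J (gam zm 0 n)) with hL
  have rJ : ∀ {m n}, m ≤ n → Res 0 m (J (gam zm 0 n)) = J (gam zm 0 m) := fun a =>
    (loc_of_cmp h.cmp).res P h3 le_rfl (Nat.zero_le _) a
  have rL : ∀ {m n}, m ≤ n → Res 0 m (jL (gam zm 0 n)) = jL (gam zm 0 m) := fun a =>
    loc_jL.res P le_rfl le_rfl (Nat.zero_le _) a
  have Lr : ∀ {m n}, m ≤ n → ∀ u, L m (Res 0 m u) = resW 0 m (L n u) := fun {m n} a u => by
    have := P.dEE_res 0 0 m n (.inr b) (J (gam zm 0 n)) u le_rfl (Nat.zero_le _) a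
    rwa [rJ a] at this
  have jr : ∀ {m n}, m ≤ n → ∀ u, ((gam zm 0 n).cyl 0).IsJet u →
      ((gam zm 0 m).cyl 0).IsJet (Res 0 m u) := fun {m n} a u =>
    P.jet_res 0 0 m n (.inr b) u le_rfl (Nat.zero_le _) a
  have zr' : ∀ {m n}, m ≤ n → ∀ t, (gam zm 0 m).ze t = (gam zm 0 n).ze (clp 0 m t) := fun a =>
    ze_clp P le_rfl (Nat.zero_le _) a
  have pr : ∀ {m n}, m ≤ n → ∀ u t, ((gam zm 0 n).cyl 0).IsJet u →
      End.tr t (((gam zm 0 m).cyl 0).piJ muCyl (Res 0 m u)) =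
        End.tr (clp 0 m t) (((gam zm 0 n).cyl 0).piJ muCyl u) := fun {m n} a u t hu =>
    (eqAt_res P 0 m u t).piJ (pg m) (pg n) (jr a u hu) hu
      (by rw [(r1 m).cyl_io, (r1 n).cyl_io, zr' a])
  have Lc : ∀ n (u : EJ), L n u.cj = W.cj (L n u) := fun n u => by
    have a := h.real zm _ h3 (r n)
    refine fderiv_cj (Path.differentiable_Ecyl _ 0) (fun j => ?_) (EJ.isRl_of
      (isRl_iff_ev.2 fun t θ => (a t θ).1) (isRl_iff_ev.2 fun t θ => (a t θ).2.1)
      (isRl_iff_ev.2 fun t θ => (a t θ).2.2.1) (isRl_iff_ev.2 fun t θ => (a t θ).2.2.2)) u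
    simpa using (r1 n).isRl.Ecyl 0 j
  have ex : ∀ n, ∃ u, ((gam zm 0 n).cyl 0).IsJet u ∧ L n u = -L n (jL (gam zm 0 n)) ∧
      Ctr.slowD sdCyl u.y2 = 0 ∧ End.tr 1 (((gam zm 0 n).cyl 0).piJ muCyl u) = 0 ∧ u.cj = u ∧
      ((gam zm 0 n).cyl 0).nrm muCyl (wp (gam zm 0 n) (3 / 10)) u ≤ zm / 2 := fun n => by
    obtain ⟨k, k1, k2, -, hk⟩ := h1 _ (r n) _ _ (ty n (p := 3 / 10) (by norm_num) (by norm_num))
    obtain ⟨u, u1, u2, u3, u4, -⟩ := hk.exists_sol p0 (-L n (jL (gam zm 0 n))) 0 0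
    have s0 : ‖Ctr.slowD sdCyl (W.C (wp (gam zm 0 n) (3 / 10)) * u.y2)‖ = 0 := by
      rw [slowD_C_mul, u3, map_zero, mul_zero, map_zero, norm_zero]
    have a1 := hk.ap p0 u1
    have a2 := hk.ap_pi p0 u1
    have a3 : k.C * ‖W.C (wp (gam zm 0 n) (3 / 10)) * L n (jL (gam zm 0 n))‖ ≤ zm / 2 := by
      refine (mul_le_mul (k1.le.trans ((le_abs_self K).trans (le_add_of_nonneg_right zero_le_one)))
        (h2 _ (r n)) (norm_nonneg _) (by positivity)).trans_eq ?_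
      field_simp
    rw [← wp] at a1 a2
    rw [s0, norm_tr_C_mul, u4, u2, norm_zero, mul_zero, mul_neg, norm_neg, zero_add] at a1 a2
    rw [zero_add, nm_one] at a1
    rw [k2, zero_div, zero_mul, mul_zero, add_zero, add_zero] at a2
    refine ⟨u, u1, u2, u3, u4, hk.unique (by simp) ((P.jet_cj 0 n (.inr b) u u1).sub u1) ?_ ?_ ?_,
      max_le (a1.trans a3) (a2.trans a3)⟩
    · change L n _ = L n _
      rw [Lc, u2, W.cj_neg, ← Lc, isRl_jL (r1 n)]
    · rw [EJ.y2_cj, ← Ctr.cj_slowD sdCyl_neg, u3, W.cj_zero]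
    · exact (P.piT_cj 0 n (.inr b) u).trans ((congrArg W.cj u4).trans (W.cj_zero.trans u4.symm))
  choose u u1 u2 u3 u4 u5 u6 using ex
  have uL : ∀ {m n}, m ≤ n → L m (Res 0 m (u n)) = -L m (jL (gam zm 0 m)) := fun a => by
    rw [Lr a, u2, map_neg, ← Lr a, rL a]
  have un : ∀ {m n}, m ≤ n → ((gam zm 0 m).cyl 0).nrm muCyl (wp (gam zm 0 m) (3 / 10))
      (Res 0 m (u n)) ≤ zm / 2 := fun {m n} a =>
    (nrm_le zero_le_one fun t => ⟨_, eqAt_res P 0 m _ t, pr a _ t (u1 n),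
      by rw [hw, hw, one_mul, zr' a]⟩).trans ((one_mul _).le.trans (u6 n))
  have ca : ∀ {m n}, m ≤ n → ‖(Res 0 m (u n) - u m).wt (wp (gam zm 0 m) (9 / 20))‖ ≤
      |K| * ((zm / TT zm m) ^ (3 / 20 : ℝ) * zm) := fun {m n} a => by
    obtain ⟨k, k1, -, -, hk⟩ := h1 _ (r m) _ _ (ty m (p := 9 / 20) (by norm_num) le_rfl)
    have a1 := hk.ap p0 ((jr a _ (u1 n)).sub (u1 m))
    obtain ⟨b1, b2⟩ := tr_le_nrm (wp (gam zm 0 m) (3 / 10)) (Res 0 m (u n)) 1
    have e : ‖wp (gam zm 0 m) (9 / 20) 1‖ =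
        (zm / TT zm m) ^ (3 / 20 : ℝ) * ‖wp (gam zm 0 m) (3 / 10) 1‖ := by
      rw [hw, hw, ze_one P m.zero_le, ofReal_re, ← Real.rpow_add (div_pos z0 (by linarith [hT1 m]))]
      norm_num
    have a2 : ‖Ctr.slowD sdCyl (W.C (wp (gam zm 0 m) (9 / 20)) * (Res 0 m (u n) - u m).y2)‖ ≤
        ‖wp (gam zm 0 m) (9 / 20) 1‖ * ‖End.tr 1 (Res 0 m (u n)).y2‖ := W.norm_le_of_le fun i => by
      have c1 : (u m).y2.c i (sdCyl i) = 0 := by rw [← c_slowD, u3, W.c_zero]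
      have c2 : (u n).y2.c i (sdCyl i) = 0 := by rw [← c_slowD, u3, W.c_zero]
      rw [c_slowD, c_C_mul_apply, EJ.sub_y2, W.c_sub, BoundedContinuousFunction.sub_apply, c1,
        sub_zero, norm_mul, c_tr]
      unfold sdCyl at c2 ⊢
      split_ifs at c2 ⊢
      · rfl
      · rw [c_of_tr (eqAt_res P 0 m (u n) _).1, show clp 0 m (p0 : ℝ) = (p0 : ℝ) by
          simp [clp, tau, p0], c2, norm_zero, mul_zero]
        positivity
    rw [← wp, nm_one, map_sub (L m), uL a, u2, sub_self, mul_zero, norm_zero, add_zero,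
      norm_tr_C_mul, Ctr.piJ_sub, map_sub, u4, sub_zero] at a1
    have p1' := Real.rpow_nonneg (div_nonneg z0.le (z0.le.trans (hT1 m))) (3 / 20)
    refine a1.trans (mul_le_mul (k1.le.trans (le_abs_self K)) ?_ (by positivity) (abs_nonneg K))
    rw [e] at a2 ⊢
    nlinarith [mul_le_mul_of_nonneg_left (b1.trans (un a)) p1',
      mul_le_mul_of_nonneg_left (b2.trans (un a)) p1']
  have rw' : ∀ {m n} (p : ℝ), m ≤ n → p ≤ 1 → ∀ j : EJ,
      ‖Res 0 m j‖ ≤ TT zm m / zm * ‖j.wt (wp (gam zm 0 n) p)‖ := fun {m n} p a hp =>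
    res_le P 0 m (div_nonneg (z0.le.trans (hT1 m)) z0.le) fun t => by
      rw [hw, ← zr' a]
      exact one_le_pw z0 ((r m).T_le t) (hT m t) hp
  have lim : ∀ m, ∃ V, Tendsto (fun n => Res 0 m (u n)) atTop (𝓝 V) := fun m => by
    refine (cauchySeq_tendsto_of_complete (cauchySeq_of_le_tendsto_0' (s := fun n =>
      Res 0 m (u (n + m))) (fun n => TT zm m / zm * (|K| * ((zm / TT zm (n + m)) ^ (3 / 20 : ℝ) * zm)))
        (fun n n' a => ?_) ?_)).imp fun V hV => (tendsto_add_atTop_iff_nat m).1 hV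
    · rw [dist_comm, dist_eq_norm, ← P.res_res 0 0 m (n + m) (u (n' + m)) le_rfl m.zero_le
        (Nat.le_add_left _ _), ← map_sub]
      exact (rw' _ (Nat.le_add_left _ _) (by norm_num) _).trans (mul_le_mul_of_nonneg_left
        (ca (Nat.add_le_add_right a m)) (div_nonneg (z0.le.trans (hT1 m)) z0.le))
    · simpa using (((((tendsto_add_atTop_iff_nat m).2 (tendsto_pw zm zm
        (by norm_num : (0 : ℝ) < 3 / 20))).mul_const zm).const_mul |K|).const_mul (TT zm m / zm))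
  choose V hV using lim
  have V1 : ∀ m, ((gam zm 0 m).cyl 0).IsJet (V m) := fun m => (P.closed _).mem_of_tendsto (hV m)
    ((eventually_ge_atTop m).mono fun n a => jr a _ (u1 n))
  have V2 : ∀ m, L m (V m) = -L m (jL (gam zm 0 m)) := fun m =>
    tendsto_nhds_unique (((L m).continuous.tendsto _).comp (hV m))
      (tendsto_const_nhds.congr' ((eventually_ge_atTop m).mono fun n a => (uL a).symm))
  have V3 : ∀ m n, m ≤ n → Res 0 m (V n) = V m := fun m n a =>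
    tendsto_nhds_unique (((Res 0 m).continuous.tendsto _).comp (hV n))
      ((hV m).congr fun i => (P.res_res 0 0 m n _ le_rfl m.zero_le a).symm)
  have V4 : ∀ m, (V m).cj = V m := fun m => by
    have c : Continuous EJ.cj := (W.continuous_cj.comp continuous_fst).prodMk
      ((W.continuous_cj.comp continuous_snd.fst).prodMk ((W.continuous_cj.comp
        continuous_snd.snd.fst).prodMk (W.continuous_cj.comp continuous_snd.snd.snd)))
    exact tendsto_nhds_unique ((c.tendsto _).comp (hV m))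
      ((hV m).congr fun i => by rw [Function.comp, ← P.res_cj, u5])
  have V5 : ∀ m, ((gam zm 0 m).cyl 0).nrm muCyl (wp (gam zm 0 m) (3 / 10)) (V m) ≤ zm / 2 :=
    fun m => le_of_tendsto (((continuous_nrm _ _ _).tendsto _).comp (hV m))
      ((eventually_ge_atTop m).mono fun n a => un a)
  have V6 : ∀ {f : ℕ → WD}, (∀ n, ‖wp (gam zm 0 n) (3 / 10) 1‖ * ‖f n‖ ≤ zm / 2) →
      Tendsto (fun n => ((TT zm n : ℝ) : ℂ)⁻¹ • f n) atTop (𝓝 0) := fun {f} hf => by
    refine tendsto_inv_TT z0 (tendsto_pw zm zm (by norm_num : (0 : ℝ) < 7 / 10)) fun n => ?_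
    have a1 := hf n
    have a2 := div_pos z0 (z0.trans_le (hT1 n))
    rw [hw, ze_one P n.zero_le, ofReal_re] at a1
    refine le_of_mul_le_mul_left (a1.trans ?_) (Real.rpow_pos_of_pos a2 _)
    rw [mul_left_comm, ← Real.rpow_add a2, show (3 / 10 + 7 / 10 : ℝ) = 1 by norm_num, Real.rpow_one,
      mul_div_cancel₀ _ (z0.trans_le (hT1 n)).ne']
    linarith
  have i0 := (tendsto_TT zm).inv_tendsto_atTop
  refine ⟨fun n => jL (gam zm 0 n) + V n, fun n => (isJet_jL (r1 n)).add (V1 n),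
    fun n => by rw [map_add]; exact add_eq_zero_iff_eq_neg'.2 (V2 n),
    fun m n a => by rw [map_add, rL a, V3 m n a],
    fun n => by rw [EJ.cj_add, V4, isRl_jL (r1 n)], fun n t θ h0 => ?_, fun n => ?_, ?_, ?_⟩
  · have a1 := (tr_le_nrm (wp (gam zm 0 n) (3 / 10)) (V n) t).1.trans (V5 n)
    have a2 : ‖ev (V n).y t θ‖ ≤ ‖End.tr t (V n).y2‖ := by
      rw [← sumL_tr, EJ.y, tr_mult sym0_le]
      exact (W.norm_sumL_le _ _).trans ((norm_mult_apply_le sym0_le _).trans_eq (one_mul _))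
    have a3 := (r n).T_le t
    have a4 := one_le_pw z0 a3 le_rfl (by norm_num : (3 / 10 : ℝ) ≤ 1)
    rw [EJ.add_y, ev_add, (jL_y _).1, ev_C, add_eq_zero_iff_neg_eq] at h0
    rw [← h0, norm_neg] at a2
    have a5 := (norm_sub_norm_le _ _).trans a2
    rw [hw] at a1
    simp only [BoundedContinuousFunction.coe_ofNat, Pi.ofNat_apply, Complex.norm_ofNat,
      (r n).norm_ze z0.le] at a5
    have a6 := mul_le_mul_of_nonneg_left a1 (div_nonneg (z0.le.trans a3) z0.le)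
    rw [← mul_assoc, show ∀ x : ℝ, x / zm * (zm / 2) = x / 2 from fun x => by field_simp] at a6
    nlinarith [mul_le_mul_of_nonneg_right a4 (norm_nonneg (End.tr t (V n).y2))]
  · have a1 := rw' (3 / 10) (le_refl n) (by norm_num) (V n)
    have a2 : ‖(gam zm 0 n).ze‖ ≤ TT zm n := norm_BC_le fun t => by
      rw [(r n).norm_ze z0.le]; exact hT n t
    have a3 : ‖jL (gam zm 0 n)‖ ≤ 2 * TT zm n := by
      refine EJ.norm_le _ ((W.norm_C _).trans_le ((norm_sub_le _ _).trans ?_))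
        ((W.norm_C _).trans_le ((norm_smul _ _).trans_le (by simpa using a2)))
        (norm_zero.trans_le (by linarith [hT1 n])) (norm_zero.trans_le (by linarith [hT1 n]))
      have : ‖(2 : BC)‖ ≤ 2 := norm_BC_le fun t => by simp
      linarith [hT1 n]
    have a4 := mul_le_mul_of_nonneg_left ((le_max_left _ _).trans (V5 n))
      (div_nonneg (z0.le.trans (hT1 n)) z0.le)
    rw [V3 n n le_rfl] at a1
    rw [show ∀ x : ℝ, x / zm * (zm / 2) = x / 2 from fun x => by field_simp] at a4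
    nlinarith [norm_add_le (jL (gam zm 0 n)) (V n), hT1 n]
  · have a1 := V6 fun n => (tr_le_nrm _ (V n) 1).1.trans (V5 n)
    have a2 : Tendsto (fun n => ((1 - 2 * (TT zm n)⁻¹ : ℝ) : ℂ) • W.one1 0 (1 : ℂ)) atTop
        (𝓝 (((1 : ℝ) : ℂ) • W.one1 0 1)) :=
      ((continuous_ofReal.tendsto _).comp (by simpa using (i0.const_mul 2).const_sub 1)).smul_const _
    refine (by simpa only [add_zero] using a2.add a1 : Tendsto _ _ _).congr fun n => ?_
    have : ((TT zm n : ℝ) : ℂ) ≠ 0 := ofReal_ne_zero.2 (z0.trans_le (hT1 n)).ne'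
    rw [EJ.add_y2, map_add, smul_add]
    congr 1
    refine Eq.trans ?_ (congrArg _ (tr_C 1 ((gam zm 0 n).ze - 2)).symm)
    rw [BoundedContinuousFunction.sub_apply, ze_one P n.zero_le, W.C_apply, ← W.oneL_apply,
      ← W.oneL_apply, ← map_smul, ← map_smul]
    congr 1
    simp only [BoundedContinuousFunction.coe_ofNat, Pi.ofNat_apply, smul_eq_mul]
    push_cast
    field_simp
  · have a1 := V6 fun n => (tr_le_nrm _ (V n) 1).2.trans (V5 n)
    have a2 := tendsto_inv_TT z0 (by simpa using i0.const_mul 5) fun n =>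
      (norm_pi_jL (r n) (by linarith) 1).trans_eq (by
        rw [mul_left_comm, mul_inv_cancel₀ (z0.trans_le (hT1 n)).ne', mul_one])
    simpa only [add_zero, piJ_add, map_add, smul_add] using a2.add a1

end Bx

end Vale.Agent.P218N.Core
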