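import Vale.Agent.P218N.Core.Sys

/-! The maximum principle for the difference of the two parts of the glued function. -/

open Set Filter Topology Metric MeasureTheory
open scoped RealInnerProductSpace ContDiff Matrix NNReal

noncomputable section

namespace Vale.Agent.P218N.Core

open Vale.Agent.P218.H313 Vale.Agent.P218N.H Vale.Agent.P218N.End Vale.Agent.P272.K.LIN

set_option linter.unusedSectionVars false

variable {w : E3 → ℝ} {D : EndData w} {G : Geo D} {zm : ℝ}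

namespace DMax

/-! ### Jet algebra -/

theorem prin_smul (g : J2 C3) (c : ℂ) (m : J2 ℂ) : prin g (c • (m - T1 m)) = c * prin g m := by
  simp only [prin, T1, Pi.smul_apply, Pi.sub_apply, smul_eq_mul]
  simp
  ring

theorem T1_top (c : ℂ) (m : J2 ℂ) : T1 (c • (m - T1 m)) = 0 := by
  rw [T1_smul, T1_sub, T1_T1, sub_self, smul_zero]

theorem Lh_top (jf : JetF D) {b : J2 (WW D)} (hb : b ∈ Om D) (hB : IsBase b) (c : ℂ) (m : J2 ℂ) :
    Lh b (c • (m - T1 m)) = c * prin (pJ b) m := by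
  rw [jf.prin_eq b hb hB, T1_top, map_zero, zero_add, prin_smul]

theorem top1 {χ a y : J2 ℂ} (h : a - jmul χ (a - y) = 0) :
    a - jmul χ (T1 (a - y)) = χ 0 • (a - y - T1 (a - y)) := by
  have e : a - jmul χ (T1 (a - y)) = χ 0 • (a - y - T1 (a - y)) + (a - jmul χ (a - y)) := by
    ext k; fin_cases k <;> simp [jmul, T1, Matrix.vecHead, Matrix.vecTail] <;> ring
  rw [e, h, add_zero]

theorem top2 {χ a y : J2 ℂ} (h : a - jmul χ (a - y) = 0) :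
    y + jmul (j1 - χ) (T1 (a - y)) = (χ 0 - 1) • (a - y - T1 (a - y)) := by
  have e : y + jmul (j1 - χ) (T1 (a - y)) =
      (χ 0 - 1) • (a - y - T1 (a - y)) + (a - jmul χ (a - y)) := by
    ext k; fin_cases k <;> simp [jmul, T1, j1, Matrix.vecHead, Matrix.vecTail] <;> ring
  rw [e, h, add_zero]

theorem pos_def {r β a b c : ℝ} (hr : 0 < r) (h0 : 0 ≤ β) (h1 : β ≤ 1)
    (h : β = 0 ∨ 0 < a ∧ 0 < c ∧ b ^ 2 < a * c) :
    0 < r * (β * (c / (a * c - b ^ 2)) + (1 - β)) ∧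
      (r * (β * -(b / (a * c - b ^ 2)))) ^ 2 < r * (β * (c / (a * c - b ^ 2)) + (1 - β)) *
        (r * (β * (a / (a * c - b ^ 2)) + (1 - β))) := by
  rcases h0.eq_or_lt with rfl | hβ
  · simp [hr]
  obtain ⟨ha, hc, hd⟩ := h.resolve_left hβ.ne'
  have hΔ : 0 < a * c - b ^ 2 := sub_pos.2 hd
  have e1 : 0 < β * (c / (a * c - b ^ 2)) := by positivity
  have e2 : 0 < β * (a / (a * c - b ^ 2)) := by positivity
  have e3 : 0 ≤ 1 - β := sub_nonneg.2 h1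
  refine ⟨by positivity, ?_⟩
  have e4 : (β * -(b / (a * c - b ^ 2))) ^ 2 <
      β * (c / (a * c - b ^ 2)) * (β * (a / (a * c - b ^ 2))) := by
    have : β * (c / (a * c - b ^ 2)) * (β * (a / (a * c - b ^ 2))) -
        (β * -(b / (a * c - b ^ 2))) ^ 2 = β ^ 2 / (a * c - b ^ 2) := by
      field_simp
    have h2 : 0 < β ^ 2 / (a * c - b ^ 2) := by positivity
    linarith
  have e5 : β * (c / (a * c - b ^ 2)) * (β * (a / (a * c - b ^ 2))) ≤
      (β * (c / (a * c - b ^ 2)) + (1 - β)) * (β * (a / (a * c - b ^ 2)) + (1 - β)) :=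
    mul_le_mul (by linarith) (by linarith) e2.le (by linarith)
  have e6 := mul_lt_mul_of_pos_left (e4.trans_le e5) (mul_pos hr hr)
  nlinarith [e6]

variable {X : Type} [TopologicalSpace X] [ChartedSpace R2 X] [T2Space X] [CompactSpace X]
  [RSm R2 X] (C : Ctx G zm X)

/-! ### The coefficients -/

/-- the metric in the chart `i` -/
def gj (i : Fin C.Z.𝒞.N) (x : X) : J2 C3 := jS (C.Z.P i).φ (C.Z.𝒞.e i x)

/-- the coefficients of the principal part -/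
def co (i : Fin C.Z.𝒞.N) : Fin 3 → X → ℂ :=
  ![fun x => C.Z.pou.ρ i x * (C.b1 x * (g22 (gj C i x) / dg (gj C i x)) + (1 - C.b1 x)),
    fun x => C.Z.pou.ρ i x * (C.b1 x * -(g12 (gj C i x) / dg (gj C i x))),
    fun x => C.Z.pou.ρ i x * (C.b1 x * (g11 (gj C i x) / dg (gj C i x)) + (1 - C.b1 x))]

theorem co_real {i : Fin C.Z.𝒞.N} {x : X} (hρ : C.Z.pou.ρ i x ≠ 0) : ∃ β a b c : ℝ,
    0 ≤ β ∧ β ≤ 1 ∧ (β = 0 ∨ 0 < a ∧ 0 < c ∧ b ^ 2 < a * c) ∧
    co C i 0 x = (C.Z.pou.ρ i x * (β * (c / (a * c - b ^ 2)) + (1 - β)) : ℝ) ∧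
    co C i 1 x = (C.Z.pou.ρ i x * (β * -(b / (a * c - b ^ 2))) : ℝ) ∧
    co C i 2 x = (C.Z.pou.ρ i x * (β * (a / (a * c - b ^ 2)) + (1 - β)) : ℝ) := by
  by_cases hb : C.b1 x = 0
  · exact ⟨0, 0, 0, 0, le_rfl, zero_le_one, Or.inl rfl, by simp [co, hb], by simp [co, hb],
      by simp [co, hb]⟩
  obtain ⟨h1, h2⟩ := C.b1_ne hb
  have hi := C.act hρ h1 (by linarith)
  obtain ⟨a, b, c, e1, e2, e3, h3⟩ :=
    C.iv.pos _ _ (C.tf.chart i hi x (C.Z.pou.spt i x hρ).1).1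
  have e4 := C.b1_apply x
  rw [if_pos h1] at e4
  refine ⟨1 - cut zm 5 (G.σ (C.Z.pr x)), a, b, c, sub_nonneg.2 cut_le_one,
    by linarith [cut_nonneg (zm := zm) (k := 5) (ζ := G.σ (C.Z.pr x))], Or.inr h3, ?_, ?_, ?_⟩ <;>
  simp [co, gj, dg, e1, e2, e3, e4]

theorem coef : Coef C.Z.pou (co C) where
  spt i k x h := by fin_cases k <;> simp [co, h]
  real i k x := by
    by_cases hρ : C.Z.pou.ρ i x = 0
    · fin_cases k <;> simp [co, hρ]
    obtain ⟨β, a, b, c, -, -, -, e0, e1, e2⟩ := co_real C hρ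
    fin_cases k
    · exact (congrArg Complex.im e0).trans (Complex.ofReal_im _)
    · exact (congrArg Complex.im e1).trans (Complex.ofReal_im _)
    · exact (congrArg Complex.im e2).trans (Complex.ofReal_im _)
  pos i x hρ := by
    obtain ⟨β, a, b, c, h0, h1, h, e0, e1, e2⟩ := co_real C hρ
    rw [e0, e1, e2, Complex.ofReal_re, Complex.ofReal_re, Complex.ofReal_re]
    exact pos_def ((C.Z.pou.nonneg i x).lt_of_ne' hρ) h0 h1 h

theorem sum_co (x : X) (m : Fin C.Z.𝒞.N → J2 ℂ) :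
    ∑ i, (co C i 0 x * m i 3 + 2 * (co C i 1 x * m i 4) + co C i 2 x * m i 5) =
      ∑ i ∈ C.Z.A, C.Z.pou.ρ i x * C.b1 x * prin (gj C i x) (m i) +
        ∑ i, C.Z.pou.ρ i x * (1 - C.b1 x) * (m i 3 + m i 5) := by
  rw [Finset.sum_subset (Finset.subset_univ C.Z.A) fun i _ hi => ?_, ← Finset.sum_add_distrib]
  · refine Finset.sum_congr rfl fun i _ => ?_
    simp only [co, prin, Matrix.cons_val_zero, Matrix.cons_val_one, Matrix.cons_val]
    ring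
  · by_cases hρ : C.Z.pou.ρ i x = 0
    · simp [hρ]
    by_cases hb : C.b1 x = 0
    · simp [hb]
    exact absurd (C.act hρ (C.b1_ne hb).1 (by linarith [(C.b1_ne hb).2])) hi

/-! ### The function on the ends -/

variable (zm) in
/-- the function of the jets, extended by zero -/
def Y0 (j : JJ D zm) (e : En D) (q : R2) : ℂ := ev (j e).1.y (tt zm (max q.1 (zm + 3))) q.2

/-- the part of the difference which comes from the ends -/
def gg (G : Geo D) (j : JJ D zm) (p : E3) : ℂ :=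
  (1 - (cut zm 4 (G.σ p) : ℝ)) * G.YS (Y0 zm j) p

variable {j : JJ D zm} {Yf : En D → R2 → ℂ} {T : ℝ} {v : C.U}

theorem Y0_per (j : JJ D zm) (e : En D) (ζ θ : ℝ) :
    Y0 zm j e (ζ, θ + 2 * Real.pi) = Y0 zm j e (ζ, θ) := ev_add_two_pi _ _ _

include C in
theorem ev_clp {e : En D} (h : Res 3 6 (j e).1 = (j e).1) (k : Fin 6) (t θ : ℝ) :
    ev (jw (ctr (gam zm 3 6) e) (j e).1 k) (tt zm (zr zm 3 6 t)) θ =
      ev (jw (ctr (gam zm 3 6) e) (j e).1 k) t θ := by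
  rw [C.pf.tt_zr 3 6 t (by norm_num), ← C.pf.ev_res,
    ← C.pf.jw_res 3 3 6 6 e _ k le_rfl (by norm_num) le_rfl, h]

include C in
theorem Y0_lo {e : En D} (h : Res 3 6 (j e).1 = (j e).1 ∧ End.tr 0 (j e).1.y2 = 0) {q : R2}
    (hq : q.1 ≤ zm + 3) : Y0 zm j e q = 0 := by
  have e1 := ev_clp C h.1 0 0 q.2
  rw [C.pf.lo 3 6 0 (by norm_num [tau])] at e1
  have e2 : ev (j e).1.y 0 q.2 = 0 := by
    rw [← sumL_tr, EJ.y, tr_mult symb_y, h.2, map_zero, map_zero]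
  rw [Y0, max_eq_right hq, ← e2]
  exact_mod_cast e1

theorem Y0_eq (hY : YF zm j Yf T) (e : En D) {q : R2} (hq : q.1 ∈ Ioo (zm + 3) (zm + 7)) :
    Y0 zm j e q = Yf e q := by
  rw [Y0, max_eq_left hq.1.le]
  exact (congrFun (hY.jet e q hq) 0).symm

include C in
theorem Y0_cont (j : JJ D zm) (e : En D) : Continuous (Y0 zm j e) :=
  Continuous.ev continuous_const (C.pf.tt_cont.comp (continuous_fst.max continuous_const))
    continuous_snd

include C in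
theorem gg_pt (j : JJ D zm) (e : En D) {q : R2} (hq : G.z0 < q.1) :
    gg G j (pt e q) = (1 - (cut zm 4 q.1 : ℝ)) * (G.s e * Y0 zm j e q) := by
  rw [gg, C.iv.YS_pt (Y0_per j) e hq, G.σ_pt e q hq]

theorem gg_hi (j : JJ D zm) {p : E3} (h : zm + 5 ≤ G.σ p) : gg G j p = 0 := by
  rw [gg, cut_one (by push_cast; linarith)]; simp

include C in
theorem gg_zero {p : E3} (hp : w p = 0)
    (h : ∀ e q, G.z0 < q.1 → q.1 = G.σ p → q.1 < zm + 5 → Y0 zm j e q = 0) : gg G j p = 0 := by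
  by_cases h0 : G.σ p ≤ G.z0
  · simp [gg, Geo.YS, C.iv.lift_lo ℂ _ _ p h0]
  by_cases h5 : zm + 5 ≤ G.σ p
  · exact gg_hi j h5
  obtain ⟨e, q, hq, rfl⟩ := G.cover p hp (not_le.1 h0)
  rw [G.σ_pt e q hq] at h h5
  rw [gg_pt C j e hq, h e q hq rfl (not_le.1 h5), mul_zero, mul_zero]

theorem gg_cont (hj : ∀ e, Res 3 6 (j e).1 = (j e).1 ∧ End.tr 0 (j e).1.y2 = 0) :
    Continuous (C.Z.upF (gg G j)) := by
  refine ckFn_continuous (C.tf.up_ck 0 _ zero_le (fun P y hy hσ => ?_)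
    fun p _ h => gg_hi j (by linarith))
  refine ContDiffAt.mul ?_ (ContDiffAt.sum fun e _ => contDiffAt_const.mul ?_)
  · exact ((((contDiff_const.sub (Ctx.contDiff_cutC 4)).comp G.σ_sm).contDiffAt.comp _
      (P.contDiffAt hy))).of_le zero_le
  · exact C.iv.lift_ck 0 e _ (zm + 8) zero_le (Y0_per j e)
      (fun q hq => Y0_lo C (hj e) (by linarith [C.hz]))
      (fun q _ _ => (contDiff_zero.2 (Y0_cont C j e)).contDiffAt) P y hy hσ

theorem Yf_hi (hY : YF zm j Yf T) (ht : ∀ p, w p = 0 → G.σ p < T → C.tot v Yf p = 0) (e : En D)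
    {q : R2} (h1 : zm + 3 + 2 / 3 < q.1) (h2 : q.1 < T) : Yf e q = 0 := by
  have h0 : G.z0 < q.1 := by linarith [C.hz]
  have e1 : C.tot v Yf (pt e q) = G.s e * Yf e q := (C.tot_hi hY v e h1).self_of_nhds
  rw [ht _ (G.pt_mem e h0) (by rwa [G.σ_pt e q h0])] at e1
  have e2 := congrArg ((G.s e : ℂ) * ·) e1
  simpa only [← mul_assoc, G.s_mul, one_mul, mul_zero] using e2.symm

theorem jet_zero {f : R2 → ℂ} {q : R2} {a b : ℝ} (hq : q.1 ∈ Ioo a b)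
    (h : ∀ z : R2, z.1 ∈ Ioo a b → f z = 0) : jet2 f q = 0 := by
  rw [← jet2_zero (y := q)]
  refine jet2_congr ?_
  filter_upwards [continuous_fst.continuousAt.eventually (Ioo_mem_nhds hq.1 hq.2)] with z hz
    using h z hz

/-- the difference -/
def dd (v : C.U) (j : JJ D zm) (x : X) : ℂ := Uv _ v x - C.Z.upF (gg G j) x

/-! ### The overlap -/

theorem dd_mid (hY : YF zm j Yf T) (v : C.U) {x : X} (h : 0 < C.Z.τ x) {e : En D} {q : R2}
    (hx : pt e q = C.Z.pr x) (hq : q.1 ∈ Ioo (zm + 3) (zm + 4 + 1 / 3)) :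
    dd C v j x = C.dv v (pt e q) - G.s e * Yf e q := by
  have h0 : G.z0 < q.1 := by linarith [C.hz, hq.1]
  rw [dd, Dbl.upF, if_pos h, ← C.dv_pr v h, ← hx, gg_pt C j e h0,
    cut_zero (by push_cast; exact hq.2.le), Y0_eq hY e ⟨hq.1, by linarith [hq.2]⟩]
  simp

theorem mid (hY : YF zm j Yf T) (he : C.EQ (C.ML 0) v Yf T)
    (ht : ∀ p, w p = 0 → G.σ p < T → C.tot v Yf p = 0) {x : X} (h : 0 < C.Z.τ x)
    (hσ : G.σ (C.Z.pr x) ∈ Ioo (zm + 3) (zm + 4 + 1 / 3)) {i : Fin C.Z.𝒞.N}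
    (hρ : C.Z.pou.ρ i x ≠ 0) :
    ContDiffAt ℝ 2 (fun y => dd C v j ((C.Z.𝒞.e i).symm y)) (C.Z.𝒞.e i x) ∧
    C.ML 0 (C.Z.P i).φ (C.Z.𝒞.e i x) (fun k => C.mI i (v, j) k x) =
      (cut zm 3 (G.σ (C.Z.pr x)) : ℝ) * prin (gj C i x) (jc C.Z.𝒞 i (dd C v j) x) ∧
    (1 - (cut zm 3 (G.σ (C.Z.pr x)) : ℝ)) *
      (prin (gj C i x) (jc C.Z.𝒞 i (dd C v j) x) - dd C v j x) = 0 ∧
    C.jX 0 x * (Uv _ v x - C.YX j 0 x) = (cut zm 3 (G.σ (C.Z.pr x)) : ℝ) * dd C v j x := by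
  have hi := C.act hρ h (by linarith [hσ.2])
  obtain ⟨e, a1, a2, a3, a4⟩ := C.act_end hi hρ (by linarith [hσ.1])
  obtain ⟨b1, -, b3⟩ := C.tf.chart i hi x (C.Z.pou.spt i x hρ).1
  obtain ⟨c1, c2, -, c4, -⟩ := C.iv.base _ _ b1
  rw [← a4] at hσ ⊢
  unfold gj
  rw [← c4]
  set q := C.Z.𝒞.e i x with hq
  have hT := hY.le
  have h6 : q.1 ∈ Ioo (zm + 3) (zm + 6) := ⟨hσ.1, by linarith [hσ.2]⟩
  have h7 : q.1 ∈ Ioo (zm + 3) (zm + 7) := ⟨hσ.1, by linarith [hσ.2]⟩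
  have d1 := C.dv_c2_end v e a2 (by linarith [hσ.2])
  have d2 := hY.c2 e q ⟨hσ.1, by linarith [hσ.2]⟩
  have d3 : ContDiffAt ℝ 2 (fun z => (-G.s e : ℂ) * Yf e z) q := contDiffAt_const.mul d2
  have ev1 : (fun y => dd C v j ((C.Z.𝒞.e i).symm y)) =ᶠ[𝓝 q]
      fun z => C.dv v (pt e z) + (-G.s e : ℂ) * Yf e z := by
    filter_upwards [b3, continuous_fst.continuousAt.eventually (Ioo_mem_nhds hσ.1 hσ.2)]
      with z hz hz'
    rw [dd_mid C hY v hz.2 (by rw [hz.1, a1]) hz']; ring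
  have e1 : jc C.Z.𝒞 i (dd C v j) x =
      jet2 (fun z => C.dv v (pt e z)) q - (G.s e : ℂ) • jet2 (Yf e) q := by
    rw [jc, jet2_congr ev1, jet2_add d1 d3, jet2_smul _ d2, neg_smul, sub_eq_add_neg]
  have e2 := (C.tot_jet hY v e h7).2
  rw [jet_zero h7 fun z hz => ht _ (G.pt_mem e (by linarith [C.hz, hz.1]))
    (by rw [G.σ_pt e z (by linarith [C.hz, hz.1])]; linarith [hz.2])] at e2
  have e3 := he e q ⟨hσ.1, by linarith [hσ.2]⟩
  have e4 := dd_mid C hY v h a3 hσ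
  rw [top2 e2.symm, ← e1, ← e4, Ctx.ML, ← a1, Lh_top C.jf c2 c1] at e3
  refine ⟨(d1.add d3).congr_of_eventuallyEq ev1, ?_, ?_, ?_⟩
  · rw [C.mI_end hY v hi hρ h a1 a3 h6, top1 e2.symm, ← e1, Ctx.ML, Lh_top C.jf c2 c1]
    simp [jz]
  · simp only [jz, Matrix.cons_val_zero, Pi.zero_apply] at e3
    linear_combination -e3
  · rw [C.rest_end hY v h a3 h6, e4]

/-! ### The rest of the double -/

theorem dd_out (hY : YF zm j Yf T) (ht : ∀ p, w p = 0 → G.σ p < T → C.tot v Yf p = 0) {x : X}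
    (hx : C.Z.τ x < 0 ∨ zm + 3 + 2 / 3 < G.σ (C.Z.pr x)) : dd C v j =ᶠ[𝓝 x] Uv _ v := by
  have o1 : IsOpen {x | C.Z.τ x < 0 ∨ zm + 3 + 2 / 3 < G.σ (C.Z.pr x)} :=
    (isOpen_lt (ckFn_continuous C.Z.τ_sm) continuous_const).union
      (isOpen_lt continuous_const (G.σ_sm.continuous.comp (ckFn_continuous C.Z.pr_sm)))
  filter_upwards [o1.mem_nhds hx] with y hy
  rw [dd, Dbl.upF]
  split_ifs with h
  · have h1 := hy.resolve_left (not_lt.2 h.le)
    rw [gg_zero C (C.Z.mem y).1 fun e q _ e1 h5 => ?_, sub_zero]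
    rw [Y0_eq hY e ⟨by linarith, by linarith⟩, Yf_hi C hY ht e (by linarith) (by linarith [hY.le])]
  · rw [sub_zero]

theorem out (hY : YF zm j Yf T) (ht : ∀ p, w p = 0 → G.σ p < T → C.tot v Yf p = 0) {x : X}
    (hb : C.b1 x ≠ 0) (hσ : zm + 4 + 1 / 3 ≤ G.σ (C.Z.pr x)) :
    C.jX 0 x * (Uv _ v x - C.YX j 0 x) = Uv _ v x ∧ ∀ i ∈ C.Z.A, C.Z.pou.ρ i x ≠ 0 →
      C.ML 0 (C.Z.P i).φ (C.Z.𝒞.e i x) (fun k => C.mI i (v, j) k x) =
        prin (gj C i x) (jc C.Z.𝒞 i (Uv _ v) x) := by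
  obtain ⟨h, h5⟩ := C.b1_ne hb
  have e1 : (fun k => C.jX k x) = j1 := by
    rw [C.jX_eq h (by linarith), jz_cut_one (by push_cast; linarith)]
  obtain ⟨e, q, hq, e2⟩ := G.cover _ (C.Z.mem x).1 (by linarith [C.hz] : G.z0 < G.σ (C.Z.pr x))
  have e3 : G.σ (C.Z.pr x) = q.1 := by rw [e2, G.σ_pt e q hq]
  have e4 : (fun k => C.YX j k x) = 0 := by
    rw [C.YX_apply j h hq e2.symm, ← hY.jet e q ⟨by linarith, by linarith⟩,
      jet_zero (a := zm + 3 + 2 / 3) (b := T) ⟨by linarith, by linarith [hY.le]⟩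
        fun z hz => Yf_hi C hY ht e hz.1 hz.2, T1_zero, smul_zero]
  refine ⟨by rw [congrFun e1 0, congrFun e4 0]; simp [j1], fun i hi hρ => ?_⟩
  obtain ⟨c1, c2, -, c4, -⟩ := C.iv.base _ _ (C.tf.chart i hi x (C.Z.pou.spt i x hρ).1).1
  have e5 := Lh_top C.jf c2 c1 1 (jc C.Z.𝒞 i (Uv _ v) x)
  rw [one_smul, one_mul, c4] at e5
  rw [C.mI_apply hρ, e1, e4, j1_jmul, sub_zero, Ctx.ML, e5]
  exact sub_zero _

theorem dd_zero (hY : YF zm j Yf T)
    (hj : ∀ e, Res 3 6 (j e).1 = (j e).1 ∧ End.tr 0 (j e).1.y2 = 0)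
    (hc : C.CE (C.ML 0) (v, j)) (he : C.EQ (C.ML 0) v Yf T)
    (ht : ∀ p, w p = 0 → G.σ p < T → C.tot v Yf p = 0) (x : X) : dd C v j x = 0 := by
  have key : ∀ x, ¬ (0 < C.Z.τ x ∧ G.σ (C.Z.pr x) ≤ zm + 3) →
      (0 < C.Z.τ x ∧ G.σ (C.Z.pr x) ∈ Ioo (zm + 3) (zm + 4 + 1 / 3)) ∨
      ((C.b1 x ≠ 0 → zm + 4 + 1 / 3 ≤ G.σ (C.Z.pr x)) ∧ dd C v j =ᶠ[𝓝 x] Uv _ v) := by
    intro x hx
    rcases lt_trichotomy 0 (C.Z.τ x) with h | h | h
    · by_cases h4 : G.σ (C.Z.pr x) < zm + 4 + 1 / 3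
      · exact Or.inl ⟨h, not_le.1 fun h3 => hx ⟨h, h3⟩, h4⟩
      · exact Or.inr ⟨fun _ => not_lt.1 h4, dd_out C hY ht (Or.inr (by linarith))⟩
    · have := (C.Z.mem x).2
      rw [← h] at this
      exact Or.inr ⟨fun _ => by linarith, dd_out C hY ht (Or.inr (by linarith))⟩
    · exact Or.inr ⟨fun hb => absurd (C.b1_ne hb).1 (not_lt.2 h.le), dd_out C hY ht (Or.inl h)⟩
  have loc : ∀ x i, dd C v j =ᶠ[𝓝 x] Uv _ v → C.Z.pou.ρ i x ≠ 0 →
      (fun y => dd C v j ((C.Z.𝒞.e i).symm y)) =ᶠ[𝓝 (C.Z.𝒞.e i x)]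
        fun y => Uv _ v ((C.Z.𝒞.e i).symm y) := fun x i h hρ =>
    ((C.Z.𝒞.e i).tendsto_symm (C.Z.pou.spt i x hρ).1).eventually h
  refine C.hf.max (co C) (coef C) (dd C v j) {x | ¬ (0 < C.Z.τ x ∧ G.σ (C.Z.pr x) ≤ zm + 3)}
    ((ckFn_continuous (Uv_ck _ v)).sub (gg_cont C hj)) (fun x hx => ?_) (fun x hx i hρ => ?_)
    (fun x hx => ?_) x
  · obtain ⟨h, h3⟩ := not_not.1 hx
    have e1 := ht _ (C.Z.mem x).1 (by linarith [hY.le])
    rw [Ctx.tot, cut_zero (by push_cast; linarith), C.dv_pr v h] at e1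
    rw [dd, Dbl.upF, if_pos h, gg_zero C (C.Z.mem x).1 fun e q _ e2 _ =>
      Y0_lo C (hj e) (by linarith)]
    simpa using e1
  · rcases key x hx with ⟨h, hσ⟩ | ⟨-, h⟩
    · exact (mid C hY he ht h hσ hρ).1
    · exact (Uv_ck _ v _ (C.Z.𝒞.mem i) x (C.Z.pou.spt i x hρ).1).congr_of_eventuallyEq
        (loc x i h hρ)
  · have h1 := hc x
    rw [C.rest_apply] at h1
    rw [sum_co]
    rcases key x hx with ⟨h, hσ⟩ | ⟨h, h'⟩
    · have hb := C.b1_one h (by linarith [hσ.2])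
      have hs := C.sum_act h (by linarith [hσ.2])
      obtain ⟨i0, -, h0⟩ := Finset.exists_ne_zero_of_sum_ne_zero (hs.trans_ne one_ne_zero)
      set χ : ℂ := ((cut zm 3 (G.σ (C.Z.pr x)) : ℝ) : ℂ)
      have k1 : ∀ i ∈ C.Z.A, C.Z.pou.ρ i x * C.b1 x * C.ML 0 (C.Z.P i).φ (C.Z.𝒞.e i x)
          (fun k => C.mI i (v, j) k x) = C.Z.pou.ρ i x * C.b1 x *
            prin (gj C i x) (jc C.Z.𝒞 i (dd C v j) x) - C.Z.pou.ρ i x * ((1 - χ) * dd C v j x) := by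
        intro i _
        by_cases hρ : C.Z.pou.ρ i x = 0
        · simp [hρ]
        obtain ⟨-, e1, e2, -⟩ := mid C hY he ht h hσ hρ
        rw [e1, hb]
        linear_combination (-C.Z.pou.ρ i x : ℂ) * e2
      rw [Finset.sum_congr rfl k1, Finset.sum_sub_distrib, ← Finset.sum_mul, hs,
        (mid C hY he ht h hσ (by exact_mod_cast h0)).2.2.2] at h1
      simp only [hb, sub_self, mul_zero, zero_mul, Finset.sum_const_zero] at h1 ⊢
      linear_combination h1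
    · have k0 : ∀ i, C.Z.pou.ρ i x ≠ 0 → jc C.Z.𝒞 i (dd C v j) x = jc C.Z.𝒞 i (Uv _ v) x :=
        fun i hρ => jet2_congr (loc x i h' hρ)
      have k1 : ∀ i ∈ C.Z.A, C.Z.pou.ρ i x * C.b1 x * prin (gj C i x) (jc C.Z.𝒞 i (dd C v j) x) =
          C.Z.pou.ρ i x * C.b1 x * C.ML 0 (C.Z.P i).φ (C.Z.𝒞.e i x)
            (fun k => C.mI i (v, j) k x) := by
        intro i hi
        by_cases hρ : C.Z.pou.ρ i x = 0
        · simp [hρ]
        by_cases hb : C.b1 x = 0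
        · simp [hb]
        rw [k0 i hρ, (out C hY ht hb (h hb)).2 i hi hρ]
      have k2 : ∀ i ∈ Finset.univ, C.Z.pou.ρ i x * (1 - C.b1 x) *
          (jc C.Z.𝒞 i (dd C v j) x 3 + jc C.Z.𝒞 i (dd C v j) x 5) = C.Z.pou.ρ i x * (1 - C.b1 x) *
          (jc C.Z.𝒞 i (Uv _ v) x 3 + jc C.Z.𝒞 i (Uv _ v) x 5) := by
        intro i _
        by_cases hρ : C.Z.pou.ρ i x = 0
        · simp [hρ]
        rw [k0 i hρ]
      have k3 : C.b1 x * (Uv _ v x - C.jX 0 x * (Uv _ v x - C.YX j 0 x)) = 0 := by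
        by_cases hb : C.b1 x = 0
        · rw [hb, zero_mul]
        · rw [(out C hY ht hb (h hb)).1, sub_self, mul_zero]
      rw [Finset.sum_congr rfl k1, Finset.sum_congr rfl k2, h'.self_of_nhds]
      linear_combination h1 - k3

theorem dmax : C.DMaxS := by
  intro v j Yf T hY hj hc he ht
  have hd := dd_zero C hY hj hc he ht
  have hT := hY.le
  have h1 : ∀ e (q : R2), q.1 ∈ Ioo (zm + 3) (zm + 7) → Yf e q = 0 := by
    intro e q hq
    by_cases h : zm + 3 + 2 / 3 < q.1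
    · exact Yf_hi C hY ht e h (by linarith [hq.2])
    have h0 : G.z0 < q.1 := by linarith [C.hz, hq.1]
    have hσ := G.σ_pt e q h0
    obtain ⟨x, e1, hx⟩ := C.tf.ex _ (G.pt_mem e h0) (by linarith [hq.2])
    have e2 := dd_mid C hY v hx e1.symm ⟨hq.1, by linarith⟩
    have e3 := ht _ (G.pt_mem e h0) (by linarith [hq.2])
    rw [Ctx.tot, C.iv.YS_pt hY.per e h0] at e3
    rw [hd] at e2
    linear_combination (G.s e : ℂ) * e3 + (G.s e : ℂ) * (1 - (cut zm 3 (G.σ (pt e q)) : ℝ)) * e2 -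
      Yf e q * G.s_mul e
  refine ⟨UU_ext _ fun x => ?_, funext fun e => Subtype.ext (C.pf.jw_inj 3 6 e _ fun k => ?_)⟩
  · have e1 := hd x
    rw [dd, Dbl.upF, gg_zero C (C.Z.mem x).1 fun e q _ _ h5 => ?_, ite_self, sub_zero] at e1
    · rw [e1, map_zero]; rfl
    · by_cases h3 : q.1 ≤ zm + 3
      · exact Y0_lo C (hj e) h3
      · have h7 : q.1 ∈ Ioo (zm + 3) (zm + 7) := ⟨not_le.1 h3, by linarith⟩
        rw [Y0_eq hY e h7, h1 e q h7]
  · refine eq_zero_iff_ev.2 fun t θ => ?_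
    have c1 : IsClosed {ζ | ev (jw (ctr (gam zm 3 6) e) (j e).1 k) (tt zm ζ) θ = 0} :=
      isClosed_eq (Continuous.ev continuous_const C.pf.tt_cont continuous_const) continuous_const
    have c2 : Ioo (zm + 3) (zm + 7) ⊆
        {ζ | ev (jw (ctr (gam zm 3 6) e) (j e).1 k) (tt zm ζ) θ = 0} := fun ζ hζ => by
      have := hY.jet e (ζ, θ) hζ
      rw [jet_zero hζ (h1 e)] at this
      exact (congrFun this k).symm
    have c3 := c1.closure_subset_iff.2 c2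
    rw [closure_Ioo (by linarith)] at c3
    have c4 := C.pf.mem 3 6 t (by norm_num)
    rw [← ev_clp C (hj e).1]
    refine c3 ⟨by exact_mod_cast c4.1, c4.2.trans_eq ?_⟩
    rw [TT]; push_cast; ring

end DMax

variable {X : Type} [TopologicalSpace X] [ChartedSpace R2 X] [T2Space X] [CompactSpace X]
  [RSm R2 X]

theorem Ctx2.dmaxS (C : Ctx2 G zm X) (_ : C.OpS) : C.DMaxS := DMax.dmax C.toCtx

end Vale.Agent.P218N.Core
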