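import Vale.Agent.P218N.Core.Geo1

/-! The double of the core. -/

open Set Filter Topology Metric
open scoped RealInnerProductSpace ContDiff Real

namespace Vale.Agent.P218N.Core

open Vale.Agent.P218.H313 Vale.Agent.P218N.H Vale.Agent.P272.K.LIN

namespace Gp

variable {F : Type} [NormedAddCommGroup F] [NormedSpace ℝ F] {Z : Set F}

open Classical in
/-- the chart given by a patch -/
noncomputable def oph (x0 : Z) (P : Patch Z) : OpenPartialHomeomorph Z R2 where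
  toFun x := P.ι x
  invFun y := if h : P.φ y ∈ Z then ⟨_, h⟩ else x0
  source := {x | x.1 ∈ P.V}
  target := P.O
  map_source' x hx := (P.inv _ x.2 hx).1
  map_target' y hy := by simpa only [mem_ofPred_eq, dif_pos (P.maps y hy).1] using (P.maps y hy).2
  left_inv' x hx := Subtype.ext (by simp [(P.inv _ x.2 hx).2])
  right_inv' y hy := by simp only [dif_pos (P.maps y hy).1, P.left y hy]
  open_source := P.isOpen_V.preimage continuous_subtype_val
  open_target := P.isOpen_O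
  continuousOn_toFun := P.cont.comp continuous_subtype_val.continuousOn fun x hx => ⟨x.2, hx⟩
  continuousOn_invFun := IsInducing.subtypeVal.continuousOn_iff.2
    (P.smooth.continuousOn.congr fun y hy => by simp [(P.maps y hy).1])

theorem oph_symm (x0 : Z) (P : Patch Z) {y : R2} (hy : y ∈ P.O) :
    ∀ᶠ z in 𝓝 y, ((oph x0 P).symm z : F) = P.φ z :=
  mem_of_superset (P.isOpen_O.mem_nhds hy) fun z hz =>
    congrArg Subtype.val (dif_pos (P.maps z hz).1)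

/-- the charted space given by all patches -/
@[reducible] noncomputable def charted (x0 : Z) (h : ∀ x : Z, ∃ P : Patch Z, x.1 ∈ P.V) :
    ChartedSpace R2 Z where
  atlas := range (oph x0)
  chartAt x := oph x0 (h x).choose
  mem_chart_source x := (h x).choose_spec
  chart_mem_atlas _ := ⟨_, rfl⟩

theorem rsm [FiniteDimensional ℝ F] (x0 : Z) (h : ∀ x : Z, ∃ P : Patch Z, x.1 ∈ P.V) :
    @RSm R2 _ _ Z _ (charted x0 h) := by
  refine @RSm.mk _ _ _ _ _ (charted x0 h) ?_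
  rintro _ ⟨P, rfl⟩ _ ⟨P', rfl⟩ x hx hx'
  obtain ⟨h1, h2⟩ := P.inv _ x.2 hx
  exact (P'.trans' P h1 (h2.symm ▸ hx')).1.congr_of_eventuallyEq
    ((oph_symm x0 P h1).mono fun z hz => congrArg P'.ι hz)

theorem ck_val (x0 : Z) (h : ∀ x : Z, ∃ P : Patch Z, x.1 ∈ P.V) :
    @CkFn R2 _ _ Z _ (charted x0 h) F _ _ ∞ Subtype.val := by
  rintro _ ⟨P, rfl⟩ x hx
  have h1 := (P.inv _ x.2 hx).1
  exact (P.cda h1).congr_of_eventuallyEq (oph_symm x0 P h1)

section X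

variable {X : Type} [TopologicalSpace X]

theorem exists_rad (e : OpenPartialHomeomorph X R2) {x : X} (hx : x ∈ e.source) {W : Set X}
    (hW : W ∈ 𝓝 x) : ∃ r, 0 < r ∧ closedBall (e x) (3 * r) ⊆ e.target ∧
      ∀ x' ∈ e.source, e x' ∈ ball (e x) (3 * r) → x' ∈ W := by
  obtain ⟨r, h0, hr⟩ := Metric.nhds_basis_closedBall.mem_iff.1
    (inter_mem (e.open_target.mem_nhds (e.map_source hx)) (e.tendsto_symm hx hW))
  rw [← mul_div_cancel₀ r (three_ne_zero' ℝ)] at hr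
  exact ⟨r / 3, by positivity, fun y hy => (hr hy).1, fun x' h1 h2 =>
    e.left_inv h1 ▸ (hr (ball_subset_closedBall h2)).2⟩

theorem exists_pou' [ChartedSpace R2 X] [T2Space X] [RSm R2 X] (𝒞 : Cov R2 X) :
    Nonempty (Pou 𝒞) := by
  let b : ∀ i, ContDiffBump (𝒞.c i) := fun i =>
    ⟨𝒞.r i, 3 / 2 * 𝒞.r i, 𝒞.r_pos i, by linarith [𝒞.r_pos i]⟩
  have h0 : ∀ i y, y ∉ closedBall (𝒞.c i) (3 / 2 * 𝒞.r i) → b i y = 0 := fun i y hy =>
    (b i).zero_of_le_dist (not_le.1 hy).le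
  have h1 : ∀ i, CkFn R2 ∞ (ext0 (𝒞.e i) (b i)) := fun i => ext0_ck le_rfl (𝒞.mem i)
    (isCompact_closedBall _ _) ((closedBall_subset_closedBall (by linarith [𝒞.r_pos i])).trans
      (𝒞.sub i)) (h0 i) fun y _ => (b i).contDiffAt
  have h2 : ∀ i x, 0 ≤ ext0 (𝒞.e i) (b i) x := fun i =>
    indicator_nonneg fun x _ => (b i).nonneg
  have h3 : ∀ x, 0 < ∑ i, ext0 (𝒞.e i) (b i) x := fun x => by
    obtain ⟨i, k1, k2⟩ := 𝒞.cover x
    refine Finset.sum_pos' (fun i _ => h2 i x) ⟨i, Finset.mem_univ _, ?_⟩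
    rw [ext0_of_mem k1, (b i).one_of_mem_closedBall (ball_subset_closedBall k2)]
    exact one_pos
  refine ⟨⟨fun i x => ext0 (𝒞.e i) (b i) x / ∑ i, ext0 (𝒞.e i) (b i) x,
    fun i => (h1 i).div (CkFn.sum fun i _ => h1 i) fun x => (h3 x).ne',
    fun i x => div_nonneg (h2 i x) (h3 x).le, fun x => by rw [← Finset.sum_div, div_self (h3 x).ne'],
    fun i x hx => ?_⟩⟩
  have k1 : x ∈ (𝒞.e i).source := not_not.1 fun k => hx (by rw [ext0_of_notMem k, zero_div])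
  exact ⟨k1, not_not.1 fun k => hx (by rw [ext0_of_mem k1, h0 i _ k, zero_div])⟩

end X

variable {w : E3 → ℝ} {D : EndData w} (G : Geo D) (c : ℝ)

/-- the double -/
def ZZ : Set (E3 × ℝ) := {q | w q.1 = 0 ∧ G.σ q.1 + q.2 ^ 2 = c}

theorem up_sm (s : ℝ) (P : Patch (SS w)) {y : R2} (hy : y ∈ P.O) (h : G.σ (P.φ y) < c) :
    ContDiffAt ℝ ∞ (fun y => s * √(c - G.σ (P.φ y))) y :=
  contDiffAt_const.mul ((contDiffAt_const.sub (G.σ_sm.contDiffAt.comp y (P.cda hy))).sqrt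
    (sub_pos.2 h).ne')

/-- the patches of the upper and the lower half -/
noncomputable def upP {s : ℝ} (hs : s * s = 1) (P : Patch (SS w)) : Patch (ZZ G c) where
  O := P.O ∩ (fun y => G.σ (P.φ y)) ⁻¹' Iio c
  φ y := (P.φ y, s * √(c - G.σ (P.φ y)))
  V := {q | 0 < s * q.2 ∧ q.1 ∈ P.V}
  ι q := P.ι q.1
  isOpen_O := (G.σ_sm.continuous.comp_continuousOn P.smooth.continuousOn).isOpen_inter_preimage
    P.isOpen_O isOpen_Iio
  isOpen_V := (isOpen_lt continuous_const (continuous_const.mul continuous_snd)).inter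
    (P.isOpen_V.preimage continuous_fst)
  smooth y hy := ((P.cda hy.1).prodMk (up_sm G c s P hy.1 hy.2)).contDiffWithinAt
  imm y hy u u' k := by
    rw [((P.cda hy.1).differentiableAt (by simp)).fderiv_prodMk
      ((up_sm G c s P hy.1 hy.2).differentiableAt (by simp))] at k
    exact P.imm y hy.1 (Prod.ext_iff.1 k).1
  maps y hy := ⟨⟨(P.maps y hy.1).1, by
      rw [mul_pow, Real.sq_sqrt (sub_pos.2 hy.2).le, pow_two, hs]; ring⟩,
    by rw [← mul_assoc, hs, one_mul]; exact Real.sqrt_pos.2 (sub_pos.2 hy.2), (P.maps y hy.1).2⟩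
  left y hy := P.left y hy.1
  inv q hq hV := by
    obtain ⟨h1, h2⟩ := P.inv q.1 hq.1 hV.2
    have h3 : c - G.σ q.1 = (s * q.2) ^ 2 := by linear_combination -hq.2 - q.2 ^ 2 * hs
    refine ⟨⟨h1, ?_⟩, Prod.ext h2 ?_⟩
    · simp only [mem_preimage, h2, mem_Iio]
      linarith [pow_pos hV.1 2]
    · simp only [h2, h3, Real.sqrt_sq hV.1.le, ← mul_assoc, hs, one_mul]
  cont := P.cont.comp continuous_fst.continuousOn fun q hq => ⟨hq.1.1, hq.2.2⟩

/-- the patches at the equator -/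
noncomputable def eqP (P : Patch (SS w)) (h : ∀ y ∈ P.O, G.σ (P.φ y) = y.1) : Patch (ZZ G c) where
  O := (fun y : R2 => (c - y.1 ^ 2, y.2)) ⁻¹' P.O
  φ y := (P.φ (c - y.1 ^ 2, y.2), y.1)
  V := {q | q.1 ∈ P.V}
  ι q := (q.2, (P.ι q.1).2)
  isOpen_O := P.isOpen_O.preimage (by fun_prop)
  isOpen_V := P.isOpen_V.preimage continuous_fst
  smooth y hy := (((P.cda hy).comp y (by fun_prop)).prodMk contDiffAt_fst).contDiffWithinAt
  imm y hy := by
    refine (injective_iff_map_eq_zero _).2 fun u k => ?_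
    have h1 : HasFDerivAt (fun y : R2 => (P.φ (c - y.1 ^ 2, y.2), y.1)) _ y :=
      (HasFDerivAt.comp (g := P.φ) y ((P.cda hy).differentiableAt (by simp)).hasFDerivAt
        ((((hasFDerivAt_fst (p := y)).pow 2).const_sub c).prodMk hasFDerivAt_snd)).prodMk
        hasFDerivAt_fst
    rw [h1.fderiv] at k
    obtain ⟨k1, k2 : u.1 = 0⟩ := Prod.ext_iff.1 k
    exact Prod.ext k2 (Prod.ext_iff.1 ((injective_iff_map_eq_zero _).1 (P.imm _ hy) _ k1)).2
  maps y hy := ⟨⟨(P.maps _ hy).1, by simp [h _ hy]⟩, (P.maps _ hy).2⟩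
  left y hy := by simp [P.left _ hy]
  inv q hq hV := by
    obtain ⟨h1, h2⟩ := P.inv q.1 hq.1 hV
    have h3 : (c - q.2 ^ 2, (P.ι q.1).2) = P.ι q.1 :=
      Prod.ext (by rw [← h _ h1, h2]; exact (eq_sub_of_add_eq hq.2).symm) rfl
    exact ⟨by simpa only [mem_preimage, h3] using h1, Prod.ext (by simp only [h3, h2]) rfl⟩
  cont := continuous_snd.continuousOn.prodMk
    (P.cont.comp continuous_fst.continuousOn fun q hq => ⟨hq.1.1, hq.2⟩).snd

theorem ep_mem {p : E3} (hp : w p = 0) (h : G.z0 < G.σ p) : ∃ e θ, p ∈ (G.ep e θ).V := by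
  obtain ⟨e, q, h1, rfl⟩ := G.cover p hp h
  exact ⟨e, q.2, G.ep_φ e q.2 ▸ ((G.ep e q.2).maps q (G.ep_O e q.2 ▸
    ⟨h1, by linarith [Real.pi_pos], by linarith [Real.pi_pos]⟩)).2⟩

theorem ZZ_cover (hc : G.z0 < c) (x : ZZ G c) : ∃ P : Patch (ZZ G c), x.1 ∈ P.V := by
  rcases lt_trichotomy x.1.2 0 with h | h | h
  · exact ⟨upP G c (s := -1) (by simp) (G.pa x.1.1), by simpa, G.pa_mem _ x.2.1⟩
  · obtain ⟨e, θ, h1⟩ := ep_mem G x.2.1 (hc.trans_eq (by simpa [h] using x.2.2.symm))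
    exact ⟨eqP G c (G.ep e θ) fun y hy => G.ep_φ e θ ▸ G.σ_pt e y (G.ep_O e θ ▸ hy : y ∈ _ ×ˢ _).1,
      h1⟩
  · exact ⟨upP G c (s := 1) (by simp) (G.pa x.1.1), by simpa, G.pa_mem _ x.2.1⟩

theorem ZZ_cpt : IsCompact (ZZ G c) := by
  have h0 := G.σ_sm.continuous
  have h1 : ∀ s : ℝ, IsCompact ((fun p => (p, s * √(c - G.σ p))) '' {p | w p = 0 ∧ G.σ p ≤ c}) :=
    fun s => (G.cpt c).image (by fun_prop)
  refine ((h1 1).union (h1 (-1))).of_isClosed_subset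
    ((isClosed_eq (G.shr.smooth.continuous.comp continuous_fst) continuous_const).inter
      (isClosed_eq (by fun_prop) continuous_const)) fun q hq => ?_
  have h2 : √(c - G.σ q.1) = |q.2| := by rw [← hq.2, add_sub_cancel_left, Real.sqrt_sq_eq_abs]
  have h3 : G.σ q.1 ≤ c := by linarith [hq.2, sq_nonneg q.2]
  rcases le_total 0 q.2 with h | h
  · exact .inl ⟨q.1, ⟨hq.1, h3⟩, by simp [h2, abs_of_nonneg h]⟩
  · exact .inr ⟨q.1, ⟨hq.1, h3⟩, by simp [h2, abs_of_nonpos h]⟩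

theorem ZZ_ne (hc : G.z0 < c) {p : E3} (hp : w p = 0) : Nonempty (ZZ G c) := by
  obtain ⟨p, h1, h2⟩ : ∃ p, w p = 0 ∧ G.σ p ≤ c := by
    by_cases h : G.σ p ≤ c
    · exact ⟨p, hp, h⟩
    · obtain ⟨e, -⟩ := G.cover p hp (hc.trans (not_le.1 h))
      exact ⟨pt e (c, 0), G.ep_φ e 0 ▸ ((G.ep e 0).maps (c, 0) (G.ep_O e 0 ▸
        ⟨hc, by linarith [Real.pi_pos], by linarith [Real.pi_pos]⟩)).1, (G.σ_pt e (c, 0) hc).le⟩
  exact ⟨⟨(p, √(c - G.σ p)), h1, by simp [Real.sq_sqrt (sub_nonneg.2 h2)]⟩⟩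

end Gp

open Gp in
theorem dblStmt : DblStmt := by
  classical
  rintro w D G zm hz ⟨p, hp⟩
  have hc : G.z0 < zm + 8 := by linarith
  obtain ⟨x0⟩ := ZZ_ne G _ hc hp
  let _ := charted x0 (ZZ_cover G _ hc)
  have := rsm x0 (ZZ_cover G _ hc)
  have := isCompact_iff_compactSpace.1 (ZZ_cpt G (zm + 8))
  have hv := ck_val x0 (ZZ_cover G _ hc)
  have c1 : Continuous fun x : ZZ G (zm + 8) => G.σ x.1.1 :=
    G.σ_sm.continuous.comp continuous_subtype_val.fst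
  have key : ∀ x : ZZ G (zm + 8), ∃ (Q : Patch (ZZ G (zm + 8))) (P : Patch (SS w)) (r : ℝ),
      x ∈ (oph x0 Q).source ∧ 0 < r ∧ closedBall (oph x0 Q x) (3 * r) ⊆ (oph x0 Q).target ∧
      (0 < x.1.2 → Q = upP G _ (mul_one 1) P ∧ ((∃ e θ, P = G.ep e θ) ∨
        ∀ y ∈ (oph x0 Q).source, oph x0 Q y ∈ ball (oph x0 Q x) (3 * r) → G.σ y.1.1 < zm)) ∧
      (¬0 < x.1.2 → ∀ y ∈ (oph x0 Q).source, oph x0 Q y ∈ ball (oph x0 Q x) (3 * r) →
        y.1.2 < 1) := fun x => by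
    by_cases h : 0 < x.1.2
    · by_cases h1 : G.z0 < G.σ x.1.1
      · obtain ⟨e, θ, h2⟩ := ep_mem G x.2.1 h1
        have h3 : x ∈ (oph x0 (upP G _ (mul_one 1) (G.ep e θ))).source := ⟨by simpa, h2⟩
        obtain ⟨r, h4, h5, -⟩ := exists_rad _ h3 univ_mem
        exact ⟨_, _, r, h3, h4, h5, fun _ => ⟨rfl, .inl ⟨e, θ, rfl⟩⟩, fun k => (k h).elim⟩
      · have h3 : x ∈ (oph x0 (upP G _ (mul_one 1) (G.pa x.1.1))).source :=
          ⟨by simpa, G.pa_mem _ x.2.1⟩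
        obtain ⟨r, h4, h5, h6⟩ := exists_rad _ h3
          (c1.continuousAt.eventually_lt continuousAt_const (show G.σ x.1.1 < zm by linarith))
        exact ⟨_, _, r, h3, h4, h5, fun _ => ⟨rfl, .inr h6⟩, fun k => (k h).elim⟩
    · obtain ⟨Q, h3⟩ := ZZ_cover G _ hc x
      obtain ⟨r, h4, h5, h6⟩ := exists_rad (oph x0 Q) h3
        (continuous_subtype_val.snd.continuousAt.eventually_lt continuousAt_const
          (show x.1.2 < 1 by linarith))
      exact ⟨Q, G.pa 0, r, h3, h4, h5, fun k => (h k).elim, fun _ => h6⟩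
  choose Q P r k1 k2 k3 k4 k5 using key
  obtain ⟨𝒞, a, ha⟩ := Cov.exists_cov R2 (ZZ G (zm + 8)) (fun x => oph x0 (Q x))
    (fun x => mem_range_self _) k1 r k2 k3
  obtain ⟨ρ⟩ := exists_pou' 𝒞
  have k6 : ∀ i x, 𝒞.η i x ≠ 0 → x ∈ (oph x0 (Q (a i))).source ∧
      oph x0 (Q (a i)) x ∈ ball (oph x0 (Q (a i)) (a i)) (3 * r (a i)) := fun i x h => by
    simpa only [ha i] using 𝒞.η_ne_zero h
  refine ⟨ZZ G (zm + 8), inferInstance, inferInstance, inferInstance, inferInstance, inferInstance,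
    ⟨⟨𝒞, ρ, fun x => x.1.1, fun x => x.1.2, {i | 0 < (a i).1.2}, fun i => P (a i),
      hv.comp contDiff_fst, hv.comp contDiff_snd, fun x => x.2,
      fun x x' h h' => Subtype.ext (Prod.ext h h'), fun p t h h' => ⟨⟨(p, t), h, h'⟩, rfl, rfl⟩,
      fun P => ⟨oph x0 (upP G _ (mul_one 1) P), ⟨_, rfl⟩, by simp [oph, upP], fun _ _ => rfl⟩,
      fun i hi => ?_, fun i hi x _ => ?_, fun i x h h1 => ?_, fun i hi => ?_⟩⟩⟩
  · rw [(ha i).1, (k4 _ (by simpa using hi)).1]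
    simp [oph, upP]
  · rw [(ha i).1, (k4 _ (by simpa using hi)).1]
    rfl
  · simpa using not_not.1 fun k => (k5 _ k x (k6 i x h).1 (k6 i x h).2).not_ge h1
  · exact (k4 _ (by simpa using hi)).2.imp_right fun k x h => k x (k6 i x h).1 (k6 i x h).2

end Vale.Agent.P218N.Core
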