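import Vale.Agent.P218N.Core.Jet
import Vale.Agent.P218N.End.Ap
import Vale.Agent.P272.K.LIN.C2

/-! Definitions for the core problem, second part: the geometric data, the nonlinear operator,
the linear theory on the ends, the double of the core, the spaces. -/

open Set Filter Topology Metric
open scoped RealInnerProductSpace ContDiff Matrix NNReal

noncomputable section

namespace Vale.Agent.P218N.Core

open Vale.Agent.P218.H313 Vale.Agent.P218N.H Vale.Agent.P218N.End Vale.Agent.P272.K.LIN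

variable {w : E3 → ℝ} {D : EndData w}

/-- The geometric data: an exhaustion function `σ`, a transversal field `nn`, indicator functions
of the ends, patches. -/
structure Geo (D : EndData w) where
  z0 : ℝ
  σ : E3 → ℝ
  nn : E3 → E3
  ind : En D → E3 → ℝ
  s : En D → ℝ
  pa : E3 → Patch (SS w)
  ep : En D → ℝ → Patch (SS w)
  shr : Shr w
  one_le : 1 ≤ z0
  s0 : D.s₀ < Real.log z0 / 2
  σ_sm : ContDiff ℝ ∞ σ
  nn_sm : ContDiff ℝ ∞ nn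
  ind_sm : ∀ e, ContDiff ℝ ∞ (ind e)
  σ_pt : ∀ (e : En D) q, z0 < q.1 → σ (pt e q) = q.1
  nn_pt : ∀ e q, z0 < q.1 → nn (pt e q) = s e • dir e q
  ind_pt : ∀ e' e q, z0 < q.1 → ind e' (pt e q) = if e' = e then 1 else 0
  s_sq : ∀ e, s e = 1 ∨ s e = -1
  pos : ∀ p, w p = 0 → 0 < ⟪nn p, nuW w p⟫
  cover : ∀ p, w p = 0 → z0 < σ p → ∃ (e : En D) (q : R2), z0 < q.1 ∧ p = pt e q
  inj : ∀ (e : En D) q q', z0 < q.1 → z0 < q'.1 → pt e q = pt e q' →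
    ∃ k : ℤ, q' = (q.1, q.2 + k * (2 * Real.pi))
  cpt : ∀ R, IsCompact {p | w p = 0 ∧ σ p ≤ R}
  pa_mem : ∀ p, w p = 0 → p ∈ (pa p).V
  ep_φ : ∀ e θ, (ep e θ).φ = pt e
  ep_O : ∀ e θ, (ep e θ).O = Ioi z0 ×ˢ Ioo (θ - Real.pi) (θ + Real.pi)
  y_le : ∀ (e : En D) q, z0 < q.1 → |yS e q| ≤ 1 / 2
  ky_le : ∀ i q, z0 < q.1 → |kaf i q.2 * yS (D := D) (.inl i) q| ≤ 1 / 2

/-! ### The nonlinear operator on jets -/

variable (D) in
/-- the variables `(c, χ, p, n, u)` -/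
abbrev WW : Type := (Fin D.b → ℂ × ℂ) × (Fin D.b → ℂ) × C3 × C3 × ℂ

/-- the deformed point `R (p + u n)`, `R = 1 + ∑ (Q_b Rot (χ_b c_b) Q_b⁻¹ - 1)` -/
def Gm (a : WW D) : C3 := (a.2.2.1 + a.2.2.2.2 • a.2.2.2.1) +
  ∑ b, (RQ (D.Q b) (a.2.1 b • a.1 b) *ᵥ (a.2.2.1 + a.2.2.2.2 • a.2.2.2.1) -
    (a.2.2.1 + a.2.2.2.2 • a.2.2.2.1))
/-- the variable part of a jet -/
def emb (c : Fin D.b → ℂ × ℂ) (m : J2 ℂ) : J2 (WW D) :=
  fun k => (if k = 0 then c else 0, 0, 0, 0, m k)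
/-- the jet of the base point -/
def pJ (a : J2 (WW D)) : J2 C3 := fun k => (a k).2.2.1
/-- the transversal vector -/
def nV (a : J2 (WW D)) : C3 := (a 0).2.2.2.1
/-- the jet of the deformed point -/
def xJ (a : J2 (WW D)) : J2 C3 := jcomp Gm a
/-- the normalised shrinker operator -/
def Mh (a : J2 (WW D)) : ℂ := Mp (xJ a) / (det3 (pJ a 1) (pJ a 2) (nV a) * dg (pJ a))
/-- the factor between `Mh` and the Euler-Lagrange operator -/
def kap (a : J2 (WW D)) : ℂ := eG (pJ a) * sq (pJ a) (xJ a) ^ 3 * det3 (pJ a 1) (pJ a 2) (nV a) /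
  (eG (xJ a) * det3 (xJ a 1) (xJ a 2) (nV a))
/-- the Gaussian area density -/
def lam (a : J2 (WW D)) : ℂ := lag (pJ a) (xJ a)
variable (D) in
/-- the domain of holomorphy -/
def Om : Set (J2 (WW D)) := {a | dg (pJ a) ≠ 0 ∧ det3 (pJ a 1) (pJ a 2) (nV a) ≠ 0 ∧
  dg (xJ a) / dg (pJ a) ∈ Complex.slitPlane ∧ det3 (xJ a 1) (xJ a 2) (nV a) ≠ 0}
/-- the linearised operator -/
def Lh (b : J2 (WW D)) : J2 ℂ →L[ℂ] ℂ := fderiv ℂ (fun m => Mh (b + emb 0 m)) 0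
/-- the principal part `g^{ab} m_ab` -/
def prin (j : J2 C3) (m : J2 ℂ) : ℂ := (g22 j * m 3 - 2 * g12 j * m 4 + g11 j * m 5) / dg j
/-- the inverse metric `g^{ab} m_a m'_b` -/
def ginv (j : J2 C3) (m m' : J2 ℂ) : ℂ :=
  (g22 j * (m 1 * m' 1) - g12 j * (m 1 * m' 2 + m 2 * m' 1) + g11 j * (m 2 * m' 2)) / dg j

namespace Geo
variable (G : Geo D) (zm : ℝ)

open Classical in
/-- the function on the surface given by `F` on the end `e` and by zero elsewhere -/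
def lift {V : Type} [Zero V] (e : En D) (F : R2 → V) (p : E3) : V :=
  if h : ∃ q : R2, G.z0 < q.1 ∧ p = pt e q then F h.choose else 0
/-- the cutoff function of the rotation of the end `b` -/
def chi (b : Fin D.b) (p : E3) : ℝ := cut zm 2 (G.σ p) * G.ind (.inr b) p
/-- the base data at a point -/
def bW (p : E3) : WW D := (0, fun b => (G.chi zm b p : ℂ), cx p, cx (G.nn p), 0)
/-- the jet of the base data -/
def bJ (φ : R2 → E3) (y : R2) : J2 (WW D) := jet2 (fun z => G.bW zm (φ z)) y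
/-- the deformed surface -/
def XG (c : Fin D.b → ℂ × ℂ) (u : E3 → ℂ) (p : E3) : C3 := Gm (G.bW zm p + (c, 0, 0, 0, u p))
/-- the jet of a function in the patch at `p` -/
def jG {V : Type} [NormedAddCommGroup V] [NormedSpace ℝ V] (u : E3 → V) (p : E3) : J2 V :=
  jet2 (fun z => u ((G.pa p).φ z)) ((G.pa p).ι p)
/-- all data in the patch at `p` -/
def aG (c : Fin D.b → ℂ × ℂ) (u : E3 → ℂ) (p : E3) : J2 (WW D) :=
  G.bJ zm (G.pa p).φ ((G.pa p).ι p) + emb c (G.jG u p)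
/-- the linearised operator on functions -/
def LG (u : E3 → ℂ) (p : E3) : ℂ := Lh (G.bJ zm (G.pa p).φ ((G.pa p).ι p)) (G.jG u p)
/-- `g (∇u, ∇v)` -/
def gG (u v : E3 → ℂ) (p : E3) : ℂ := ginv (G.jG cx p) (G.jG u p) (G.jG v p)
def dlagG (X Y : E3 → C3) (p : E3) : ℂ := dlag (G.jG cx p) (G.jG X p) (G.jG Y p)
def eulG (X Y : E3 → C3) (p : E3) : ℂ := eul (G.jG cx p) (G.jG X p) (Y p)
/-- the flux of `Y` through the level sets of `σ` -/
def flxG (X Y : E3 → C3) (p : E3) : ℂ := flx (G.jG cx p) (G.jG X p)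
  (G.jG (fun x => (G.σ x : ℂ)) p 1) (G.jG (fun x => (G.σ x : ℂ)) p 2) ⬝ᵥ Y p
/-- the weight -/
def om (p : E3) : ℝ := rho p * ⟪G.nn p, nuW w p⟫ ^ 2
/-- the pairing -/
def ip (f g : E3 → ℂ) : ℂ := ∫ p, f p * g p * (G.om p : ℝ) ∂(muS w)
/-- moderate growth of the one-jet on the ends -/
def Mod (u : E3 → ℂ) : Prop := ∃ C : ℝ, ∀ (e : En D) (q : R2), G.z0 + 1 ≤ q.1 →
  ‖T1 (jet2 (fun z => u (pt e z)) q)‖ ≤ C * q.1 ^ 2
/-- the normal part of the infinitesimal rotations, cut off -/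
def rotN (c : Fin D.b → ℂ × ℂ) (p : E3) : ℂ :=
  ∑ b, (cut zm 2 (G.σ p) : ℝ) * (G.s (.inr b) : ℝ) * G.lift (.inr b) (phR b (c b)) p

end Geo

/-! ### The linear theory on the ends -/

/-- the unscaled jet at the point `q = (ζ, θ)` -/
def jev (zm : ℝ) (Γ : Ctr) (j : EJ) (q : R2) : J2 ℂ := fun k => ev (jw Γ j k) (tt zm q.1) q.2

/-- `(R c) = c₁ cos θ + c₂ sin θ`, up to a factor -/
def Rc (c : ℂ × ℂ) : WD :=
  W.one1 1 (c.1 - Complex.I * c.2) + W.one1 (-1) (c.1 + Complex.I * c.2)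

/-- The jets `jS n` of the end `e` along `gam zm 0 n` and the solution operators `G n` of the
linearised equation along `gam zm 3 n` with zero slow data. -/
structure EndBox (zm : ℝ) (e : En D) where
  jS : ℕ → EJ
  G : ℕ → WB × WD →L[ℂ] EJ
  C : ℝ
  κ : ℝ
  κ_pos : 0 < κ
  jet : ∀ n, (ctr (gam zm 0 n) e).IsJet (jS n)
  val : ∀ n t θ k, ev (jw (ctr (gam zm 0 n) e) (jS n) k) t θ = jy e (zr zm 0 n t, θ) k
  sol : ∀ n, EE (gam zm 0 n) e (jS n) = 0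
  Gjet : ∀ n x, 3 ≤ n → (ctr (gam zm 3 n) e).IsJet (G n x)
  Geq : ∀ n x, 3 ≤ n → fderiv ℂ (EE (gam zm 3 n) e) (Res 3 n (jS n)) (G n x) = x.1
  Gd : ∀ n x, 3 ≤ n → End.tr 0 (G n x).y2 = 0
  Gw : ∀ n x, 3 ≤ n → piT (gam zm 3 n) e (G n x) = x.2
  uniq : ∀ n v, 3 ≤ n → (ctr (gam zm 3 n) e).IsJet v →
    fderiv ℂ (EE (gam zm 3 n) e) (Res 3 n (jS n)) v = 0 → End.tr 0 v.y2 = 0 →
    piT (gam zm 3 n) e v = 0 → v = 0
  Gf : ∀ m n f, 3 ≤ m → m ≤ n → ‖Res 3 m (G n (f, 0))‖ ≤ C * TT zm m ^ 2 * ‖f‖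
  Gom : ∀ m n o, 3 ≤ m → m ≤ n →
    ‖Res 3 m (G n (0, o))‖ ≤ C * Real.exp (-(κ * ((n : ℝ) - m))) * ‖o‖
  Gy : ∀ ε > 0, ∀ᶠ n in atTop, ∀ o, ‖End.tr 1 (G n (0, o)).y‖ ≤ ε * ‖o‖
  pi_le : ∀ n j, 3 ≤ n → (ctr (gam zm 3 n) e).IsJet j →
    ‖piT (gam zm 3 n) e j‖ ≤ C * TT zm n ^ 2 * ‖j‖

/-- The slow solution `φ₀ ∼ ζ` and the rotation fields on a cylindrical end. -/
structure CylBox (zm : ℝ) (b : Fin D.b) (B : EndBox (D := D) zm (.inr b)) where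
  ph : ℕ → EJ
  pR : ℕ → ℂ × ℂ →L[ℂ] EJ
  C : ℝ
  g : ℝ
  ρ : ℝ
  g_ne : g ≠ 0
  ρ_ne : ρ ≠ 0
  jet : ∀ n, ((gam zm 0 n).cyl 0).IsJet (ph n)
  eq : ∀ n, fderiv ℂ ((gam zm 0 n).Ecyl 0) (B.jS n) (ph n) = 0
  res : ∀ m n, m ≤ n → Res 0 m (ph n) = ph m
  real : ∀ n, (ph n).cj = ph n
  ne : ∀ n t θ, ev (ph n).y t θ ≠ 0
  bd : ∀ n, ‖ph n‖ ≤ C * TT zm n ^ 2
  asy : Tendsto (fun n => ((TT zm n : ℝ) : ℂ)⁻¹ • End.tr 1 (ph n).y2) atTop
    (𝓝 ((g : ℂ) • W.one1 0 1))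
  asπ : Tendsto (fun n => ((TT zm n : ℝ) : ℂ)⁻¹ • piT (D := D) (gam zm 0 n) (.inr b) (ph n))
    atTop (𝓝 0)
  Rjet : ∀ n c, ((gam zm 0 n).cyl 0).IsJet (pR n c)
  Rval : ∀ n c t θ, ev (pR n c).y t θ = phR b c (zr zm 0 n t, θ)
  Rbd : ∀ n, ‖pR n‖ ≤ C * TT zm n ^ 2
  Rasy : ∀ c, Tendsto (fun n => ((√(TT zm n) : ℝ) : ℂ)⁻¹ • End.tr 1 (pR n c).y2) atTop
    (𝓝 (-(ρ : ℂ) • Rc c))
  Rasπ : ∀ c, Tendsto (fun n => ((√(TT zm n) : ℝ) : ℂ)⁻¹ •
    piT (D := D) (gam zm 0 n) (.inr b) (pR n c)) atTop (𝓝 0)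

/-- the jets along a contour -/
def JS (Γ : Ctr) : Submodule ℂ EJ where
  carrier := {j | Γ.IsJet j}
  add_mem' := Ctr.IsJet.add
  zero_mem' := Ctr.isJet_zero
  smul_mem' z j h := by
    have := Ctr.IsJet.mu h (χ := fun _ => z) (B := ‖z‖) fun _ => le_rfl
    have e : ∀ f : WB, mult (fun _ => z) f = z • f := fun f => W.ext fun m => by
      rw [c_mult (K := ‖z‖) fun _ => le_rfl]; rfl
    have e2 : EJ.mu (fun _ => z) j = z • j := by simp only [EJ.mu, e]; rfl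
    rwa [e2] at this

/-! ### The double and the spaces -/

section jets
variable {V : Type} [NormedAddCommGroup V] [NormedSpace ℝ V] {f g : R2 → V} {y : R2}

theorem jet2_zero : jet2 (fun _ : R2 => (0 : V)) y = 0 := by
  ext k; fin_cases k <;> simp [jet2]

theorem jet2_congr (h : f =ᶠ[𝓝 y] g) : jet2 f y = jet2 g y := by
  unfold jet2
  rw [h.self_of_nhds, h.fderiv_eq, h.fderiv.fderiv_eq]

theorem jet2_clm {V' : Type} [NormedAddCommGroup V'] [NormedSpace ℝ V'] (L : V →L[ℝ] V')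
    (hf : ContDiffAt ℝ 2 f y) : jet2 (fun z => L (f z)) y = fun k => L (jet2 f y k) := by
  have h1 : fderiv ℝ (fun z => L (f z)) =ᶠ[𝓝 y] fun z => L.comp (fderiv ℝ f z) := by
    filter_upwards [hf.eventually (by simp)] with z hz
    exact (L.hasFDerivAt.comp z (hz.differentiableAt (by simp)).hasFDerivAt).fderiv
  have hf2 : DifferentiableAt ℝ (fderiv ℝ f) y :=
    (hf.fderiv_right (m := 1) (by norm_num)).differentiableAt (by simp)
  have h2 := (((ContinuousLinearMap.compL ℝ R2 V V') L).hasFDerivAt.comp y hf2.hasFDerivAt).fderiv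
  have h3 : fderiv ℝ (fun z => L.comp (fderiv ℝ f z)) y = _ := h2
  unfold jet2
  rw [h1.self_of_nhds, h1.fderiv_eq, h3]
  ext k; fin_cases k <;> simp

theorem jet2_add (hf : ContDiffAt ℝ 2 f y) (hg : ContDiffAt ℝ 2 g y) :
    jet2 (fun z => f z + g z) y = jet2 f y + jet2 g y := by
  have h1 : fderiv ℝ (fun z => f z + g z) =ᶠ[𝓝 y] fun z => fderiv ℝ f z + fderiv ℝ g z := by
    filter_upwards [hf.eventually (by simp), hg.eventually (by simp)] with z hz1 hz2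
    exact fderiv_fun_add (hz1.differentiableAt (by simp)) (hz2.differentiableAt (by simp))
  have hf2 : DifferentiableAt ℝ (fderiv ℝ f) y :=
    (hf.fderiv_right (m := 1) (by norm_num)).differentiableAt (by simp)
  have hg2 : DifferentiableAt ℝ (fderiv ℝ g) y :=
    (hg.fderiv_right (m := 1) (by norm_num)).differentiableAt (by simp)
  unfold jet2
  rw [h1.self_of_nhds, h1.fderiv_eq, fderiv_fun_add hf2 hg2]
  ext k; fin_cases k <;> simp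

theorem jet2_smul {f : R2 → ℂ} (c : ℂ) (hf : ContDiffAt ℝ 2 f y) :
    jet2 (fun z => c * f z) y = c • jet2 f y :=
  jet2_clm (ContinuousLinearMap.mul ℝ ℂ c) hf

end jets

section spaces
variable {X : Type} [TopologicalSpace X] [ChartedSpace R2 X]

/-- a partition of unity subordinate to the cover -/
structure Pou (𝒞 : Cov R2 X) where
  ρ : Fin 𝒞.N → X → ℝ
  sm : ∀ i, CkFn R2 ∞ (ρ i)
  nonneg : ∀ i x, 0 ≤ ρ i x
  sum : ∀ x, ∑ i, ρ i x = 1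
  spt : ∀ i x, ρ i x ≠ 0 → x ∈ (𝒞.e i).source ∧ 𝒞.e i x ∈ closedBall (𝒞.c i) (3 / 2 * 𝒞.r i)

/-- Hölder functions -/
abbrev HH (𝒞 : Cov R2 X) (V : Type) [NormedAddCommGroup V] : Type := Hol (𝒞.w (1 / 2)) V

/-- the jet in the chart `i` -/
def jc (𝒞 : Cov R2 X) (i : Fin 𝒞.N) {V : Type} [NormedAddCommGroup V] [NormedSpace ℝ V]
    (v : X → V) (x : X) : J2 V := jet2 (fun y => v ((𝒞.e i).symm y)) (𝒞.e i x)

/-- complex valued functions of class `C^{2,1/2}` -/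
def UU (𝒞 : Cov R2 X) : Submodule ℂ (HH 𝒞 ℂ × (Fin 𝒞.N → HH 𝒞 (J2 ℂ))) where
  carrier := {p | CkFn R2 2 (p.1 : X → ℂ) ∧ ∀ i x, p.2 i x = 𝒞.η i x • jc 𝒞 i p.1 x}
  add_mem' := by
    rintro p q ⟨hp, hp'⟩ ⟨hq, hq'⟩
    refine ⟨hp.add hq, fun i x => ?_⟩
    show p.2 i x + q.2 i x = _
    rw [hp', hq', ← smul_add]
    by_cases h : 𝒞.η i x = 0
    · rw [h, zero_smul, zero_smul]
    · have hx := (𝒞.η_ne_zero h).1
      congr 1
      exact (jet2_add (hp _ (𝒞.mem i) x hx) (hq _ (𝒞.mem i) x hx)).symm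
  zero_mem' := by
    refine ⟨ckFn_const (X := X) (0 : ℂ), fun i x => ?_⟩
    show (0 : J2 ℂ) = 𝒞.η i x • jet2 (fun _ : R2 => (0 : ℂ)) (𝒞.e i x)
    rw [jet2_zero, smul_zero]
  smul_mem' := by
    rintro c p ⟨hp, hp'⟩
    refine ⟨fun e he x hx => contDiffAt_const.mul (hp e he x hx), fun i x => ?_⟩
    show c • p.2 i x = _
    rw [hp', smul_comm]
    by_cases h : 𝒞.η i x = 0
    · rw [h, zero_smul, zero_smul]
    · congr 1
      exact (jet2_smul c (hp _ (𝒞.mem i) x (𝒞.η_ne_zero h).1)).symm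

open Classical in
/-- the Nemytskii operator `f ↦ ρ · F ∘ f` -/
def nemH {Y : Type} {ϖ : Y → Y → ℝ≥0} {A : Type} [NormedAddCommGroup A] (ρ : Y → ℂ) (F : A → ℂ)
    (f : Hol ϖ A) : Hol ϖ ℂ :=
  if h : (∃ C, ∀ x, ‖ρ x * F (f x)‖ ≤ C) ∧
      ∃ C, ∀ x y, ‖ρ x * F (f x) - ρ y * F (f y)‖ ≤ C * ϖ x y then
    ⟨fun x => ρ x * F (f x), h.1, h.2⟩ else 0

/-- The double `{(p, τ) : p ∈ S, σ p + τ² = zm + 8}` with a cover adapted to the ends. The charts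
`i ∈ A` come from patches of `S` and lie in the upper half. -/
structure Dbl (G : Geo D) (zm : ℝ) (X : Type) [TopologicalSpace X] [ChartedSpace R2 X] where
  𝒞 : Cov R2 X
  pou : Pou 𝒞
  pr : X → E3
  τ : X → ℝ
  A : Finset (Fin 𝒞.N)
  P : Fin 𝒞.N → Patch (SS w)
  pr_sm : CkFn R2 ∞ pr
  τ_sm : CkFn R2 ∞ τ
  mem : ∀ x, w (pr x) = 0 ∧ G.σ (pr x) + τ x ^ 2 = zm + 8
  inj : ∀ x x', pr x = pr x' → τ x = τ x' → x = x'
  surj : ∀ p t, w p = 0 → G.σ p + t ^ 2 = zm + 8 → ∃ x, pr x = p ∧ τ x = t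
  up : ∀ P : Patch (SS w), ∃ e ∈ atlas R2 X, e.source = {x | 0 < τ x ∧ pr x ∈ P.V} ∧
    ∀ x ∈ e.source, e x = P.ι (pr x)
  src : ∀ i ∈ A, (𝒞.e i).source = {x | 0 < τ x ∧ pr x ∈ (P i).V}
  chart : ∀ i ∈ A, ∀ x ∈ (𝒞.e i).source, 𝒞.e i x = (P i).ι (pr x)
  act : ∀ i x, 𝒞.η i x ≠ 0 → 1 ≤ τ x → i ∈ A
  ends : ∀ i ∈ A, (∃ e θ, P i = G.ep e θ) ∨ ∀ x, 𝒞.η i x ≠ 0 → G.σ (pr x) < zm

namespace Dbl
variable {G : Geo D} {zm : ℝ} (Z : Dbl G zm X)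

open Classical in
/-- the function on the surface given by the values on the upper half -/
def dn {V : Type} [Zero V] (f : X → V) (p : E3) : V :=
  if h : ∃ x, Z.pr x = p ∧ 0 < Z.τ x then f h.choose else 0

/-- the function on the double which vanishes on the lower half -/
def upF {V : Type} [Zero V] (f : E3 → V) (x : X) : V := if 0 < Z.τ x then f (Z.pr x) else 0

end Dbl

/-- the cutoff function of the transfer from the ends to the double -/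
def be2 (zm ζ : ℝ) : ℝ := st (3 * (ζ - zm - 3)) * (1 - cut zm 6 ζ)

end spaces

end Vale.Agent.P218N.Core
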