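import Vale.Agent.P218N.Core.JetB

/-! The algebraic facts about the operators on jets. -/

open Set Filter Topology
open scoped ContDiff Matrix

noncomputable section

namespace Vale.Agent.P218N.Core

namespace JA

open Vale.Agent.P218N.H

variable {w : E3 → ℝ} {D : EndData w}

theorem smX : ContDiff ℂ ∞ (xJ (D := D)) := contDiff_jcomp smG
theorem smP : ContDiff ℂ ∞ (pJ (D := D)) := by
  unfold pJ
  fun_prop
theorem smN : ContDiff ℂ ∞ (nV (D := D)) := by
  unfold nV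
  fun_prop
theorem smdP : ContDiff ℂ ∞ fun a : J2 (WW D) => det3 (pJ a 1) (pJ a 2) (nV a) :=
  sm_det3 (contDiff_pi.1 smP 1) (contDiff_pi.1 smP 2) smN
theorem smdX : ContDiff ℂ ∞ fun a : J2 (WW D) => det3 (xJ a 1) (xJ a 2) (nV a) :=
  sm_det3 (contDiff_pi.1 smX 1) (contDiff_pi.1 smX 2) smN

theorem sm_quot {a : J2 (WW D)} (h : dg (pJ a) ≠ 0) :
    ContDiffAt ℂ ∞ (fun a : J2 (WW D) => dg (xJ a) / dg (pJ a)) a :=
  (sm_dg.comp smX).contDiffAt.div (sm_dg.comp smP).contDiffAt h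

theorem opn : IsOpen (Om D) := isOpen_iff_mem_nhds.2 fun _ ha =>
  ((sm_dg.comp smP).continuous.continuousAt.eventually_ne ha.1).and
    ((smdP.continuous.continuousAt.eventually_ne ha.2.1).and
      (((sm_quot ha.1).continuousAt.eventually (Complex.isOpen_slitPlane.mem_nhds ha.2.2.1)).and
        (smdX.continuous.continuousAt.eventually_ne ha.2.2.2)))

variable {a b : J2 (WW D)}

theorem sm_Mh (h : a ∈ Om D) : ContDiffAt ℂ ∞ Mh a :=
  (sm_Mp.comp smX).contDiffAt.div (smdP.mul (sm_dg.comp smP)).contDiffAt (mul_ne_zero h.2.1 h.1)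

theorem sm_sq (h : a ∈ Om D) : ContDiffAt ℂ ∞ (fun a : J2 (WW D) => sq (pJ a) (xJ a)) a :=
  (sm_sqrt h.2.2.1).comp a (sm_quot h.1)

theorem sm_kap (h : a ∈ Om D) : ContDiffAt ℂ ∞ kap a :=
  (((sm_eG.comp smP).contDiffAt.mul ((sm_sq h).pow 3)).mul smdP.contDiffAt).div
    ((sm_eG.comp smX).mul smdX).contDiffAt (mul_ne_zero (eG_ne _) h.2.2.2)

theorem sm_lam (h : a ∈ Om D) : ContDiffAt ℂ ∞ lam a := (sm_eG.comp smX).contDiffAt.mul (sm_sq h)

/-- the linear map `emb 0` -/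
def embL : J2 ℂ →L[ℂ] J2 (WW D) := ContinuousLinearMap.pi fun k =>
  (0 : J2 ℂ →L[ℂ] _).prod ((0 : J2 ℂ →L[ℂ] _).prod ((0 : J2 ℂ →L[ℂ] _).prod
    ((0 : J2 ℂ →L[ℂ] _).prod (ContinuousLinearMap.proj k))))

theorem emb_zero (m : J2 ℂ) (k : Fin 6) : emb (D := D) 0 m k = (0, 0, 0, 0, m k) := by simp [emb]

theorem embL_apply (m : J2 ℂ) : embL (D := D) m = emb 0 m := funext fun k => (emb_zero m k).symm

theorem hasFDerivAt_Lh (h : b ∈ Om D) :
    HasFDerivAt (fun m => Mh (b + emb 0 m)) ((fderiv ℂ Mh b).comp embL) 0 := by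
  have d : HasFDerivAt (fun m => b + embL (D := D) m) embL 0 := embL.hasFDerivAt.const_add b
  have k : HasFDerivAt Mh (fderiv ℂ Mh b) (b + embL (D := D) 0) := by
    simpa using ((sm_Mh h).differentiableAt (by simp)).hasFDerivAt
  simp only [← embL_apply]
  exact k.comp 0 d

theorem Lh_eq' (h : b ∈ Om D) : Lh b = (fderiv ℂ Mh b).comp embL := (hasFDerivAt_Lh h).fderiv

theorem Lh_eq (h : b ∈ Om D) (m : J2 ℂ) : Lh b m = fderiv ℂ Mh b (emb 0 m) := by
  rw [Lh_eq' h, ← embL_apply]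
  rfl

theorem smL : ContDiffOn ℂ ∞ Lh (Om D) := by
  have h1 : ContDiffOn ℂ ∞ Mh (Om D) := fun a ha => (sm_Mh ha).contDiffWithinAt
  exact ((h1.fderiv_of_isOpen opn le_rfl).clm_comp contDiffOn_const).congr fun b hb => Lh_eq' hb

theorem xJ_base (h : IsBase b) : xJ b = pJ b := by
  let L : WW D →L[ℂ] WW D := (0 : (Fin D.b → ℂ × ℂ) →L[ℂ] _).prodMap ((ContinuousLinearMap.id ℂ _).prodMap
    ((ContinuousLinearMap.id ℂ _).prodMap ((ContinuousLinearMap.id ℂ _).prodMap 0)))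
  let T : WW D →L[ℂ] C3 := (ContinuousLinearMap.fst ℂ _ _).comp
    ((ContinuousLinearMap.snd ℂ _ _).comp (ContinuousLinearMap.snd ℂ _ _))
  have e1 : (fun k => L (b k)) = b := funext fun k =>
    Prod.ext (h k).1.symm (Prod.ext rfl (Prod.ext rfl (Prod.ext rfl (h k).2.symm)))
  have e2 : (fun x => Gm (L x)) = T := funext fun x =>
    (Gm_zero fun i => by simp [L]).trans (by simp [L, T])
  rw [xJ, ← e1, ← jcomp_comp smG L, e2, jcomp_clm, e1]
  rfl

theorem pJ_emb (c : Fin D.b → ℂ × ℂ) (m : J2 ℂ) : pJ (a + emb c m) = pJ a := by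
  funext k
  simp [pJ, emb]

theorem nV_emb (c : Fin D.b → ℂ × ℂ) (m : J2 ℂ) : nV (a + emb c m) = nV a := by simp [nV, emb]

theorem emb_add (c : Fin D.b → ℂ × ℂ) (m d : J2 ℂ) :
    b + emb c (m + d) = b + emb c m + emb 0 d := by
  funext k
  simp [emb, add_assoc]

/-- jets of pure second order -/
def Hi (d : J2 ℂ) : Prop := d 0 = 0 ∧ d 1 = 0 ∧ d 2 = 0

theorem hi_sub {m m' : J2 ℂ} (h : T1 m = T1 m') : Hi (m - m') :=
  ⟨sub_eq_zero.2 (congrFun h 0), sub_eq_zero.2 (congrFun h 1), sub_eq_zero.2 (congrFun h 2)⟩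

theorem Hi.smul {d : J2 ℂ} (h : Hi d) (s : ℂ) : Hi (s • d) := by
  simp [Hi, h.1, h.2.1, h.2.2]

/-- the direction of the deformation -/
def nX (a : J2 (WW D)) : C3 := fderiv ℂ Gm (a 0) (0, 0, 0, 0, 1)

theorem xJ_hi {d : J2 ℂ} (h : Hi d) : xJ (a + emb 0 d) = xJ a + fun k => d k • nX a := by
  rw [xJ, jcomp_add _ _ (by rw [emb_zero, h.1]; rfl) (by rw [emb_zero, h.2.1]; rfl)
    (by rw [emb_zero, h.2.2]; rfl)]
  congr 1
  funext k
  rw [nX, ← map_smul, emb_zero]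
  simp

theorem Mh_hi {d : J2 ℂ} (h : Hi d) (s : ℂ) : Mh (a + emb 0 (s • d)) = Mh a + s *
    ((g22 (xJ a) * d 3 - 2 * g12 (xJ a) * d 4 + g11 (xJ a) * d 5) *
      det3 (xJ a 1) (xJ a 2) (nX a) / (det3 (pJ a 1) (pJ a 2) (nV a) * dg (pJ a))) := by
  rw [Mh, Mh, pJ_emb, nV_emb, xJ_hi (h.smul s), Mp_add _ _ (by simp [h.1]) (by simp [h.2.1])
    (by simp [h.2.2])]
  simp only [smul_smul, ← sub_smul, ← add_smul, det3_smul, Pi.smul_apply, smul_eq_mul]
  ring

theorem aff (c : Fin D.b → ℂ × ℂ) {m m' : J2 ℂ} (t : ℂ) (h : T1 m = T1 m') :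
    Mh (b + emb c (t • m + (1 - t) • m')) =
      t * Mh (b + emb c m) + (1 - t) * Mh (b + emb c m') := by
  have e1 : t • m + (1 - t) • m' = m' + t • (m - m') := by module
  have e2 : m = m' + (1 : ℂ) • (m - m') := by module
  rw [e1, emb_add, Mh_hi (hi_sub h)]
  nth_rewrite 4 [e2]
  rw [emb_add, Mh_hi (hi_sub h)]
  ring

theorem low (c : Fin D.b → ℂ × ℂ) {m m' : J2 ℂ} (h : T1 m = T1 m') :
    kap (b + emb c m) = kap (b + emb c m') ∧ lam (b + emb c m) = lam (b + emb c m') ∧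
      (b + emb c m ∈ Om D → b + emb c m' ∈ Om D) := by
  have k := hi_sub h
  have e : xJ (b + emb c m) = xJ (b + emb c m') + fun i => (m - m') i • nX (b + emb c m') := by
    rw [← xJ_hi k, ← emb_add, add_sub_cancel]
  have e0 : xJ (b + emb c m) 0 = xJ (b + emb c m') 0 := by rw [e, Pi.add_apply, k.1]; simp
  have e1 : xJ (b + emb c m) 1 = xJ (b + emb c m') 1 := by rw [e, Pi.add_apply, k.2.1]; simp
  have e2 : xJ (b + emb c m) 2 = xJ (b + emb c m') 2 := by rw [e, Pi.add_apply, k.2.2]; simp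
  simp only [kap, lam, lag, Om, sq, dg, g11, g12, g22, eG, mem_ofPred_eq, pJ_emb, nV_emb, e0, e1, e2,
    imp_self, and_self]

theorem prin_eq (hb : b ∈ Om D) (h : IsBase b) (m : J2 ℂ) :
    Lh b m = Lh b (T1 m) + prin (pJ b) m := by
  have k : Hi (m - T1 m) := hi_sub (by simp [T1])
  have d := hasDerivAt_line ((sm_Mh hb).differentiableAt (by simp)) (emb 0 (m - T1 m))
  simp only [← embL_apply, ← map_smul] at d
  simp only [embL_apply, Mh_hi k] at d
  have e := d.unique (((hasDerivAt_id (0 : ℂ)).mul_const _).const_add _)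
  have n : nX b = nV b := (dG_zero (b 0) 0 1 fun t i => by simp [(h 0).1]).trans (one_smul _ _)
  rw [← Lh_eq hb, map_sub, sub_eq_iff_eq_add', n, xJ_base h, one_mul, mul_comm _ (dg _),
    mul_div_mul_right _ _ hb.2.1] at e
  rw [e, prin]
  simp [T1]

theorem Lh_mul (hb : b ∈ Om D) (h : IsBase b) (f m : J2 ℂ) : Lh b (jmul f m) =
    f 0 * Lh b m + 2 * ginv (pJ b) f m + m 0 * (Lh b f - f 0 * Lh b j1) := by
  have e : ∀ m : J2 ℂ, Lh b m = m 0 * Lh b j1 + m 1 * Lh b ![0, 1, 0, 0, 0, 0] +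
      m 2 * Lh b ![0, 0, 1, 0, 0, 0] + prin (pJ b) m := fun m => by
    rw [prin_eq hb h, show T1 m = m 0 • j1 + m 1 • ![0, 1, 0, 0, 0, 0] + m 2 • ![0, 0, 1, 0, 0, 0] by
      ext k; fin_cases k <;> simp [T1, j1]]
    simp only [map_add, map_smul, smul_eq_mul]
  rw [e (jmul f m), e f, e m]
  simp only [prin, ginv, jmul, Matrix.cons_val]
  ring

theorem xJ_cj : xJ (star a) = star (xJ a) := jcomp_cj smG Gm_cj a

theorem Mh_cj : Mh (star a) = star (Mh a) := by
  rw [Mh, Mh, xJ_cj, Mp_cj, star_div₀, star_mul', ← det3_cj, ← dg_cj]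
  rfl

theorem om_cj (h : a ∈ Om D) :
    star a ∈ Om D ∧ kap (star a) = star (kap a) ∧ lam (star a) = star (lam a) := by
  have p : pJ (star a) = star (pJ a) := rfl
  have n : nV (star a) = star (nV a) := rfl
  refine ⟨⟨?_, ?_, ?_, ?_⟩, ?_, ?_⟩
  · rw [p, dg_cj]
    exact star_ne_zero.2 h.1
  · rw [p, n, Pi.star_apply, Pi.star_apply, det3_cj]
    exact star_ne_zero.2 h.2.1
  · rw [p, xJ_cj, dg_cj, dg_cj, ← star_div₀]
    exact slit_cj h.2.2.1
  · rw [xJ_cj, n, Pi.star_apply, Pi.star_apply, det3_cj]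
    exact star_ne_zero.2 h.2.2.2
  · simp only [kap, p, n, xJ_cj, Pi.star_apply, det3_cj, eG_cj, sq_cj h.2.2.1, star_div₀,
      star_mul', star_pow]
  · simp only [lam, lag, p, xJ_cj, eG_cj, sq_cj h.2.2.1, star_mul']

theorem Lh_cj (hb : b ∈ Om D) (e : star b = b) (m : J2 ℂ) : Lh b (star m) = star (Lh b m) := by
  have := fderiv_cj (G' := fun m => Mh (b + emb 0 m)) (hasFDerivAt_Lh hb).differentiableAt
    (fun m => by
      rw [← Mh_cj, star_add, e]
      congr 2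
      funext k
      simp [emb_zero, Prod.star_def]) m
  rwa [star_zero] at this

theorem dlam_eq (h : a ∈ Om D) (c : Fin D.b → ℂ × ℂ) (m : J2 ℂ) :
    fderiv ℂ lam a (emb c m) = dlag (pJ a) (xJ a) (fderiv ℂ xJ a (emb c m)) := by
  have d := hasDerivAt_lag (b := pJ a)
    (hasDerivAt_line ((smX.differentiable (by simp)) a) (emb c m)) h.1 (by simpa using h.2.2.1)
  simp only [zero_smul, add_zero] at d
  refine (hasDerivAt_line ((sm_lam h).differentiableAt (by simp)) _).unique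
    (d.congr_of_eventuallyEq (.of_forall fun t => ?_))
  have : pJ (a + t • emb c m) = pJ a := by
    funext k
    simp [pJ, emb]
  simp only [lam, this]

theorem dlag_smul (b j : J2 C3) (f : R2 → ℂ) (Y : R2 → C3) (y : R2) (hf : ContDiffAt ℝ 2 f y)
    (hY : ContDiffAt ℝ 2 Y y) : dlag b j (jet2 (fun z => f z • Y z) y) =
      f y * dlag b j (jet2 Y y) + flx b j (jet2 f y 1) (jet2 f y 2) ⬝ᵥ Y y := by
  have e := jet2_bil (ContinuousLinearMap.lsmul ℝ ℂ : ℂ →L[ℝ] C3 →L[ℝ] C3) hf hY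
  exact dlag_lin b j (jet2 Y y) (jet2 f y) _ rfl (congrFun e 1) (congrFun e 2)

theorem eul_eq (h : a ∈ Om D) (u : ℂ) : eul (pJ a) (xJ a) (u • nV a) * kap a =
    Mh a * u * (eG (pJ a) * det3 (pJ a 1) (pJ a 2) (nV a) ^ 2 / dg (pJ a)) := by
  have h1 := h.1
  have h2 := h.2.1
  have h3 : sq (pJ a) (xJ a) ≠ 0 := sqrt_ne h.2.2.1
  have h4 := h.2.2.2
  have h5 := eG_ne (xJ a)
  rw [eul, kap, Mh, det3_smul]
  field_simp

theorem kap_ne (h : a ∈ Om D) : kap a ≠ 0 :=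
  div_ne_zero (mul_ne_zero (mul_ne_zero (eG_ne _) (pow_ne_zero 3 (sqrt_ne h.2.2.1))) h.2.1)
    (mul_ne_zero (eG_ne _) h.2.2.2)

theorem eul_zero (h : a ∈ Om D) (e : Mh a = 0) (Y : C3) : eul (pJ a) (xJ a) Y = 0 := by
  rw [eul, (div_eq_zero_iff.1 e).resolve_right (mul_ne_zero h.2.1 h.1)]
  simp

end JA

open JA in
theorem jetStmt : JetStmt := fun _ _ =>
  { leib := leib
    jz_eq := jz_eq
    smG := smG
    smX := smX
    chain := fun _ _ hF => (jet2_comp (smG.of_le two_le).contDiffAt hF).symm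
    dchain := fun _ _ _ hF hH => jet2_dcomp smG hF hH
    opn := opn
    dMh := fun _ h => ((sm_Mh h).differentiableAt (by simp)).differentiableWithinAt
    dkap := fun _ h => ((sm_kap h).differentiableAt (by simp)).differentiableWithinAt
    dlam := fun _ h => ((sm_lam h).differentiableAt (by simp)).differentiableWithinAt
    smL := smL
    Lh_eq := fun _ => Lh_eq
    xJ_base := fun _ => xJ_base
    aff := fun _ c _ _ t => aff c t
    low := fun _ c _ _ => low c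
    prin_eq := fun _ => prin_eq
    Lh_mul := fun _ => Lh_mul
    cj := fun _ => ⟨Mh_cj, om_cj⟩
    Lh_cj := fun _ => Lh_cj
    dlam_eq := fun _ => dlam_eq
    dlag_smul := dlag_smul
    dG0 := fun a c u h => dG_zero a c u fun t i => by simp [h]
    eul_eq := fun _ => eul_eq
    kap_ne := fun _ => kap_ne
    eul_zero := fun _ => eul_zero }

end Vale.Agent.P218N.Core
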