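import Vale.Agent.P218N.Core.EndFB
import Vale.Agent.P218N.Core.JetC

/-! The operators in the coordinates of the ends. -/

open Filter Topology
open scoped Matrix RealInnerProductSpace ContDiff

noncomputable section

namespace Vale.Agent.P218N.Core.EF

open Vale.Agent.P218.H313 Vale.Agent.P218N.H Vale.Agent.P218N.End

variable {w : E3 → ℝ} {D : EndData w}

/-- the operators in the moving frame -/
theorem alg (e : En D) {q : R2} (hq : 0 < q.1) : ∃ κ : ℂ, κ ≠ 0 ∧ ∀ M : J2 ℂ,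
    Mp (cJ e q M) = κ * EP e q M ∧
    det3 (cJ e q M 1) (cJ e q M 2) (nc e q) * dg (cJ e q M) = κ * FP e q M ∧
    eG (cJ e q M) * Complex.sqrt (dg (cJ e q M)) = lagE e q M ∧ ∀ dy α,
      eG (cJ e q M) / Complex.sqrt (dg (cJ e q M)) *
        ((g22 (cJ e q M) • cJ e q M 1 - g12 (cJ e q M) • cJ e q M 2) ⬝ᵥ
          (dy • nc e q + tv e q α ⨯₃ cJ e q M 0)) = fluxE e q M dy + tqE e q M α := by
  have hz0 := Real.sqrt_pos.2 hq
  have hz : ((√q.1 : ℝ) : ℂ) ≠ 0 := Complex.ofReal_ne_zero.2 hz0.ne'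
  have h0 := (Real.sq_sqrt hq.le).symm
  have h1 : (q.1 : ℂ) = ((√q.1 : ℝ) : ℂ) ^ 2 := by exact_mod_cast h0
  rcases e with i | b
  · have hl0 := (D.link i).pos
    have hl : ((D.l i : ℝ) : ℂ) ≠ 0 := Complex.ofReal_ne_zero.2 hl0.ne'
    refine ⟨_, div_ne_zero (pow_ne_zero 3 hl) (mul_ne_zero (by norm_num : (8 : ℂ) ≠ 0) hz),
      fun M => ⟨(Mp_cone hz hl h1 _ _ M).trans ?_, (FP_cone hz hl h1 _ _ M).trans ?_,
        lag_cone hz hl0 h1 _ _ M, fun dy α => ?_⟩⟩
    · simp only [EP, cc, kdf, Complex.ofReal_mul, Complex.ofReal_inv]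
    · simp only [FP, cc, Complex.ofReal_inv]
    · simp only [tv, tqE, map_zero, LinearMap.zero_apply, add_zero]
      exact flux_cone hz hl0 h1 _ _ M dy
  · have h2 := Real.sq_sqrt zero_le_two
    have h3 : ((√2 : ℝ) : ℂ) ^ 2 = 2 := by exact_mod_cast h2
    have h4 : (0 : ℝ) < √2 := by positivity
    exact ⟨_, mul_ne_zero (by norm_num) (pow_ne_zero 3 (inv_ne_zero (mul_ne_zero two_ne_zero hz))),
      fun M => ⟨Mp_cyl hz h3 h1 M, FP_cyl hz h3 h1 M, lag_cyl hz0 h4 h2 h0 M,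
        fun dy α => flux_cyl hz0 h4 h2 h0 M dy q.2 (α b)⟩⟩

variable (G : Geo D) (zm : ℝ)

theorem pos_of {q : R2} (hq : G.z0 < q.1) : 0 < q.1 := one_pos.trans_le (G.one_le.trans hq.le)

/-- positivity at the base point -/
theorem pos (e : En D) {q : R2} (hq : G.z0 < q.1) :
    (∃ r : ℝ, 0 < r ∧ FP e q (jy e q) = r) ∧ ∃ r : ℝ, 0 < r ∧ dg (cJ e q (jy e q)) = r := by
  have h := pos_of G hq
  have hz0 := Real.sqrt_pos.2 h
  have hz : ((√q.1 : ℝ) : ℂ) ≠ 0 := Complex.ofReal_ne_zero.2 hz0.ne'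
  have h1 : (q.1 : ℂ) = ((√q.1 : ℝ) : ℂ) ^ 2 := by exact_mod_cast (Real.sq_sqrt h.le).symm
  have hq0 : (q.1 : ℂ) ≠ 0 := Complex.ofReal_ne_zero.2 h.ne'
  have hy := abs_le.1 (G.y_le e q hq)
  have e0 : yS e q = jet2 (yS e) q 0 := rfl
  rw [jy_real e h]
  rcases e with i | b
  · have hl0 := (D.link i).pos
    have hl : ((D.l i : ℝ) : ℂ) ≠ 0 := Complex.ofReal_ne_zero.2 hl0.ne'
    have hk := abs_le.1 (G.ky_le i q hq)
    rw [e0] at hk
    generalize jet2 (yS (Sum.inl i)) q = m at *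
    have h2 : 0 < 1 - kaf i q.2 * m 0 := by linarith [hk.2]
    have h3 : 0 < coneD (kaf i q.2) (m 0) (m 0 + 2 * q.1⁻¹ * (q.1 * q.1 * m 1))
        ((D.l i)⁻¹ * m 2) := by
      unfold coneD
      positivity
    refine ⟨⟨_, mul_pos (mul_pos h h2) h3, ?_⟩, _, mul_pos (pow_pos (half_pos hl0) 2) h3, ?_⟩
    · simp [FP, Fpol, coneD, cc]
    · rw [cJ, dg_cone hz hl h1]
      simp [coneD]
  · rw [e0] at hy
    generalize jet2 (yS (Sum.inr b)) q = m at *
    have h2 : 0 < 1 + m 0 := by linarith [hy.1]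
    have h3 : 0 < (1 + m 0) ^ 2 * (1 + 8 * q.1 * m 1 ^ 2) + m 2 ^ 2 := by positivity
    refine ⟨⟨_, mul_pos (mul_pos two_pos h2) h3, ?_⟩, _,
      mul_pos (pow_pos (a := √2 / (2 * √q.1)) (by positivity) 2) h3, ?_⟩
    · simp only [FP, Fpol, cylD, cylB, if_true]
      push_cast
      field_simp
      ring
    · rw [cJ, dg_cyl hz (by exact_mod_cast Real.sq_sqrt zero_le_two) h1]
      simp only [Dc, cylD, cylB, rh]
      push_cast
      field_simp
      ring

theorem s_mul (e : En D) : (G.s e : ℂ) * G.s e = 1 := by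
  rcases G.s_sq e with h | h <;> simp [h]

/-- the deformed point on an end -/
theorem Gm_eq (e : En D) {z : R2} (hz : G.z0 < z.1) {c : Fin D.b → ℂ × ℂ}
    (hc : c = 0 ∨ zm + 8 / 3 ≤ z.1) (u : ℂ) :
    Gm (G.bW zm (pt e z) + (c, 0, 0, 0, G.s e * u)) =
      Rm e c *ᵥ (cx (pt e z) + u • cx (dir e z)) := by
  have h1 : (G.s e * u) • cx (G.nn (pt e z)) = u • cx (dir e z) := by
    rw [G.nn_pt e z hz, cx_smul, smul_smul, mul_right_comm, s_mul, one_mul]
  simp only [Gm, Geo.bW, Prod.mk_add_mk, add_zero, zero_add, h1]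
  generalize cx (pt e z) + u • cx (dir e z) = v
  rcases hc with rfl | hc
  · simp [RQ_zero, Rm_zero]
  have h2 : ∀ b, G.chi zm b (pt e z) = if Sum.inr b = e then 1 else 0 := fun b => by
    rw [Geo.chi, G.σ_pt e z hz, G.ind_pt _ e z hz, cut, st,
      Real.smoothTransition.one_of_one_le (by push_cast; linarith), one_mul]
  simp only [h2]
  rcases e with i | b
  · simp [RQ_zero, Rm]
  · rw [Finset.sum_eq_single b (fun b' _ hb => by simp [hb, RQ_zero]) (by simp)]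
    simp [Rm]

theorem cd_pt (e : En D) {q : R2} (hq : 0 < q.1) : ContDiffAt ℝ 2 (pt e) q := by
  have h := (jet_end e hq (u := fun _ => 0) contDiffAt_const).1
  simp only [zero_smul, add_zero] at h
  refine contDiffAt_euclidean.2 fun i => ?_
  exact Complex.reCLM.contDiff.contDiffAt.comp q (contDiffAt_pi.1 h i)

theorem jS_eq (e : En D) {q : R2} (hq : 0 < q.1) :
    jS (pt e) q = mv (AF e q) (cJ e q (jy e q)) := by
  have h := (jet_end e hq (u := fun _ => 0) contDiffAt_const).2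
  simp only [zero_smul, add_zero, jet2_zero] at h
  exact h

theorem cd_bW (e : En D) {q : R2} (hq : 0 < q.1) :
    ContDiffAt ℝ 2 (fun z => G.bW zm (pt e z)) q := by
  have h := cd_pt e hq
  have h1 : ∀ f : E3 → ℝ, ContDiff ℝ ∞ f → ContDiffAt ℝ 2 (fun z => f (pt e z)) q :=
    fun f hf => (hf.contDiffAt.of_le (by norm_cast)).comp q h
  have h2 : ContDiffAt ℝ 2 (fun z => G.nn (pt e z)) q :=
    (G.nn_sm.contDiffAt.of_le (by norm_cast)).comp q h
  refine contDiffAt_const.prodMk ((contDiffAt_pi.2 fun b => ?_).prodMk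
    ((cxL.contDiff.contDiffAt.comp q h).prodMk
      ((cxL.contDiff.contDiffAt.comp q h2).prodMk contDiffAt_const)))
  refine Complex.ofRealCLM.contDiff.contDiffAt.comp q (h1 (G.chi zm b) ?_)
  refine ContDiff.mul (Real.smoothTransition.contDiff.comp ?_) (G.ind_sm _)
  exact (contDiff_const.mul ((G.σ_sm.sub contDiff_const).sub contDiff_const)).sub contDiff_const

variable (D) in
/-- the inclusion of the last variable -/
def inU : ℂ →L[ℝ] WW D := ContinuousLinearMap.prod 0 (ContinuousLinearMap.prod 0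
  (ContinuousLinearMap.prod 0 (ContinuousLinearMap.prod 0 (ContinuousLinearMap.id ℝ ℂ))))

theorem emb_eq (c : Fin D.b → ℂ × ℂ) (s : ℂ) {u : R2 → ℂ} {q : R2} (hu : ContDiffAt ℝ 2 u q) :
    ContDiffAt ℝ 2 (fun z => ((c, 0, 0, 0, s * u z) : WW D)) q ∧
      jet2 (fun z => ((c, 0, 0, 0, s * u z) : WW D)) q = emb c (s • jet2 u q) := by
  have h := (End.J2.const _ _ q ((c, 0, 0, 0, 0) : WW D)).add
    ((jp_of (contDiffAt_const.mul hu (g := u) (f := fun _ => s))).clm (inU D))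
  have e : (fun z => ((c, 0, 0, 0, s * u z) : WW D)) =
      fun z => ((c, 0, 0, 0, 0) : WW D) + inU D (s * u z) := by
    ext1 z
    simp [inU]
  rw [e]
  refine ⟨h.cd, (jet2_of h).trans ?_⟩
  rw [jet2_smul s hu]
  ext1 k
  fin_cases k <;> simp [emb, inU]

/-- the jets on an end -/
theorem key (hJ : JetF D) (e : En D) {q : R2} (hq : G.z0 < q.1) {c : Fin D.b → ℂ × ℂ}
    (hc : c = 0 ∨ zm + 3 ≤ q.1) (m : J2 ℂ) {a : J2 (WW D)}
    (ha : a = G.bJ zm (pt e) q + emb c ((G.s e : ℂ) • m)) :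
    pJ a = mv (AF e q) (cJ e q (jy e q)) ∧ nV a = (G.s e : ℂ) • AF e q *ᵥ nc e q ∧
      xJ a = mv (Rm e c * AF e q) (cJ e q (jy e q + m)) ∧
      a 0 = G.bW zm (pt e q) + (c, 0, 0, 0, G.s e * m 0) ∧
      cx (pt e q) + m 0 • cx (dir e q) = AF e q *ᵥ cJ e q (jy e q + m) 0 := by
  have h := pos_of G hq
  obtain ⟨u, hu, rfl⟩ := exists_jet m q
  obtain ⟨h1, h2⟩ := emb_eq c (G.s e : ℂ) hu
  have h3 := cd_bW G zm e h
  obtain ⟨h4, h5⟩ := jet_end e h hu
  refine ⟨?_, ?_, ?_, by rw [ha]; rfl, congrFun h5 0⟩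
  · rw [← jS_eq e h, ha]
    have := jet2_clm ((ContinuousLinearMap.fst ℝ _ _).comp ((ContinuousLinearMap.snd ℝ _ _).comp
      (ContinuousLinearMap.snd ℝ _ _))) h3
    exact funext fun k => (add_zero _).trans (congrFun this k).symm
  · rw [ha, ← cx_dir, ← cx_smul, ← G.nn_pt e q hq]
    exact add_zero _
  · rw [ha, ← h2, Geo.bJ, ← jet2_add h3 h1, hJ.chain _ _ (h3.add h1), ← mv_mv, ← h5,
      ← jet2_mv _ h4]
    refine jet2_congr ?_
    have h6 : ∀ᶠ z in 𝓝 q, c = 0 ∨ zm + 8 / 3 ≤ z.1 := by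
      rcases hc with hc | hc
      · exact Eventually.of_forall fun _ => Or.inl hc
      · exact (continuous_fst.continuousAt.eventually (lt_mem_nhds (by linarith))).mono
          fun z hz => Or.inr (le_of_lt hz)
    filter_upwards [continuous_fst.continuousAt.eventually (lt_mem_nhds hq), h6] with z hz hz'
    exact Gm_eq G zm e hz hz' _

theorem eq (hJ : JetF D) (e : En D) (q : R2) (c : Fin D.b → ℂ × ℂ) (m : J2 ℂ) (hq : G.z0 < q.1)
    (hc : c = 0 ∨ zm + 3 ≤ q.1) :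
    Mh (G.bJ zm (pt e) q + emb c ((G.s e : ℂ) • m)) * FP e q (jy e q) =
      G.s e * EP e q (jy e q + m) := by
  obtain ⟨h1, h2, h3, -⟩ := key G zm hJ e hq hc m rfl
  obtain ⟨κ, hκ, H⟩ := alg e (pos_of G hq)
  obtain ⟨r, hr, h4⟩ := (pos G e hq).1
  have h5 : FP e q (jy e q) ≠ 0 := h4 ▸ Complex.ofReal_ne_zero.2 hr.ne'
  have h6 := det_ne (AF_orth e q)
  have h7 := s_mul G e
  rw [Mh, h1, h2, h3, Mp_mv (orth_mul (Rm_orth e c) (AF_orth e q)), dg_mv (AF_orth e q), det3_smul,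
    mv_apply, mv_apply, det3_mv, Matrix.det_mul, Rm_det, one_mul, (H _).1, mul_assoc, mul_assoc,
    (H _).2.1]
  have h8 : (G.s e : ℂ) ≠ 0 := left_ne_zero_of_mul_eq_one h7
  field_simp
  linear_combination (-EP e q (jy e q + m)) * h7

theorem diff_EP (e : En D) (q : R2) : Differentiable ℂ (EP e q) := by
  rcases e with i | b <;> simp only [EP] <;> unfold Epol <;>
    simp only [cylE, cylD, cylB, coneE, coneD, if_true, Bool.false_eq_true, if_false] <;> fun_prop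

theorem lin (hJ : JetF D) (e : En D) (q : R2) (m : J2 ℂ) (hq : G.z0 < q.1) :
    Lh (G.bJ zm (pt e) q) m * FP e q (jy e q) = fderiv ℂ (EP e q) (jy e q) m := by
  obtain ⟨r, hr, h4⟩ := (pos G e hq).1
  have h5 : FP e q (jy e q) ≠ 0 := h4 ▸ Complex.ofReal_ne_zero.2 hr.ne'
  have h7 := s_mul G e
  have h1 : (fun m => Mh (G.bJ zm (pt e) q + emb 0 m)) = fun m =>
      (G.s e / FP e q (jy e q)) * EP e q (jy e q + (G.s e : ℂ) • m) := by
    ext m
    have := eq G zm hJ e q 0 ((G.s e : ℂ) • m) hq (Or.inl rfl)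
    rw [smul_smul, h7, one_smul] at this
    field_simp
    exact this
  have h2 : HasFDerivAt (fun m : J2 ℂ => jy e q + (G.s e : ℂ) • m)
      ((G.s e : ℂ) • ContinuousLinearMap.id ℂ (J2 ℂ)) 0 :=
    ((hasFDerivAt_id (0 : J2 ℂ)).const_smul (G.s e : ℂ)).const_add _
  have h3 := (diff_EP e q (jy e q)).hasFDerivAt
  have h6 := (HasFDerivAt.comp (f := fun m : J2 ℂ => jy e q + (G.s e : ℂ) • m) 0
    (by simpa using h3) h2).const_mul (G.s e / FP e q (jy e q))
  rw [Lh, h1]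
  erw [h6.fderiv]
  simp only [smul_apply, ContinuousLinearMap.comp_apply,
    ContinuousLinearMap.id_apply, map_smul, smul_eq_mul]
  field_simp
  linear_combination fderiv ℂ (EP e q) (jy e q) m * h7

theorem endF (hJ : JetF D) : EndF G zm where
  pos e _ hq := (pos G e hq).1
  eq := eq G zm hJ
  lin := lin G zm hJ
  lag e q c m hq hc := by
    obtain ⟨h1, -, h3, -⟩ := key G zm hJ e hq (Or.inr hc) m (c := c) rfl
    obtain ⟨κ, -, H⟩ := alg e (pos_of G hq)
    obtain ⟨r, hr, h4⟩ := (pos G e hq).2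
    have hB := orth_mul (Rm_orth e c) (AF_orth e q)
    rw [lam, h1, h3, jS_eq e (pos_of G hq), Core.lag, sq, eG_mv hB, dg_mv hB, dg_mv (AF_orth e q),
      h4, mul_assoc, sqrt_div_mul hr, (H _).2.2.1]
  flux e q c dc m dy hq hc a ha _ := by
    obtain ⟨h1, -, h3, h5, h6⟩ := key G zm hJ e hq (Or.inr hc) m ha
    obtain ⟨κ, -, H⟩ := alg e (pos_of G hq)
    obtain ⟨r, hr, h4⟩ := (pos G e hq).2
    have hB := orth_mul (Rm_orth e c) (AF_orth e q)
    have d1 := hasDerivAt_Rm e q c dc (cJ e q (jy e q + m) 0) (dy • nc e q)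
    have d2 : HasDerivAt (fun t : ℂ => Gm (a 0 + t • ((dc, 0, 0, 0, G.s e * dy) : WW D)))
        (fderiv ℂ Gm (a 0) (dc, 0, 0, 0, G.s e * dy)) 0 :=
      (hJ.smG.differentiable (by simp) (a 0)).hasFDerivAt.comp_hasDerivAt_of_eq 0
        (by simpa using ((hasDerivAt_id (0 : ℂ)).smul_const
          ((dc, 0, 0, 0, G.s e * dy) : WW D)).const_add (a 0)) (by simp)
    have d3 : (fun t : ℂ => Gm (a 0 + t • ((dc, 0, 0, 0, G.s e * dy) : WW D))) = fun t : ℂ =>
        Rm e (c + t • dc) *ᵥ (AF e q *ᵥ cJ e q (jy e q + m) 0 + t • AF e q *ᵥ (dy • nc e q)) := by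
      ext1 t
      rw [← h6, Matrix.mulVec_smul, ← cx_dir, smul_smul, add_assoc, ← add_smul,
        ← Gm_eq G zm e hq (Or.inr (by linarith)), h5, add_assoc]
      congr 2
      simp only [Prod.smul_mk, Prod.mk_add_mk, smul_zero, add_zero, smul_eq_mul]
      congr 4
      ring
    rw [d3] at d2
    rw [d2.unique d1, h1, h3, jS_eq e (pos_of G hq), flx_mv hB, dg_mv (AF_orth e q), h4,
      div_sqrt_mul hr, (H _).2.2.2]

end Vale.Agent.P218N.Core.EF

namespace Vale.Agent.P218N.Core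

theorem endFStmt : EndFStmt := fun w D G zm => EF.endF G zm (jetStmt w D)

end Vale.Agent.P218N.Core
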