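import Vale.Agent.P218N.Core.Jet
import Vale.Agent.P218N.End.GeoR

/-! The operators in the coordinates of the ends: the algebra. -/

open scoped Matrix

noncomputable section

namespace Vale.Agent.P218N.Core.EF

open Vale.Agent.P218N.End

/-- `3 × 3` matrices -/
abbrev M3 : Type := Matrix (Fin 3) (Fin 3) ℂ

/-- a matrix applied to a jet -/
def mv (B : M3) (j : J2 C3) : J2 C3 := fun k => B *ᵥ j k

theorem mv_apply (B : M3) (j : J2 C3) (k : Fin 6) : mv B j k = B *ᵥ j k := rfl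

theorem mv_mv (B B' : M3) (j : J2 C3) : mv B (mv B' j) = mv (B * B') j :=
  funext fun _ => Matrix.mulVec_mulVec _ _ _

theorem det3_mv (B : M3) (a b c : C3) : det3 (B *ᵥ a) (B *ᵥ b) (B *ᵥ c) = B.det * det3 a b c := by
  simp [det3, cross_apply, Matrix.mulVec, dotProduct, Fin.sum_univ_three, Matrix.det_fin_three]
  ring

theorem det3_smul (a b c : C3) (s : ℂ) : det3 a b (s • c) = s * det3 a b c := by
  simp [det3]

section orth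
variable {B : M3} (hB : Bᵀ * B = 1)
include hB

theorem dot_mv (a b : C3) : (B *ᵥ a) ⬝ᵥ (B *ᵥ b) = a ⬝ᵥ b := by
  rw [Matrix.dotProduct_mulVec, ← Matrix.mulVec_transpose, Matrix.mulVec_mulVec, hB,
    Matrix.one_mulVec]

theorem det_ne : B.det ≠ 0 := by
  have := congrArg Matrix.det hB
  rw [Matrix.det_mul, Matrix.det_one] at this
  exact right_ne_zero_of_mul_eq_one this

theorem orth_mul {B' : M3} (hB' : B'ᵀ * B' = 1) : (B * B')ᵀ * (B * B') = 1 := by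
  rw [Matrix.transpose_mul, Matrix.mul_assoc, ← Matrix.mul_assoc Bᵀ, hB, Matrix.one_mul, hB']

theorem g11_mv (j : J2 C3) : g11 (mv B j) = g11 j := dot_mv hB _ _
theorem g12_mv (j : J2 C3) : g12 (mv B j) = g12 j := dot_mv hB _ _
theorem g22_mv (j : J2 C3) : g22 (mv B j) = g22 j := dot_mv hB _ _

theorem dg_mv (j : J2 C3) : dg (mv B j) = dg j := by
  rw [dg, dg, g11_mv hB, g12_mv hB, g22_mv hB]

theorem eG_mv (j : J2 C3) : eG (mv B j) = eG j := by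
  rw [eG, eG, mv_apply, dot_mv hB]

theorem Mp_mv (j : J2 C3) : Mp (mv B j) = B.det * Mp j := by
  rw [Mp, Mp, g11_mv hB, g12_mv hB, g22_mv hB, dg_mv hB, ← det3_mv]
  simp only [mv_apply, Matrix.mulVec_add, Matrix.mulVec_sub, Matrix.mulVec_smul]

theorem flx_mv (b j : J2 C3) (v : C3) : flx b (mv B j) 1 0 ⬝ᵥ (B *ᵥ v) =
    eG j / (Complex.sqrt (dg j / dg b) * dg b) * ((g22 j • j 1 - g12 j • j 2) ⬝ᵥ v) := by
  rw [flx, sq, g11_mv hB, g12_mv hB, g22_mv hB, dg_mv hB, eG_mv hB, mv_apply, mv_apply,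
    ← Matrix.mulVec_smul, ← Matrix.mulVec_smul, ← Matrix.mulVec_add, ← Matrix.mulVec_smul,
    dot_mv hB, smul_dotProduct, smul_eq_mul]
  congr 2
  module

end orth

/-! ### Square roots -/

theorem sqrt_real_mul {r : ℝ} (hr : 0 < r) (x : ℂ) :
    Complex.sqrt (r * x) = Complex.sqrt r * Complex.sqrt x := by
  by_cases hx : x = 0
  · simp [hx]
  have h : (r : ℂ) ≠ 0 := Complex.ofReal_ne_zero.2 hr.ne'
  unfold Complex.sqrt
  rw [Complex.cpow_def_of_ne_zero (mul_ne_zero h hx), Complex.log_ofReal_mul hr hx,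
    Complex.ofReal_log hr.le, add_mul, Complex.exp_add, ← Complex.cpow_def_of_ne_zero h,
    ← Complex.cpow_def_of_ne_zero hx]

theorem sqrt_sq_mul {r : ℝ} (hr : 0 < r) (x : ℂ) :
    Complex.sqrt ((r : ℂ) ^ 2 * x) = r * Complex.sqrt x := by
  have h : Complex.sqrt ((r : ℂ) ^ 2) = r := Complex.sq_cpow_two_inv (by simpa using hr)
  have h2 := sqrt_real_mul (pow_pos hr 2) x
  rwa [Complex.ofReal_pow, h] at h2

theorem sqrt_div_mul {r : ℝ} (hr : 0 < r) (x : ℂ) :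
    Complex.sqrt (x / r) * Complex.sqrt r = Complex.sqrt x := by
  have h : (r : ℂ) ≠ 0 := Complex.ofReal_ne_zero.2 hr.ne'
  rw [mul_comm, ← sqrt_real_mul hr, mul_div_cancel₀ _ h]

theorem div_sqrt_mul {r : ℝ} (hr : 0 < r) (x E V : ℂ) :
    E / (Complex.sqrt (x / r) * r) * V * Complex.sqrt r = E / Complex.sqrt x * V := by
  have h : (r : ℂ) ≠ 0 := Complex.ofReal_ne_zero.2 hr.ne'
  have h1 := sqrt_div_mul hr (r * r)
  rw [mul_div_cancel_right₀ _ h, ← mul_one ((r : ℂ) * r), ← pow_two (r : ℂ), sqrt_sq_mul hr,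
    Complex.sqrt_one, mul_one] at h1
  rw [← sqrt_div_mul hr x]
  generalize Complex.sqrt (x / r) = s
  generalize Complex.sqrt r = t at *
  rw [← h1] at h ⊢
  have ht : t ≠ 0 := left_ne_zero_of_mul h
  by_cases hs : s = 0
  · simp [hs]
  field_simp

/-! ### Cylinders -/

/-- the jet of `(σ (1 + M) cos θ, σ (1 + M) sin θ, √ζ)` in the moving frame, `z = √ζ` -/
def cylJ (z σ : ℂ) (M : J2 ℂ) : J2 C3 :=
  ![![σ * (1 + M 0), 0, z], ![σ * M 1, 0, (2 * z)⁻¹], ![σ * M 2, σ * (1 + M 0), 0],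
    ![σ * M 3, 0, -(4 * z ^ 3)⁻¹], ![σ * M 4, σ * M 1, 0],
    ![σ * M 5 - σ * (1 + M 0), 2 * (σ * M 2), 0]]

section cyl
variable {z σ ζ : ℂ} (hz : z ≠ 0) (hσ : σ ^ 2 = 2) (hζ : ζ = z ^ 2) (M : J2 ℂ)
include hz hσ hζ

theorem Mp_cyl : Mp (cylJ z σ M) = -2 * (2 * z)⁻¹ ^ 3 * Epol true ζ ζ⁻¹ 2⁻¹ 0 0 0 M := by
  have h1 := shrS_cyl (z := z) (z1 := (2 * z)⁻¹) (z11 := -(4 * z ^ 3)⁻¹) (r := σ * (1 + M 0))
    (r1 := σ * M 1) (r2 := σ * M 2) (r11 := σ * M 3) (r12 := σ * M 4) (r22 := σ * M 5)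
    (p := σ * (M 1 + 0 * (1 + M 0))) (pp := σ * (M 3 + 2 * 0 * M 1 - 0 ^ 2 * (1 + M 0)))
    (pt := σ * (M 4 + 0 * M 2)) (by field_simp; ring) (by field_simp; ring) (by field_simp; ring)
  rw [radE_eq_cylE (a := 0) (ρ := 2) (iz := ζ⁻¹) (io := 2⁻¹ * ζ⁻¹) (Oh := 0) hσ (by ring)
    (by rw [hζ]; field_simp) (by rw [hζ]; field_simp) (by ring) (by ring), ← hζ,
    mul_comm ζ 2] at h1
  rw [Epol, if_pos rfl, show ∀ a b : ℂ, -2 * a * b = -(a * (2 * b)) by intros; ring, ← h1]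
  simp [Mp, det3, dg, g11, g12, g22, cylJ, shrS, cross_apply, dotProduct, Fin.sum_univ_three]
  ring

theorem dg_cyl : dg (cylJ z σ M) = (σ / (2 * z)) ^ 2 * Dc 0 ζ (M 0) (M 2) (2 * ζ * M 1) := by
  have h : dg (cylJ z σ M) = (σ / (2 * z)) ^ 2 *
      ((1 + M 0) ^ 2 * (1 + 4 * σ ^ 2 * z ^ 2 * M 1 ^ 2) + M 2 ^ 2) := by
    simp [dg, g11, g12, g22, cylJ, dotProduct, Fin.sum_univ_three]
    field_simp
    ring
  rw [h, hζ]
  congr 1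
  rw [hσ]
  simp only [Dc, cylD, cylB, rh]
  field_simp
  ring

theorem FP_cyl : det3 (cylJ z σ M 1) (cylJ z σ M 2) ![σ, 0, 0] * dg (cylJ z σ M) =
    -2 * (2 * z)⁻¹ ^ 3 * Fpol true ζ ζ⁻¹ 2⁻¹ 0 0 M := by
  have h : det3 (cylJ z σ M 1) (cylJ z σ M 2) ![σ, 0, 0] = -(σ ^ 2 * (2 * z)⁻¹ * (1 + M 0)) := by
    simp [det3, cylJ, cross_apply, dotProduct, Fin.sum_univ_three]
    ring
  rw [h, dg_cyl hz hσ hζ, div_pow, hσ, Fpol, if_pos rfl, hζ]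
  simp only [Dc, cylD, cylB, rh]
  field_simp
  ring

omit hz in
theorem eG_cyl : eG (cylJ z σ M) = Complex.exp (-(ζ + rh 0 ζ * (1 + M 0) ^ 2) / 4) := by
  rw [eG, hζ]
  congr 2
  simp [cylJ, dotProduct, Fin.sum_univ_three, rh]
  linear_combination (-(1 + M 0) ^ 2) * hσ

end cyl

section cylR
variable {z σ ζ : ℝ} (hz : 0 < z) (hσ0 : 0 < σ) (hσ : σ ^ 2 = 2) (hζ : ζ = z ^ 2) (M : J2 ℂ)
include hz hσ0 hσ hζ

theorem sqrt_cyl : Complex.sqrt (dg (cylJ z σ M)) =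
    σ / (2 * z) * Complex.sqrt (Dc 0 ζ (M 0) (M 2) (2 * ζ * M 1)) ∧
      Complex.sqrt (ζ * rh 0 ζ) = σ * z := by
  have h1 : (σ : ℂ) ^ 2 = 2 := by exact_mod_cast hσ
  have h2 : (ζ : ℂ) = z ^ 2 := by exact_mod_cast hζ
  constructor
  · have := sqrt_sq_mul (r := σ / (2 * z)) (by positivity) (Dc 0 ζ (M 0) (M 2) (2 * ζ * M 1))
    push_cast at this
    rw [dg_cyl (Complex.ofReal_ne_zero.2 hz.ne') h1 h2, this]
  · have := sqrt_sq_mul (r := σ * z) (by positivity) 1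
    push_cast at this
    rw [Complex.sqrt_one, mul_one, mul_one] at this
    rw [← this, mul_pow, h1, ← h2]
    congr 1
    simp [rh, mul_comm]

theorem lag_cyl : eG (cylJ z σ M) * Complex.sqrt (dg (cylJ z σ M)) =
    lagCyl 0 ζ (M 0) (M 2) (2 * ζ * M 1) := by
  have h1 : (σ : ℂ) ^ 2 = 2 := by exact_mod_cast hσ
  have h2 : (ζ : ℂ) = z ^ 2 := by exact_mod_cast hζ
  have h3 : (z : ℂ) ≠ 0 := Complex.ofReal_ne_zero.2 hz.ne'
  obtain ⟨e1, e2⟩ := sqrt_cyl hz hσ0 hσ hζ M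
  rw [lagCyl, e1, e2, eG_cyl h1 h2]
  generalize Complex.exp _ = E
  generalize Complex.sqrt _ = S
  rw [h2]
  field_simp

theorem flux_cyl (dy : ℂ) (θ : ℝ) (α : C3) :
    eG (cylJ z σ M) / Complex.sqrt (dg (cylJ z σ M)) *
      ((g22 (cylJ z σ M) • cylJ z σ M 1 - g12 (cylJ z σ M) • cylJ z σ M 2) ⬝ᵥ
        (dy • ![(σ : ℂ), 0, 0] + ![α 0 * Real.cos θ + α 1 * Real.sin θ,
          -(α 0 * Real.sin θ) + α 1 * Real.cos θ, α 2] ⨯₃ cylJ z σ M 0)) =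
      fluxCyl 0 ζ (M 0) (M 2) (2 * ζ * M 1) 0 dy + tqCyl 0 ζ (M 0) (M 2) (2 * ζ * M 1) θ α := by
  have h1 : (σ : ℂ) ^ 2 = 2 := by exact_mod_cast hσ
  have h2 : (ζ : ℂ) = z ^ 2 := by exact_mod_cast hζ
  have h3 : (z : ℂ) ≠ 0 := Complex.ofReal_ne_zero.2 hz.ne'
  have h4 : (σ : ℂ) ≠ 0 := Complex.ofReal_ne_zero.2 hσ0.ne'
  obtain ⟨e1, e2⟩ := sqrt_cyl hz hσ0 hσ hζ M
  rw [fluxCyl, tqCyl, e1, e2, eG_cyl h1 h2]
  generalize Complex.exp _ = E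
  generalize Complex.sqrt _ = S
  generalize α 0 * Real.cos θ + α 1 * Real.sin θ = ar
  generalize -(α 0 * Real.sin θ) + α 1 * Real.cos θ = aθ
  have h5 : (g22 (cylJ z σ M) • cylJ z σ M 1 - g12 (cylJ z σ M) • cylJ z σ M 2) ⬝ᵥ
      (dy • ![(σ : ℂ), 0, 0] + ![ar, aθ, α 2] ⨯₃ cylJ z σ M 0) =
      σ * (σ ^ 2 * (σ * (1 + M 0) ^ 2 * M 1 * (dy - α 2 * M 2) + (aθ * ((1 + M 0) ^ 2 * M 1 * z -
        ((1 + M 0) ^ 2 + M 2 ^ 2) * (1 + M 0) / (2 * z)) + ar * (1 + M 0) * M 1 * M 2 * z))) := by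
    simp [g12, g22, cylJ, cross_apply, dotProduct, Fin.sum_univ_three]
    field_simp
    ring
  have h6 : ∀ x : ℂ, x / (σ * z) = x * σ / (2 * z) := fun x => by
    field_simp
    rw [h1]
  rw [h5, h6, h1, h2, show rh 0 ((z : ℂ) ^ 2) = 2 by simp [rh]]
  by_cases hS : S = 0
  · simp [hS]
  field_simp
  ring

end cylR

/-! ### Cones -/

/-- the jet of `ρ (γ + M n)` in the frame `γ, γ' / l, n`, `ρ = √ζ` -/
def coneJ (ρ l ka ka' : ℂ) (M : J2 ℂ) : J2 C3 :=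
  ![![ρ, 0, ρ * M 0], ![(2 * ρ)⁻¹, 0, (2 * ρ)⁻¹ * M 0 + ρ * M 1],
    ![0, l * (ρ * (1 - ka * M 0)), ρ * M 2],
    ![-(4 * ρ ^ 3)⁻¹, 0, -(4 * ρ ^ 3)⁻¹ * M 0 + 2 * (2 * ρ)⁻¹ * M 1 + ρ * M 3],
    ![0, l * ((2 * ρ)⁻¹ * (1 - ka * M 0) - ρ * ka * M 1), (2 * ρ)⁻¹ * M 2 + ρ * M 4],
    ![-(ρ * l ^ 2 * (1 - ka * M 0)), -(l * (ρ * (2 * ka * M 2 + M 0 * ka'))),
      ρ * (l ^ 2 * ka * (1 - ka * M 0) + M 5)]]

section cone
variable {ρ l ζ : ℂ} (hρ : ρ ≠ 0) (hl : l ≠ 0) (hζ : ζ = ρ ^ 2) (ka ka' : ℂ) (M : J2 ℂ)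
include hρ hl hζ

theorem Mp_cone : Mp (coneJ ρ l ka ka' M) =
    l ^ 3 / (8 * ρ) * Epol false ζ ζ⁻¹ 2⁻¹ l⁻¹ ka (l⁻¹ * ka') M := by
  subst hζ
  simp [Mp, det3, dg, g11, g12, g22, coneJ, Epol, coneE, coneD, cross_apply, dotProduct,
    Fin.sum_univ_three]
  field_simp
  ring

theorem dg_cone : dg (coneJ ρ l ka ka' M) =
    (l / 2) ^ 2 * coneD ka (M 0) (M 0 + 2 * ζ⁻¹ * (ζ * ζ * M 1)) (l⁻¹ * M 2) := by
  subst hζ
  simp [dg, g11, g12, g22, coneJ, coneD, dotProduct, Fin.sum_univ_three]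
  field_simp
  ring

theorem FP_cone : det3 (coneJ ρ l ka ka' M 1) (coneJ ρ l ka ka' M 2) ![0, 0, ρ] *
    dg (coneJ ρ l ka ka' M) = l ^ 3 / (8 * ρ) * Fpol false ζ ζ⁻¹ 2⁻¹ l⁻¹ ka M := by
  rw [dg_cone hρ hl hζ, Fpol, if_neg (by simp)]
  generalize coneD ka _ _ _ = S
  subst hζ
  simp [det3, coneJ, cross_apply, dotProduct, Fin.sum_univ_three]
  field_simp
  ring

omit hρ hl in
theorem eG_cone : eG (coneJ ρ l ka ka' M) = Complex.exp (-(ζ * (1 + M 0 ^ 2)) / 4) := by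
  rw [eG, hζ]
  congr 3
  simp [coneJ, dotProduct, Fin.sum_univ_three]
  ring

end cone

section coneR
variable {ρ ζ : ℂ} {l : ℝ} (hρ : ρ ≠ 0) (hl : 0 < l) (hζ : ζ = ρ ^ 2) (ka ka' : ℂ) (M : J2 ℂ)
include hρ hl hζ

theorem sqrt_cone : Complex.sqrt (dg (coneJ ρ l ka ka' M)) = l / 2 *
    Complex.sqrt (coneD ka (M 0) (M 0 + 2 * ζ⁻¹ * (ζ * ζ * M 1)) ((l⁻¹ : ℝ) * M 2)) := by
  have := sqrt_sq_mul (r := l / 2) (by positivity)
    (coneD ka (M 0) (M 0 + 2 * ζ⁻¹ * (ζ * ζ * M 1)) ((l : ℂ)⁻¹ * M 2))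
  push_cast at this ⊢
  rw [dg_cone hρ (Complex.ofReal_ne_zero.2 hl.ne') hζ, this]

theorem lag_cone : eG (coneJ ρ l ka ka' M) * Complex.sqrt (dg (coneJ ρ l ka ka' M)) =
    lagCone l⁻¹ ka ζ (M 0) (M 2) (ζ * ζ * M 1) := by
  have h3 : (l : ℂ) ≠ 0 := Complex.ofReal_ne_zero.2 hl.ne'
  rw [lagCone, sqrt_cone hρ hl hζ, eG_cone hζ]
  generalize Complex.exp _ = E
  generalize Complex.sqrt _ = S
  push_cast
  field_simp

theorem flux_cone (dy : ℂ) :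
    eG (coneJ ρ l ka ka' M) / Complex.sqrt (dg (coneJ ρ l ka ka' M)) *
      ((g22 (coneJ ρ l ka ka' M) • coneJ ρ l ka ka' M 1 -
        g12 (coneJ ρ l ka ka' M) • coneJ ρ l ka ka' M 2) ⬝ᵥ (dy • ![0, 0, ρ])) =
      fluxCone l⁻¹ ka ζ (M 0) (M 2) (ζ * ζ * M 1) dy := by
  have h3 : (l : ℂ) ≠ 0 := Complex.ofReal_ne_zero.2 hl.ne'
  rw [fluxCone, sqrt_cone hρ hl hζ, eG_cone hζ]
  generalize Complex.exp _ = E
  generalize Complex.sqrt _ = S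
  subst hζ
  by_cases hS : S = 0
  · simp [hS]
  simp [g12, g22, coneJ, dotProduct, Fin.sum_univ_three]
  field_simp
  ring

end coneR

end Vale.Agent.P218N.Core.EF
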