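import Vale.Agent.P218N.Core.EndFA
import Vale.Agent.P218N.Core.Defs
import Vale.Agent.P218N.End.Geo

/-! The operators in the coordinates of the ends: frames and jets. -/

open Filter Topology
open scoped Matrix RealInnerProductSpace ContDiff

noncomputable section

namespace Vale.Agent.P218N.Core.EF

open Vale.Agent.P218.H313 Vale.Agent.P218N.H Vale.Agent.P218N.End

/-! ### Jets -/

section jets
variable {F : Type} [NormedAddCommGroup F] [NormedSpace ℂ F] {p : R2}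

theorem snd_csmul {c : R2 → ℂ} {f : R2 → F} (hc : ContDiffAt ℝ 2 c p) (hf : ContDiffAt ℝ 2 f p)
    (u v : R2) : fderiv ℝ (fderiv ℝ fun q => c q • f q) p u v =
      fderiv ℝ (fderiv ℝ c) p u v • f p + fderiv ℝ c p u • fderiv ℝ f p v +
        fderiv ℝ c p v • fderiv ℝ f p u + c p • fderiv ℝ (fderiv ℝ f) p u v := by
  have h1 : HasFDerivAt c (fderiv ℝ c p) p := (hc.differentiableAt (by simp)).hasFDerivAt
  have h2 : HasFDerivAt f (fderiv ℝ f p) p := (hf.differentiableAt (by simp)).hasFDerivAt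
  have h3 := (h1.smul ((hasFDerivAt_fderiv_two hf).clm_apply (hasFDerivAt_const v p))).add
    (((hasFDerivAt_fderiv_two hc).clm_apply (hasFDerivAt_const v p)).smul h2)
  rw [snd_of_eventually (f := fun q => c q • f q) (hc.smul hf) ?_ h3]
  · simp
    abel
  · filter_upwards [eventually_diff_two hc, eventually_diff_two hf] with q q1 q2
    rw [fderiv_fun_smul q1 q2]
    simp

theorem csmul {c : R2 → ℂ} {f : R2 → F} {c0 c1 c2 c11 c12 c22 : ℂ} {v v1 v2 v11 v12 v22 : F}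
    (hc : JP c p c0 c1 c2 c11 c12 c22) (hf : JP f p v v1 v2 v11 v12 v22) :
    JP (fun q => c q • f q) p (c0 • v) (c0 • v1 + c1 • v) (c0 • v2 + c2 • v)
      (c11 • v + c1 • v1 + c1 • v1 + c0 • v11) (c12 • v + c1 • v2 + c2 • v1 + c0 • v12)
      (c22 • v + c2 • v2 + c2 • v2 + c0 • v22) := by
  have h := fderiv_fun_smul (hc.cd.differentiableAt (by simp)) (hf.cd.differentiableAt (by simp))
  refine ⟨hc.cd.smul hf.cd, by rw [hf.e0, hc.e0], ?_, ?_, ?_, ?_, ?_⟩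
  · simp [h, hf.e0, hc.e0, hf.e1, hc.e1]
  · simp [h, hf.e0, hc.e0, hf.e2, hc.e2]
  · rw [snd_csmul hc.cd hf.cd, hf.e0, hc.e0, hf.e1, hc.e1, hf.e11, hc.e11]
  · rw [snd_csmul hc.cd hf.cd, hf.e0, hc.e0, hf.e1, hc.e1, hf.e2, hc.e2, hf.e12, hc.e12]
  · rw [snd_csmul hc.cd hf.cd, hf.e0, hc.e0, hf.e2, hc.e2, hf.e22, hc.e22]

end jets

section rjets
variable {F : Type} [NormedAddCommGroup F] [NormedSpace ℝ F] {p : R2} {f : R2 → F}

theorem jet2_of {v v1 v2 v11 v12 v22 : F} (h : JP f p v v1 v2 v11 v12 v22) :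
    jet2 f p = ![v, v1, v2, v11, v12, v22] := by
  rw [jet2, h.e0, h.e1, h.e2, h.e11, h.e12, h.e22]

theorem jp_of (h : ContDiffAt ℝ 2 f p) : JP f p (jet2 f p 0) (jet2 f p 1) (jet2 f p 2)
    (jet2 f p 3) (jet2 f p 4) (jet2 f p 5) := End.J2.self _ _ h

/-- every jet is the jet of a function -/
theorem exists_jet (m : J2 F) (p : R2) : ∃ u : R2 → F, ContDiffAt ℝ 2 u p ∧ jet2 u p = m := by
  have h1 := (JP.fst p).add (End.J2.const _ _ p (-p.1))
  have h2 := (JP.snd p).add (End.J2.const _ _ p (-p.2))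
  have c := fun x : F => End.J2.const ((1, 0) : R2) (0, 1) p x
  have h := (((((c (m 0)).add (h1.smul (c (m 1)))).add (h2.smul (c (m 2)))).add
    ((h1.mul h1).smul (c ((1 / 2 : ℝ) • m 3)))).add ((h1.mul h2).smul (c (m 4)))).add
    ((h2.mul h2).smul (c ((1 / 2 : ℝ) • m 5)))
  refine ⟨_, h.cd, (jet2_of h).trans ?_⟩
  ext k
  fin_cases k <;> simp [smul_smul]

end rjets

/-- the complexification as a linear map -/
def cxL : E3 →L[ℝ] C3 :=
  ContinuousLinearMap.pi fun i => Complex.ofRealCLM.comp (EuclideanSpace.proj i)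

theorem cxL_apply (p : E3) : cxL p = cx p := rfl

theorem cx_add (a b : E3) : cx (a + b) = cx a + cx b := cxL.map_add a b

theorem cx_smul (t : ℝ) (a : E3) : cx (t • a) = (t : ℂ) • cx a := cxL.map_smul t a

theorem cx_zero : cx 0 = 0 := cxL.map_zero

theorem cx_dot (a b : E3) : cx a ⬝ᵥ cx b = (⟪a, b⟫ : ℝ) := by
  simp [cx, dotProduct, Fin.sum_univ_three, inner3]

theorem cx_vec (a b c : ℝ) : cx !₂[a, b, c] = ![(a : ℂ), b, c] := by
  ext i
  fin_cases i <;> rfl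

/-- multiplication by a matrix as a real linear map -/
def mvL (B : M3) : C3 →L[ℝ] C3 :=
  (LinearMap.toContinuousLinearMap (Matrix.mulVecLin B)).restrictScalars ℝ

theorem jet2_mv (B : M3) {f : R2 → C3} {p : R2} (hf : ContDiffAt ℝ 2 f p) :
    jet2 (fun z => B *ᵥ f z) p = mv B (jet2 f p) := jet2_clm (mvL B) hf

/-! ### Frames -/

theorem cx_Q (Q : E3 ≃ₗᵢ[ℝ] E3) (x : E3) : cx (Q x) = QM Q *ᵥ cx x := by
  have h : x = x 0 • EuclideanSpace.single 0 1 + x 1 • EuclideanSpace.single 1 1 +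
      x 2 • EuclideanSpace.single 2 1 := by
    ext i
    fin_cases i <;> simp
  ext i
  conv_lhs => rw [h]
  simp [cx, QM, Matrix.mulVec, dotProduct, Fin.sum_univ_three, mul_comm]

theorem QM_orth (Q : E3 ≃ₗᵢ[ℝ] E3) : (QM Q)ᵀ * QM Q = 1 := by
  ext i k
  have h := cx_dot (Q (EuclideanSpace.single i 1)) (Q (EuclideanSpace.single k 1))
  rw [Q.inner_map_map] at h
  refine h.trans ?_
  rw [Matrix.one_apply, EuclideanSpace.inner_single_left]
  by_cases hik : i = k <;> simp [hik]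

theorem QM_orth' (Q : E3 ≃ₗᵢ[ℝ] E3) : QM Q * (QM Q)ᵀ = 1 := mul_eq_one_comm.1 (QM_orth Q)

theorem Rot_orth (c : ℂ × ℂ) : (Rot c)ᵀ * Rot c = 1 := by
  refine orth_mul ?_ ?_ <;> ext i k <;> fin_cases i <;> fin_cases k <;>
    simp [rotX, rotY, Matrix.mul_apply, Fin.sum_univ_three, ← pow_two, mul_comm]

theorem Rot_det (c : ℂ × ℂ) : (Rot c).det = 1 := by
  rw [Rot, Matrix.det_mul]
  simp [rotX, rotY, Matrix.det_fin_three, ← pow_two]

theorem Rot_zero : Rot 0 = 1 := by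
  ext i k
  fin_cases i <;> fin_cases k <;> simp [Rot, rotX, rotY]

theorem RQ_zero (Q : E3 ≃ₗᵢ[ℝ] E3) : RQ Q 0 = 1 := by
  rw [RQ, Rot_zero, Matrix.mul_one, QM_orth']

theorem RQ_orth (Q : E3 ≃ₗᵢ[ℝ] E3) (c : ℂ × ℂ) : (RQ Q c)ᵀ * RQ Q c = 1 :=
  orth_mul (orth_mul (QM_orth Q) (Rot_orth c)) (QM_orth' Q)

theorem RQ_det (Q : E3 ≃ₗᵢ[ℝ] E3) (c : ℂ × ℂ) : (RQ Q c).det = 1 := by
  rw [RQ, Matrix.det_mul, Matrix.det_mul, Rot_det, mul_one, ← Matrix.det_mul, QM_orth',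
    Matrix.det_one]

theorem Rot_mv (c : ℂ × ℂ) (v : C3) : Rot c *ᵥ v =
    ![Complex.cos c.1 * v 0 - Complex.sin c.1 * v 2,
      Complex.cos c.2 * v 1 - Complex.sin c.2 * (Complex.sin c.1 * v 0 + Complex.cos c.1 * v 2),
      Complex.sin c.2 * v 1 + Complex.cos c.2 * (Complex.sin c.1 * v 0 + Complex.cos c.1 * v 2)] := by
  ext i
  fin_cases i <;> simp [Rot, rotX, rotY, Matrix.mulVec, dotProduct, Fin.sum_univ_three] <;> ring

/-- the derivative of the rotation -/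
theorem hasDerivAt_Rot (c dc : ℂ × ℂ) (v v' : C3) :
    HasDerivAt (fun t : ℂ => Rot (c + t • dc) *ᵥ (v + t • v'))
      (Rot c *ᵥ (v' + al c dc ⨯₃ v)) 0 := by
  have h1 : HasDerivAt (fun t : ℂ => c.1 + t * dc.1) dc.1 0 := by
    simpa using ((hasDerivAt_id (0 : ℂ)).mul_const dc.1).const_add c.1
  have h2 : HasDerivAt (fun t : ℂ => c.2 + t * dc.2) dc.2 0 := by
    simpa using ((hasDerivAt_id (0 : ℂ)).mul_const dc.2).const_add c.2
  have h3 : ∀ i, HasDerivAt (fun t : ℂ => v i + t * v' i) (v' i) 0 := fun i => by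
    simpa using ((hasDerivAt_id (0 : ℂ)).mul_const (v' i)).const_add (v i)
  have a := (h1.ccos.mul (h3 0)).sub (h1.csin.mul (h3 2))
  have b := (h1.csin.mul (h3 0)).add (h1.ccos.mul (h3 2))
  have e1 := Complex.cos_sq_add_sin_sq c.1
  simp only [Rot_mv]
  refine hasDerivAt_pi.2 fun i => ?_
  fin_cases i
  · refine a.congr_deriv ?_
    simp [al, cross_apply]
    ring
  · refine ((h2.ccos.mul (h3 1)).sub (h2.csin.mul b)).congr_deriv ?_
    simp [al, cross_apply]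
    linear_combination (dc.2 * Complex.sin c.2 * v 1) * e1
  · refine ((h2.csin.mul (h3 1)).add (h2.ccos.mul b)).congr_deriv ?_
    simp [al, cross_apply]
    linear_combination (-(dc.2 * Complex.cos c.2 * v 1)) * e1

/-- the rotation about the third axis -/
def Eth (θ : ℝ) : M3 :=
  !![(Real.cos θ : ℂ), -(Real.sin θ : ℂ), 0; (Real.sin θ : ℂ), (Real.cos θ : ℂ), 0; 0, 0, 1]

theorem Eth_orth (θ : ℝ) : (Eth θ)ᵀ * Eth θ = 1 := by
  ext i k
  fin_cases i <;> fin_cases k <;> simp [Eth, Matrix.mul_apply, Fin.sum_univ_three, ← pow_two, mul_comm]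

theorem cross_Eth (θ : ℝ) (α v : C3) : α ⨯₃ (Eth θ *ᵥ v) = Eth θ *ᵥ
    (![α 0 * Real.cos θ + α 1 * Real.sin θ, -(α 0 * Real.sin θ) + α 1 * Real.cos θ, α 2] ⨯₃ v) := by
  have e := Complex.cos_sq_add_sin_sq θ
  ext i
  fin_cases i <;> simp [Eth, cross_apply, Matrix.mulVec, dotProduct, Fin.sum_univ_three]
  · linear_combination (-(α 1 * v 2)) * e
  · linear_combination (α 0 * v 2) * e
  · ring

variable {w : E3 → ℝ} {D : EndData w}

/-- the moving frame -/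
def AF : En D → R2 → M3
  | .inl i, q => Matrix.of fun r k =>
      ![cx (D.γ i q.2), ((D.l i : ℝ) : ℂ)⁻¹ • cx (deriv (D.γ i) q.2), cx (D.n i q.2)] k r
  | .inr b, q => QM (D.Q b) * Eth q.2

/-- the jet of the end with the height `M`, in the moving frame -/
def cJ : En D → R2 → J2 ℂ → J2 C3
  | .inl i, q => coneJ (√q.1 : ℝ) (D.l i : ℝ) (kaf i q.2 : ℝ) (deriv (kaf i) q.2 : ℝ)
  | .inr _, q => cylJ (√q.1 : ℝ) (√2 : ℝ)

/-- the direction of the height, in the moving frame -/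
def nc : En D → R2 → C3
  | .inl _, q => ![0, 0, ((√q.1 : ℝ) : ℂ)]
  | .inr _, _ => ![((√2 : ℝ) : ℂ), 0, 0]

/-- the rotation of the end -/
def Rm : En D → (Fin D.b → ℂ × ℂ) → M3
  | .inl _, _ => 1
  | .inr b, c => RQ (D.Q b) (c b)

/-- the infinitesimal rotation, in the moving frame -/
def tv : En D → R2 → (Fin D.b → C3) → C3
  | .inl _, _, _ => 0
  | .inr b, q, α => ![α b 0 * Real.cos q.2 + α b 1 * Real.sin q.2,
      -(α b 0 * Real.sin q.2) + α b 1 * Real.cos q.2, α b 2]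

theorem AF_cone (i : Fin D.a) (q : R2) (v : C3) : AF (.inl i) q *ᵥ v = v 0 • cx (D.γ i q.2) +
    (v 1 * ((D.l i : ℝ) : ℂ)⁻¹) • cx (deriv (D.γ i) q.2) + v 2 • cx (D.n i q.2) := by
  ext r
  simp [AF, Matrix.mulVec, dotProduct, Fin.sum_univ_three]
  ring

theorem AF_orth (e : En D) (q : R2) : (AF e q)ᵀ * AF e q = 1 := by
  rcases e with i | b
  · have h := D.link i
    have hl : ((D.l i : ℝ) : ℂ) ≠ 0 := Complex.ofReal_ne_zero.2 h.pos.ne'
    ext k k'
    have : ((AF (.inl i) q)ᵀ * AF (.inl i) q) k k' =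
        ![cx (D.γ i q.2), ((D.l i : ℝ) : ℂ)⁻¹ • cx (deriv (D.γ i) q.2), cx (D.n i q.2)] k ⬝ᵥ
        ![cx (D.γ i q.2), ((D.l i : ℝ) : ℂ)⁻¹ • cx (deriv (D.γ i) q.2), cx (D.n i q.2)] k' := rfl
    rw [this]
    fin_cases k <;> fin_cases k' <;>
      simp [cx_dot, h.norm, h.speed, h.nnorm, h.gd, h.orth, h.orth', real_inner_comm (D.γ i q.2),
        real_inner_comm (D.n i q.2) (deriv (D.γ i) q.2), real_inner_comm (D.n i q.2) (D.γ i q.2)]
    field_simp
  · exact orth_mul (QM_orth _) (Eth_orth _)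

theorem Rm_orth (e : En D) (c : Fin D.b → ℂ × ℂ) : (Rm e c)ᵀ * Rm e c = 1 := by
  rcases e with i | b
  · simp [Rm]
  · exact RQ_orth _ _

theorem Rm_det (e : En D) (c : Fin D.b → ℂ × ℂ) : (Rm e c).det = 1 := by
  rcases e with i | b
  · simp [Rm]
  · exact RQ_det _ _

theorem Rm_zero (e : En D) : Rm e 0 = 1 := by
  rcases e with i | b
  · rfl
  · exact RQ_zero _

theorem cx_dir (e : En D) (q : R2) : cx (dir e q) = AF e q *ᵥ nc e q := by
  rcases e with i | b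
  · rw [AF_cone, dir, cx_smul]
    simp [nc]
  · rw [dir, cx_Q, AF, ← Matrix.mulVec_mulVec, cx_vec]
    congr 1
    ext r
    fin_cases r <;> simp [Eth, nc, Matrix.mulVec, dotProduct, Fin.sum_univ_three, mul_comm]

theorem hasDerivAt_Rm (e : En D) (q : R2) (c dc : Fin D.b → ℂ × ℂ) (v v' : C3) :
    HasDerivAt (fun t : ℂ => Rm e (c + t • dc) *ᵥ (AF e q *ᵥ v + t • AF e q *ᵥ v'))
      ((Rm e c * AF e q) *ᵥ (v' + tv e q (fun b => al (c b) (dc b)) ⨯₃ v)) 0 := by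
  rcases e with i | b
  · simp only [Rm, tv, Matrix.one_mulVec, Matrix.one_mul, map_zero, LinearMap.zero_apply, add_zero]
    simpa using ((hasDerivAt_id (0 : ℂ)).smul_const (AF (.inl i) q *ᵥ v')).const_add
      (AF (.inl i) q *ᵥ v)
  · have h := (LinearMap.toContinuousLinearMap (Matrix.mulVecLin (QM (D.Q b)))).hasFDerivAt
      |>.comp_hasDerivAt 0 (hasDerivAt_Rot (c b) (dc b) (Eth q.2 *ᵥ v) (Eth q.2 *ᵥ v'))
    have e : ∀ (x : ℂ × ℂ) (y : C3), RQ (D.Q b) x *ᵥ (QM (D.Q b) *ᵥ y) =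
        QM (D.Q b) *ᵥ (Rot x *ᵥ y) := fun x y => by
      rw [RQ, Matrix.mulVec_mulVec, Matrix.mul_assoc, QM_orth, Matrix.mul_one,
        Matrix.mulVec_mulVec]
    refine (h.congr_deriv ?_).congr_of_eventuallyEq (Eventually.of_forall fun t => ?_)
    · rw [cross_Eth, ← Matrix.mulVec_add, AF, ← Matrix.mulVec_mulVec, ← Matrix.mulVec_mulVec]
      exact (e _ _).symm
    · simp only [AF]
      rw [← Matrix.mulVec_mulVec, ← Matrix.mulVec_mulVec, ← Matrix.mulVec_smul,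
        ← Matrix.mulVec_add]
      exact e _ _

/-! ### The jets of the ends -/

theorem kaf_eq (i : Fin D.a) : kaf i = kaL (D.γ i) (D.n i) (D.l i) := by
  ext θ
  rw [kaf, kaL, cc, inv_pow, div_eq_inv_mul]

theorem cd_yS (e : En D) {q : R2} (hq : 0 < q.1) : ContDiffAt ℝ 2 (yS e) q := by
  rcases e with i | b
  · exact (JP.reparam (JP.log hq) (JP.of_cd (p := (Real.log q.1 / 2, q.2))
      ((D.hdec i).smooth.contDiffAt.of_le (by norm_cast)))).cd
  · exact (JP.reparam (JP.sqrt hq) (JP.of_cd (p := (√q.1, q.2))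
      ((D.vdec b).smooth.contDiffAt.of_le (by norm_cast)))).cd

theorem cd_ySc (e : En D) {q : R2} (hq : 0 < q.1) : ContDiffAt ℝ 2 (fun z => (yS e z : ℂ)) q :=
  Complex.ofRealCLM.contDiff.contDiffAt.comp q (cd_yS e hq)

theorem jy_real (e : En D) {q : R2} (hq : 0 < q.1) :
    jy e q = fun k => ((jet2 (yS e) q k : ℝ) : ℂ) := jet2_clm Complex.ofRealCLM (cd_yS e hq)

theorem jp_sqrt {q : R2} (hq : 0 < q.1) :
    JP (fun z => √z.1) q (√q.1) (2 * √q.1)⁻¹ 0 (-(4 * √q.1 ^ 3)⁻¹) 0 0 :=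
  (JP.sqrt hq).congr rfl (one_div _) rfl
    (by rw [pow_succ, Real.sq_sqrt hq.le, one_div, mul_assoc]) rfl rfl

theorem jet_cone (i : Fin D.a) {q : R2} (hq : 0 < q.1) {M : R2 → ℂ} (hM : ContDiffAt ℝ 2 M q) :
    ContDiffAt ℝ 2 (fun z : R2 => √z.1 • (cx (D.γ i z.2) + M z • cx (D.n i z.2))) q ∧
    jet2 (fun z : R2 => √z.1 • (cx (D.γ i z.2) + M z • cx (D.n i z.2))) q =
      mv (AF (.inl i) q) (cJ (.inl i) q (jet2 M q)) := by
  have h := D.link i
  have J := (jp_sqrt hq).smul (((h.jet q).clm cxL).add (csmul (jp_of hM) ((h.jet_n q).clm cxL)))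
  refine ⟨J.cd, (jet2_of J).trans ?_⟩
  have hl : ((D.l i : ℝ) : ℂ) ≠ 0 := Complex.ofReal_ne_zero.2 h.pos.ne'
  have hz : ((√q.1 : ℝ) : ℂ) ≠ 0 := Complex.ofReal_ne_zero.2 (Real.sqrt_pos.2 hq).ne'
  ext1 k
  rw [mv_apply, AF_cone, cJ, kaf_eq]
  generalize jet2 M q = m
  fin_cases k <;>
    simp only [cxL_apply, cx_add, cx_smul, cx_zero, ← Complex.coe_smul, coneJ, Fin.isValue,
      Fin.zero_eta, Fin.mk_one, Fin.reduceFinMk, Matrix.cons_val, Matrix.cons_val_zero,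
      Matrix.cons_val_one] <;>
    match_scalars <;> field_simp <;> ring

theorem jet_cyl (b : Fin D.b) {q : R2} (hq : 0 < q.1) {M : R2 → ℂ} (hM : ContDiffAt ℝ 2 M q) :
    ContDiffAt ℝ 2 (fun z : R2 => QM (D.Q b) *ᵥ ((1 + M z) •
      cx !₂[√2 * Real.cos z.2, √2 * Real.sin z.2, 0] + cx !₂[0, 0, √z.1])) q ∧
    jet2 (fun z : R2 => QM (D.Q b) *ᵥ ((1 + M z) •
      cx !₂[√2 * Real.cos z.2, √2 * Real.sin z.2, 0] + cx !₂[0, 0, √z.1])) q =
      mv (AF (.inr b) q) (cJ (.inr b) q (jet2 M q)) := by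
  have c := fun x : ℝ => End.J2.const ((1, 0) : R2) (0, 1) q x
  have J := (csmul ((End.J2.const _ _ q (1 : ℂ)).add (jp_of hM))
    ((End.J2.vec3 ((c √2).mul (JP.cos q)) ((c √2).mul (JP.sin q)) (c 0)).clm cxL)).add
    ((End.J2.vec3 (c 0) (c 0) (jp_sqrt hq)).clm cxL)
  refine ⟨(J.clm (mvL _)).cd, (jet2_mv _ J.cd).trans ?_⟩
  rw [AF, ← mv_mv]
  congr 1
  refine (jet2_of J).trans ?_
  generalize jet2 M q = m
  ext k r
  fin_cases k <;> fin_cases r <;>
    simp [cxL_apply, cx_vec, mv_apply, cJ, cylJ, Eth, Matrix.mulVec, dotProduct,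
      Fin.sum_univ_three] <;> ring

/-- the jet of the deformed end -/
theorem jet_end (e : En D) {q : R2} (hq : 0 < q.1) {u : R2 → ℂ} (hu : ContDiffAt ℝ 2 u q) :
    ContDiffAt ℝ 2 (fun z => cx (pt e z) + u z • cx (dir e z)) q ∧
    jet2 (fun z => cx (pt e z) + u z • cx (dir e z)) q =
      mv (AF e q) (cJ e q (jy e q + jet2 u q)) := by
  have hM := (cd_ySc e hq).add hu
  rw [jy, ← jet2_add (cd_ySc e hq) hu]
  rcases e with i | b
  · have h : (fun z => cx (pt (.inl i) z) + u z • cx (dir (.inl i) z)) =ᶠ[𝓝 q] fun z : R2 =>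
        √z.1 • (cx (D.γ i z.2) + ((yS (.inl i) z : ℂ) + u z) • cx (D.n i z.2)) := by
      filter_upwards [continuous_fst.continuousAt.eventually (lt_mem_nhds hq)] with z hz
      simp only [pt, dir, yS, conePt, Real.exp_half, Real.exp_log hz, cx_add, cx_smul,
        ← Complex.coe_smul]
      module
    exact ⟨(jet_cone i hq hM).1.congr_of_eventuallyEq h, (jet2_congr h).trans (jet_cone i hq hM).2⟩
  · have h : (fun z => cx (pt (.inr b) z) + u z • cx (dir (.inr b) z)) = fun z : R2 =>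
        QM (D.Q b) *ᵥ ((1 + ((yS (.inr b) z : ℂ) + u z)) •
          cx !₂[√2 * Real.cos z.2, √2 * Real.sin z.2, 0] + cx !₂[0, 0, √z.1]) := by
      ext1 z
      rw [pt, dir, cylPt, cx_Q, cx_Q, ← Matrix.mulVec_smul, ← Matrix.mulVec_add]
      congr 1
      ext r
      fin_cases r <;> simp [cx_vec, yS] <;> ring
    rw [h]
    exact jet_cyl b hq hM

end Vale.Agent.P218N.Core.EF
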