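import Vale.Agent.P218N.Core.FVb

/-! The first variation of the Gaussian area. -/

open Set Filter Topology Metric MeasureTheory
open scoped RealInnerProductSpace ContDiff Matrix NNReal

noncomputable section

namespace Vale.Agent.P218N.Core

open Vale.Agent.P218.H313 Vale.Agent.P218N.H Vale.Agent.P218N.End Vale.Agent.P272.K.LIN

set_option linter.unusedSectionVars false

variable {w : E3 → ℝ} {D : EndData w} {G : Geo D} {zm : ℝ} {X : Type} [TopologicalSpace X]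
  [ChartedSpace R2 X] [T2Space X] [CompactSpace X] [RSm R2 X] (C : Ctx2 G zm X)

namespace FV

theorem ev_jN (e : En D) {n : ℕ} (hn : 4 ≤ n) (j : EJ) (t θ : ℝ) :
    (fun k => ev (jw (ctr (gam zm 4 n) e) (Res 4 n ((C.B e).jS n + j)) k) t θ) =
      jy e (zr zm 4 n t, θ) + jev zm (ctr (gam zm 3 n) e) j (zr zm 4 n t, θ) := by
  funext k
  rw [map_add, ← jwL_apply, map_add, jwL_apply, jwL_apply, Pi.add_apply, ev_add,
    C.pf.jw_res 0 4 n n e _ k (by norm_num) hn le_rfl,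
    C.pf.jw_res 3 4 n n e _ k (by norm_num) hn le_rfl, C.pf.ev_res, C.pf.ev_res, (C.B e).val,
    C.pf.zr_clp 0 4 n n t (by norm_num) hn le_rfl, Pi.add_apply, jev, C.pf.tt_zr 4 n t hn]

include C in
theorem ev_y (e : En D) {n : ℕ} (hn : 4 ≤ n) (j : EJ) (t θ : ℝ) :
    ev (Res 4 n j).y t θ = Yj zm j (zr zm 4 n t, θ) := by
  have h : (Res 4 n j).y = resW 4 n j.y := C.pf.jw_res 3 4 n n e j 0 (by norm_num) hn le_rfl
  rw [h, C.pf.ev_res, Yj, C.pf.tt_zr 4 n t hn]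

theorem ends_eq {n : ℕ} (hn : 6 ≤ n) {J J' : En D → EJ} {v v' : C.U} {j j' : JJ D zm} {c c' : Cc D}
    (hJ : ∀ e, (ctr (gam zm 3 n) e).IsJet (J e)) (hY : YF zm j (fun e => Yj zm (J e)) (TT zm n))
    (hY' : YF zm j' (fun e => Yj zm (J' e)) (TT zm n)) {u u' : E3 → ℂ}
    (hu : u = cu G zm (C.tot v fun e => Yj zm (J e)))
    (hu' : u' = cu G zm (C.tot v' fun e => Yj zm (J' e)))
    (hom : ∀ p, w p = 0 → G.σ p < zm + 5 → G.aG zm c u p ∈ Om D) (e : En D) (t θ : ℝ) :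
    ((deriv (cut zm 4) (G.σ (pt e (zr zm 4 n t, θ))) : ℝ) : ℂ) *
      G.flxG (G.XG zm c u) (YG G zm c c' u u') (pt e (zr zm 4 n t, θ)) *
      Complex.sqrt (dg (jS (pt e) (zr zm 4 n t, θ))) = (deriv (cut zm 4) (zr zm 4 n t) : ℝ) *
      (fluxE e (zr zm 4 n t, θ)
        (fun k => ev (jw (ctr (gam zm 4 n) e) (Res 4 n ((C.B e).jS n + J e)) k) t θ)
        (ev (Res 4 n (J' e)).y t θ) + tqE e (zr zm 4 n t, θ)
        (fun k => ev (jw (ctr (gam zm 4 n) e) (Res 4 n ((C.B e).jS n + J e)) k) t θ)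
        fun b => al (c b) (c' b)) := by
  have h4 : zm + (4 : ℕ) ≤ zr zm 4 n t := (C.pf.mem 4 n t (by omega)).1
  rw [ev_jN C e (by omega), ev_y C e (by omega)]
  generalize zr zm 4 n t = ζ at h4 ⊢
  push_cast at h4
  have h0 : G.z0 < ((ζ, θ) : R2).1 := by linarith [C.hz]
  have hσ := G.σ_pt e _ h0
  rw [hσ]
  by_cases h : ζ ∈ Icc (zm + (4 : ℕ) + 1 / 3) (zm + (4 : ℕ) + 2 / 3)
  swap
  · simp [deriv_cut_zero h]
  have h5 : ζ < zm + 5 := by
    have := h.2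
    push_cast at this
    linarith
  rw [mul_assoc, flx_end C.jf C.iv C.ef (hu ▸ c2_tot C.toCtx hY v) (hu' ▸ c2_tot C.toCtx hY' v') e h0
    (by linarith) ?_ ?_ (hom _ (G.pt_mem e h0) (by rwa [hσ]))]
  · have a1 := cu_jet (G := G) (zm := zm) (u := C.tot v fun e => Yj zm (J e)) _ (G.mem_ep e h0)
      (by rw [G.ep_φ, hσ]; linarith)
    have a2 := C.yf.jet n e (J e) (ζ, θ) (hJ e) ⟨by linarith, by linarith [hY.le]⟩
    rw [G.ep_φ] at a1
    rw [hu, a1, jet2_congr (C.tot_hi hY v e (by linarith)), jet2_smul _ a2.1, a2.2]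
  · rw [hu', cu_eq (by rw [hσ]; linarith)]
    exact (C.tot_hi hY' v' e (q := (ζ, θ)) (by linarith)).self_of_nhds

theorem has_sum {P A H E ι : Type} [NormedAddCommGroup P] [NormedSpace ℂ P] [NormedAddCommGroup A]
    [NormedSpace ℂ A] [NormedAddCommGroup H] [NormedSpace ℂ H] [NormedAddCommGroup E]
    [NormedSpace ℂ E] [Fintype ι] {p : P → A} {p' : P →L[ℂ] A} {S : A → H} (l : H →L[ℂ] ℂ)
    {F : ι → E → ℂ} {j : ι → P → E} {j' : ι → P →L[ℂ] E} {x : P} (hp : HasFDerivAt p p' x)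
    (hS : DifferentiableAt ℂ S (p x)) (hj : ∀ e, HasFDerivAt (j e) (j' e) x)
    (hF : ∀ e, DifferentiableAt ℂ (F e) (j e x)) {f : P → ℂ}
    (hf : ∀ᶠ y in 𝓝 x, f y = l (S (p y)) + ∑ e, F e (j e y)) : DifferentiableAt ℂ f x ∧ ∀ d,
      fderiv ℂ f x d = l (fderiv ℂ S (p x) (p' d)) + ∑ e, fderiv ℂ (F e) (j e x) (j' e d) := by
  have h : HasFDerivAt f _ x := ((l.hasFDerivAt.comp x (hS.hasFDerivAt.comp x hp)).add
    (HasFDerivAt.fun_sum (u := Finset.univ) fun e _ =>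
      (hF e).hasFDerivAt.comp x (hj e))).congr_of_eventuallyEq hf
  refine ⟨h.differentiableAt, fun d => ?_⟩
  rw [h.fderiv]
  simp

variable {κ : Type} [Fintype κ] {ψh : κ → C.H} {l : κ → C.U →L[ℂ] ℂ} {n : ℕ} {r B r0 : ℝ}
  {z : Par D κ → C.U × JJ D zm} {j : Par D κ → En D → EJ} {lm : Par D κ → κ → ℂ}
  (h : C.NL ψh l n r B r0 z j lm) {x : Par D κ} (hx : x ∈ ball (0 : Par D κ) r)

include h hx

theorem yf : YF zm (z x).2 (fun e => Yj zm (j x e)) (TT zm n) :=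
  C.yf.fin n (j x) (z x).2 h.six (h.jet x hx) (h.res x hx)

theorem mem_z {rs : ℝ} (hr : r0 ≤ rs) :
    (x.2.1, (z x).1, (z x).2) ∈ ball (0 : Cc D × (C.U × JJ D zm)) rs :=
  mem_ball_zero_iff.2 ((h.small x hx).1.trans_le hr)

theorem mem_j {r1 : ℝ} (hr : r0 ≤ r1) (e : En D) :
    C.jN n j x e ∈ ball (Res 4 n ((C.B e).jS n)) r1 := by
  rw [mem_ball_iff_norm, Ctx2.jN, map_add, add_sub_cancel_left]
  exact ((C.pf.res_le _ _ _).trans (norm_le_pi_norm _ e)).trans_lt ((h.small x hx).2.trans_le hr)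

theorem jet_jN (e : En D) : (ctr (gam zm 4 n) e).IsJet (C.jN n j x e) := by
  have hn : 4 ≤ n := by linarith [h.six]
  rw [Ctx2.jN, map_add]
  exact (C.pf.jet_res 0 4 n n e _ (by norm_num) hn le_rfl ((C.B e).jet n)).add
    (C.pf.jet_res 3 4 n n e _ (by norm_num) hn le_rfl (h.jet x hx e))

theorem der_z : HasFDerivAt z (fderiv ℂ z x) x :=
  (h.zhol.differentiableAt (isOpen_ball.mem_nhds hx)).hasFDerivAt

theorem der_j (e : En D) :
    HasFDerivAt (fun x => j x e) ((ContinuousLinearMap.proj e).comp (fderiv ℂ j x)) x :=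
  hasFDerivAt_pi'.1 (h.jhol.differentiableAt (isOpen_ball.mem_nhds hx)).hasFDerivAt e

theorem der_jN (e : En D) : HasFDerivAt (fun x => C.jN n j x e)
    ((Res 4 n).comp ((ContinuousLinearMap.proj e).comp (fderiv ℂ j x))) x :=
  (Res 4 n).hasFDerivAt.comp x ((der_j C h hx e).const_add ((C.B e).jS n))

theorem fderiv_jN (d : Par D κ) (e : En D) :
    fderiv ℂ (C.jN n j) x d e = Res 4 n (fderiv ℂ j x d e) := by
  rw [(hasFDerivAt_pi.2 (der_jN C h hx)).fderiv]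
  rfl

theorem jet_der (d : Par D κ) (e : En D) : (ctr (gam zm 3 n) e).IsJet (fderiv ℂ j x d e) :=
  fderiv_mem (C.pf.closed _) (der_j C h hx e)
    (eventually_of_mem (isOpen_ball.mem_nhds hx) fun y hy => h.jet y hy e) d

theorem yf_der (d : Par D κ) :
    YF zm (fderiv ℂ z x d).2 (fun e => Yj zm (fderiv ℂ j x d e)) (TT zm n) := by
  refine C.yf.fin n _ _ h.six (jet_der C h hx d) fun e => ?_
  have h1 : HasFDerivAt (fun x => ((z x).2 e).1) _ x :=
    (JS (ctr (gam zm 3 6) e)).subtypeL.hasFDerivAt.comp x (hasFDerivAt_pi'.1 (der_z C h hx).snd e)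
  have h2 : HasFDerivAt (fun x => ((z x).2 e).1) _ x :=
    ((Res 3 6).hasFDerivAt.comp x (der_j C h hx e)).congr_of_eventuallyEq
      (eventually_of_mem (isOpen_ball.mem_nhds hx) fun y hy => h.res y hy e)
  exact DFunLike.congr_fun (h1.unique h2) d

theorem ell_der (d : Par D κ) (k : κ) : l k (fderiv ℂ z x d).1 = d.1 k := by
  have h1 : HasFDerivAt (fun x => l k (z x).1) _ x := (l k).hasFDerivAt.comp x (der_z C h hx).fst
  have h2 : HasFDerivAt (fun x => l k (z x).1) _ x :=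
    (hasFDerivAt_pi'.1 (hasFDerivAt_fst (𝕜 := ℂ) (p := x)) k).congr_of_eventuallyEq
      (eventually_of_mem (isOpen_ball.mem_nhds hx) fun y hy => h.ell y hy k)
  exact DFunLike.congr_fun (h1.unique h2) d

theorem FN_cj (hop : C.OpS) {rs : ℝ} (hS : C.SMF lam rs) (hr : r0 ≤ rs)
    (hb : ∀ e, FE zm n e (C.jN n j x e).cj = star (FE zm n e (C.jN n j x e))) :
    C.FN n z j (cjP x) = star (C.FN n z j x) := by
  obtain ⟨c1, c2, -⟩ := h.cj x hx
  have hY' : YF zm (z (cjP x)).2 (fun e => Yj zm (j (cjP x) e)) (TT zm n) :=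
    C.yf.fin n _ _ h.six (fun e => by rw [c2 e]; exact C.pf.jet_cj 3 n e _ (h.jet x hx e))
      fun e => by rw [c1.2 e, h.res x hx e, c2 e, C.pf.res_cj]
  have e1 : ∀ e, FE zm n e (C.jN n j (cjP x) e) = star (FE zm n e (C.jN n j x e)) := fun e => by
    rw [← hb e, Ctx2.jN, Ctx2.jN, ← C.pf.res_cj, EJ.cj_add, (C.lf e).real, c2 e]
  have e2 : ∀ p, w p = 0 → ((1 - cut zm 4 (G.σ p) : ℝ) : ℂ) *
      lam (G.aG zm (cjP x).2.1 (C.uN z j (cjP x)) p) = (starRingEnd ℂ)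
        (((1 - cut zm 4 (G.σ p) : ℝ) : ℂ) * lam (G.aG zm x.2.1 (C.uN z j x) p)) := fun p hp => by
    rw [map_mul, Complex.conj_ofReal]
    by_cases h5 : G.σ p < zm + 5
    · exact congrArg _ (lam_cj C.toCtx hop hS (yf C h hx) hY' (mem_z C h hx hr) c1 hp h5)
    · rw [cut_one (by push_cast; linarith)]; simp
  rw [Ctx2.FN, Ctx2.FN, star_add, star_sum, int_congr G e2, integral_conj,
    Finset.sum_congr rfl fun e _ => e1 e]
  rfl

theorem FN_der (hop : C.OpS) {rs : ℝ} (hS : C.SMF lam rs) (hr : r0 ≤ rs)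
    (ha : ∀ e, DifferentiableAt ℂ (FE zm n e) (C.jN n j x e)) :
    DifferentiableAt ℂ (C.FN n z j) x ∧ ∀ d, fderiv ℂ (C.FN n z j) x d =
      (∫ p, ((1 - cut zm 4 (G.σ p) : ℝ) : ℂ) * G.dlagG (G.XG zm x.2.1 (cu G zm (C.uN z j x)))
        (YG G zm x.2.1 d.2.1 (cu G zm (C.uN z j x))
          (cu G zm (C.tot (fderiv ℂ z x d).1 fun e => Yj zm (fderiv ℂ j x d e)))) p ∂(muS w)) +
      ∑ e, fderiv ℂ (FE zm n e) (C.jN n j x e) (Res 4 n (fderiv ℂ j x d e)) := by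
  obtain ⟨l4, hl4⟩ := exists_l4 C.toCtx
  have h1 := has_sum (p := fun x : Par D κ => (x.2.1, z x)) (S := C.SM lam) l4
    (F := FE zm n) (j := fun e x => C.jN n j x e) (f := C.FN n z j)
    (hasFDerivAt_snd.fst.prodMk (der_z C h hx))
    (hS.hol.differentiableAt (isOpen_ball.mem_nhds (mem_z C h hx hr))) (der_jN C h hx) ha
    (eventually_of_mem (isOpen_ball.mem_nhds hx) fun y hy => by
      rw [hl4 _ (fun p => lam (G.aG zm y.2.1 (C.uN z j y) p)) fun a ha h5 =>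
        SM_val C.toCtx hop hS (yf C h hy) (mem_z C h hy hr) ha h5]
      rfl)
  refine ⟨h1.1, fun d => (h1.2 d).trans (congrArg₂ _ ?_ rfl)⟩
  exact hl4 _ _ fun y hy h5 => SM_der (c' := d.2.1) (v' := (fderiv ℂ z x d).1) C.toCtx hop hS
    (yf C h hx) (yf_der C h hx d) (mem_z C h hx hr) hy h5

theorem core_der {ψ : κ → E3 → ℝ} (hc : ∀ k, Continuous (ψ k))
    (hψ : ∀ k p, w p = 0 → zm + 2 ≤ G.σ p → ψ k p = 0)
    (hl : ∀ k v Yf, G.ip (C.tot v Yf) (cF (ψ k)) = l k v) (hE : C.EqF ψ n r z j lm) (d : Par D κ)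
    {F : En D → ℝ → ℂ} {T : En D → ℂ} (hb : ∀ e t, ∫ θ in (0 : ℝ)..2 * Real.pi,
      (fluxE e (zr zm 4 n t, θ) (fun k => ev (jw (ctr (gam zm 4 n) e) (C.jN n j x e) k) t θ)
        (ev (Res 4 n (fderiv ℂ j x d e)).y t θ) + tqE e (zr zm 4 n t, θ)
        (fun k => ev (jw (ctr (gam zm 4 n) e) (C.jN n j x e) k) t θ)
        fun b => al (x.2.1 b) (d.2.1 b)) = F e t + T e) :
    ∫ p, ((1 - cut zm 4 (G.σ p) : ℝ) : ℂ) * G.dlagG (G.XG zm x.2.1 (cu G zm (C.uN z j x)))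
      (YG G zm x.2.1 d.2.1 (cu G zm (C.uN z j x))
        (cu G zm (C.tot (fderiv ℂ z x d).1 fun e => Yj zm (fderiv ℂ j x d e)))) p ∂(muS w) =
    -∑ k, lm x k * d.1 k + ∑ e, ((∫ t in (0 : ℝ)..1,
      (deriv (cut zm 4) (zr zm 4 n t) * gr 4 n t : ℝ) * F e t) + T e) := by
  have hY := yf C h hx
  have hY' := yf_der C h hx d
  have hu : C2S w (cu G zm (C.uN z j x)) := c2_tot C.toCtx hY (z x).1
  have hu' := c2_tot C.toCtx hY' (fderiv ℂ z x d).1
  have hom : ∀ p, w p = 0 → G.σ p < zm + 5 →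
      G.aG zm x.2.1 (cu G zm (C.uN z j x)) p ∈ Om D := fun p hp h5 => by
    rw [cu_aG hp (by linarith)]
    exact hE.om x hx p hp (by linarith)
  have e3 : ∀ k, G.ip (cu G zm (C.tot (fderiv ℂ z x d).1 fun e => Yj zm (fderiv ℂ j x d e)))
      (cF (ψ k)) = d.1 k := fun k => by
    rw [← ell_der C h hx d k, ← hl k _ fun e => Yj zm (fderiv ℂ j x d e)]
    refine int_congr G fun p hp => ?_
    by_cases h5 : G.σ p ≤ zm + 5 + 1 / 3
    · rw [cu_eq h5]
    · simp [cF, hψ k p hp (by linarith)]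
  rw [fv_surf (lm := lm x) C.jf C.iv C.vf hu hu' hom hc hψ fun p hp h5 => ?_,
    int_ends C.iv C.vf C.pf C.hz (by linarith [h.six]) (cont_flx C.jf C.iv C.vf hu hu' hom)
      (fun p _ h0 => ?_) (F := F) (T := T) fun e t => ?_]
  · simp only [e3]
  · rw [deriv_cut_zero fun h' => h0 ⟨by linarith [show zm + 4 + 1 / 3 ≤ _ from mod_cast h'.1],
      by linarith [show _ ≤ zm + 4 + 2 / 3 from mod_cast h'.2, hY.le]⟩]
    simp
  · rw [← hb, ← intervalIntegral.integral_const_mul]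
    exact intervalIntegral.integral_congr fun θ _ =>
      ends_eq C h.six (h.jet x hx) hY hY' rfl rfl hom e t θ
  · rw [cu_aG hp (by linarith)]
    exact hE.eq x hx p hp (by linarith [hY.le])

end FV

open FV in
theorem Ctx2.fvS : C.FVS := by
  intro hF Φ gb N ψ ψh l hψ n
  by_cases hn : 6 ≤ n
  swap
  · exact ⟨1, one_pos, fun r B r0 z j lm _ h _ => absurd h.six hn⟩
  have hn4 : 4 ≤ n := by omega
  obtain ⟨rs, hrs, hS⟩ := hF.op.sm lam C.jf.dlam
  choose ra hra ha using fun e => C.lag e n hn4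
  choose rb hrb hb using fun e => C.lag2 e n hn4
  obtain ⟨r1, ⟨hr1, h1⟩, h2⟩ : ∃ r1, r1 ∈ Ioc 0 rs ∧ ∀ e, r1 ∈ Ioc 0 (ra e) ∧ r1 ∈ Ioc 0 (rb e) :=
    (Eventually.and (Ioc_mem_nhdsGT hrs) (eventually_all.2 fun e =>
      Eventually.and (Ioc_mem_nhdsGT (hra e)) (Ioc_mem_nhdsGT (hrb e)))).exists
  refine ⟨r1, hr1, fun r B r0 z j lm hr h hE => ?_⟩
  have hja := fun x hx e => mem_j C h (x := x) hx (hr.trans (h2 e).1.2) e
  have hjb := fun x hx e => mem_j C h (x := x) hx (hr.trans (h2 e).2.2) e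
  have hD := fun x hx => FN_der C h (x := x) hx hF.op hS (hr.trans h1) fun e =>
    (ha e).1.differentiableAt (isOpen_ball.mem_nhds (hja x hx e))
  refine ⟨fun x hx => (hD x hx).1.differentiableWithinAt, fun x hx =>
    ⟨FN_cj C h hx hF.op hS (hr.trans h1) fun e => (hb e _ (hjb x hx e)).1, fun d => ?_⟩⟩
  have e5 := fun e => (ha e).2 _ (hja x hx e) (jet_jN C h hx e) (hE.sol x hx e)
  rw [(hD x hx).2 d, core_der C h hx hψ.cont hψ.spt hψ.l_tot hE d fun e t =>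
    ((hb e _ (hjb x hx e)).2 t _ _).trans (congrArg _ ((e5 e).1 t _)), add_assoc,
    ← Finset.sum_add_distrib]
  refine congrArg _ (Finset.sum_congr rfl fun e _ => ?_)
  rw [(e5 e).2 _ (C.pf.jet_res 3 4 n n e _ (by norm_num) hn4 le_rfl (jet_der C h hx d e)),
    fderiv_jN C h hx]
  ring

end Vale.Agent.P218N.Core
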