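import Vale.Agent.P218N.Core.Spec

/-! Symmetry of the linearised operator on functions with bounded support. -/

open Set Filter Topology Metric MeasureTheory
open scoped RealInnerProductSpace ContDiff Matrix

noncomputable section

namespace Vale.Agent.P218N.Core

open Vale.Agent.P218.H313 Vale.Agent.P218N.H Vale.Agent.P218N.End

variable {w : E3 → ℝ} {D : EndData w}

namespace GreenP

/-! ### Smoothness of the operators on jets -/

section smooth
variable {n : WithTop ℕ∞}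

theorem cd_dot {A : Type} [NormedAddCommGroup A] [NormedSpace ℂ A] {f g : A → C3} {a : A}
    (hf : ContDiffAt ℂ n f a) (hg : ContDiffAt ℂ n g a) :
    ContDiffAt ℂ n (fun x => f x ⬝ᵥ g x) a := by
  unfold dotProduct
  exact ContDiffAt.sum fun i _ => (contDiffAt_pi.1 hf i).mul (contDiffAt_pi.1 hg i)

theorem cd_det3 {A : Type} [NormedAddCommGroup A] [NormedSpace ℂ A] {f g h : A → C3} {a : A}
    (hf : ContDiffAt ℂ n f a) (hg : ContDiffAt ℂ n g a) (hh : ContDiffAt ℂ n h a) :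
    ContDiffAt ℂ n (fun x => det3 (f x) (g x) (h x)) a := by
  refine cd_dot (contDiffAt_pi.2 fun i => ?_) hh
  have f' := contDiffAt_pi.1 hf
  have g' := contDiffAt_pi.1 hg
  fin_cases i <;> simp only [cross_apply] <;>
    exact ((f' _).mul (g' _)).sub ((f' _).mul (g' _))

theorem cd_comp (k : Fin 6) {j : J2 C3} : ContDiffAt ℂ n (fun j : J2 C3 => j k) j :=
  contDiffAt_apply ℂ _ k j

theorem cd_g11 {j : J2 C3} : ContDiffAt ℂ n g11 j := cd_dot (cd_comp 1) (cd_comp 1)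
theorem cd_g12 {j : J2 C3} : ContDiffAt ℂ n g12 j := cd_dot (cd_comp 1) (cd_comp 2)
theorem cd_g22 {j : J2 C3} : ContDiffAt ℂ n g22 j := cd_dot (cd_comp 2) (cd_comp 2)
theorem cd_dg {j : J2 C3} : ContDiffAt ℂ n dg j := (cd_g11.mul cd_g22).sub (cd_g12.pow 2)

theorem cd_eG {j : J2 C3} : ContDiffAt ℂ n eG j :=
  ((cd_dot (cd_comp 0) (cd_comp 0)).neg.div_const 4).cexp

theorem cd_Mp {j : J2 C3} : ContDiffAt ℂ n Mp j :=
  cd_det3 (cd_comp 1) (cd_comp 2) ((((cd_g22.smul (cd_comp 3)).sub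
    ((contDiffAt_const.mul cd_g12).smul (cd_comp 4))).add (cd_g11.smul (cd_comp 5))).add
      ((cd_dg.div_const 2).smul (cd_comp 0)))

theorem cd_pJ {a : J2 (WW D)} : ContDiffAt ℂ n pJ a :=
  contDiffAt_pi.2 fun k => (contDiffAt_apply ℂ _ k a).snd.snd.fst

theorem cd_nV {a : J2 (WW D)} : ContDiffAt ℂ n nV a :=
  (contDiffAt_apply ℂ _ 0 a).snd.snd.snd.fst

end smooth

variable (J : JetF D) {a : J2 (WW D)}
include J

theorem cd_xJ : ContDiffAt ℂ 2 xJ a := J.smX.contDiffAt.of_le (by norm_cast)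

theorem cd_sq (ha : a ∈ Om D) : ContDiffAt ℂ 2 (fun a : J2 (WW D) => sq (pJ a) (xJ a)) a := by
  have h1 : ContDiffAt ℂ 2 Complex.sqrt (dg (xJ a) / dg (pJ a)) :=
    (Complex.differentiableOn_sqrt.contDiffOn Complex.isOpen_slitPlane).contDiffAt
      (Complex.isOpen_slitPlane.mem_nhds ha.2.2.1)
  exact h1.comp a ((cd_dg.comp a (cd_xJ J)).div (cd_dg.comp a cd_pJ) ha.1)

theorem cd_lam (ha : a ∈ Om D) : ContDiffAt ℂ 2 lam a :=
  (cd_eG.comp a (cd_xJ J)).mul (cd_sq J ha)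

theorem cd_Mh (ha : a ∈ Om D) : ContDiffAt ℂ 2 Mh a :=
  (cd_Mp.comp a (cd_xJ J)).div ((cd_det3 ((cd_comp 1).comp a cd_pJ) ((cd_comp 2).comp a cd_pJ)
    cd_nV).mul (cd_dg.comp a cd_pJ)) (mul_ne_zero ha.2.1 ha.1)

theorem cd_kap (ha : a ∈ Om D) : ContDiffAt ℂ 2 kap a :=
  (((cd_eG.comp a cd_pJ).mul ((cd_sq J ha).pow 3)).mul (cd_det3 ((cd_comp 1).comp a cd_pJ)
    ((cd_comp 2).comp a cd_pJ) cd_nV)).div ((cd_eG.comp a (cd_xJ J)).mul
      (cd_det3 ((cd_comp 1).comp a (cd_xJ J)) ((cd_comp 2).comp a (cd_xJ J)) cd_nV))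
    (mul_ne_zero (Complex.exp_ne_zero _) ha.2.2.2)

theorem Gm_zero (χ : Fin D.b → ℂ) (p n : C3) (u : ℂ) : Gm (0, χ, p, n, u) = p + u • n := by
  have h := congrFun (J.xJ_base (fun _ => (0, χ, p + u • n, n, 0)) fun _ => ⟨rfl, rfl⟩) 0
  have h1 : Gm (D := D) (0, χ, p + u • n, n, 0) = p + u • n := h
  rw [← h1]
  simp [Gm]

theorem dGm_zero (χ : Fin D.b → ℂ) (p n : C3) (u v : ℂ) :
    fderiv ℂ (Gm (D := D)) (0, χ, p, n, u) (0, 0, 0, 0, v) = v • n := by
  have h1 : HasDerivAt (fun t : ℂ => ((0, χ, p, n, u) : WW D) + t • ((0, 0, 0, 0, v) : WW D))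
      (0, 0, 0, 0, v) 0 := by
    simpa using ((hasDerivAt_id (0 : ℂ)).smul_const ((0, 0, 0, 0, v) : WW D)).const_add
      ((0, χ, p, n, u) : WW D)
  have h2 := (J.smG.differentiable (by simp) _).hasFDerivAt.comp_hasDerivAt_of_eq (0 : ℂ) h1
    (by simp : ((0, χ, p, n, u) : WW D) = _)
  have h3 : HasDerivAt (fun t : ℂ => p + (u + t * v) • n) (v • n) 0 := by
    simpa using ((((hasDerivAt_id (0 : ℂ)).mul_const v).const_add u).smul_const n).const_add p
  refine h2.unique (h3.congr_of_eventuallyEq (Eventually.of_forall fun t => ?_))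
  beta_reduce
  rw [← Gm_zero J χ]
  simp

omit J

/-- the embedding of the jets of the height -/
def embL (D : EndData w) : J2 ℂ →L[ℂ] J2 (WW D) :=
  ContinuousLinearMap.pi fun k => (ContinuousLinearMap.inr ℂ _ _).comp
    ((ContinuousLinearMap.inr ℂ _ _).comp ((ContinuousLinearMap.inr ℂ _ _).comp
      ((ContinuousLinearMap.inr ℂ _ _).comp (ContinuousLinearMap.proj k))))

theorem embL_apply (m : J2 ℂ) : embL D m = emb 0 m := by
  funext k
  simp [embL, emb]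

variable (D) in
/-- base jet, two jets of functions, weight, parameter -/
abbrev DT : Type := (J2 (WW D) × J2 ℂ × J2 ℂ × ℂ) × ℂ

/-- the deformed jet -/
def aS (d : DT D) : J2 (WW D) := d.1.1 + d.2 • embL D d.1.2.1
/-- the first variation -/
def Ψ₁ (d : DT D) : ℂ := fderiv ℂ lam (aS d) (embL D d.1.2.2.1)
/-- the Euler-Lagrange term -/
def Ψ₂ (d : DT D) : ℂ := Mh (aS d) * d.1.2.2.1 0 * d.1.2.2.2 / kap (aS d)

theorem cd_aS : ContDiff ℂ 2 (aS (D := D)) := by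
  unfold aS
  fun_prop

theorem cd_Ψ₁ (J : JetF D) {d : DT D} (h : aS d ∈ Om D) : ContDiffAt ℂ 1 Ψ₁ d :=
  (((cd_lam J h).fderiv_right (m := 1) (by norm_num)).comp d
    (cd_aS.contDiffAt.of_le (by norm_num))).clm_apply (by fun_prop)

theorem cd_Ψ₂ (J : JetF D) {d : DT D} (h : aS d ∈ Om D) : ContDiffAt ℂ 1 Ψ₂ d := by
  refine ContDiffAt.of_le (n := 2) ?_ (by norm_num)
  exact ((((cd_Mh J h).comp d cd_aS.contDiffAt).mul (by fun_prop)).mul (by fun_prop)).div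
    ((cd_kap J h).comp d cd_aS.contDiffAt) (J.kap_ne _ h)

theorem der_aS (b : J2 (WW D)) (m : J2 ℂ) :
    HasDerivAt (fun s : ℂ => b + s • embL D m) (embL D m) 0 := by
  simpa using ((hasDerivAt_id (0 : ℂ)).smul_const (embL D m)).const_add b

theorem der_Ψ₁ (J : JetF D) {b : J2 (WW D)} (hb : b ∈ Om D) (m m' : J2 ℂ) (o : ℂ) :
    HasDerivAt (fun s => Ψ₁ ((b, m, m', o), s))
      (fderiv ℂ (fderiv ℂ lam) b (embL D m) (embL D m')) 0 := by
  have h1 := (((cd_lam J hb).fderiv_right (m := 1) (by norm_num)).differentiableAt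
    (by simp)).hasFDerivAt.comp_hasDerivAt_of_eq (0 : ℂ) (der_aS b m) (by simp)
  exact (h1.clm_apply (hasDerivAt_const (0 : ℂ) (embL D m'))).congr_deriv (by simp)

theorem der_Ψ₂ (J : JetF D) {b : J2 (WW D)} (hb : b ∈ Om D) (h0 : Mh b = 0) (h1 : kap b = 1)
    (m m' : J2 ℂ) (o : ℂ) :
    HasDerivAt (fun s => Ψ₂ ((b, m, m', o), s)) (Lh b m * m' 0 * o) 0 := by
  have k1 := ((cd_Mh J hb).differentiableAt (by simp)).hasFDerivAt.comp_hasDerivAt_of_eq (0 : ℂ)
    (der_aS b m) (by simp)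
  have k2 := ((cd_kap J hb).differentiableAt (by simp)).hasFDerivAt.comp_hasDerivAt_of_eq (0 : ℂ)
    (der_aS b m) (by simp)
  refine (((k1.mul_const (m' 0)).mul_const o).div k2 (by simp [h1])).congr_deriv ?_
  rw [J.Lh_eq b hb, embL_apply]
  simp [h0, h1]

/-! ### Functions on the surface -/

theorem cd_cx : ContDiff ℝ ∞ cx :=
  contDiff_pi.2 fun i => Complex.ofRealCLM.contDiff.comp (by fun_prop)

theorem cd_φ (P : Patch (SS w)) {y : R2} (hy : y ∈ P.O) : ContDiffAt ℝ ∞ P.φ y :=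
  P.smooth.contDiffAt (P.isOpen_O.mem_nhds hy)

theorem c2s_of_smooth {V : Type} [NormedAddCommGroup V] [NormedSpace ℝ V] {f : E3 → V}
    (hf : ContDiff ℝ ∞ f) : C2S w f := fun P y hy =>
  (hf.contDiffAt.comp y (cd_φ P hy)).of_le (by norm_cast)

theorem cd_st : ContDiff ℝ ∞ st := Real.smoothTransition.contDiff.comp (by fun_prop)

theorem cd_cut (zm : ℝ) (k : ℕ) : ContDiff ℝ ∞ (cut zm k) := cd_st.comp (by fun_prop)

variable (G : Geo D) (zm : ℝ)

theorem cd_bW : ContDiff ℝ ∞ (G.bW zm) :=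
  contDiff_const.prodMk ((contDiff_pi.2 fun _ => Complex.ofRealCLM.contDiff.comp
    (((cd_cut zm 2).comp G.σ_sm).mul (G.ind_sm _))).prodMk
      (cd_cx.prodMk ((cd_cx.comp G.nn_sm).prodMk contDiff_const)))

/-- the deformed surface -/
def XS (u : E3 → ℂ) (s : ℂ) : E3 → C3 := G.XG zm 0 fun p => s * u p
/-- the direction of the variation -/
def YS (v : E3 → ℂ) (p : E3) : C3 := v p • cx (G.nn p)
/-- the data in a patch -/
def dat (P : Patch (SS w)) (u v : E3 → ℂ) (y : R2) : J2 (WW D) × J2 ℂ × J2 ℂ × ℂ :=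
  (G.bJ zm P.φ y, jet2 (fun z => u (P.φ z)) y, jet2 (fun z => v (P.φ z)) y, (G.om (P.φ y) : ℝ))

variable {G zm} {u v : E3 → ℂ}

theorem c2_F (hu : C2S w u) (P : Patch (SS w)) {y : R2} (hy : y ∈ P.O) (s : ℂ) :
    ContDiffAt ℝ 2 (fun z => G.bW zm (P.φ z) + ((0, 0, 0, 0, s * u (P.φ z)) : WW D)) y :=
  (c2s_of_smooth (cd_bW G zm) P y hy).add (contDiffAt_const.prodMk (contDiffAt_const.prodMk
    (contDiffAt_const.prodMk (contDiffAt_const.prodMk (contDiffAt_const.mul (hu P y hy))))))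

theorem c2_XS (J : JetF D) (hu : C2S w u) (s : ℂ) : C2S w (XS G zm u s) := fun P y hy =>
  ((J.smG.restrict_scalars ℝ).contDiffAt.of_le (by norm_cast)).comp y (c2_F hu P hy s)

theorem c2_YS (hv : C2S w v) : C2S w (YS G v) := fun P y hy =>
  (hv P y hy).smul (c2s_of_smooth (cd_cx.comp G.nn_sm) P y hy)

theorem jet2_H {f : R2 → ℂ} {y : R2} (hf : ContDiffAt ℝ 2 f y) :
    jet2 (fun z => ((0, 0, 0, 0, f z) : WW D)) y = embL D (jet2 f y) :=
  jet2_clm (((ContinuousLinearMap.inr ℂ _ _).comp ((ContinuousLinearMap.inr ℂ _ _).comp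
    ((ContinuousLinearMap.inr ℂ _ _).comp (ContinuousLinearMap.inr ℂ _ _))) :
      ℂ →L[ℂ] WW D).restrictScalars ℝ) hf

/-- the first variation formula in a patch -/
theorem rep (J : JetF D) (I : InvF G zm) (hu : C2S w u) (hv : C2S w v) (P : Patch (SS w)) {y : R2}
    (hy : y ∈ P.O) {s : ℂ} (h : aS (dat G zm P u v y, s) ∈ Om D) :
    dg (G.jG (XS G zm u s) (P.φ y)) / dg (G.jG cx (P.φ y)) ∈ Complex.slitPlane ∧
      G.dlagG (XS G zm u s) (YS G v) (P.φ y) = Ψ₁ (dat G zm P u v y, s) ∧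
      G.eulG (XS G zm u s) (YS G v) (P.φ y) = Ψ₂ (dat G zm P u v y, s) := by
  obtain ⟨-, -, -, b1, b2, -⟩ := I.base P y hy
  obtain ⟨v1, v2, v3, -⟩ := I.var_eq P y hy _ _ (c2_XS (G := G) (zm := zm) J hu s P y hy)
    (c2_YS (G := G) hv P y hy)
  set a := aS (dat G zm P u v y, s) with ha
  have e0 : a = jet2 (fun z => G.bW zm (P.φ z) + ((0, 0, 0, 0, s * u (P.φ z)) : WW D)) y := by
    rw [← I.jet_eq P y hy 0 (fun p => s * u p) (contDiffAt_const.mul (hu P y hy)),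
      jet2_smul s (hu P y hy), ← embL_apply, map_smul]
    rfl
  have e1 : jet2 (fun z => XS G zm u s (P.φ z)) y = xJ a := by
    rw [e0, J.chain _ _ (c2_F hu P hy s)]
    rfl
  have e2 : jet2 (fun z => YS G v (P.φ z)) y =
      fderiv ℂ xJ a (emb 0 (jet2 (fun z => v (P.φ z)) y)) := by
    rw [← embL_apply, ← jet2_H (hv P y hy), e0, J.dchain _ _ _ (c2_F hu P hy s)
      (contDiffAt_const.prodMk (contDiffAt_const.prodMk
        (contDiffAt_const.prodMk (contDiffAt_const.prodMk (hv P y hy)))))]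
    congr 1
    funext z
    rw [YS, ← dGm_zero J (fun b => (G.chi zm b (P.φ z) : ℂ)) (cx (P.φ z)) _ (s * u (P.φ z))]
    simp [Geo.bW]
  have e3 : pJ a = jS P.φ y := by
    rw [← b1]
    funext k
    simp [ha, aS, dat, pJ, embL]
  have e4 : nV a = cx (G.nn (P.φ y)) := by
    rw [← b2]
    simp [ha, aS, dat, nV, embL]
  refine ⟨?_, ?_, ?_⟩
  · rw [v1, e1, ← e3]
    exact h.2.2.1
  · rw [v2, e1, e2, ← e3, ← J.dlam_eq a h, ← embL_apply]
    rfl
  · rw [v3, e1, YS, ← e4, ← e3, Ψ₂, eq_div_iff (J.kap_ne a h), J.eul_eq a h, e3, e4,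
      ← I.om_eq P y hy]
    rfl

theorem cont_jet2 {V : Type} [NormedAddCommGroup V] [NormedSpace ℝ V] {f : R2 → V} {y : R2}
    (hf : ContDiffAt ℝ 2 f y) : ContinuousAt (jet2 f) y := by
  have h0 := hf.continuousAt
  have h1 := hf.fderiv_right (m := 1) (by norm_num)
  have h2 := (h1.fderiv_right (m := 0) (by norm_num)).continuousAt
  have h1' := h1.continuousAt
  refine continuousAt_pi.2 fun k => ?_
  fin_cases k
  · exact h0
  · exact h1'.clm_apply continuousAt_const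
  · exact h1'.clm_apply continuousAt_const
  · exact (h2.clm_apply continuousAt_const).clm_apply continuousAt_const
  · exact (h2.clm_apply continuousAt_const).clm_apply continuousAt_const
  · exact (h2.clm_apply continuousAt_const).clm_apply continuousAt_const

theorem cont_iff (I : InvF G zm) (P : Patch (SS w)) {y : R2} (hy : y ∈ P.O) {β : Type}
    [TopologicalSpace β] {f : E3 → β} :
    ContinuousWithinAt f (SS w) (P.φ y) ↔ ContinuousAt (fun z => f (P.φ z)) y := by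
  rw [ContinuousWithinAt, ← I.nhds P y hy, tendsto_map'_iff]
  rfl

theorem cont_dat (I : InvF G zm) (hu : C2S w u) (hv : C2S w v) (P : Patch (SS w)) {y : R2}
    (hy : y ∈ P.O) : ContinuousAt (dat G zm P u v) y :=
  (I.base P y hy).2.2.2.2.2.2.2.continuousAt.prodMk ((cont_jet2 (hu P y hy)).prodMk
    ((cont_jet2 (hv P y hy)).prodMk (Complex.continuous_ofReal.continuousAt.comp
      ((cont_iff I P hy).1 (I.om_cont _ (P.maps y hy).1)))))

theorem pa_spec (G : Geo D) {p : E3} (hp : w p = 0) :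
    (G.pa p).ι p ∈ (G.pa p).O ∧ (G.pa p).φ ((G.pa p).ι p) = p :=
  (G.pa p).inv p hp (G.pa_mem p hp)

/-- from patches to compact parts of the surface -/
theorem unif (I : InvF G zm) {K : Set E3} (hK : IsCompact K) (hS : K ⊆ SS w)
    {Q : ℝ → ℂ → E3 → Prop} (hm : ∀ C C' s p, C ≤ C' → Q C s p → Q C' s p)
    (h : ∀ P : Patch (SS w), ∀ y ∈ P.O, ∃ C, ∀ᶠ q : R2 × ℂ in 𝓝 (y, 0), Q C q.2 (P.φ q.1)) :
    ∃ C, ∀ᶠ s in 𝓝 (0 : ℂ), ∀ p ∈ K, Q C s p := by
  refine hK.induction_on (p := fun T => ∃ C, ∀ᶠ s in 𝓝 (0 : ℂ), ∀ p ∈ T, Q C s p)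
    ⟨0, Eventually.of_forall fun s p hp => hp.elim⟩
    (fun T T' hT ⟨C, hC⟩ => ⟨C, hC.mono fun s hs p hp => hs p (hT hp)⟩) ?_ fun p hp => ?_
  · rintro T T' ⟨C, hC⟩ ⟨C', hC'⟩
    refine ⟨max C C', (hC.and hC').mono fun s hs p hp => ?_⟩
    exact hp.elim (fun h1 => hm _ _ _ _ (le_max_left _ _) (hs.1 p h1))
      fun h1 => hm _ _ _ _ (le_max_right _ _) (hs.2 p h1)
  · obtain ⟨h1, h2⟩ := pa_spec G (hS hp)
    obtain ⟨C, hC⟩ := h _ _ h1
    rw [nhds_prod_eq, eventually_prod_iff] at hC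
    obtain ⟨pa, ha, pb, hb, hC⟩ := hC
    refine ⟨(G.pa p).φ '' {y | pa y}, nhdsWithin_mono p hS ?_, C, hb.mono fun s hs => ?_⟩
    · rw [← h2, ← I.nhds _ _ h1, h2]
      exact image_mem_map ha
    · rintro _ ⟨y, hy, rfl⟩
      exact hC hy hs

/-- families given in patches by a function of class `C¹` of continuous data -/
theorem fam (J : JetF D) (I : InvF G zm) (hu : C2S w u) (hv : C2S w v) {Φ : ℂ → E3 → ℂ}
    {Ψ : DT D → ℂ} (hΨ : ∀ d, aS d ∈ Om D → ContDiffAt ℂ 1 Ψ d)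
    (hr : ∀ P : Patch (SS w), ∀ y ∈ P.O, ∀ s, aS (dat G zm P u v y, s) ∈ Om D →
      Φ s (P.φ y) = Ψ (dat G zm P u v y, s)) {K : Set E3} (hK : IsCompact K) (hS : K ⊆ SS w) :
    ∃ C, ∀ᶠ s in 𝓝 (0 : ℂ), ∀ p ∈ K, ContinuousWithinAt (Φ s) (SS w) p ∧
      ‖Φ s p - Φ 0 p‖ ≤ C * ‖s‖ := by
  refine unif I hK hS (Q := fun C s p => ContinuousWithinAt (Φ s) (SS w) p ∧
    ‖Φ s p - Φ 0 p‖ ≤ C * ‖s‖) (fun C C' s p h h' =>
      ⟨h'.1, h'.2.trans (mul_le_mul_of_nonneg_right h (norm_nonneg _))⟩) fun P y hy => ?_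
  have h0 : ∀ y ∈ P.O, aS (dat G zm P u v y, 0) ∈ Om D := fun y hy => by
    simpa [aS, dat] using (I.base P y hy).2.1
  obtain ⟨C, t, ht, hL⟩ := (hΨ _ (h0 y hy)).exists_lipschitzOnWith
  have c1 : ∀ y ∈ P.O, ∀ s, ContinuousAt (fun q : R2 × ℂ => (dat G zm P u v q.1, q.2)) (y, s) :=
    fun y hy s => ((cont_dat I hu hv P hy).comp_of_eq continuousAt_fst rfl).prodMk continuousAt_snd
  have c2 : ContinuousAt (fun q : R2 × ℂ => (dat G zm P u v q.1, (0 : ℂ))) (y, 0) :=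
    ((cont_dat I hu hv P hy).comp_of_eq continuousAt_fst rfl).prodMk continuousAt_const
  have c3 : ∀ y ∈ P.O, ∀ s, aS (dat G zm P u v y, s) ∈ Om D →
      ∀ᶠ q : R2 × ℂ in 𝓝 (y, s), q.1 ∈ P.O ∧ aS (dat G zm P u v q.1, q.2) ∈ Om D :=
    fun y hy s hs => (continuousAt_fst.eventually (P.isOpen_O.mem_nhds hy)).and
      ((cd_aS.continuous.continuousAt.comp (c1 y hy s)).eventually (J.opn.mem_nhds hs))
  refine ⟨C, ?_⟩
  filter_upwards [c3 y hy 0 (h0 y hy), (c1 y hy 0).eventually ht, c2.eventually ht]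
    with q h1 h2 h3
  refine ⟨(cont_iff I P h1.1).2 ?_, ?_⟩
  · have c4 : ContinuousAt (fun z : R2 => (z, q.2)) q.1 := by fun_prop
    refine ((hΨ _ h1.2).continuousAt.comp_of_eq ((c1 q.1 h1.1 q.2).comp_of_eq c4 rfl) rfl).congr ?_
    filter_upwards [c4.eventually (c3 q.1 h1.1 q.2 h1.2)] with z hz using (hr P z hz.1 _ hz.2).symm
  · rw [hr P _ h1.1 _ h1.2, hr P _ h1.1 _ (h0 _ h1.1), ← dist_eq_norm]
    refine (hL.dist_le_mul _ h2 _ h3).trans (le_of_eq ?_)
    simp [Prod.dist_eq]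

theorem ae_mem (G : Geo D) : ∀ᵐ p ∂muS w, w p = 0 :=
  ae_restrict_mem (isClosed_eq G.shr.smooth.continuous continuous_const).measurableSet

theorem intg (V : VarF G) {K : Set E3} (hK : IsCompact K) {f : E3 → ℂ} (hf : ContinuousOn f K)
    (h0 : ∀ p, w p = 0 → p ∉ K → f p = 0) : Integrable f (muS w) :=
  have := V.fin
  (hf.integrableOn_compact hK).integrable_of_ae_notMem_eq_zero ((ae_mem G).mono h0)

theorem jG_congr (I : InvF G zm) {V : Type} [NormedAddCommGroup V] [NormedSpace ℝ V]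
    {f g : E3 → V} {p : E3} (hp : w p = 0) (h : ∀ᶠ x in 𝓝[SS w] p, f x = g x) :
    G.jG f p = G.jG g p := by
  obtain ⟨h1, h2⟩ := pa_spec G hp
  rw [← h2, ← I.nhds _ _ h1] at h
  exact jet2_congr h

theorem ev_gt (G : Geo D) {p : E3} {R : ℝ} (h : R < G.σ p) :
    ∀ᶠ x in 𝓝[SS w] p, w x = 0 ∧ R < G.σ x :=
  (eventually_mem_nhdsWithin).and (nhdsWithin_le_nhds
    (G.σ_sm.continuous.continuousAt.eventually (lt_mem_nhds h)))

theorem ev_lt (G : Geo D) {p : E3} {R : ℝ} (h : G.σ p < R) :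
    ∀ᶠ x in 𝓝[SS w] p, w x = 0 ∧ G.σ x < R :=
  (eventually_mem_nhdsWithin).and (nhdsWithin_le_nhds
    (G.σ_sm.continuous.continuousAt.eventually (gt_mem_nhds h)))

theorem jG_zero (I : InvF G zm) {V : Type} [NormedAddCommGroup V] [NormedSpace ℝ V]
    {f : E3 → V} {p : E3} (hp : w p = 0) (h : ∀ᶠ x in 𝓝[SS w] p, f x = 0) : G.jG f p = 0 :=
  (jG_congr I (g := fun _ => 0) hp h).trans jet2_zero

/-- the integrand of the first variation formula -/
def FF (G : Geo D) (zm : ℝ) (u v : E3 → ℂ) (s : ℂ) (p : E3) : ℂ :=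
  G.dlagG (XS G zm u s) (YS G v) p + G.eulG (XS G zm u s) (YS G v) p

theorem FF_spec (J : JetF D) (I : InvF G zm) (V : VarF G) (hu : C2S w u) (hv : C2S w v) {R : ℝ}
    (h0 : ∀ p, w p = 0 → R < G.σ p → v p = 0) :
    ∃ C, ∀ᶠ s in 𝓝 (0 : ℂ), Integrable (FF G zm u v s) (muS w) ∧
      ∫ p, FF G zm u v s p ∂muS w = 0 ∧ ∀ p, w p = 0 → ‖FF G zm u v s p - FF G zm u v 0 p‖ ≤
        {p | w p = 0 ∧ G.σ p ≤ R + 1}.indicator (fun _ => C) p * ‖s‖ := by
  have hK := G.cpt (R + 1)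
  have hS : {p | w p = 0 ∧ G.σ p ≤ R + 1} ⊆ SS w := fun p hp => hp.1
  obtain ⟨C1, h1⟩ := fam J I hu hv (Φ := fun s => G.dlagG (XS G zm u s) (YS G v))
    (fun d => cd_Ψ₁ J) (fun P y hy s h => (rep J I hu hv P hy h).2.1) hK hS
  obtain ⟨C2, h2⟩ := fam J I hu hv (Φ := fun s => G.eulG (XS G zm u s) (YS G v))
    (fun d => cd_Ψ₂ J) (fun P y hy s h => (rep J I hu hv P hy h).2.2) hK hS
  obtain ⟨-, h3⟩ := unif I hK hS (Q := fun _ s p =>
    dg (G.jG (XS G zm u s) p) / dg (G.jG cx p) ∈ Complex.slitPlane) (fun _ _ _ _ _ h => h)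
    fun P y hy => ⟨0, by
      have c1 : ContinuousAt (fun q : R2 × ℂ => aS (dat G zm P u v q.1, q.2)) (y, 0) :=
        cd_aS.continuous.continuousAt.comp (((cont_dat I hu hv P hy).comp_of_eq continuousAt_fst
          rfl).prodMk continuousAt_snd)
      filter_upwards [continuousAt_fst.eventually (P.isOpen_O.mem_nhds hy), c1.eventually
        (J.opn.mem_nhds (by simpa [aS, dat] using (I.base P y hy).2.1))] with q a b
      exact (rep J I hu hv P a b).1⟩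
  have hY : ∀ p, w p = 0 → R < G.σ p → YS G v p = 0 := fun p a b => by simp [YS, h0 p a b]
  have z : ∀ s p, w p = 0 → p ∉ {p | w p = 0 ∧ G.σ p ≤ R + 1} →
      G.dlagG (XS G zm u s) (YS G v) p = 0 ∧ G.eulG (XS G zm u s) (YS G v) p = 0 := by
    intro s p hp hn
    have h4 : R < G.σ p := by
      by_contra h5
      exact hn ⟨hp, by linarith [not_lt.1 h5]⟩
    constructor
    · rw [Geo.dlagG, jG_zero I hp ((ev_gt G h4).mono fun x hx => hY x hx.1 hx.2)]
      simp [dlag]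
    · rw [Geo.eulG, hY p hp h4]
      simp [eul, det3]
  refine ⟨C1 + C2, ?_⟩
  filter_upwards [h1, h2, h3] with s k1 k2 k3
  have i1 := intg V hK (fun p hp => (k1 p hp).1.mono hS) fun p a b => (z s p a b).1
  have i2 := intg V hK (fun p hp => (k2 p hp).1.mono hS) fun p a b => (z s p a b).2
  refine ⟨i1.add i2, ?_, fun p hp => ?_⟩
  · unfold FF
    rw [integral_add i1 i2, V.fv _ _ R (c2_XS J hu s) (c2_YS hv) hY
      fun p a b => k3 p ⟨a, by linarith⟩, neg_add_cancel]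
  · by_cases h : p ∈ {p | w p = 0 ∧ G.σ p ≤ R + 1}
    · rw [indicator_of_mem h, FF, FF, add_sub_add_comm, add_mul]
      exact (norm_add_le _ _).trans (add_le_add (k1 p h).2 (k2 p h).2)
    · simp [FF, z _ p hp h, indicator_of_notMem h]

theorem FF_der (J : JetF D) (I : InvF G zm) (hu : C2S w u) (hv : C2S w v) {p : E3} (hp : w p = 0) :
    HasDerivAt (fun s => FF G zm u v s p)
      (fderiv ℂ (fderiv ℂ lam) (G.bJ zm (G.pa p).φ ((G.pa p).ι p)) (embL D (G.jG u p))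
        (embL D (G.jG v p)) + G.LG zm u p * v p * (G.om p : ℝ)) 0 := by
  obtain ⟨h1, h2⟩ := pa_spec G hp
  obtain ⟨-, b1, -, -, -, b2, b3, -⟩ := I.base _ _ h1
  have h3 := (der_Ψ₁ J b1 (G.jG u p) (G.jG v p) (G.om p : ℝ)).add
    (der_Ψ₂ J b1 b2 b3 (G.jG u p) (G.jG v p) (G.om p : ℝ))
  have h4 : G.jG v p 0 = v p := congrArg v h2
  rw [h4] at h3
  refine h3.congr_of_eventuallyEq ?_
  have c1 : ContinuousAt (fun s : ℂ => aS (dat G zm (G.pa p) u v ((G.pa p).ι p), s)) 0 :=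
    cd_aS.continuous.continuousAt.comp (by fun_prop)
  filter_upwards [c1.eventually (J.opn.mem_nhds (by simpa [aS, dat] using b1))] with s hs
  obtain ⟨-, r1, r2⟩ := rep J I hu hv _ h1 hs
  rw [dat, h2] at r1 r2
  rw [FF, r1, r2]
  rfl

theorem bdd_iff (G : Geo D) {V : Type} [Zero V] {v : E3 → V} :
    Bdd w v ↔ ∃ R, ∀ p, w p = 0 → R < G.σ p → v p = 0 := by
  constructor
  · rintro ⟨R, hR⟩
    obtain ⟨C, hC⟩ := (isCompact_closedBall (0 : E3) R).exists_bound_of_continuousOn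
      G.σ_sm.continuous.continuousOn
    refine ⟨C, fun p hp h => hR p hp (le_of_not_ge fun h' => ?_)⟩
    linarith [hC p (mem_closedBall_zero_iff.2 h'), Real.le_norm_self (G.σ p)]
  · rintro ⟨R, hR⟩
    obtain ⟨C, hC⟩ := (G.cpt R).isBounded.exists_norm_le
    refine ⟨C + 1, fun p hp h => hR p hp (lt_of_not_ge fun h' => ?_)⟩
    linarith [hC p ⟨hp, h'⟩]

theorem int_mul (I : InvF G zm) (V : VarF G) {f g : E3 → ℂ} (hf : ContinuousOn f (SS w))
    (hg : ContinuousOn g (SS w)) (hb : Bdd w f ∨ Bdd w g) :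
    Integrable (fun p => f p * g p * (G.om p : ℝ)) (muS w) := by
  refine V.int _ ((hf.mul hg).mul (Complex.continuous_ofReal.comp_continuousOn I.om_cont)) ?_
  rcases hb with ⟨R, hR⟩ | ⟨R, hR⟩ <;> exact ⟨R, fun p a b => by simp [hR p a b]⟩

/-- symmetry for functions with bounded support -/
theorem sym0 (J : JetF D) (I : InvF G zm) (V : VarF G) (hu : C2S w u) (hv : C2S w v)
    (bu : Bdd w u) (bv : Bdd w v) : G.ip (G.LG zm u) v = G.ip u (G.LG zm v) := by
  obtain ⟨R, hR⟩ := (bdd_iff G).1 bu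
  obtain ⟨R', hR'⟩ := (bdd_iff G).1 bv
  obtain ⟨C, h1⟩ := FF_spec J I V hu hv hR'
  obtain ⟨C', h2⟩ := FF_spec J I V hv hu hR
  have := V.fin
  have key : Tendsto (fun s : ℂ => ∫ p, s⁻¹ • ((FF G zm u v s p - FF G zm v u s p) -
      (FF G zm u v 0 p - FF G zm v u 0 p)) ∂muS w) (𝓝[≠] 0)
      (𝓝 (∫ p, (G.LG zm u p * v p * (G.om p : ℝ) - u p * G.LG zm v p * (G.om p : ℝ)) ∂muS w)) := by
    refine tendsto_integral_filter_of_dominated_convergence
      (fun p => {p | w p = 0 ∧ G.σ p ≤ R' + 1}.indicator (fun _ => C) p +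
        {p | w p = 0 ∧ G.σ p ≤ R + 1}.indicator (fun _ => C') p) ?_ ?_ ?_ ?_
    · filter_upwards [nhdsWithin_le_nhds h1, nhdsWithin_le_nhds h2] with s a b
      exact (((a.1.sub b.1).sub (h1.self_of_nhds.1.sub h2.self_of_nhds.1)).smul
        s⁻¹).aestronglyMeasurable
    · filter_upwards [nhdsWithin_le_nhds h1, nhdsWithin_le_nhds h2, self_mem_nhdsWithin]
        with s a b c
      filter_upwards [ae_mem G] with p hp
      rw [norm_smul, norm_inv, inv_mul_le_iff₀ (norm_pos_iff.2 c), sub_sub_sub_comm, mul_comm,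
        add_mul]
      exact (norm_sub_le _ _).trans (add_le_add (a.2.2 p hp) (b.2.2 p hp))
    · exact ((continuousOn_const.integrableOn_compact (G.cpt _)).integrable_indicator
        (G.cpt _).measurableSet).add ((continuousOn_const.integrableOn_compact
          (G.cpt _)).integrable_indicator (G.cpt _).measurableSet)
    · filter_upwards [ae_mem G] with p hp
      have h3 := ((FF_der J I hu hv hp).sub (FF_der J I hv hu hp)).tendsto_slope_zero
      have h4 := (cd_lam J (I.base _ _ (pa_spec G hp).1).2.1).isSymmSndFDerivAt (by simp)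
      rw [h4.eq (embL D (G.jG u p)), add_sub_add_left_eq_sub, mul_comm (G.LG zm v p)] at h3
      simpa using h3
  have h3 : ∀ᶠ s : ℂ in 𝓝[≠] 0, (0 : ℂ) = ∫ p, s⁻¹ • ((FF G zm u v s p - FF G zm v u s p) -
      (FF G zm u v 0 p - FF G zm v u 0 p)) ∂muS w := by
    filter_upwards [nhdsWithin_le_nhds h1, nhdsWithin_le_nhds h2] with s a b
    have a0 := h1.self_of_nhds
    have b0 := h2.self_of_nhds
    rw [integral_smul, integral_sub (f := fun p => FF G zm u v s p - FF G zm v u s p)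
      (g := fun p => FF G zm u v 0 p - FF G zm v u 0 p) (a.1.sub b.1) (a0.1.sub b0.1),
      integral_sub a.1 b.1,
      integral_sub a0.1 b0.1, a.2.1, b.2.1, a0.2.1, b0.2.1]
    simp
  have h4 := tendsto_nhds_unique key (tendsto_const_nhds.congr' h3)
  have cu := I.cont u v hu hv
  have cv := I.cont v u hv hu
  rw [integral_sub (int_mul I V cu.2.1 cv.1 (Or.inr bv)) (int_mul I V cu.1 cv.2.1 (Or.inl bu)),
    sub_eq_zero] at h4
  exact h4

end GreenP

end Vale.Agent.P218N.Core
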