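import Vale.Agent.P218N.Core.Sys
import Vale.Agent.P218N.Core.GreenA

/-! The first variation of the Gaussian area, pointwise identities. -/

open Set Filter Topology Metric MeasureTheory
open scoped RealInnerProductSpace ContDiff Matrix NNReal

noncomputable section

namespace Vale.Agent.P218N.Core.FV

open Vale.Agent.P218.H313 Vale.Agent.P218N.H Vale.Agent.P218N.End Vale.Agent.P272.K.LIN

set_option linter.unusedSectionVars false

variable {w : E3 → ℝ} {D : EndData w} {G : Geo D} {zm : ℝ}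

/-! ### Calculus -/

theorem fderiv_mem {E F : Type} [NormedAddCommGroup E] [NormedSpace ℂ E] [NormedAddCommGroup F]
    [NormedSpace ℂ F] {S : Submodule ℂ F} (hS : IsClosed (S : Set F)) {f : E → F} {f' : E →L[ℂ] F}
    {x : E} (hf : HasFDerivAt f f' x) (h : ∀ᶠ y in 𝓝 x, f y ∈ S) (d : E) : f' d ∈ S := by
  have h0 : HasDerivAt (fun t : ℂ => x + t • d) d 0 := by
    simpa using ((hasDerivAt_id (0 : ℂ)).smul_const d).const_add x
  have e : x = x + (0 : ℂ) • d := by simp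
  have h1 := (e ▸ hf).comp_hasDerivAt 0 h0
  have h2 : ∀ᶠ t in 𝓝 (0 : ℂ), f (x + t • d) ∈ S :=
    h0.continuousAt.tendsto.eventually (p := fun y => f y ∈ S) (by rwa [← e])
  refine hS.mem_of_tendsto (hasDerivAt_iff_tendsto_slope.1 h1) ?_
  filter_upwards [nhdsWithin_le_nhds h2] with t ht
  exact S.smul_mem _ (S.sub_mem ht h2.self_of_nhds)

theorem fderiv_comp_real {g : ℝ → ℝ} {s : R2 → ℝ} {y : R2} (hg : DifferentiableAt ℝ g (s y))
    (hs : DifferentiableAt ℝ s y) (v : R2) : fderiv ℝ (fun z => ((g (s z) : ℝ) : ℂ)) y v =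
      (deriv g (s y) : ℝ) * fderiv ℝ (fun z => (s z : ℂ)) y v := by
  have h1 : HasFDerivAt (fun z => ((g (s z) : ℝ) : ℂ)) _ y := Complex.ofRealCLM.hasFDerivAt.comp y
    (hg.hasDerivAt.comp_hasFDerivAt y hs.hasFDerivAt)
  have h2 : HasFDerivAt (fun z => (s z : ℂ)) _ y :=
    Complex.ofRealCLM.hasFDerivAt.comp y hs.hasFDerivAt
  rw [h1.fderiv, h2.fderiv]
  simp

theorem flx_smul (b j : J2 C3) (t x y : ℂ) : flx b j (t * x) (t * y) = t • flx b j x y := by
  ext i
  simp only [flx, Pi.smul_apply, Pi.add_apply, smul_eq_mul]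
  ring

theorem deriv_cut_zero {k : ℕ} {ζ : ℝ} (h : ζ ∉ Icc (zm + k + 1 / 3) (zm + k + 2 / 3)) :
    deriv (cut zm k) ζ = 0 := by
  rcases not_and_or.1 h with h | h
  · exact Complex.ofReal_eq_zero.1 (congrFun (jz_cut_zero (not_le.1 h)) 1)
  · exact Complex.ofReal_eq_zero.1 (congrFun (jz_cut_one (not_le.1 h)) 1)

theorem cont_dcut (zm : ℝ) (k : ℕ) : Continuous (deriv (cut zm k)) :=
  ((contDiff_cut zm k).iterate_deriv 1).continuous

theorem line_lam (J : JetF D) {b : J2 (WW D)} {c : Cc D} {m : J2 ℂ} (ha : b + emb c m ∈ Om D)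
    (c' : Cc D) (m' : J2 ℂ) : HasDerivAt (fun t : ℂ => lam (b + emb (c + t • c') (m + t • m')))
      (fderiv ℂ lam (b + emb c m) (emb c' m')) 0 := by
  have e : ∀ t : ℂ, b + emb (c + t • c') (m + t • m') = b + emb c m + t • emb c' m' := fun t => by
    rw [emb_add, add_assoc, ← embL_apply c', ← map_smul, Prod.smul_mk, embL_apply]
  have h0 : HasDerivAt (fun t : ℂ => b + emb c m + t • emb c' m') (emb c' m') 0 := by
    simpa using ((hasDerivAt_id (0 : ℂ)).smul_const (emb c' m')).const_add (b + emb c m)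
  have h1 := ((J.dlam _ ha).differentiableAt (J.opn.mem_nhds ha)).hasFDerivAt
  have e0 : b + emb c m = b + emb c m + (0 : ℂ) • emb c' m' := by simp
  simp only [e]
  exact HasFDerivAt.comp_hasDerivAt_of_eq _ h1 h0 e0

theorem dlam_low (J : JetF D) {b : J2 (WW D)} {c : Cc D} (c' : Cc D) {m M m' M' : J2 ℂ}
    (h : T1 m = T1 M) (h' : T1 m' = T1 M') (ha : b + emb c m ∈ Om D) :
    fderiv ℂ lam (b + emb c m) (emb c' m') = fderiv ℂ lam (b + emb c M) (emb c' M') := by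
  refine (line_lam J ha c' m').unique ((line_lam J ((J.low b c m M h).2.2 ha) c' M').congr_of_eventuallyEq
    (Eventually.of_forall fun t => (J.low b _ _ _ ?_).2.1))
  rw [← T1L_apply, ← T1L_apply, map_add, map_add, map_smul, map_smul]
  simp only [T1L_apply, h, h']

/-! ### The deformed surface and its variation -/

variable (G zm) in
/-- the cut off function -/
def cu (u : E3 → ℂ) (p : E3) : ℂ := (1 - (cut zm 5 (G.σ p) : ℝ)) * u p

variable (G zm) in
/-- the direction of the variation -/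
def YG (c c' : Cc D) (u u' : E3 → ℂ) (p : E3) : C3 :=
  fderiv ℂ Gm (G.bW zm p + ((c, 0, 0, 0, u p) : WW D)) (c', 0, 0, 0, u' p)

variable {u u' : E3 → ℂ} {c c' : Cc D}

theorem cu_eq {p : E3} (h : G.σ p ≤ zm + 5 + 1 / 3) : cu G zm u p = u p := by
  rw [cu, cut_zero (by push_cast; exact h)]; simp

theorem cu_jet (P : Patch (SS w)) {y : R2} (hy : y ∈ P.O) (h : G.σ (P.φ y) < zm + 5 + 1 / 3) :
    jet2 (fun z => cu G zm u (P.φ z)) y = jet2 (fun z => u (P.φ z)) y := by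
  refine jet2_congr ?_
  filter_upwards [(G.σ_cont P hy).eventually (Iio_mem_nhds h)] with z hz using cu_eq (le_of_lt hz)

theorem cu_aG {p : E3} (hp : w p = 0) (h : G.σ p < zm + 5 + 1 / 3) :
    G.aG zm c (cu G zm u) p = G.aG zm c u p := by
  rw [Geo.aG, Geo.aG, Geo.jG, Geo.jG, cu_jet _ (G.pa_O hp).1 (by rwa [(G.pa_O hp).2])]

theorem c2_cu (hu : ∀ (P : Patch (SS w)), ∀ y ∈ P.O, G.σ (P.φ y) < zm + 7 →
    ContDiffAt ℝ 2 (fun z => u (P.φ z)) y) : C2S w (cu G zm u) := fun P y hy => by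
  by_cases h : G.σ (P.φ y) < zm + 7
  · exact (GreenP.c2s_of_smooth (contDiff_const.sub ((Ctx.contDiff_cutC 5).comp G.σ_sm)) P y hy).mul
      (hu P y hy h)
  · refine (contDiffAt_const (c := (0 : ℂ))).congr_of_eventuallyEq ?_
    filter_upwards [(G.σ_cont P hy).eventually
      (Ioi_mem_nhds (show zm + 6 < G.σ (P.φ y) by linarith))] with z hz
    rw [cu, cut_one (by push_cast; linarith [show zm + 6 < _ from hz])]; simp

theorem c2_H (c : Cc D) (hu : C2S w u) : C2S w fun p => ((c, 0, 0, 0, u p) : WW D) := fun P y hy =>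
  contDiffAt_const.prodMk (contDiffAt_const.prodMk
    (contDiffAt_const.prodMk (contDiffAt_const.prodMk (hu P y hy))))

theorem c2_F (c : Cc D) (hu : C2S w u) :
    C2S w fun p => G.bW zm p + ((c, 0, 0, 0, u p) : WW D) := fun P y hy =>
  (GreenP.c2s_of_smooth (GreenP.cd_bW G zm) P y hy).add (c2_H c hu P y hy)

theorem c2_X (J : JetF D) (c : Cc D) (hu : C2S w u) : C2S w (G.XG zm c u) := fun P y hy =>
  ((J.smG.restrict_scalars ℝ).contDiffAt.of_le two_le).comp y (c2_F c hu P y hy)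

theorem c2_Y (J : JetF D) (c c' : Cc D) (hu : C2S w u) (hu' : C2S w u') :
    C2S w (YG G zm c c' u u') := fun P y hy =>
  (((J.smG.contDiff_fderiv_apply (m := 2) (by norm_cast)).restrict_scalars ℝ).contDiffAt).comp y
    ((c2_F c hu P y hy).prodMk (c2_H c' hu' P y hy))

variable (G zm) in
/-- all data in a patch -/
def aP (P : Patch (SS w)) (y : R2) (c : Cc D) (u : E3 → ℂ) : J2 (WW D) :=
  G.bJ zm P.φ y + emb c (jet2 (fun z => u (P.φ z)) y)

section rep
variable (J : JetF D) (I : InvF G zm) (hu : C2S w u) (hu' : C2S w u') (P : Patch (SS w)) {y : R2}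
  (hy : y ∈ P.O)

include I hy in
theorem pJ_aP : pJ (aP G zm P y c u) = jS P.φ y := (pJ_add_emb _ _ _).trans (I.base P y hy).2.2.2.1

include I hy in
theorem nV_aP : nV (aP G zm P y c u) = cx (G.nn (P.φ y)) :=
  (nV_add_emb _ _ _).trans (I.base P y hy).2.2.2.2.1

include I hu hy in
theorem aP_zero : aP G zm P y c u 0 = G.bW zm (P.φ y) + ((c, 0, 0, 0, u (P.φ y)) : WW D) :=
  congrFun (I.jet_eq P y hy c u (hu P y hy)) 0

include J I hu hy in
theorem xJ_aP : xJ (aP G zm P y c u) = jet2 (fun z => G.XG zm c u (P.φ z)) y := by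
  rw [aP, I.jet_eq P y hy c u (hu P y hy), J.chain _ _ (c2_F c hu P y hy)]
  rfl

include J I hu hu' hy in
theorem dlam_aP (ha : aP G zm P y c u ∈ Om D) :
    fderiv ℂ lam (aP G zm P y c u) (emb c' (jet2 (fun z => u' (P.φ z)) y)) =
      G.dlagG (G.XG zm c u) (YG G zm c c' u u') (P.φ y) := by
  have e1 : emb c' (jet2 (fun z => u' (P.φ z)) y) =
      jet2 (fun z => ((c', 0, 0, 0, u' (P.φ z)) : WW D)) y := by
    have := I.jet_eq P y hy c' u' (hu' P y hy)
    rw [jet2_add (GreenP.c2s_of_smooth (GreenP.cd_bW G zm) P y hy) (c2_H c' hu' P y hy)] at this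
    exact add_left_cancel this
  rw [J.dlam_eq _ ha, (I.var_eq P y hy _ _ (c2_X J c hu P y hy) (c2_Y J c c' hu hu' P y hy)).2.1,
    pJ_aP I P hy, xJ_aP J I hu P hy, e1, aP, I.jet_eq P y hy c u (hu P y hy),
    J.dchain _ _ _ (c2_F c hu P y hy) (c2_H c' hu' P y hy)]
  rfl

end rep

section surf
variable (J : JetF D) (I : InvF G zm) (hu : C2S w u) (hu' : C2S w u') {p : E3} (hp : w p = 0)

include J I hu hp in
theorem slit (ha : G.aG zm c u p ∈ Om D) :
    dg (G.jG (G.XG zm c u) p) / dg (G.jG cx p) ∈ Complex.slitPlane := by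
  have h := ha.2.2.1
  rw [show G.aG zm c u p = aP G zm (G.pa p) ((G.pa p).ι p) c u from rfl,
    xJ_aP J I hu _ (G.pa_O hp).1, pJ_aP I _ (G.pa_O hp).1] at h
  exact h

include J hp in
theorem dlag_cut {X Y : E3 → C3} (hY : C2S w Y) :
    G.dlagG X (fun p => ((1 - cut zm 4 (G.σ p) : ℝ) : ℂ) • Y p) p =
      ((1 - cut zm 4 (G.σ p) : ℝ) : ℂ) * G.dlagG X Y p -
        (deriv (cut zm 4) (G.σ p) : ℝ) * G.flxG X Y p := by
  obtain ⟨h1, h2⟩ := G.pa_O hp
  have hg : ContDiff ℝ ∞ fun ζ => 1 - cut zm 4 ζ := contDiff_const.sub (contDiff_cut zm 4)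
  have h3 := J.dlag_smul (G.jG cx p) (G.jG X p) (fun z => ((1 - cut zm 4 (G.σ ((G.pa p).φ z)) : ℝ) : ℂ))
    (fun z => Y ((G.pa p).φ z)) _ (GreenP.c2s_of_smooth
      (Complex.ofRealCLM.contDiff.comp (hg.comp G.σ_sm)) _ _ h1) (hY _ _ h1)
  have h4 := fderiv_comp_real (g := fun ζ => 1 - cut zm 4 ζ) (s := fun z => G.σ ((G.pa p).φ z))
    (hg.differentiable (by simp) _)
    ((G.σ_sm.contDiffAt.comp _ ((G.pa p).contDiffAt h1)).differentiableAt (by simp))
  rw [deriv_const_sub, h2] at h4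
  refine h3.trans ?_
  rw [show jet2 (fun z => ((1 - cut zm 4 (G.σ ((G.pa p).φ z)) : ℝ) : ℂ)) ((G.pa p).ι p) 1 = _ from
    h4 (1, 0), show jet2 (fun z => ((1 - cut zm 4 (G.σ ((G.pa p).φ z)) : ℝ) : ℂ)) ((G.pa p).ι p) 2 = _
    from h4 (0, 1), flx_smul, h2, smul_dotProduct, smul_eq_mul, Complex.ofReal_neg, neg_mul]
  rfl

include J I hu hp in
theorem eul_cut {κ : Type} [Fintype κ] {ψ : κ → E3 → ℝ} {lm : κ → ℂ}
    (hψ : ∀ k, zm + 2 ≤ G.σ p → ψ k p = 0) (ha : G.σ p < zm + 5 → G.aG zm c u p ∈ Om D ∧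
      Mh (G.aG zm c u p) = kap (G.aG zm c u p) * sumP ψ lm p) :
    G.eulG (G.XG zm c u) (fun p => ((1 - cut zm 4 (G.σ p) : ℝ) : ℂ) • YG G zm c c' u u' p) p =
      ∑ k, lm k * (u' p * cF (ψ k) p * (G.om p : ℝ)) := by
  obtain ⟨h1, h2⟩ := G.pa_O hp
  have e0 : G.aG zm c u p = aP G zm (G.pa p) ((G.pa p).ι p) c u := rfl
  have e1 : ∀ Y : E3 → C3, G.eulG (G.XG zm c u) Y p =
      eul (pJ (G.aG zm c u p)) (xJ (G.aG zm c u p)) (Y p) := fun Y => by
    rw [e0, xJ_aP J I hu _ h1, pJ_aP I _ h1]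
    rfl
  rw [e1]
  by_cases h : zm + 2 ≤ G.σ p
  · have e2 : ∀ k, cF (ψ k) p = 0 := fun k => by rw [cF, hψ k h, Complex.ofReal_zero]
    simp only [e2, mul_zero, zero_mul, Finset.sum_const_zero]
    by_cases h5 : G.σ p < zm + 5
    · refine J.eul_zero _ (ha h5).1 ?_ _
      rw [(ha h5).2, sumP, Finset.sum_eq_zero fun k _ => by rw [hψ k h]; simp, mul_zero]
    · rw [cut_one (by push_cast; linarith)]
      simp [eul, det3]
  · obtain ⟨a1, a2⟩ := ha (by linarith)
    have e3 : YG G zm c c' u u' p = u' p • nV (G.aG zm c u p) := by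
      rw [YG, J.dG0, e0, nV_aP I _ h1, h2]
      · simp [Geo.bW]
      · funext b
        simp [Geo.bW, Geo.chi, cut_zero (zm := zm) (k := 2) (ζ := G.σ p) (by push_cast; linarith)]
    have e4 := J.eul_eq _ a1 (u' p)
    have e5 := I.om_eq _ _ h1
    rw [h2, ← pJ_aP (c := c) (u := u) I _ h1, ← h2, ← nV_aP (c := c) (u := u) I _ h1, h2, ← e0] at e5
    rw [← e5, a2] at e4
    rw [cut_zero (by push_cast; linarith), e3, sub_zero, Complex.ofReal_one, one_smul]
    refine mul_right_cancel₀ (J.kap_ne _ a1) (e4.trans ?_)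
    simp only [sumP, cF, Finset.mul_sum, Finset.sum_mul]
    exact Finset.sum_congr rfl fun k _ => by ring

end surf

/-- the flux density on an end -/
theorem flx_end (J : JetF D) (I : InvF G zm) (E : EndF G zm) (hu : C2S w u) (hu' : C2S w u')
    (e : En D) {q : R2} (h0 : G.z0 < q.1) (h3 : zm + 3 ≤ q.1) {m : J2 ℂ} {dy : ℂ}
    (hm : jet2 (fun z => u (pt e z)) q = (G.s e : ℂ) • m) (hd : u' (pt e q) = G.s e * dy)
    (ha : G.aG zm c u (pt e q) ∈ Om D) :
    G.flxG (G.XG zm c u) (YG G zm c c' u u') (pt e q) * Complex.sqrt (dg (jS (pt e) q)) =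
      fluxE e q (jy e q + m) dy + tqE e q (jy e q + m) fun b => al (c b) (c' b) := by
  have hy := G.mem_ep e h0
  have a1 := (I.var_eq _ _ hy _ _ (c2_X (G := G) (zm := zm) J c hu _ _ hy)
    (c2_Y (G := G) (zm := zm) J c c' hu hu' _ _ hy)).2.2.2
  have a2 := (I.inv _ _ hy c u (hu _ _ hy) _ rfl).1
  have a3 := aP_zero (c := c) I hu _ hy
  rw [← xJ_aP J I hu _ hy, ← pJ_aP (c := c) (u := u) I _ hy] at a1
  simp only [aP, G.ep_φ, hm] at a1 a2 a3
  have a4 : jet2 (fun z => (G.σ (pt e z) : ℂ)) q = jz id q.1 := by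
    rw [← J.jz_eq id q contDiffAt_id]
    refine jet2_congr ?_
    filter_upwards [continuous_fst.continuousAt.eventually (Ioi_mem_nhds h0)] with z hz
    rw [G.σ_pt e z hz, id]
  rw [← E.flux e q c c' m dy h0 h3 _ rfl (a2.1 ha), a1, a4, a3, YG, hd]
  simp [jz]

end Vale.Agent.P218N.Core.FV
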