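import Vale.Agent.P218N.Core.FVa
import Vale.Agent.P218N.Core.PathA

/-! The first variation of the Gaussian area, integrals. -/

open Set Filter Topology Metric MeasureTheory
open scoped RealInnerProductSpace ContDiff Matrix NNReal

noncomputable section

namespace Vale.Agent.P218N.Core.FV

open Vale.Agent.P218.H313 Vale.Agent.P218N.H Vale.Agent.P218N.End Vale.Agent.P272.K.LIN

set_option linter.unusedSectionVars false

variable {w : E3 → ℝ} {D : EndData w} {G : Geo D} {zm : ℝ} {u u' : E3 → ℂ} {c c' : Cc D}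

theorem int_congr (G : Geo D) {f g : E3 → ℂ} (h : ∀ p, w p = 0 → f p = g p) :
    ∫ p, f p ∂(muS w) = ∫ p, g p ∂(muS w) :=
  integral_congr_ae ((ae_restrict_mem
    (isClosed_eq G.shr.smooth.continuous continuous_const).measurableSet).mono h)

/-! ### The first variation formula on the surface -/

section surf
variable (J : JetF D) (I : InvF G zm) (V : VarF G) (hu : C2S w u) (hu' : C2S w u')
  (hom : ∀ p, w p = 0 → G.σ p < zm + 5 → G.aG zm c u p ∈ Om D)

include J I V hu hu' hom in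
theorem cont_flx : ContinuousOn (fun p => ((deriv (cut zm 4) (G.σ p) : ℝ) : ℂ) *
    G.flxG (G.XG zm c u) (YG G zm c c' u u') p) (SS w) :=
  (V.cont _ _ _ (zm + 4 + 2 / 3) (c2_X J c hu) (c2_Y J c c' hu hu')
    (Complex.continuous_ofReal.comp ((cont_dcut zm 4).comp G.σ_sm.continuous)).continuousOn
    (fun p _ h => Complex.ofReal_eq_zero.2
      (deriv_cut_zero fun h' => absurd h'.2 (by push_cast; exact not_le.2 h)))
    fun p hp h => slit J I hu hp (hom p hp (by linarith))).2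

include J I V hu hu' hom in
theorem fv_surf {κ : Type} [Fintype κ] {ψ : κ → E3 → ℝ} {lm : κ → ℂ} (hc : ∀ k, Continuous (ψ k))
    (hψ : ∀ k p, w p = 0 → zm + 2 ≤ G.σ p → ψ k p = 0) (heq : ∀ p, w p = 0 → G.σ p < zm + 5 →
      Mh (G.aG zm c u p) = kap (G.aG zm c u p) * sumP ψ lm p) :
    ∫ p, ((1 - cut zm 4 (G.σ p) : ℝ) : ℂ) * G.dlagG (G.XG zm c u) (YG G zm c c' u u') p ∂(muS w) =
      -∑ k, lm k * G.ip u' (cF (ψ k)) + ∫ p, ((deriv (cut zm 4) (G.σ p) : ℝ) : ℂ) *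
        G.flxG (G.XG zm c u) (YG G zm c c' u u') p ∂(muS w) := by
  have hX := c2_X (G := G) (zm := zm) J c hu
  have hY := c2_Y (G := G) (zm := zm) J c c' hu hu'
  have hg : ContDiff ℝ ∞ fun p => ((1 - cut zm 4 (G.σ p) : ℝ) : ℂ) := Complex.ofRealCLM.contDiff.comp
    ((contDiff_const.sub (contDiff_cut zm 4)).comp G.σ_sm)
  have h0 : ∀ p, zm + 4 + 2 / 3 < G.σ p → ((1 - cut zm 4 (G.σ p) : ℝ) : ℂ) = 0 := fun p h => by
    rw [cut_one (by push_cast; exact h.le)]; simp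
  have hs : ∀ p, w p = 0 → G.σ p ≤ zm + 4 + 2 / 3 + 1 / 10 → _ := fun p hp h =>
    slit J I hu hp (hom p hp (by linarith))
  have h1 := V.fv _ (fun p => ((1 - cut zm 4 (G.σ p) : ℝ) : ℂ) • YG G zm c c' u u' p) _ hX
    (fun P y hy => (GreenP.c2s_of_smooth hg P y hy).smul (hY P y hy))
    (fun p _ h => by rw [h0 p h, zero_smul]) hs
  have i1 := V.int _ (V.cont _ _ _ _ hX hY hg.continuous.continuousOn (fun p _ => h0 p) hs).1
    ((GreenP.bdd_iff G).2 ⟨_, fun p _ h => by rw [h0 p h, zero_mul]⟩)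
  have i2 := V.int _ (cont_flx (c' := c') J I V hu hu' hom) ((GreenP.bdd_iff G).2
    ⟨zm + 4 + 2 / 3, fun p _ h => by
      rw [deriv_cut_zero fun h' => absurd h'.2 (by push_cast; exact not_le.2 h)]; simp⟩)
  have i3 : ∀ k, Integrable (fun p => lm k * (u' p * cF (ψ k) p * (G.om p : ℝ))) (muS w) := fun k =>
    (V.int _ (((I.cont u' u' hu' hu').1.mul
      (Complex.continuous_ofReal.comp (hc k)).continuousOn).mul
      (Complex.continuous_ofReal.comp_continuousOn I.om_cont)) ((GreenP.bdd_iff G).2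
      ⟨zm + 2, fun p hp h => by simp [hψ k p hp h.le]⟩)).const_mul _
  rw [int_congr G fun p hp => dlag_cut J hp hY, integral_sub i1 i2,
    int_congr G fun p hp => eul_cut (c' := c') (u' := u') (ψ := ψ) (lm := lm) J I hu hp
      (fun k => hψ k p hp) fun h => ⟨hom p hp h, heq p hp h⟩,
    integral_finsetSum _ fun k _ => i3 k] at h1
  simp only [integral_const_mul] at h1
  exact sub_eq_iff_eq_add.1 h1

end surf

/-- integrals over the ends in the parameter of the path -/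
theorem int_ends (I : InvF G zm) (V : VarF G) (pf : PathF D zm) (hz : G.z0 + 1 ≤ zm) {n : ℕ}
    (hn : 4 ≤ n) {f : E3 → ℂ} (hf : ContinuousOn f (SS w))
    (h0 : ∀ p, w p = 0 → G.σ p ∉ Icc (zm + 4) (TT zm n) → f p = 0) {F : En D → ℝ → ℂ}
    {T : En D → ℂ} (hF : ∀ e t, ∫ θ in (0 : ℝ)..2 * Real.pi,
      f (pt e (zr zm 4 n t, θ)) * Complex.sqrt (dg (jS (pt e) (zr zm 4 n t, θ))) =
        (deriv (cut zm 4) (zr zm 4 n t) : ℝ) * (F e t + T e)) :
    ∫ p, f p ∂(muS w) = ∑ e, ((∫ t in (0 : ℝ)..1,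
      (deriv (cut zm 4) (zr zm 4 n t) * gr 4 n t : ℝ) * F e t) + T e) := by
  have hn' : (4 : ℝ) ≤ n := by exact_mod_cast hn
  have hT : zm + 5 ≤ TT zm n := by rw [TT]; linarith
  have hm : ∀ t, zr zm 4 n t ∈ Icc (zm + (4 : ℕ)) (TT zm n) := fun t => pf.mem 4 n t hn
  rw [V.ends f (zm + (4 : ℕ)) (TT zm n) hf (by push_cast; linarith) (by push_cast; linarith)
    (by exact_mod_cast h0)]
  refine Finset.sum_congr rfl fun e _ => ?_
  have c1 : ∀ q : R2, G.z0 < q.1 →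
      ContinuousAt (fun q => f (pt e q) * Complex.sqrt (dg (jS (pt e) q))) q := fun q hq => by
    have hy := G.mem_ep e hq
    have a1 := (G.ep e q.2).contDiffAt hy
    obtain ⟨a, b, c, e1, e2, e3, -, -, h3⟩ := I.pos _ _ hy
    rw [G.ep_φ] at a1 e1 e2 e3
    refine ((hf _ (G.pt_mem e hq)).tendsto.comp (tendsto_nhdsWithin_iff.2 ⟨a1.continuousAt, ?_⟩)).mul
      ((Complex.continuousAt_sqrt (Or.inl ?_)).comp (f := fun q => dg (jS (pt e) q))
        ((GreenP.cd_dg (n := 0)).continuousAt.comp (f := jS (pt e))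
          (GreenP.cont_jet2 ((GreenP.cd_cx.contDiffAt.comp _ a1).of_le two_le))))
    · filter_upwards [continuous_fst.continuousAt.eventually (Ioi_mem_nhds hq)] with z hz
      exact G.pt_mem e hz
    · rw [dg, e1, e2, e3]
      norm_cast
      linarith
  have c2 : ContinuousOn (fun ζ => ∫ θ in (0 : ℝ)..2 * Real.pi,
      f (pt e (ζ, θ)) * Complex.sqrt (dg (jS (pt e) (ζ, θ)))) (Icc (zm + (4 : ℕ)) (TT zm n)) := by
    rw [continuousOn_iff_continuous_domRestrict]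
    refine intervalIntegral.continuous_parametric_intervalIntegral_of_continuous'
      (f := fun (ζ : Icc (zm + (4 : ℕ)) (TT zm n)) θ =>
        f (pt e (ζ, θ)) * Complex.sqrt (dg (jS (pt e) (ζ, θ))))
      (continuous_iff_continuousAt.2 fun x => ?_) _ _
    refine (c1 (x.1, x.2) ?_).comp (f := fun x : Icc (zm + (4 : ℕ)) (TT zm n) × ℝ =>
      ((x.1 : ℝ), x.2)) (by fun_prop)
    have := x.1.2.1
    push_cast at this
    linarith
  have cg := Complex.continuous_ofReal.comp (PathP.continuous_gr 4 n)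
  have c3 := cg.mul (c2.comp_continuous (PathP.continuous_zr zm 4 n) hm)
  have cd := Complex.continuous_ofReal.comp (cont_dcut zm 4)
  have c4 := cg.mul (cd.comp (PathP.continuous_zr zm 4 n))
  have e1 := pf.int 4 n _ hn cd.continuousOn
  rw [← pf.int 4 n _ hn c2]
  have e2 : ∫ ζ in (zm + (4 : ℕ))..TT zm n, ((deriv (cut zm 4) ζ : ℝ) : ℂ) = 1 := by
    rw [intervalIntegral.integral_ofReal, intervalIntegral.integral_deriv_eq_sub
      (fun x _ => (contDiff_cut zm 4).differentiable (by simp) x)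
      ((cont_dcut zm 4).intervalIntegrable _ _), cut_one (by push_cast; linarith),
      cut_zero (by linarith)]
    simp
  have e3 := intervalIntegral.integral_sub (c3.intervalIntegrable (μ := volume) 0 1)
    ((c4.mul (continuous_const (y := T e))).intervalIntegrable 0 1)
  simp only [Pi.mul_apply, Function.comp_apply, intervalIntegral.integral_mul_const] at e1 e3
  rw [e1, e2, one_mul] at e3
  rw [← sub_eq_iff_eq_add, ← e3]
  refine intervalIntegral.integral_congr fun t _ => ?_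
  simp only [hF]
  push_cast
  ring

/-! ### The integral over the core as a functional on the double -/

variable {X : Type} [TopologicalSpace X] [ChartedSpace R2 X] [T2Space X] [CompactSpace X]
  [RSm R2 X] (C : Ctx G zm X)

theorem exists_l4 : ∃ l4 : C.H →L[ℂ] ℂ, ∀ (f : C.H) (g : E3 → ℂ),
    (∀ x, 0 < C.Z.τ x → G.σ (C.Z.pr x) < zm + 5 → f x = g (C.Z.pr x)) →
    l4 f = ∫ p, ((1 - cut zm 4 (G.σ p) : ℝ) : ℂ) * g p ∂(muS w) := by
  have h0 : ∀ p, zm + 5 ≤ G.σ p → ((1 - cut zm 4 (G.σ p) : ℝ) : ℂ) = 0 := fun p h => by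
    rw [cut_one (by push_cast; linarith)]; simp
  obtain ⟨l4, h⟩ := C.tf.int (fun p => ((1 - cut zm 4 (G.σ p) : ℝ) : ℂ))
    (Complex.continuous_ofReal.comp (continuous_const.sub
      ((contDiff_cut zm 4).continuous.comp G.σ_sm.continuous))).continuousOn
    fun p _ h => h0 p (by linarith)
  refine ⟨l4, fun f g hf => (h f).trans (int_congr G fun p hp => ?_)⟩
  by_cases h5 : G.σ p < zm + 5
  · obtain ⟨x, rfl, hx⟩ := C.tf.ex p hp (by linarith)
    rw [C.tf.dn_pr _ x hx, hf x hx h5, mul_comm]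
  · rw [h0 p (not_lt.1 h5), mul_zero, zero_mul]

variable {v v' : C.U} {j j' : JJ D zm} {Yf Yf' : En D → R2 → ℂ} {T : ℝ}

theorem c2_tot (hY : YF zm j Yf T) (v : C.U) : C2S w (cu G zm (C.tot v Yf)) :=
  c2_cu fun P _ hy h => C.tot_c2 hY v P hy (h.trans_le hY.le)

theorem T1_mI (hop : C.OpS) (hY : YF zm j Yf T) (v : C.U) {i : Fin C.Z.𝒞.N} (hi : i ∈ C.Z.A) {x : X}
    (hρ : C.Z.pou.ρ i x ≠ 0) (h5 : G.σ (C.Z.pr x) < zm + 5) : T1 (fun k => C.mI i (v, j) k x) =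
      T1 (jet2 (fun z => cu G zm (C.tot v Yf) ((C.Z.P i).φ z)) (C.Z.𝒞.e i x)) := by
  obtain ⟨a1, a2⟩ := hop.pt_eq i hi x hρ
  rw [hop.T1_mI j Yf T v hY i hi x hρ (by linarith), cu_jet _ a1 (by rw [a2]; linarith)]

theorem lam_aX (hop : C.OpS) (hY : YF zm j Yf T) (v : C.U) {i : Fin C.Z.𝒞.N} (hi : i ∈ C.Z.A) {x : X}
    (hρ : C.Z.pou.ρ i x ≠ 0) (h5 : G.σ (C.Z.pr x) < zm + 5) :
    lam (C.aX i (c, v, j) x) = lam (G.aG zm c (C.tot v Yf) (C.Z.pr x)) := by
  obtain ⟨a1, a2⟩ := hop.pt_eq i hi x hρ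
  rw [← cu_aG (C.Z.mem x).1 (by linarith), ← a2,
    (C.iv.inv _ _ a1 c _ (c2_tot C hY v _ _ a1) _ rfl).2.2.2]
  exact (C.jf.low _ c _ _ (T1_mI C hop hY v hi hρ h5)).2.1

theorem sum_eq {x : X} (hx : 0 < C.Z.τ x) (h5 : G.σ (C.Z.pr x) < zm + 5) {f : Fin C.Z.𝒞.N → ℂ}
    {a : ℂ} (h : ∀ i ∈ C.Z.A, C.Z.pou.ρ i x ≠ 0 → f i = a) :
    ∑ i ∈ C.Z.A, C.Z.pou.ρ i x * C.b1 x * f i = a := by
  rw [← one_mul a, ← C.sum_act hx (by linarith), Finset.sum_mul, C.b1_one hx (by linarith)]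
  refine Finset.sum_congr rfl fun i hi => ?_
  by_cases hρ : C.Z.pou.ρ i x = 0
  · simp [hρ]
  · rw [h i hi hρ, mul_one]

theorem SM_val (hop : C.OpS) {r : ℝ} (hS : C.SMF lam r) (hY : YF zm j Yf T)
    (hz : (c, v, j) ∈ ball (0 : Cc D × (C.U × JJ D zm)) r) {x : X} (hx : 0 < C.Z.τ x)
    (h5 : G.σ (C.Z.pr x) < zm + 5) :
    C.SM lam (c, v, j) x = lam (G.aG zm c (C.tot v Yf) (C.Z.pr x)) :=
  (hS.val _ hz x).trans (sum_eq C hx h5 fun _ hi hρ => lam_aX C hop hY v hi hρ h5)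

theorem SM_der (hop : C.OpS) {r : ℝ} (hS : C.SMF lam r) (hY : YF zm j Yf T) (hY' : YF zm j' Yf' T)
    (hz : (c, v, j) ∈ ball (0 : Cc D × (C.U × JJ D zm)) r) {x : X} (hx : 0 < C.Z.τ x)
    (h5 : G.σ (C.Z.pr x) < zm + 5) : fderiv ℂ (C.SM lam) (c, v, j) (c', v', j') x =
      G.dlagG (G.XG zm c (cu G zm (C.tot v Yf)))
        (YG G zm c c' (cu G zm (C.tot v Yf)) (cu G zm (C.tot v' Yf'))) (C.Z.pr x) := by
  refine (hS.der _ hz _ x).trans (sum_eq C hx h5 fun i hi hρ => ?_)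
  obtain ⟨a1, a2⟩ := hop.pt_eq i hi x hρ
  have ha := hS.om _ hz i hi x hρ (by rw [C.b1_one hx (by linarith)]; exact one_ne_zero)
  have h1 := T1_mI C hop hY v hi hρ h5
  rw [← a2, ← dlam_aP C.jf C.iv (c2_tot C hY v) (c2_tot C hY' v') _ a1
    ((C.jf.low _ c _ _ h1).2.2 ha)]
  exact dlam_low C.jf c' h1 (T1_mI C hop hY' v' hi hρ h5) ha

theorem lam_cj (hop : C.OpS) {r : ℝ} (hS : C.SMF lam r) (hY : YF zm j Yf T) (hY' : YF zm j' Yf' T)
    (hz : (c, v, j) ∈ ball (0 : Cc D × (C.U × JJ D zm)) r) (hcj : C.Cj (v, j) (v', j')) {p : E3}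
    (hp : w p = 0) (h5 : G.σ p < zm + 5) :
    lam (G.aG zm (star c) (C.tot v' Yf') p) = star (lam (G.aG zm c (C.tot v Yf) p)) := by
  obtain ⟨x, rfl, hx⟩ := C.tf.ex p hp (by linarith)
  obtain ⟨i, hi, hρ⟩ := Finset.exists_ne_zero_of_sum_ne_zero
    ((C.sum_act hx (by linarith)).trans_ne one_ne_zero)
  have hρ' : C.Z.pou.ρ i x ≠ 0 := by exact_mod_cast hρ
  have ha := hS.om _ hz i hi x hρ' (by rw [C.b1_one hx (by linarith)]; exact one_ne_zero)
  rw [← lam_aX C hop hY v hi hρ' h5, ← lam_aX C hop hY' v' hi hρ' h5, ← ((C.jf.cj _).2 ha).2.2,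
    Ctx.aX, Ctx.aX, star_add, star_emb, hop.cj_mI _ _ hcj,
    (C.iv.base _ _ (hop.pt_eq i hi x hρ').1).2.2.1]

end Vale.Agent.P218N.Core.FV
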