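import Vale.Agent.P218N.Core.Ift

/-! The core box from the steps. -/

open Set Filter Topology Metric MeasureTheory
open scoped RealInnerProductSpace ContDiff Matrix NNReal

noncomputable section

namespace Vale.Agent.P218N.Core

open Vale.Agent.P218.H313 Vale.Agent.P218N.H Vale.Agent.P218N.End Vale.Agent.P272.K.LIN

set_option linter.unusedSectionVars false

variable {w : E3 → ℝ} {D : EndData w} {G : Geo D} {zm : ℝ}
  {X : Type} [TopologicalSpace X] [ChartedSpace R2 X] [T2Space X] [CompactSpace X] [RSm R2 X]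

namespace FinP

theorem tot_cj (C : Ctx2 G zm X) {v v' : C.U} (h : ∀ x, Uv _ v' x = star (Uv _ v x))
    (j : En D → EJ) (p : E3) :
    C.tot v' (fun e => Yj zm (j e).cj) p = star (C.tot v (fun e => Yj zm (j e)) p) := by
  have e : ∀ e : En D, G.lift e (Yj zm (j e).cj) p = star (G.lift e (Yj zm (j e)) p) := fun e => by
    unfold Geo.lift
    split_ifs
    · exact (congrArg (fun f => ev f _ _) (C.pf.jw_cj 0 0 e (j e) 0)).trans (ev_cj _ _ _)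
    · simp
  simp [Ctx.tot, Geo.YS, Ift.dv_cj C h, e]

variable {C : Ctx2 G zm X} {Φ : Fin D.b → E3 → ℂ} {gb : Fin D.b → ℝ} {N : ℕ}
  {ψ : Fin N ⊕ Fin D.b → E3 → ℝ} {ψh : Fin N ⊕ Fin D.b → C.H} {l : Fin N ⊕ Fin D.b → C.U →L[ℂ] ℂ}
  {n : ℕ} {r B r0 : ℝ} {z : Par D (Fin N ⊕ Fin D.b) → C.U × JJ D zm}
  {j : Par D (Fin N ⊕ Fin D.b) → En D → EJ} {lm : Par D (Fin N ⊕ Fin D.b) → Fin N ⊕ Fin D.b → ℂ}

theorem yf (h : C.NL ψh l n r B r0 z j lm) {x : Par D (Fin N ⊕ Fin D.b)} (hx : x ∈ ball 0 r) :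
    YF zm (z x).2 (fun e => Yj zm (j x e)) (TT zm n) :=
  C.yf.fin n _ _ h.six (h.jet x hx) (h.res x hx)

theorem jN_eq (x : Par D (Fin N ⊕ Fin D.b)) :
    C.jN n j x = (fun e => Res 4 n ((C.B e).jS n)) + fun e => Res 4 n (j x e) :=
  funext fun _ => map_add _ _ _

theorem d_jN {x : Par D (Fin N ⊕ Fin D.b)} (h : DifferentiableAt ℂ j x) :
    HasFDerivAt (C.jN n j) ((ContinuousLinearMap.pi fun e => (Res 4 n).comp
      (ContinuousLinearMap.proj e)).comp (fderiv ℂ j x)) x := by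
  rw [funext (jN_eq (C := C) (n := n) (j := j))]
  exact ((ContinuousLinearMap.pi fun e : En D => (Res 4 n).comp
    (ContinuousLinearMap.proj e)).hasFDerivAt.comp x h.hasFDerivAt).const_add _

theorem uend (h : C.NL ψh l n r B r0 z j lm) {x : Par D (Fin N ⊕ Fin D.b)} (hx : x ∈ ball 0 r)
    (e : En D) (q : R2) (hq : q.1 ∈ Icc (zm + 4) (TT zm n)) :
    C.uN z j x (pt e q) = G.s e * (ev (C.jN n j x e).y (tt zm q.1) q.2 - yS e q) := by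
  have six := h.six
  have h1 := (C.tot_hi (yf h hx) (z x).1 e (q := q) (by linarith [hq.1])).self_of_nhds
  have h2 := C.pf.jw_res 0 4 n n e ((C.B e).jS n + j x e) 0 (by omega) (by omega) le_rfl
  have h3 := (C.B e).val n (tt zm q.1) q.2 0
  rw [C.pf.zr_tt 0 n _ (by omega) ⟨by push_cast; linarith [hq.1], hq.2⟩] at h3
  have h4 : ev (C.jN n j x e).y (tt zm q.1) q.2 = yS e q + Yj zm (j x e) q := by
    refine (congrArg (fun f => ev f _ _) h2).trans ?_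
    rw [C.pf.ev_res, C.yf.clp_tt 4 n _ (by omega) (by exact_mod_cast hq), ← jwL_apply, map_add,
      Pi.add_apply, ev_add, jwL_apply, h3]
    rfl
  rw [h4, add_sub_cancel_left]
  exact h1

theorem box (hψ : C.PsiD Φ gb ψ ψh l) (h : C.NL ψh l n r B r0 z j lm) (he : C.EqF ψ n r z j lm)
    {M : ℕ} {P : Fin M → Patch (SS w)} {O : Fin M → Set R2} {r1 K : ℝ} (hK : 0 < K)
    (hc : Charts G zm P O) (hA : ∀ k, ∀ y ∈ O k, ∃ A : C.U × JJ D zm →L[ℂ] J2 ℂ, ‖A‖ ≤ K ∧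
      ∀ v j Yf T, YF zm j Yf T → jet2 (fun q => C.tot v Yf ((P k).φ q)) y = A (v, j))
    (hk : ∀ k, ∀ y ∈ O k, ∀ (c : Cc D) (m : J2 ℂ), ‖c‖ ≤ r1 → ‖m‖ ≤ r1 →
      ‖kap (G.bJ zm (P k).φ y + emb c m) - 1‖ ≤ K * (‖T1 m‖ + ‖c‖))
    (h1 : r0 ≤ r1) (h2 : K * r0 ≤ r1) (hd : C.DinjS)
    (hf : DifferentiableOn ℂ (C.FN n z j) (ball 0 r) ∧
      ∀ x ∈ ball (0 : Par D (Fin N ⊕ Fin D.b)) r, C.FN n z j (cjP x) = star (C.FN n z j x) ∧ ∀ d,
      fderiv ℂ (C.FN n z j) x d = -∑ k, lm x k * d.1 k +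
        ∑ e, (FluxE (gam zm 4 n) e (C.jN n j x e) 1 (fderiv ℂ (C.jN n j) x d e).y +
          TqE (gam zm 4 n) e (C.jN n j x e) 1 fun b => al (x.2.1 b) (d.2.1 b))) :
    CoreBox G zm ψ P O (fun e => Res 4 n ((C.B e).jS n)) n r (B + K + K * B) (C.uN z j)
      (C.jN n j) lm (C.FN n z j) := by
  have six := h.six
  have hB := h.B_pos
  have hKB := mul_pos hK hB
  have le1 : ∀ a : ℝ, 0 ≤ a → B * a ≤ (B + K + K * B) * a := fun a ha => by nlinarith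
  have le2 : ∀ a : ℝ, 0 ≤ a → K * a ≤ (B + K + K * B) * a := fun a ha => by nlinarith
  have le3 : ∀ a : ℝ, 0 ≤ a → K * (B * a) ≤ (B + K + K * B) * a := fun a ha => by nlinarith
  have jb : ∀ x ∈ ball (0 : Par D (Fin N ⊕ Fin D.b)) r,
      ‖C.jN n j x - fun e => Res 4 n ((C.B e).jS n)‖ ≤ B * ‖x‖ := fun x hx => by
    rw [jN_eq, add_sub_cancel_left]
    exact (pi_norm_le_iff_of_nonneg (by positivity)).2 fun e =>
      (C.pf.res_le _ _ _).trans ((norm_le_pi_norm _ e).trans (h.bd x hx).2.1)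
  have hO : ∀ k, ∀ y ∈ O k, y ∈ (P k).O := fun k y hy => by
    obtain ⟨K, -, a, b⟩ := hc.rel k
    exact b (a hy)
  have c2 : ∀ x ∈ ball (0 : Par D (Fin N ⊕ Fin D.b)) r, ∀ Q : Patch (SS w), ∀ y ∈ Q.O,
      G.σ (Q.φ y) < TT zm n → ContDiffAt ℝ 2 (fun q => C.uN z j x (Q.φ q)) y :=
    fun x hx Q y hy hT => C.tot_c2 (yf h hx) _ Q hy hT
  have ub : ∀ x ∈ ball (0 : Par D (Fin N ⊕ Fin D.b)) r, ∀ k, ∀ y ∈ O k,
      ‖jet2 (fun q => C.uN z j x ((P k).φ q)) y‖ ≤ K * ‖z x‖ := fun x hx k y hy => by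
    obtain ⟨A, a1, a2⟩ := hA k y hy
    exact (congrArg norm (a2 _ _ _ _ (yf h hx))).trans_le (A.le_of_opNorm_le a1 _)
  refine ⟨h.r_pos, by positivity, fun x hx => (d_jN (h.jhol.differentiableAt
    (isOpen_ball.mem_nhds hx))).differentiableAt.differentiableWithinAt, ?_,
    fun x hx => (jb x hx).trans (le1 _ (norm_nonneg _)), fun x hx e => ?_, he.sol,
    fun x hx e => ?_, fun x hx => uend h hx, c2, fun k y hy => ?_, fun x hx k y hy => ?_, he.eq,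
    fun x hx p hp h5 => he.om x hx p hp (by linarith), fun x hx k y hy => ?_,
    fun x hx k => (hψ.l_tot k _ _).trans (h.ell x hx k), hd _ _ _ _ _ _ hψ _ _ _ _ _ _ _ h, h.lhol,
    fun x hx => (h.bd x hx).2.2.1.trans (le1 _ (norm_nonneg _)), fun _ _ => rfl, hf.1,
    fun x hx => (hf.2 x hx).2, fun x hx => ⟨fun e => ?_, (h.cj x hx).2.2, (hf.2 x hx).1,
      fun p _ _ => ?_⟩⟩
  · have := jb 0 (mem_ball_self h.r_pos)
    rwa [norm_zero, mul_zero, norm_le_zero_iff, sub_eq_zero] at this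
  · rw [jN_eq]
    exact (C.pf.jet_res 0 4 n n e _ (by omega) (by omega) le_rfl ((C.B e).jet n)).add
      (C.pf.jet_res 3 4 n n e _ (by omega) (by omega) le_rfl (h.jet x hx e))
  · rw [jN_eq, Pi.add_apply, (C.pf.piT_lin 4 n e).map_add,
      (C.pf.piT_res 3 4 n e _ (by omega) (by omega) (h.jet x hx e)).1, h.pi x hx]
  · obtain ⟨A, -, a2⟩ := hA k y hy
    exact (A.differentiable.comp_differentiableOn h.zhol).congr fun x hx => a2 _ _ _ _ (yf h hx)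
  · exact (ub x hx k y hy).trans ((mul_le_mul_of_nonneg_left (h.bd x hx).1 hK.le).trans
      (le3 _ (norm_nonneg _)))
  · have hT : G.σ ((P k).φ y) < TT zm n := by
      have : (6 : ℝ) ≤ n := by exact_mod_cast six
      have := hc.lt k y hy
      unfold TT; linarith
    rw [(C.iv.inv (P k) y (hO k y hy) _ _ (c2 x hx _ y (hO k y hy) hT) _ rfl).2.2.1]
    have s := (h.small x hx).1.le
    exact (hk k y hy _ _ ((norm_fst_le _).trans (s.trans h1)) ((ub x hx k y hy).trans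
      ((mul_le_mul_of_nonneg_left ((norm_snd_le _).trans s) hK.le).trans h2))).trans
      (le2 _ (by positivity))
  · rw [Ctx2.jN, Ctx2.jN, (h.cj x hx).2.1, ← C.pf.res_cj, EJ.cj_add, (C.lf e).real]
  · rw [Ctx2.uN, Ctx2.uN, ← tot_cj C (h.cj x hx).1.1]
    simp only [(h.cj x hx).2.1]

end FinP

open FinP in
theorem Ctx2.core (C : Ctx2 G zm X) (hF : C.Facts) (phi : C.PhiS) (ker : C.KerS) (inv : C.InvS)
    (solv : C.SolvS) (out : C.OutS) (eq : C.EqS) (fv : C.FVS) (ch : C.ChartS) (dinj : C.DinjS) :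
    ∃ (N M : ℕ) (ψ : Fin N ⊕ Fin D.b → E3 → ℝ) (P : Fin M → Patch (SS w)) (O : Fin M → Set R2)
      (C0 : ℝ) (g ρ : Fin D.b → ℝ), PsiF G zm ψ ∧ Charts G zm P O ∧ (∀ b, g b ≠ 0 ∧ ρ b ≠ 0) ∧
      ∀ ε > 0, ∀ᶠ n in atTop, ∃ r C' u jc lm Fc,
        CoreBox G zm ψ P O (fun e => Res 4 n ((C.B e).jS n)) n r C' u jc lm Fc ∧
        OutF zm n C0 ε g ρ (fderiv ℂ jc 0) := by
  obtain ⟨Φ, gb, hΦ⟩ := phi
  obtain ⟨N, ψ, ψh, l, hψ⟩ := ker hF Φ gb hΦ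
  obtain ⟨𝓛, h𝓛⟩ := hF.op.ell
  obtain ⟨L, hL⟩ := inv hF Φ gb N ψ ψh l 𝓛 hΦ hψ h𝓛
  obtain ⟨M, P, O, r1, K, hr1, hK, hc, hA, hk⟩ := ch hF
  obtain ⟨C0, g, ρ, h1, h2⟩ := out hF Φ gb N ψ ψh l 𝓛 hΦ hψ L hL
  obtain ⟨ra, ha, hMh⟩ := hF.op.sm Mh C.jf.dMh
  obtain ⟨rb, hb, hkap⟩ := hF.op.sm kap C.jf.dkap
  refine ⟨N, M, ψ, P, O, C0, g, ρ, solv hF Φ gb N ψ ψh l 𝓛 hψ (hL ▸ L.surjective), hc, h1,
    fun ε hε => (h2 ε hε).mono ?_⟩
  rintro n ⟨hn, L', hL', ho⟩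
  obtain ⟨r2, hr2, hfv⟩ := fv hF Φ gb N ψ ψh l hψ n
  obtain ⟨r0, hr0, b1, b2, b3, b4, b5⟩ : ∃ r0 > 0, r0 ≤ r1 ∧ r0 ≤ r1 / K ∧ r0 ≤ r2 ∧ r0 ≤ ra ∧
      r0 ≤ rb := ⟨min r1 (min (r1 / K) (min r2 (min ra rb))), by positivity, by simp, by simp,
        by simp, by simp, by simp⟩
  obtain ⟨r, B, z, j, lm, h, hd⟩ := C.iftS hF Φ gb N ψ ψh l 𝓛 hψ n hn L' hL' r0 hr0
  have he := eq hF Φ gb N ψ ψh l hψ n r B r0 z j lm (Ift.SMF_mono hMh b4) (Ift.SMF_mono hkap b5) h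
  refine ⟨r, _, _, _, _, _, box hψ h he hK hc hA hk b1 ((le_div_iff₀' hK).1 b2) dinj
    (hfv r B r0 z j lm b3 h he), ?_⟩
  convert ho using 1
  funext d e
  rw [(d_jN (h.jhol.differentiableAt (ball_mem_nhds _ h.r_pos))).fderiv, ← hd]
  rfl

end Vale.Agent.P218N.Core
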