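import Vale.Agent.P218N.Core.Sys

/-! The operators on the ends. -/

open Set Filter Topology Metric MeasureTheory
open scoped RealInnerProductSpace ContDiff Matrix NNReal

noncomputable section

namespace Vale.Agent.P218N.Core

open Vale.Agent.P218.H313 Vale.Agent.P218N.H Vale.Agent.P218N.End Vale.Agent.P272.K.LIN

set_option linter.unusedSectionVars false

variable {w : E3 → ℝ} {D : EndData w} {G : Geo D} {zm : ℝ}
  {X : Type} [TopologicalSpace X] [ChartedSpace R2 X] [T2Space X] [CompactSpace X] [RSm R2 X]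

namespace GamP

theorem cpt_pi {E ι : Type} [Finite ι] {F : ι → Type} [Zero E] [TopologicalSpace E]
    [∀ i, TopologicalSpace (F i)] {f : E → ∀ i, F i}
    (h : ∀ i, IsCompactOperator fun x => f x i) : IsCompactOperator f := by
  choose K hK hK' using h
  refine ⟨univ.pi K, isCompact_univ_pi hK, mem_of_superset (iInter_mem.2 hK') fun x hx i _ => ?_⟩
  exact mem_iInter.1 hx i

/-- evaluation of jets -/
def ej (m : J2 WB) (t θ : ℝ) : J2 ℂ := fun k => ev (m k) t θ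

theorem ej_add (a b : J2 WB) (t θ : ℝ) : ej (a + b) t θ = ej a t θ + ej b t θ :=
  funext fun _ => ev_add _ _ _ _

theorem ej_sub (a b : J2 WB) (t θ : ℝ) : ej (a - b) t θ = ej a t θ - ej b t θ :=
  funext fun _ => ev_sub _ _ _ _

theorem ej_smul (z : ℂ) (a : J2 WB) (t θ : ℝ) : ej (z • a) t θ = z • ej a t θ :=
  funext fun _ => ev_smul _ _ _ _

theorem ej_jmul (a b : J2 WB) (t θ : ℝ) : ej (jmul a b) t θ = jmul (ej a t θ) (ej b t θ) :=
  map_jmul (evA t θ).toRingHom a b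

theorem ej_T1 (a : J2 WB) (t θ : ℝ) : ej (T1 a) t θ = T1 (ej a t θ) :=
  map_T1 (fun f => ev f t θ) (ev_zero t θ) a

theorem jmul_smul (z : ℂ) (a b : J2 ℂ) : jmul a (z • b) = z • jmul a b := by
  rw [← jmulL_apply, map_smul, jmulL_apply]

variable (C : Ctx2 G zm X)

theorem ej_χ (t θ : ℝ) : ej C.jχ t θ = j1 - jz (cut zm 3) (zr zm 3 6 t) := by
  funext k
  have h1 : Continuous (zr zm 3 6) := by
    have : zr zm 3 6 = fun t => ((gam zm 3 6).ze t).re := funext fun t => by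
      rw [C.pf.ze, Complex.ofReal_re]
    rw [this]
    exact Complex.continuous_re.comp (gam zm 3 6).ze.continuous
  have h2 : Continuous fun ζ => (j1 - jz (cut zm 3) ζ) k :=
    continuous_const.sub (contDiff_jz (contDiff_cut zm 3) k).continuous
  obtain ⟨B, hB⟩ := (isCompact_Icc (a := zm + (3 : ℕ)) (b := TT zm 6)).exists_bound_of_continuousOn
    h2.continuousOn
  rw [ej, Ctx.jχ, ev_C]
  exact mkB_apply (h2.comp h1) (fun t => hB _ (C.pf.mem 3 6 t (by norm_num))) t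

theorem ej_jS (e : En D) {k n n' : ℕ} (h : k ≤ n) (h' : n ≤ n') (t θ : ℝ) :
    ej (jw (ctr (gam zm k n) e) (Res k n ((C.B e).jS n'))) t θ = jy e (zr zm k n t, θ) := by
  funext i
  rw [ej, C.pf.jw_res 0 k n n' e _ i k.zero_le h h', C.pf.ev_res, (C.B e).val,
    C.pf.zr_clp 0 k n n' t k.zero_le h h']

include C in
theorem star_jy (e : En D) (t θ : ℝ) :
    star (jy e (zr zm 3 6 t, θ)) = jy e (zr zm 3 6 t, θ) := by
  rw [← ej_jS C e (by norm_num) le_rfl]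
  funext i
  conv_rhs => rw [← (C.lf e).real 6, C.pf.res_cj, ej, C.pf.jw_cj, ev_cj]
  rfl

/-- the difference of the one-jets -/
def dd (v : C.U) (e : En D) (q : R2) (y : J2 ℂ) : J2 ℂ :=
  T1 ((G.s e : ℂ) • jet2 (fun z => C.dv v (pt e z)) q - y)

theorem ej_Dd (e : En D) (z : C.U × JJ D zm) (t θ : ℝ) :
    ej (C.Dd e z) t θ = dd C z.1 e (zr zm 3 6 t, θ) (ej (C.jw0 e z) t θ) := by
  have h : ej (C.TE e z.1) t θ = T1 (jet2 (fun q => C.dv z.1 (pt e q)) (zr zm 3 6 t, θ)) :=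
    funext fun k => C.ev_TE e z.1 k t θ
  have h2 : C.Dd e z = T1 ((G.s e : ℂ) • C.TE e z.1 - C.jw0 e z) := T1L_apply _
  rw [h2, ej_T1, ej_sub, ej_smul, h, dd, T1_sub, T1_sub, T1_smul, T1_smul, T1_T1]

/-- the right hand side at a point -/
def gP (v : C.U) (e : En D) (q : R2) (y : J2 ℂ) : ℂ :=
  EP e q (jy e q + y) - EP e q (jy e q + y + jmul (j1 - jz (cut zm 3) q.1) (dd C v e q y)) -
    FP e q (jy e q) * (j1 - jz (cut zm 3) q.1) 0 * dd C v e q y 0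

/-- its derivative -/
def gL (v : C.U) (e : En D) (q : R2) (y : J2 ℂ) : ℂ :=
  -fderiv ℂ (EP e q) (jy e q) (jmul (j1 - jz (cut zm 3) q.1) (dd C v e q y)) -
    FP e q (jy e q) * (j1 - jz (cut zm 3) q.1) 0 * dd C v e q y 0

theorem gP_hi (v : C.U) (e : En D) {q : R2} (h : zm + 4 ≤ q.1) (y : J2 ℂ) : gP C v e q y = 0 := by
  rw [gP, jz_cut_one (by push_cast; linarith), sub_self, jmul_zero_left]; simp

theorem gL_hi (v : C.U) (e : En D) {q : R2} (h : zm + 4 ≤ q.1) (y : J2 ℂ) : gL C v e q y = 0 := by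
  rw [gL, jz_cut_one (by push_cast; linarith), sub_self, jmul_zero_left]; simp

theorem ej_wS (e : En D) (t θ : ℝ) : ej (C.wS e) t θ = jy e (zr zm 3 6 t, θ) :=
  ej_jS C e (by norm_num) le_rfl t θ

theorem ev_low (z : C.U × JJ D zm) (e : En D) (t θ : ℝ) :
    ev (FW (gam zm 3 6) e (C.wS e) * C.jχ 0 * C.Dd e z 0) t θ =
      FP e (zr zm 3 6 t, θ) (jy e (zr zm 3 6 t, θ)) * (j1 - jz (cut zm 3) (zr zm 3 6 t)) 0 *
        dd C z.1 e (zr zm 3 6 t, θ) (ej (C.jw0 e z) t θ) 0 := by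
  rw [ev_mul, ev_mul, C.pf.ev_FW, ← ej_Dd, ← ej_χ C t θ, ← ej_wS C]
  rfl

theorem ev_Gam (z : C.U × JJ D zm) (e : En D) (t θ : ℝ) :
    ev (C.Gam z e) t θ = gP C z.1 e (zr zm 3 6 t, θ) (ej (C.jw0 e z) t θ) := by
  have h : ∀ m, ev (EW (gam zm 3 6) e m) t θ = EP e (zr zm 3 6 t, θ) (ej m t θ) :=
    fun m => C.pf.ev_EW 3 6 e m t θ
  rw [Ctx.Gam, ev_sub, ev_sub, ev_low, h, h, ej_add, ej_add, ej_add, ej_jmul, ej_χ, ej_wS, ej_Dd]
  rfl

theorem GamL_apply (z : C.U × JJ D zm) (e : En D) : C.GamL z e =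
    -fderiv ℂ (EW (gam zm 3 6) e) (C.wS e) (jmul C.jχ (C.Dd e z)) -
      FW (gam zm 3 6) e (C.wS e) * C.jχ 0 * C.Dd e z 0 := by
  rw [← jmulL_apply]; rfl

theorem ev_GamL (z : C.U × JJ D zm) (e : En D) (t θ : ℝ) :
    ev (C.GamL z e) t θ = gL C z.1 e (zr zm 3 6 t, θ) (ej (C.jw0 e z) t θ) := by
  have h : ∀ m v, ev (fderiv ℂ (EW (gam zm 3 6) e) m v) t θ =
      fderiv ℂ (EP e (zr zm 3 6 t, θ)) (ej m t θ) (ej v t θ) :=
    fun m v => C.pf.ev_dEW 3 6 e m v t θ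
  rw [GamL_apply, ev_sub, ev_neg, ev_low, h, ej_jmul, ej_χ, ej_wS, ej_Dd]
  rfl

/-- evaluation at the points of the long paths -/
theorem at_pt {n : ℕ} {j : En D → EJ} {j0 : JJ D zm} (hn : 6 ≤ n)
    (hj : ∀ e, (ctr (gam zm 3 n) e).IsJet (j e)) (h0 : ∀ e, (j0 e).1 = Res 3 6 (j e)) (v : C.U)
    (e : En D) {q : R2} (hq : q.1 ∈ Ioo (zm + 3) (TT zm n)) {F : R2 → J2 ℂ → ℂ}
    (hF : ∀ (q : R2) y, zm + 4 ≤ q.1 → F q y = 0) :
    F (zr zm 3 6 (tt zm q.1), q.2) (ej (C.jw0 e (v, j0)) (tt zm q.1) q.2) =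
      F q (jet2 (Yj zm (j e)) q) := by
  rw [C.yf.six _ hq.1.le]
  rcases le_total q.1 (zm + 7) with h | h
  · rw [min_eq_left h, (C.yf.jet n e _ q (hj e) hq).2]
    congr 1
    funext k
    have h1 : C.jw0 e (v, j0) = jw (ctr (gam zm 3 6) e) (j0 e).1 := jwL_apply _ _
    rw [ej, h1, h0, C.pf.jw_res 3 3 6 n e _ k le_rfl (by norm_num) hn, C.pf.ev_res,
      C.yf.clp_tt 3 6 _ (by norm_num) ⟨by exact_mod_cast hq.1.le, by rw [TT]; push_cast; linarith⟩]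
    rfl
  · rw [min_eq_right h, hF q _ (by linarith), hF _ _ (by simp only; linarith)]

theorem mixed (v : C.U) (e : En D) (q : R2) (Y : R2 → ℂ) :
    (G.s e : ℂ) • jet2 Y q + jmul (j1 - jz (cut zm 3) q.1)
      (T1 (jet2 (fun z => C.dv v (pt e z)) q - (G.s e : ℂ) • jet2 Y q)) =
      (G.s e : ℂ) • (jet2 Y q + jmul (j1 - jz (cut zm 3) q.1) (dd C v e q (jet2 Y q))) ∧
    (1 - (cut zm 3 q.1 : ℝ)) * (C.dv v (pt e q) - G.s e * Y q) =
      G.s e * ((j1 - jz (cut zm 3) q.1) 0 * dd C v e q (jet2 Y q) 0) := by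
  constructor
  · rw [smul_add, ← jmul_smul, dd, ← T1_smul, smul_sub, smul_smul, G.s_mul, one_smul]
  · have := G.s_mul e
    simp only [dd, T1, jet2, j1, jz, Pi.sub_apply, Pi.smul_apply, Matrix.cons_val_zero, smul_eq_mul]
    linear_combination (-(1 - (cut zm 3 q.1 : ℝ)) * C.dv v (pt e q) : ℂ) * this

theorem hasD (z : C.U × JJ D zm) (e : En D) : HasFDerivAt (fun z => C.Gam z e)
    ((fderiv ℂ (EW (gam zm 3 6) e) (C.wS e + C.jw0 e z)).comp (C.jw0 e) -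
      (fderiv ℂ (EW (gam zm 3 6) e) (C.wS e + C.jw0 e z + jmul C.jχ (C.Dd e z))).comp
        (C.jw0 e + (jmulL C.jχ).comp (C.Dd e)) -
      (mulW (FW (gam zm 3 6) e (C.wS e) * C.jχ 0)).comp
        ((ContinuousLinearMap.proj 0).comp (C.Dd e))) z := by
  have h1 : HasFDerivAt (fun z => C.wS e + C.jw0 e z) (C.jw0 e) z :=
    (C.jw0 e).hasFDerivAt.const_add _
  have h2 : HasFDerivAt (fun z => C.wS e + C.jw0 e z + jmul C.jχ (C.Dd e z))
      (C.jw0 e + (jmulL C.jχ).comp (C.Dd e)) z := by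
    have := h1.add ((jmulL C.jχ).comp (C.Dd e)).hasFDerivAt
    simpa only [Pi.add_def, ContinuousLinearMap.comp_apply, jmulL_apply] using this
  exact (((C.pf.dEW 3 6 e _).hasFDerivAt.comp z h1).sub
    ((C.pf.dEW 3 6 e _).hasFDerivAt.comp z h2)).sub
    ((mulW (FW (gam zm 3 6) e (C.wS e) * C.jχ 0)).comp
      ((ContinuousLinearMap.proj 0).comp (C.Dd e))).hasFDerivAt

theorem Dd_cpt (e : En D) : IsCompactOperator (C.Dd e) := by
  have h1 := (((C.TE_cpt e).comp_clm (ContinuousLinearMap.fst ℂ _ (JJ D zm))).smul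
    (G.s e : ℂ)).clm_comp (T1L WB)
  have h2 := (C.pf.cpt 3 6 e ((T1L WB).comp ((jwL _).comp (JS _).subtypeL))
    fun j => by rw [← jwL_apply, ← T1L_apply]; rfl).comp_clm
    ((ContinuousLinearMap.proj (R := ℂ) (φ := fun e : En D => JS (ctr (gam zm 3 6) e)) e).comp
      (ContinuousLinearMap.snd ℂ C.U _))
  obtain ⟨K, hK, h3⟩ := h1.sub h2
  exact ⟨K, hK, mem_of_superset h3 fun z hz =>
    mem_preimage.2 (mem_of_eq_of_mem ((T1L WB).map_sub _ _) (mem_preimage.1 hz))⟩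

theorem zero : C.Gam 0 = 0 := funext fun e => by
  rw [Ctx.Gam, map_zero, map_zero, jmul_zero, add_zero, add_zero, sub_self]; simp

theorem der : HasFDerivAt C.Gam C.GamL 0 := by
  refine hasFDerivAt_pi.2 fun e => (hasD C 0 e).congr_fderiv ?_
  rw [map_zero, map_zero, jmul_zero, add_zero, add_zero, ContinuousLinearMap.comp_add]
  abel

theorem cpt : IsCompactOperator C.GamL := cpt_pi fun e => by
  have h1 := ((Dd_cpt C e).clm_comp (jmulL C.jχ)).clm_comp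
    (fderiv ℂ (EW (gam zm 3 6) e) (C.wS e))
  have h2 := ((Dd_cpt C e).clm_comp (ContinuousLinearMap.proj (R := ℂ) 0)).clm_comp
    (mulW (FW (gam zm 3 6) e (C.wS e) * C.jχ 0))
  exact h1.neg.sub h2

theorem cj {z z' : C.U × JJ D zm} (h : C.Cj z z') (e : En D) : C.Gam z' e = W.cj (C.Gam z e) := by
  refine ext_ev fun t θ => ?_
  have hm := C.pf.mem 3 6 t (by norm_num)
  rw [TT] at hm
  push_cast at hm
  have h0 : G.z0 < zr zm 3 6 t := by linarith [hm.1, C.hz]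
  have h1 : ej (C.jw0 e z') t θ = star (ej (C.jw0 e z) t θ) := by
    funext k
    have a1 : ∀ z : C.U × JJ D zm, C.jw0 e z = jw (ctr (gam zm 3 6) e) (z.2 e).1 :=
      fun z => jwL_apply _ _
    rw [ej, a1, a1, h.2, C.pf.jw_cj, ev_cj]
    rfl
  have h2 : (fun q => C.dv z'.1 (pt e q)) =
      fun q => (Complex.conjCLE : ℂ →L[ℝ] ℂ) (C.dv z.1 (pt e q)) := by
    funext q
    simp only [Ctx.dv, Dbl.dn]
    split_ifs
    · exact h.1 _
    · simp
  have h3 : dd C z'.1 e (zr zm 3 6 t, θ) (star (ej (C.jw0 e z) t θ)) =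
      star (dd C z.1 e (zr zm 3 6 t, θ) (ej (C.jw0 e z) t θ)) := by
    rw [dd, dd, star_T1, star_sub, star_smul, h2,
      jet2_clm _ (C.dv_c2_end z.1 e (q := (zr zm 3 6 t, θ)) h0 (by simp only; linarith [hm.2]))]
    simp only [RCLike.star_def, Complex.conj_ofReal]
    rfl
  obtain ⟨r, -, hr⟩ := C.ef.pos e (zr zm 3 6 t, θ) h0
  have h4 : star (j1 - jz (cut zm 3) (zr zm 3 6 t)) = j1 - jz (cut zm 3) (zr zm 3 6 t) := by
    rw [star_sub, star_j1, star_jz]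
  rw [ev_cj, ev_Gam, ev_Gam, h1, gP, gP, h3, hr, ← RCLike.star_def, star_sub, star_sub,
    ← C.pf.EP_cj, ← C.pf.EP_cj, star_add, star_add, star_add, star_jmul, star_jy C, h4, star_mul',
    star_mul', show star _ = _ from congrFun h4 0, RCLike.star_def, Complex.conj_ofReal]
  rfl

variable {n : ℕ} {j : En D → EJ} {v : C.U} {j0 : JJ D zm} {f : E3 → ℂ}

theorem nl1 (c : Cc D) (hn : 6 ≤ n) (hj : ∀ e, (ctr (gam zm 3 n) e).IsJet (j e))
    (h0 : ∀ e, (j0 e).1 = Res 3 6 (j e)) (hf : ∀ p, w p = 0 → zm + 3 ≤ G.σ p → f p = 0)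
    (h : ∀ e, EE (gam zm 3 n) e (Res 3 n ((C.B e).jS n) + j e) = C.Gam (v, j0) e) :
    C.EQ (C.MN c f) v (fun e => Yj zm (j e)) (TT zm n) := by
  intro e q hq
  have hz : G.z0 < q.1 := by linarith [hq.1, C.hz]
  have h1 : ev _ (tt zm q.1) q.2 = ev _ (tt zm q.1) q.2 :=
    congrArg (fun f => ev f (tt zm q.1) q.2) (h e)
  have h2 : ev (EE (gam zm 3 n) e (Res 3 n ((C.B e).jS n) + j e)) (tt zm q.1) q.2 =
      EP e q (jy e q + jet2 (Yj zm (j e)) q) := by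
    have a1 := ej_jS C e (show 3 ≤ n by omega) le_rfl (tt zm q.1) q.2
    have a2 := C.pf.zr_tt 3 n q.1 (by omega) ⟨by exact_mod_cast hq.1.le, hq.2.le⟩
    rw [C.pf.EE_eq, C.pf.ev_EW, ← jwL_apply, map_add, jwL_apply, jwL_apply,
      (C.yf.jet n e _ q (hj e) hq).2]
    rw [a2] at a1 ⊢
    rw [← a1]
    exact congrArg _ (ej_add _ _ _ _)
  rw [h2, ev_Gam, at_pt C hn hj h0 v e hq fun q y => (gP_hi C v e · y), gP] at h1
  obtain ⟨r, r0, hr⟩ := C.ef.pos e q hz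
  have h3 := C.ef.eq e q c (jet2 (Yj zm (j e)) q +
    jmul (j1 - jz (cut zm 3) q.1) (dd C v e q (jet2 (Yj zm (j e)) q))) hz (Or.inr hq.1.le)
  rw [← add_assoc] at h3
  rw [(mixed C v e q _).1, (mixed C v e q _).2, Ctx.MN,
    hf _ (G.pt_mem e hz) (by rw [G.σ_pt e q hz]; exact hq.1.le)]
  have hr0 : FP e q (jy e q) ≠ 0 := by rw [hr]; exact_mod_cast r0.ne'
  refine mul_right_cancel₀ hr0 ?_
  linear_combination h3 + (G.s e : ℂ) * h1

theorem nl2 (hn : 6 ≤ n) {e : En D}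
    (h : EE (gam zm 3 n) e (Res 3 n ((C.B e).jS n) + j e) = C.Gam (v, j0) e) :
    EE (gam zm 4 n) e (Res 4 n ((C.B e).jS n + j e)) = 0 := by
  have h1 : Res 4 n ((C.B e).jS n + j e) = Res 4 n (Res 3 n ((C.B e).jS n) + j e) := by
    rw [map_add, map_add, C.pf.res_res 3 4 n n _ (by norm_num) (by omega) le_rfl]
  rw [h1, C.pf.EE_res 3 4 n n e _ (by norm_num) (by omega) le_rfl, h]
  refine ext_ev fun t θ => ?_
  have hm := (C.pf.mem 4 n t (by omega)).1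
  push_cast at hm
  rw [C.pf.ev_res, ev_Gam, ← C.pf.tt_zr 4 n t (by omega), C.yf.six _ (by linarith), ev_zero]
  exact gP_hi C _ _ (le_min hm (by linarith)) _

theorem lin {F : WE D} (hn : 6 ≤ n) (hj : ∀ e, (ctr (gam zm 3 n) e).IsJet (j e))
    (h0 : ∀ e, (j0 e).1 = Res 3 6 (j e)) (hF : C.Rep f F (TT zm n))
    (h : ∀ e, (C.B e).dE n (j e) = resW 3 n (C.GamL (v, j0) e + F e)) :
    C.EQ (C.ML f) v (fun e => Yj zm (j e)) (TT zm n) := by
  intro e q hq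
  have hz : G.z0 < q.1 := by linarith [hq.1, C.hz]
  have hq' : q.1 ∈ Icc (zm + (3 : ℕ)) (TT zm n) := ⟨by exact_mod_cast hq.1.le, hq.2.le⟩
  have h1 : ev _ (tt zm q.1) q.2 = ev _ (tt zm q.1) q.2 :=
    congrArg (fun f => ev f (tt zm q.1) q.2) (h e)
  have h2 : ev ((C.B e).dE n (j e)) (tt zm q.1) q.2 =
      fderiv ℂ (EP e q) (jy e q) (jet2 (Yj zm (j e)) q) := by
    have a1 := ej_jS C e (show 3 ≤ n by omega) le_rfl (tt zm q.1) q.2
    have a2 := C.pf.zr_tt 3 n q.1 (by omega) hq'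
    have a3 : EE (gam zm 3 n) e = EW (gam zm 3 n) e ∘ jwL (ctr (gam zm 3 n) e) :=
      funext fun j => by rw [C.pf.EE_eq, Function.comp, jwL_apply]
    rw [EndBox.dE, a3, fderiv_comp _ (C.pf.dEW 3 n e _) (jwL _).differentiableAt,
      ContinuousLinearMap.fderiv, ContinuousLinearMap.comp_apply, C.pf.ev_dEW, jwL_apply,
      jwL_apply, (C.yf.jet n e _ q (hj e) hq).2]
    rw [a2] at a1 ⊢
    rw [← a1]
    rfl
  rw [h2, C.pf.ev_res, C.yf.clp_tt 3 n _ (by omega) hq', ev_add, hF e q hq, ev_GamL,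
    at_pt C hn hj h0 v e hq fun q y => (gL_hi C v e · y), gL] at h1
  obtain ⟨r, r0, hr⟩ := C.ef.pos e q hz
  have h3 := C.ef.lin e q ((G.s e : ℂ) • (jet2 (Yj zm (j e)) q +
    jmul (j1 - jz (cut zm 3) q.1) (dd C v e q (jet2 (Yj zm (j e)) q)))) hz
  conv_rhs at h3 => rw [map_smul, map_add, smul_eq_mul]
  rw [(mixed C v e q _).1, (mixed C v e q _).2, Ctx.ML]
  have hr0 : FP e q (jy e q) ≠ 0 := by rw [hr]; exact_mod_cast r0.ne'
  refine mul_right_cancel₀ hr0 ?_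
  linear_combination h3 + (G.s e : ℂ) * h1 + FP e q (jy e q) * f (pt e q) * G.s_mul e

end GamP

theorem Ctx2.gamS (C : Ctx2 G zm X) : C.GamS where
  hol := differentiable_pi.2 fun e z => (GamP.hasD C z e).differentiableAt
  zero := GamP.zero C
  der := GamP.der C
  cpt := GamP.cpt C
  cj _ _ := GamP.cj C
  nl _ _ _ _ c _ hn hj h0 hf h := ⟨GamP.nl1 C c hn hj h0 hf h, fun e => GamP.nl2 C hn (h e)⟩
  lin _ _ _ _ _ _ := GamP.lin C

end Vale.Agent.P218N.Core
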