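import Vale.Agent.P218N.Core.Spec
import Vale.Agent.P218N.D6.Atl3

/-! General facts about patches. -/

open Set Filter Topology Metric
open scoped RealInnerProductSpace ContDiff

namespace Vale.Agent.P218N.Core

open Vale.Agent.P218.H313 Vale.Agent.P218N.H D6.At

variable {F : Type} [NormedAddCommGroup F] [NormedSpace ℝ F] {Z : Set F}

/-- a smooth local left inverse of an immersion -/
theorem Gp.loc_left [FiniteDimensional ℝ F] {φ : R2 → F} {O : Set R2} (hO : IsOpen O)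
    (hφ : ContDiffOn ℝ ∞ φ O) {y : R2} (hy : y ∈ O) (hi : Function.Injective (fderiv ℝ φ y)) :
    ∃ (g : F → R2), ∃ U ∈ 𝓝 (φ y), ContDiffOn ℝ ∞ g U ∧ ∀ᶠ z in 𝓝 y, g (φ z) = z := by
  obtain ⟨L0, hL⟩ := (fderiv ℝ φ y : R2 →ₗ[ℝ] F).exists_leftInverse_of_injective
    (LinearMap.ker_eq_bot.2 hi)
  set L := LinearMap.toContinuousLinearMap L0
  have h1 : ∀ z ∈ O, ContDiffAt ℝ ∞ (fun z => L (φ z)) z := fun z hz =>
    L.contDiff.contDiffAt.comp z (hφ.contDiffAt (hO.mem_nhds hz))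
  have h2 : HasFDerivAt (fun z => L (φ z)) (ContinuousLinearEquiv.refl ℝ R2 : R2 →L[ℝ] R2) y :=
    (L.hasFDerivAt.comp y ((hφ.contDiffAt (hO.mem_nhds hy)).differentiableAt
      (by simp)).hasFDerivAt).congr_fderiv (ContinuousLinearMap.ext fun u => LinearMap.congr_fun hL u)
  set e := (h1 y hy).toOpenPartialHomeomorph _ h2 (by simp)
  have hs : y ∈ e.source := (h1 y hy).mem_toOpenPartialHomeomorph_source h2 (by simp)
  have h3 : ∀ᶠ z in 𝓝 y, z ∈ O ∧ fderiv ℝ (fun z => L (φ z)) z ∈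
      range ((↑) : (R2 ≃L[ℝ] R2) → R2 →L[ℝ] R2) :=
    (hO.eventually_mem hy).and (((h1 y hy).continuousAt_fderiv (by simp)).eventually
      (ContinuousLinearEquiv.isOpen.mem_nhds ⟨_, h2.fderiv.symm⟩))
  refine ⟨fun p => e.symm (L p), _, L.continuous.continuousAt.eventually
    (((e.tendsto_symm hs).eventually h3).and (e.open_target.mem_nhds (e.map_source hs))),
    fun p hp => ?_, (e.eventually_left_inverse hs)⟩
  obtain ⟨⟨h4, A, hA⟩, h5⟩ := hp
  exact ((e.contDiffAt_symm h5 (f₀' := A) (hA ▸ ((h1 _ h4).differentiableAt (by simp)).hasFDerivAt)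
    (h1 _ h4)).comp p L.contDiff.contDiffAt).contDiffWithinAt

namespace Patch

theorem cda (P : Patch Z) {y : R2} (hy : y ∈ P.O) : ContDiffAt ℝ ∞ P.φ y :=
  P.smooth.contDiffAt (P.isOpen_O.mem_nhds hy)

theorem tend_ι (P : Patch Z) {p : F} (hp : p ∈ Z) (hV : p ∈ P.V) :
    Tendsto P.ι (𝓝[Z] p) (𝓝 (P.ι p)) := by
  have := P.cont p ⟨hp, hV⟩
  rwa [ContinuousWithinAt, inter_comm, nhdsWithin_inter_of_mem
    (mem_nhdsWithin_of_mem_nhds (P.isOpen_V.mem_nhds hV))] at this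

theorem tend_φ (P : Patch Z) {y : R2} (hy : y ∈ P.O) : Tendsto P.φ (𝓝 y) (𝓝[Z] (P.φ y)) :=
  tendsto_nhdsWithin_iff.2 ⟨(P.cda hy).continuousAt,
    mem_of_superset (P.isOpen_O.mem_nhds hy) fun z hz => (P.maps z hz).1⟩

theorem ev_inv (P : Patch Z) {p : F} (hV : p ∈ P.V) :
    ∀ᶠ x in 𝓝[Z] p, P.ι x ∈ P.O ∧ P.φ (P.ι x) = x :=
  (Eventually.and self_mem_nhdsWithin (nhdsWithin_le_nhds (P.isOpen_V.mem_nhds hV))).mono
    fun x hx => P.inv x hx.1 hx.2

/-- the inverse of a patch extends smoothly -/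
theorem ext_ι [FiniteDimensional ℝ F] (P : Patch Z) {p : F} (hp : p ∈ Z) (hV : p ∈ P.V) :
    ∃ (g : F → R2), ∃ U ∈ 𝓝 p, ContDiffOn ℝ ∞ g U ∧ ∀ᶠ x in 𝓝[Z] p, g x = P.ι x := by
  obtain ⟨h1, h2⟩ := P.inv p hp hV
  obtain ⟨g, U, hU, h3, h4⟩ := Gp.loc_left P.isOpen_O P.smooth h1 (P.imm _ h1)
  refine ⟨g, U, h2 ▸ hU, h3, ?_⟩
  filter_upwards [(P.tend_ι hp hV).eventually h4, P.ev_inv hV] with x h5 h6
  rwa [h6.2] at h5

theorem trans' [FiniteDimensional ℝ F] (P P' : Patch Z) {y : R2} (hy : y ∈ P'.O)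
    (hV : P'.φ y ∈ P.V) : ContDiffAt ℝ ∞ (fun z => P.ι (P'.φ z)) y ∧
      ∀ᶠ z in 𝓝 y, P.φ (P.ι (P'.φ z)) = P'.φ z := by
  obtain ⟨g, U, hU, h1, h2⟩ := P.ext_ι (P'.maps y hy).1 hV
  exact ⟨((h1.contDiffAt hU).comp y (P'.cda hy)).congr_of_eventuallyEq
    (((P'.tend_φ hy).eventually h2).mono fun _ h => h.symm),
    ((P'.tend_φ hy).eventually (P.ev_inv hV)).mono fun _ h => h.2⟩

end Patch

namespace Gp

/-- a patch from a relatively open injective immersion -/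
theorem mkPatch {φ : R2 → F} {O : Set R2} (hO : IsOpen O) (hφ : ContDiffOn ℝ ∞ φ O)
    (hi : ∀ y ∈ O, Function.Injective (fderiv ℝ φ y)) (hj : InjOn φ O) (hm : ∀ y ∈ O, φ y ∈ Z)
    (hn : ∀ y ∈ O, 𝓝[Z] (φ y) ≤ map φ (𝓝 y)) : ∃ P : Patch Z, P.O = O ∧ P.φ = φ := by
  have h1 : ∀ p ∈ Z, p ∈ interior {x | x ∈ Z → x ∈ φ '' O} → ∃ y ∈ O, φ y = p := fun p hp h =>
    interior_subset h hp
  refine ⟨⟨O, φ, interior {x | x ∈ Z → x ∈ φ '' O}, Function.invFunOn φ O, hO, isOpen_interior,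
    hφ, hi, fun y hy => ⟨hm y hy, mem_interior_iff_mem_nhds.2
      (eventually_nhdsWithin_iff.1 (hn y hy (image_mem_map (hO.mem_nhds hy))))⟩,
    fun y hy => hj.leftInvOn_invFunOn hy, fun p hp h => Function.invFunOn_pos (h1 p hp h),
    fun p hp => ?_⟩, rfl, rfl⟩
  obtain ⟨y, hy, rfl⟩ := h1 p hp.1 hp.2
  rw [ContinuousWithinAt, hj.leftInvOn_invFunOn hy]
  refine Tendsto.mono_left (tendsto_map'_iff.2 (tendsto_id.congr' ?_))
    ((nhdsWithin_mono _ inter_subset_left).trans (hn y hy))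
  exact mem_of_superset (hO.mem_nhds hy) fun z hz => (hj.leftInvOn_invFunOn hz).symm

variable {w : E3 → ℝ}

/-- immersions into the surface are relatively open -/
theorem nhds_le_map (hw : Shr w) {φ : R2 → E3} {y : R2} (hφ : ContDiffAt ℝ 2 φ y)
    (h0 : ∀ᶠ z in 𝓝 y, w (φ z) = 0) (hi : Function.Injective (fderiv ℝ φ y)) :
    𝓝[SS w] (φ y) ≤ map φ (𝓝 y) := by
  have g1 : ∀ z : R2 × ℝ, fderiv ℝ w (φ y) (tL (fderiv ℝ φ y) (grad w (φ y)) z) = 0 → z.2 = 0 := by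
    intro z hz
    rw [← inner_grad, tL_apply, inner_add_right, real_inner_smul_right,
      End.inner_grad_d1 hw.smooth hφ h0, zero_add] at hz
    exact (mul_eq_zero.1 hz).resolve_right (inner_self_ne_zero.2 (hw.ne _ h0.self_of_nhds))
  have i1 : Function.Injective (tL (fderiv ℝ φ y) (grad w (φ y))) := by
    refine (injective_iff_map_eq_zero _).2 fun z hz => ?_
    have h1 := g1 z (by rw [hz, map_zero])
    rw [tL_apply, h1, zero_smul, add_zero] at hz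
    exact Prod.ext ((injective_iff_map_eq_zero _).1 hi _ hz) h1
  have st := tube_strict hφ (contDiffAt_const (c := grad w (φ y)))
  obtain ⟨W, hW, i3⟩ := loc_inj (hasStrictFDerivAt_fst.prodMk (HasStrictFDerivAt.comp (y, (0 : ℝ))
    (g := w) (g' := fderiv ℝ w (φ y))
    (by simpa using (cd2 hw.smooth _).hasStrictFDerivAt two_ne_zero) st))
    ((injective_iff_map_eq_zero _).2 fun z hz => Prod.ext (Prod.ext_iff.1 hz).1
      (g1 z (Prod.ext_iff.1 hz).2))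
  have h1 := st.map_nhds_eq_of_surj (LinearMap.range_eq_top.2 (tL_surj i1))
  simp only [zero_smul, add_zero] at h1
  have t1 : Tendsto Prod.fst (𝓝 (y, (0 : ℝ))) (𝓝 y) := continuous_fst.tendsto _
  have t2 : Tendsto (fun z : R2 × ℝ => (z.1, (0 : ℝ))) (𝓝 (y, (0 : ℝ))) (𝓝 (y, (0 : ℝ))) :=
    (continuous_fst.prodMk continuous_const).tendsto _
  intro s hs
  refine eventually_nhdsWithin_iff.2 ?_
  rw [← h1, eventually_map]
  filter_upwards [t1 hs, t1.eventually h0, hW, t2 hW] with z h2 h3 h4 h5 (h6 : w _ = 0)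
  have h7 : z.2 = 0 := (Prod.ext_iff.1 (i3 h4 h5 (by simp [h3, h6]))).2
  rw [h7, zero_smul, add_zero]
  exact h2

theorem mkPatchS (hw : Shr w) {φ : R2 → E3} {O : Set R2} (hO : IsOpen O)
    (hφ : ContDiffOn ℝ ∞ φ O) (hi : ∀ y ∈ O, Function.Injective (fderiv ℝ φ y)) (hj : InjOn φ O)
    (hm : ∀ y ∈ O, w (φ y) = 0) : ∃ P : Patch (SS w), P.O = O ∧ P.φ = φ :=
  mkPatch hO hφ hi hj hm fun y hy => nhds_le_map hw ((hφ.contDiffAt (hO.mem_nhds hy)).of_le
    (WithTop.coe_le_coe.2 (le_top (a := (2 : ℕ∞))))) (mem_of_superset (hO.mem_nhds hy) hm) (hi y hy)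

theorem exists_patch (hw : Shr w) (p : E3) : ∃ P : Patch (SS w), w p = 0 → p ∈ P.V := by
  by_cases hp : w p = 0
  swap
  · exact (mkPatchS hw (φ := 0) isOpen_empty contDiffOn_empty (by simp) (by simp)
      (by simp)).imp fun _ _ h => (hp h).elim
  obtain ⟨f, hf⟩ := exists_frame (m := 2) (by simp) (norm_nuW (hw.ne p hp))
  obtain ⟨u, r, h, c, h0, -⟩ := LocDef.exists_gchart (M := SS w) (w := w)
    ⟨isOpen_ne_fun (contDiff_grad_top hw.smooth).continuous continuous_const, hw.smooth,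
      fun _ h => h, fun _ _ => Iff.rfl⟩ (hw.ne p hp) hp f (by
      rw [hf, real_inner_comm, inner_nuW_grad (hw.ne p hp)]
      exact norm_ne_zero_iff.2 (hw.ne p hp)) univ_mem
  let A : R2 ≃L[ℝ] Em 2 := ContinuousLinearEquiv.ofFinrankEq (by simp)
  have s1 : ContDiff ℝ ∞ fun y => f.gr p u (A y) := (f.contDiff_gr p c.smooth).comp A.contDiff
  obtain ⟨P, h1, h2⟩ := mkPatchS hw (φ := fun y => f.gr p u (A y)) (O := {y | ‖A y‖ < r})
    (isOpen_lt (by fun_prop) continuous_const) s1.contDiffOn (fun y _ => by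
      have h1 := (f.π.hasFDerivAt.comp y
        ((s1.differentiable (by simp) y).hasFDerivAt.sub_const p)).unique
        ((A : R2 →L[ℝ] Em 2).hasFDerivAt.congr_of_eventuallyEq
          (Eventually.of_forall fun z => f.π_gr p u (A z)))
      exact Function.Injective.of_comp (f := f.π) (by
        rw [← ContinuousLinearMap.coe_comp, h1]; exact A.injective))
    ((f.gr_injective p u).comp A.injective).injOn fun y hy =>
      (c.mem_iff _ ⟨by rwa [f.π_gr], by rw [f.inner_gr]; exact c.bd _ hy⟩).2 (f.gw_gr p u _)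
  refine ⟨P, fun _ => ?_⟩
  have := (P.maps 0 (by simpa [h1] using c.r_pos)).2
  simpa [h2, Frame.gr, h0] using this

end Gp

end Vale.Agent.P218N.Core
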