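import Vale.Agent.P218N.Core.Geo0

/-! Existence of the geometric data. -/

open Set Filter Topology Metric
open scoped RealInnerProductSpace ContDiff Real Manifold

namespace Vale.Agent.P218N.Core

open Vale.Agent.P218.H313 Vale.Agent.P218N.H D6.At

namespace Gp

variable {w : E3 → ℝ} {D : EndData w}

/-- the change of coordinates on the ends -/
noncomputable def co : En D → R2 → R2
  | .inl _, q => (Real.log q.1 / 2, q.2)
  | .inr _, q => (√q.1, q.2)

theorem pt_eq : ∀ (e : En D) q, pt e q = D6.endPt D e (co e q)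
  | .inl _, _ => rfl
  | .inr _, _ => rfl

theorem yS_eq : ∀ (e : En D) q, yS e q = hgt D e (co e q)
  | .inl _, _ => rfl
  | .inr _, _ => rfl

theorem co_eq : ∀ (e : En D) (q : R2) θ, co e (q.1, θ) = ((co e q).1, θ)
  | .inl _, _, _ => rfl
  | .inr _, _, _ => rfl

theorem co_snd : ∀ (e : En D) (q : R2), (co e q).2 = q.2
  | .inl _, _ => rfl
  | .inr _, _ => rfl

theorem exp_log_half {x : ℝ} (h : 0 < x) : Real.exp (Real.log x / 2) = √x := by
  rw [Real.exp_half, Real.exp_log h]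

theorem dir_eq : ∀ (e : En D) (q : R2), 0 < q.1 → dir e q = nor D e (co e q)
  | .inl _, _, h => by simp only [dir, nor, co, Sum.elim_inl, exp_log_half h]
  | .inr _, _, _ => rfl

theorem co_ge : ∀ (e : En D) (q : R2), 0 < q.1 → Real.log q.1 / 2 ≤ (co e q).1
  | .inl _, _, _ => le_rfl
  | .inr _, q, h => by
    have := Real.add_one_le_exp (Real.log q.1 / 2)
    rw [exp_log_half h] at this
    exact (le_add_of_nonneg_right zero_le_one).trans this

theorem sg_co : ∀ (e : En D) (q : R2), 0 < q.1 → D6.endSg D e (co e q).1 = q.1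
  | .inl _, q, h => by
    simp only [D6.endSg, co, Sum.elim_inl, mul_div_cancel₀ _ (two_ne_zero' ℝ), Real.exp_log h]
  | .inr _, q, h => Real.sq_sqrt h.le

theorem co_sg : ∀ (e : En D) (v : R2), 0 ≤ v.1 → co e (D6.endSg D e v.1, v.2) = v
  | .inl _, v, _ => by simp [D6.endSg, co]
  | .inr _, v, h => by simp [D6.endSg, co, Real.sqrt_sq h]

theorem co_sm : ∀ (e : En D) (q : R2), 0 < q.1 → ContDiffAt ℝ ∞ (co e) q
  | .inl _, _, h => ((contDiffAt_fst.log h.ne').div_const 2).prodMk contDiffAt_snd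
  | .inr _, _, h => (contDiffAt_fst.sqrt h.ne').prodMk contDiffAt_snd

theorem sg_sm : ∀ e : En D, ContDiff ℝ ∞ (D6.endSg D e)
  | .inl _ => (contDiff_const.mul contDiff_id).exp
  | .inr _ => contDiff_id.pow 2

theorem co_imm (e : En D) (q : R2) (h : 0 < q.1) : Function.Injective (fderiv ℝ (co e) q) := by
  have h1 : Differentiable ℝ fun v : R2 => (D6.endSg D e v.1, v.2) :=
    (((sg_sm e).comp contDiff_fst).prodMk contDiff_snd).differentiable (by simp)
  have h2 := ((h1 _).hasFDerivAt.comp q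
    ((co_sm e q h).differentiableAt (by simp)).hasFDerivAt).unique
    ((hasFDerivAt_id q).congr_of_eventuallyEq ((continuousAt_const.eventually_lt
      continuousAt_fst h).mono fun z hz => Prod.ext (sg_co e z hz) (co_snd e z)))
  exact Function.Injective.of_comp (f := fderiv ℝ (fun v : R2 => (D6.endSg D e v.1, v.2)) (co e q))
    (by rw [← ContinuousLinearMap.coe_comp, h2]; exact Function.injective_id)

theorem pt_sm (e : En D) (q : R2) (h : 0 < q.1) : ContDiffAt ℝ ∞ (pt e) q := by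
  rw [funext (pt_eq e)]
  exact (endPt_smooth D e).contDiffAt.comp q (co_sm e q h)

theorem pt_per (e : En D) (q : R2) (m : ℤ) : pt e (q.1, q.2 + m * (2 * π)) = pt e q := by
  rw [pt_eq, pt_eq, co_eq, ← co_snd e q, endPt_per]

theorem dir_sm (e : En D) (q : R2) (h : 0 < q.1) : ContDiffAt ℝ ∞ (dir e) q := by
  obtain ⟨C, δ, M⟩ := mod_end D e
  exact (M.Ns.contDiffAt.comp q (co_sm e q h)).congr_of_eventuallyEq
    ((continuousAt_const.eventually_lt continuousAt_fst h).mono fun z hz => dir_eq e z hz)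

theorem dir_per : ∀ (e : En D) (q : R2) (m : ℤ), dir e (q.1, q.2 + m * (2 * π)) = dir e q
  | .inl i, q, m => by simp only [dir, per_int (D.link i).nper]
  | .inr _, q, m => by simp only [dir, Real.cos_add_int_mul_two_pi, Real.sin_add_int_mul_two_pi]

theorem imm_end {b N : R2 → E3} {sc H : R2 → ℝ} {xi : R2 → R2} {sg : ℝ → ℝ} {d : ℝ → E3}
    {C δ ε : ℝ} (M : D6.At.Mod b N sc xi sg d C δ) (hε : ε * C ^ 2 ≤ 1 / 2) {v : R2}
    (hv : 0 ≤ v.1) (hJ : D6.JB H v ε ε ε) :
    Function.Injective (tL (fderiv ℝ (fun v => b v + H v • N v) v) (N v)) := by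
  refine (injective_iff_map_eq_zero _).2 fun z hz => ?_
  rw [((M.jb v).has.fun_add (hJ.has.fun_smul (M.jN v).has)).fderiv] at hz
  have h1 := M.low v z.1 (fderiv ℝ H v z.1 + z.2)
  have h2 : fderiv ℝ b v z.1 + (fderiv ℝ H v z.1 + z.2) • N v = -(H v • fderiv ℝ N v z.1) := by
    simp only [tL_apply, add_apply, smul_apply, ContinuousLinearMap.smulRight_apply] at hz
    linear_combination (norm := module) hz
  have h3 := (norm_smul_le (H v) (fderiv ℝ N v z.1)).trans (mul_le_mul hJ.b0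
    ((fderiv ℝ N v).le_of_opNorm_le (M.jN v).b1 z.1) (norm_nonneg _) hJ.n0)
  have h4 := M.sc1 v hv
  have h5 := mul_le_mul hε (mul_le_mul_of_nonneg_left (norm_fst_le (z.1, fderiv ℝ H v z.1 + z.2))
    (zero_le_one.trans h4)) (by positivity) (by norm_num)
  rw [h2, norm_neg] at h1
  have h6 := h1.trans (mul_le_mul_of_nonneg_left h3 (zero_le_one.trans M.C1))
  have h7 := Prod.ext_iff.1 (norm_le_zero_iff.1 (show ‖(z.1, fderiv ℝ H v z.1 + z.2)‖ ≤ 0 by
    nlinarith [norm_nonneg (z.1, fderiv ℝ H v z.1 + z.2)]))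
  exact Prod.ext h7.1 (by simpa [show z.1 = 0 from h7.1] using h7.2)

/-- the far parts of the ends -/
structure Far (D : EndData w) (a z : ℝ) : Prop where
  one : 1 ≤ z
  s0 : D.s₀ < Real.log z / 2
  mem : ∀ (e : En D) (q : R2), z < q.1 → w (pt e q) = 0
  sep : ∀ (e e' : En D) (q q' : R2), z < q.1 → z < q'.1 → pt e q = pt e' q' →
    e = e' ∧ ∃ m : ℤ, q' = (q.1, q.2 + m * (2 * π))
  imm : ∀ (e : En D) (q : R2), z < q.1 → Function.Injective (tL (fderiv ℝ (pt e) q) (dir e q))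
  le : ∀ (e : En D) (q : R2), z < q.1 → |yS e q| ≤ a
  nrm : ∀ (e : En D) (q : R2), z < q.1 → q.1 ≤ ‖pt e q‖ ^ 2

theorem exists_far (D : EndData w) {a : ℝ} (ha : 0 < a) : ∃ z, Far D a z := by
  choose C δ M using mod_end D
  obtain ⟨b, ⟨h1, h2 : b ≤ a⟩, h3, h4 : b ≤ 1, h0 : 0 < b⟩ := (((sep D).and
    (nhdsWithin_le_nhds (s := Ioi (0 : ℝ)) (Iic_mem_nhds ha))).and
    ((eventually_all.2 fun e => nhdsWithin_le_nhds (s := Ioi (0 : ℝ)) (Iic_mem_nhds
      (show 0 < 1 / 2 / C e ^ 2 by have := (M e).C1; positivity))).and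
      (Eventually.and (nhdsWithin_le_nhds (Iic_mem_nhds one_pos)) self_mem_nhdsWithin))).exists
  obtain ⟨s, ⟨h5, h6⟩, h7, h8⟩ := ((h1.and (eventually_all.2 fun e => jb_dec (hgt_dec D e) h0)).and
    ((eventually_gt_atTop D.s₀).and (eventually_ge_atTop 1))).exists
  have k0 : ∀ q : R2, Real.exp (2 * s) < q.1 → 0 < q.1 := fun q h => (Real.exp_pos _).trans h
  have k1 : ∀ (e : En D) (q : R2), Real.exp (2 * s) < q.1 → s ≤ (co e q).1 := fun e q h => by
    linarith [co_ge e q (k0 q h), (Real.lt_log_iff_exp_lt (k0 q h)).2 h]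
  refine ⟨Real.exp (2 * s), Real.one_le_exp (by linarith), by rw [Real.log_exp]; linarith,
    fun e q h => pt_eq e q ▸ end_mem D e _ (h7.trans_le (k1 e q h)), fun e e' q q' h h' k => ?_,
    fun e q h => ?_, fun e q h => yS_eq e q ▸ (h6 e _ (k1 e q h)).b0.trans h2, fun e q h => ?_⟩
  · rw [pt_eq, pt_eq, endPt_eq, endPt_eq] at k
    obtain ⟨rfl, k2, -, m, k3⟩ := h5 e e' _ _ _ _ (k1 e q h) (k1 e' q' h') (h6 e _ (k1 e q h)).b0
      (h6 e' _ (k1 e' q' h')).b0 k
    exact ⟨rfl, m, Prod.ext (by rw [← sg_co e q' (k0 q' h'), ← k2, sg_co e q (k0 q h)])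
      (by simpa only [co_snd] using k3)⟩
  · have k2 := imm_end (M e) ((le_div_iff₀ (by have := (M e).C1; positivity)).1 (h3 e))
      (by linarith [k1 e q h]) (h6 e _ (k1 e q h))
    rw [← endPt_eq, ← dir_eq e q (k0 q h)] at k2
    have k3 : fderiv ℝ (pt e) q = _ := HasFDerivAt.fderiv
      ((((endPt_smooth D e).differentiable (by simp) _).hasFDerivAt.comp q ((co_sm e q
        (k0 q h)).differentiableAt (by simp)).hasFDerivAt).congr_of_eventuallyEq
        (Eventually.of_forall (pt_eq e)))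
    refine (injective_iff_map_eq_zero _).2 fun z hz => ?_
    have k4 := Prod.ext_iff.1 ((injective_iff_map_eq_zero _).1 k2 (fderiv ℝ (co e) q z.1, z.2)
      (by simpa [k3] using hz))
    exact Prod.ext ((injective_iff_map_eq_zero _).1 (co_imm e q (k0 q h)) _ k4.1) k4.2
  · rw [pt_eq, endPt_eq, ← sg_co e q (k0 q h)]
    exact ((M e).nrm _ _ (h8.trans (k1 e q h)) ((h6 e _ (k1 e q h)).b0.trans h4)).1

theorem far_pt (D : EndData w) (z : ℝ) :
    ∃ R, ∀ p, w p = 0 → R ≤ ‖p‖ → ∃ (e : En D) (q : R2), z < q.1 ∧ p = pt e q := by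
  obtain ⟨R, -, hR⟩ := far D (|z| + 1)
  refine ⟨R, fun p hp h => ?_⟩
  obtain ⟨e, v, hv, rfl⟩ := hR p hp h
  obtain ⟨C, δ, M⟩ := mod_end D e
  have h0 := abs_nonneg z
  exact ⟨e, (D6.endSg D e v.1, v.2), by nlinarith [M.sgl v.1 (by linarith), le_abs_self z],
    by rw [pt_eq, co_sg e v (by linarith)]⟩

namespace Far

variable {a z : ℝ}

theorem mono (h : Far D a z) {z' : ℝ} (hz : z ≤ z') : Far D a z' :=
  ⟨h.one.trans hz, h.s0.trans_le (by have := h.one; gcongr), fun e q k => h.mem e q (hz.trans_lt k),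
    fun e e' q q' k k' => h.sep e e' q q' (hz.trans_lt k) (hz.trans_lt k'),
    fun e q k => h.imm e q (hz.trans_lt k), fun e q k => h.le e q (hz.trans_lt k),
    fun e q k => h.nrm e q (hz.trans_lt k)⟩

theorem patch (h : Far D a z) (hw : Shr w) (e : En D) (θ : ℝ) :
    ∃ P : Patch (SS w), P.O = Ioi z ×ˢ Ioo (θ - π) (θ + π) ∧ P.φ = pt e := by
  refine mkPatchS hw (isOpen_Ioi.prod isOpen_Ioo)
    (fun q hq => (pt_sm e q (by linarith [h.one, mem_Ioi.1 hq.1])).contDiffWithinAt)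
    (fun q hq u u' k => (Prod.ext_iff.1 (h.imm e q hq.1 (a₁ := (u, 0)) (a₂ := (u', 0))
      (by simpa using k))).1) (fun q hq q' hq' k => ?_) fun q hq => h.mem e q hq.1
  obtain ⟨-, m, rfl⟩ := h.sep e e q q' hq.1 hq'.1 k
  have h1 := (existsUnique_add_zsmul_mem_Ico Real.two_pi_pos q.2 (θ - π)).unique (y₁ := m)
    (y₂ := 0) ⟨by simpa using hq'.2.1.le, by simpa using hq'.2.2.trans_eq (by ring)⟩
    ⟨by simpa using hq.2.1.le, by simpa using hq.2.2.trans_eq (by ring)⟩
  simp [h1]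

theorem closed (h : Far D a z) : IsClosed {p | ∃ (e : En D) (q : R2), z + 1 ≤ q.1 ∧ p = pt e q} := by
  rw [ofPred_exists]
  refine isClosed_iUnion_of_finite fun e => isClosed_of_loc fun R =>
    ⟨pt e '' (Icc (z + 1) (R ^ 2) ×ˢ Icc 0 (2 * π)), (isCompact_Icc.prod
      isCompact_Icc).image_of_continuousOn fun q hq => (pt_sm e q
        (by linarith [h.one, hq.1.1])).continuousAt.continuousWithinAt, ?_, ?_⟩
  · rintro _ ⟨q, hq, rfl⟩
    exact ⟨q, hq.1.1, rfl⟩
  · rintro _ ⟨⟨q, hq, rfl⟩, k⟩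
    obtain ⟨m, hm⟩ := red q.2
    exact ⟨(q.1, q.2 + m * (2 * π)), ⟨⟨hq, (h.nrm e q (by linarith)).trans (pow_le_pow_left₀
      (norm_nonneg _) (mem_ball_zero_iff.1 k).le 2)⟩, Ico_subset_Icc_self hm⟩, pt_per e q m⟩

/-- gluing of functions on the ends with a function on the core -/
theorem glue (h : Far D a z) (hw : Shr w) {V : Type} [NormedAddCommGroup V] [NormedSpace ℝ V]
    {t : E3 → Set V} (ht : ∀ p, Convex ℝ (t p)) (F : En D → R2 → V) {g : E3 → V} {W : Set E3}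
    (hF : ∀ e (q : R2), z < q.1 → ContDiffAt ℝ ∞ (F e) q)
    (hp : ∀ e (q : R2) (m : ℤ), F e (q.1, q.2 + m * (2 * π)) = F e q)
    (hFt : ∀ e (q : R2), z < q.1 → F e q ∈ t (pt e q)) (hW : IsOpen W) (hS : SS w ⊆ W)
    (hg : ContDiffOn ℝ ∞ g W)
    (hgt : ∀ p, w p = 0 → (¬∃ (e : En D) (q : R2), z + 1 ≤ q.1 ∧ p = pt e q) → g p ∈ t p) :
    ∃ f : E3 → V, ContDiff ℝ ∞ f ∧ (∀ p, w p = 0 → f p ∈ t p) ∧
      ∀ e (q : R2), z + 1 < q.1 → f (pt e q) = F e q := by
  obtain ⟨f, hf⟩ := exists_contMDiffMap_forall_mem_convex_of_local 𝓘(ℝ, E3) (n := ⊤)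
    (t := fun p => {v | w p = 0 → v ∈ t p ∧ ∀ e (q : R2), z + 1 ≤ q.1 → p = pt e q → v = F e q})
    (fun p u hu v hv α β hα hβ e k => ⟨ht p (hu k).1 (hv k).1 hα hβ e, fun e' q k1 k2 => by
      rw [(hu k).2 e' q k1 k2, (hv k).2 e' q k1 k2, ← add_smul, e, one_smul]⟩) fun x => by
    by_cases hx : w x = 0
    swap
    · exact ⟨_, hw.smooth.continuous.continuousAt.eventually_ne hx, fun _ => 0, contMDiffOn_const,
        fun y hy k => (hy k).elim⟩
    by_cases k : ∃ (e : En D) (q : R2), z + 1 ≤ q.1 ∧ x = pt e q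
    swap
    · exact ⟨_, inter_mem (hW.mem_nhds (hS hx)) (h.closed.isOpen_compl.mem_nhds k), g,
        (hg.mono inter_subset_left).contMDiffOn, fun y hy k1 =>
          ⟨hgt y k1 hy.2, fun e q k2 k3 => (hy.2 ⟨e, q, k2, k3⟩).elim⟩⟩
    obtain ⟨e, q, k1, rfl⟩ := k
    obtain ⟨P, k2, k3⟩ := h.patch hw e q.2
    have k4 : q ∈ P.O := k2 ▸ ⟨(lt_add_one z).trans_le k1, by linarith [Real.pi_pos],
      by linarith [Real.pi_pos]⟩
    have k5 : pt e q ∈ P.V := k3 ▸ (P.maps q k4).2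
    obtain ⟨G, U, hU, k6, k7⟩ := P.ext_ι hx k5
    have k8 : G (pt e q) ∈ P.O := k7.self_of_nhdsWithin hx ▸ (P.inv _ hx k5).1
    have k9 : ∀ y ∈ P.O, z < y.1 := fun y hy => (k2 ▸ hy : y ∈ _ ×ˢ _).1
    refine ⟨_, inter_mem (inter_mem hU ((k6.contDiffAt hU).continuousAt (P.isOpen_O.mem_nhds k8)))
      (eventually_nhdsWithin_iff.1 (k7.and (P.ev_inv k5))), fun y => F e (G y),
      ContDiffOn.contMDiffOn fun y hy => (hF e _ (k9 _ hy.1.2)).comp_contDiffWithinAt y
        ((k6 y hy.1.1).mono fun _ hu => hu.1.1), fun y hy k => ?_⟩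
    obtain ⟨j1, -, j2⟩ := hy.2 k
    rw [← j1, k3] at j2
    refine ⟨by simpa only [j2] using hFt e _ (k9 _ hy.1.2), fun e' q' j3 j4 => ?_⟩
    obtain ⟨rfl, m, rfl⟩ := h.sep e e' _ q' (k9 _ hy.1.2) (by linarith) (j2.trans j4)
    exact (hp e _ m).symm
  exact ⟨f, f.contMDiff.contDiff, fun p hp => (hf p hp).1,
    fun e q k => (hf _ (h.mem e q (by linarith))).2 e q k.le rfl⟩

theorem sign (h : Far D a z) (hw : Shr w) (e : En D) : ∃ s : ℝ, (s = 1 ∨ s = -1) ∧
    ∀ q : R2, z < q.1 → 0 < ⟪s • dir e q, nuW w (pt e q)⟫ := by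
  have h0 : ∀ q : R2, z < q.1 → 0 < q.1 := fun q k => by linarith [h.one]
  rcases ((convex_Ioi z).prod (convex_univ (E := ℝ))).isPreconnected.mapsTo_Ioi_or_Iio
    (f := fun q => ⟪dir e q, nuW w (pt e q)⟫) (b := 0) (fun q hq =>
      ((dir_sm e q (h0 q hq.1)).continuousAt.inner ((contDiffAt_nuW hw.smooth
        (hw.ne _ (h.mem e q hq.1))).continuousAt.comp
          (pt_sm e q (h0 q hq.1)).continuousAt)).continuousWithinAt) (fun q hq k => by
      obtain ⟨u, hu⟩ := tL_surj (h.imm e q hq.1) (nuW w (pt e q))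
      have h1 := congrArg (fun y => ⟪nuW w (pt e q), y⟫) hu
      simp only [tL_apply, inner_add_right, real_inner_smul_right, real_inner_comm (dir e q),
        real_inner_self_eq_norm_sq, norm_nuW (hw.ne _ (h.mem e q hq.1)), k,
        End.inner_nuW_d1 hw.smooth ((pt_sm e q (h0 q hq.1)).of_le
          (WithTop.coe_le_coe.2 (le_top (a := (2 : ℕ∞))))) ((continuousAt_const.eventually_lt
            continuousAt_fst hq.1).mono (h.mem e))] at h1
      norm_num at h1) with k | k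
  · exact ⟨1, .inl rfl, fun q hq => by simpa using k (x := q) ⟨hq, trivial⟩⟩
  · exact ⟨-1, .inr rfl, fun q hq => by simpa using k (x := q) ⟨hq, trivial⟩⟩

end Far

theorem kaf_le (i : Fin D.a) : ∃ K, ∀ θ, |kaf i θ| ≤ K := by
  obtain ⟨C, -, hC⟩ := jb_per (D.link i).smooth (D.link i).per
  refine ⟨cc i ^ 2 * C, fun θ => ?_⟩
  have h1 := (hC θ).b2
  rw [← norm_iteratedFDeriv_one, norm_iteratedFDeriv_fderiv,
    norm_iteratedFDeriv_eq_norm_iteratedDeriv, iteratedDeriv_succ, iteratedDeriv_one] at h1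
  rw [kaf, abs_mul, abs_sq]
  exact mul_le_mul_of_nonneg_left ((abs_real_inner_le_norm _ _).trans
    (by rwa [(D.link i).nnorm, mul_one])) (sq_nonneg _)

end Gp

open Gp in
theorem geoStmt : GeoStmt := by
  classical
  intro w D hw
  choose K hK using kaf_le (D := D)
  obtain ⟨M, h1, h2⟩ := ((eventually_ge_atTop 1).and
    (eventually_all.2 fun i => eventually_ge_atTop (K i))).exists
  obtain ⟨z, h⟩ := exists_far D (show 0 < 1 / 2 / M by positivity)
  have h' := h.mono (le_add_of_nonneg_right (zero_le_one' ℝ))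
  choose s s1 s2 using h.sign hw
  choose pa hpa using exists_patch hw
  choose ep e1 e2 using h'.patch hw
  obtain ⟨σ, σ1, σ2, σ3⟩ := h.glue hw
    (t := fun p => {v | (¬∃ (e : En D) (q : R2), z + 1 < q.1 ∧ p = pt e q) → v ≤ z + 1})
    (fun p u hu v hv α β hα hβ e k => convex_Iic (z + 1) (hu k) (hv k) hα hβ e) (fun _ q => q.1)
    (fun _ _ _ => contDiffAt_fst) (fun _ _ _ => rfl)
    (fun e q _ k => not_lt.1 fun k1 => k ⟨e, q, k1, rfl⟩) isOpen_univ (subset_univ _)
    (contDiffOn_const (c := 0)) fun _ _ _ _ => zero_le_one.trans h'.one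
  obtain ⟨nn, n1, n2, n3⟩ := h.glue hw (t := fun p => {v | 0 < ⟪v, nuW w p⟫})
    (fun p => convex_halfSpace_gt (f := fun v => ⟪v, nuW w p⟫)
      ⟨fun _ _ => inner_add_left _ _ _, fun _ _ => real_inner_smul_left _ _ _⟩ 0)
    (fun e q => s e • dir e q)
    (fun e q k => (dir_sm e q (by linarith [h.one])).const_smul _)
    (fun e q m => by rw [dir_per]) s2
    (isOpen_ne_fun (contDiff_grad_top hw.smooth).continuous continuous_const) hw.ne
    (fun p hp => (contDiffAt_nuW hw.smooth hp).contDiffWithinAt) fun p hp _ => by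
      simp [norm_nuW (hw.ne p hp)]
  choose ind i1 i2 i3 using fun e' : En D => h.glue hw (t := fun _ => univ) (fun _ => convex_univ)
    (fun e _ => if e' = e then (1 : ℝ) else 0) (fun _ _ _ => contDiffAt_const) (fun _ _ _ => rfl)
    (fun _ _ _ => trivial) isOpen_univ (subset_univ _) (contDiffOn_const (c := 0))
    fun _ _ _ => trivial
  refine ⟨⟨z + 1, σ, nn, ind, s, pa, ep, hw, h'.one, h'.s0, σ1, n1, i1, σ3, n3,
    fun e' e q k => by convert i3 e' e q k, s1, n2, fun p hp k => not_not.1 fun k1 =>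
      k.not_ge (σ2 p hp k1), fun e q q' k k' j => (h'.sep e e q q' k k' j).2, fun R => ?_, hpa, e2,
    e1, fun e q k => (h'.le e q k).trans (div_le_self (by norm_num) h1), fun i q k => ?_⟩⟩
  · obtain ⟨R', hR⟩ := far_pt D (max (z + 1) R)
    refine (isCompact_closedBall 0 R').of_isClosed_subset
      ((isClosed_eq hw.smooth.continuous continuous_const).inter
        (isClosed_le σ1.continuous continuous_const)) fun p hp => ?_
    by_contra k
    obtain ⟨e, q, k1, rfl⟩ := hR p hp.1 (not_le.1 (mt mem_closedBall_zero_iff.2 k)).le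
    exact (max_lt_iff.1 k1).2.not_ge ((σ3 e q (max_lt_iff.1 k1).1).symm.trans_le hp.2)
  · rw [abs_mul]
    refine (mul_le_mul ((hK i _).trans (h2 i)) (h'.le _ q k) (abs_nonneg _)
      (by linarith)).trans_eq ?_
    field_simp

end Vale.Agent.P218N.Core
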