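import Vale.Agent.P218N.Core.GreenB

/-! Green's formulas for the linearised operator. -/

open Set Filter Topology Metric MeasureTheory
open scoped RealInnerProductSpace ContDiff Matrix

noncomputable section

namespace Vale.Agent.P218N.Core

open Vale.Agent.P218.H313 Vale.Agent.P218N.H Vale.Agent.P218N.End

variable {w : E3 → ℝ} {D : EndData w} {G : Geo D} {zm : ℝ} {u v f : E3 → ℂ}

namespace GreenP

/-- a function of the exhaustion function -/
def fσ (G : Geo D) (φ : ℝ → ℝ) (p : E3) : ℂ := (φ (G.σ p) : ℝ)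

theorem c2_fσ {φ : ℝ → ℝ} (h : ContDiff ℝ ∞ φ) : C2S w (fσ G φ) :=
  c2s_of_smooth (Complex.ofRealCLM.contDiff.comp (h.comp G.σ_sm))

theorem c2_mul (hf : C2S w f) (hu : C2S w u) : C2S w (f * u) := fun P y hy =>
  (hf P y hy).mul (hu P y hy)

theorem jG_mul (J : JetF D) (hf : C2S w f) (hu : C2S w u) {p : E3} (hp : w p = 0) :
    G.jG (f * u) p = jmul (G.jG f p) (G.jG u p) :=
  J.leib _ _ _ (hf _ _ (pa_spec G hp).1) (hu _ _ (pa_spec G hp).1)

theorem jG_zero' {p : E3} (hp : w p = 0) : G.jG u p 0 = u p := congrArg u (pa_spec G hp).2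

/-- the coefficient of order zero -/
def L1 (G : Geo D) (zm : ℝ) (p : E3) : ℂ := Lh (G.bJ zm (G.pa p).φ ((G.pa p).ι p)) j1

theorem LG_mul (J : JetF D) (I : InvF G zm) (hf : C2S w f) (hu : C2S w u) {p : E3}
    (hp : w p = 0) : G.LG zm (f * u) p =
      f p * G.LG zm u p + 2 * G.gG f u p + u p * (G.LG zm f p - f p * L1 G zm p) := by
  obtain ⟨b1, b2, -, b3, -⟩ := I.base _ _ (pa_spec G hp).1
  rw [Geo.LG, jG_mul J hf hu hp, J.Lh_mul _ b2 b1, b3, jG_zero' hp, jG_zero' hp]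
  rfl

theorem gG_mul (J : JetF D) {g : E3 → ℂ} (hf : C2S w f) (hu : C2S w u) {p : E3} (hp : w p = 0) :
    G.gG g (f * u) p = f p * G.gG g u p + u p * G.gG g f p := by
  rw [Geo.gG, jG_mul J hf hu hp, ← jG_zero' (G := G) (u := f) hp, ← jG_zero' (G := G) (u := u) hp]
  simp [Geo.gG, ginv, jmul]
  ring

theorem LG_congr (I : InvF G zm) {p : E3} (hp : w p = 0) (h : ∀ᶠ x in 𝓝[SS w] p, u x = v x) :
    G.LG zm u p = G.LG zm v p := by
  rw [Geo.LG, jG_congr I hp h, Geo.LG]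

theorem LG_zero (I : InvF G zm) {p : E3} (hp : w p = 0) (h : ∀ᶠ x in 𝓝[SS w] p, u x = 0) :
    G.LG zm u p = 0 := by
  rw [Geo.LG, jG_zero I hp h, map_zero]

theorem gG_const (I : InvF G zm) {p : E3} (hp : w p = 0) {c : ℂ}
    (h : ∀ᶠ x in 𝓝[SS w] p, f x = c) : G.gG f v p = 0 := by
  rw [Geo.gG, jG_congr I (g := fun _ => c) hp h]
  simp [Geo.jG, jet2, ginv]

theorem ip_congr (G : Geo D) {f g f' g' : E3 → ℂ} (h : ∀ p, w p = 0 → f p * g p = f' p * g' p) :
    G.ip f g = G.ip f' g' :=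
  integral_congr_ae ((ae_mem G).mono fun p hp => by simp only [h p hp])

theorem st_lo {x : ℝ} (h : x ≤ 1 / 3) : st x = 0 :=
  Real.smoothTransition.zero_of_nonpos (by linarith)

theorem st_hi {x : ℝ} (h : 2 / 3 ≤ x) : st x = 1 :=
  Real.smoothTransition.one_of_one_le (by linarith)

theorem dst_bd : ∃ K : ℝ, 0 ≤ K ∧ ∀ x, |deriv st x| ≤ K := by
  obtain ⟨K, hK⟩ := (isCompact_Icc (a := (0 : ℝ)) (b := 1)).exists_bound_of_continuousOn
    (cd_st.continuous_deriv (by simp)).continuousOn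
  have h0 : 0 ≤ K := (norm_nonneg _).trans (hK 0 ⟨le_rfl, zero_le_one⟩)
  refine ⟨K, h0, fun x => ?_⟩
  rcases lt_or_ge x 0 with h | h
  · rw [EventuallyEq.deriv_eq (f := fun _ => 0) ((gt_mem_nhds h).mono fun y hy =>
      st_lo (by linarith))]
    simpa using h0
  · rcases lt_or_ge 1 x with h' | h'
    · rw [EventuallyEq.deriv_eq (f := fun _ => 1) ((lt_mem_nhds h').mono fun y hy =>
        st_hi (by linarith))]
      simpa using h0
    · exact hK x ⟨h, h'⟩

/-- the cutoff function -/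
def th (R ζ : ℝ) : ℝ := 1 - st (ζ - R)

theorem cd_th (R : ℝ) : ContDiff ℝ ∞ (th R) := contDiff_const.sub (cd_st.comp (by fun_prop))

theorem th_lo {R : ℝ} {p : E3} (h : G.σ p ≤ R + 1 / 3) : fσ G (th R) p = 1 := by
  simp [fσ, th, st_lo (x := G.σ p - R) (by linarith)]

theorem th_hi {R : ℝ} {p : E3} (h : R + 2 / 3 ≤ G.σ p) : fσ G (th R) p = 0 := by
  simp [fσ, th, st_hi (x := G.σ p - R) (by linarith)]

theorem bdd_th (R : ℝ) : Bdd w (fσ G (th R)) :=
  (bdd_iff G).2 ⟨R + 1, fun _ _ h => th_hi (by linarith)⟩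

theorem bdd_mul (h : Bdd w f) : Bdd w (f * u) :=
  let ⟨R, hR⟩ := h
  ⟨R, fun p a b => by simp [hR p a b]⟩

theorem sym (J : JetF D) (I : InvF G zm) (V : VarF G) (hu : C2S w u) (hv : C2S w v)
    (bv : Bdd w v) : G.ip (G.LG zm u) v = G.ip u (G.LG zm v) := by
  obtain ⟨R, hR⟩ := (bdd_iff G).1 bv
  have h := sym0 J I V (c2_mul (c2_fσ (G := G) (cd_th R)) hu) hv (bdd_mul (bdd_th R)) bv
  refine (ip_congr G fun p hp => ?_).trans (h.trans (ip_congr G fun p hp => ?_))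
  · rcases lt_or_ge R (G.σ p) with h1 | h1
    · rw [hR p hp h1, mul_zero, mul_zero]
    · rw [LG_congr I hp (v := fσ G (th R) * u)
        ((ev_lt G (R := R + 1 / 3) (by linarith)).mono fun x hx => by simp [th_lo hx.2.le])]
  · rcases lt_or_ge R (G.σ p) with h1 | h1
    · rw [LG_zero I hp ((ev_gt G h1).mono fun x hx => hR x hx.1 hx.2), mul_zero, mul_zero]
    · simp [th_lo (G := G) (p := p) (R := R) (by linarith)]

theorem ep_mem (G : Geo D) (e : En D) {q : R2} (h : G.z0 < q.1) : q ∈ (G.ep e q.2).O := by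
  rw [G.ep_O]
  exact ⟨h, by linarith [Real.pi_pos], by linarith [Real.pi_pos]⟩

theorem c2_pt (hu : C2S w u) (e : En D) {q : R2} (h : G.z0 < q.1) :
    ContDiffAt ℝ 2 (fun z => u (pt e z)) q := by
  have := hu _ _ (ep_mem G e h)
  rwa [G.ep_φ] at this

theorem jet_fσ (J : JetF D) {φ : ℝ → ℝ} (hφ : ContDiff ℝ ∞ φ) (e : En D) {q : R2}
    (h : G.z0 < q.1) : jet2 (fun z => fσ G φ (pt e z)) q = jz φ q.1 := by
  rw [← J.jz_eq φ q (hφ.contDiffAt.of_le (by norm_cast))]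
  refine jet2_congr ?_
  filter_upwards [continuousAt_fst.eventually (lt_mem_nhds h)] with z hz
  rw [fσ, G.σ_pt e z hz]

theorem mod_nonneg (G : Geo D) (hu : G.Mod u) : ∃ C : ℝ, 0 ≤ C ∧ ∀ (e : En D) (q : R2),
    G.z0 + 1 ≤ q.1 → ‖T1 (jet2 (fun z => u (pt e z)) q)‖ ≤ C * q.1 ^ 2 :=
  let ⟨C, hC⟩ := hu
  ⟨|C|, abs_nonneg C, fun e q hq =>
    (hC e q hq).trans (mul_le_mul_of_nonneg_right (le_abs_self C) (sq_nonneg _))⟩

theorem mod_mul (J : JetF D) {φ : ℝ → ℝ} (hφ : ContDiff ℝ ∞ φ) {K : ℝ}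
    (h0 : ∀ x, |φ x| ≤ K) (h1 : ∀ x, |deriv φ x| ≤ K) (hu : C2S w u) (mu : G.Mod u) :
    G.Mod (fσ G φ * u) := by
  obtain ⟨C, C0, hC⟩ := mod_nonneg G mu
  refine ⟨2 * K * C, fun e q hq => ?_⟩
  have q0 : G.z0 < q.1 := by linarith
  have K0 : 0 ≤ K := (abs_nonneg _).trans (h0 0)
  have e1 : jet2 (fun z => (fσ G φ * u) (pt e z)) q =
      jmul (jz φ q.1) (jet2 (fun z => u (pt e z)) q) := by
    rw [← jet_fσ J hφ e q0]
    exact J.leib _ _ _ (c2_pt (c2_fσ hφ) e q0) (c2_pt hu e q0)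
  have h2 := hC e q hq
  rw [e1]
  generalize jet2 (fun z => u (pt e z)) q = m at h2
  have m0 : ‖m 0‖ ≤ C * q.1 ^ 2 := (norm_le_pi_norm (T1 m) 0).trans h2
  have m1 : ‖m 1‖ ≤ C * q.1 ^ 2 := (norm_le_pi_norm (T1 m) 1).trans h2
  have m2 : ‖m 2‖ ≤ C * q.1 ^ 2 := (norm_le_pi_norm (T1 m) 2).trans h2
  have a0 := mul_le_mul (h0 q.1) m0 (norm_nonneg _) K0
  have a1 := mul_le_mul (h0 q.1) m1 (norm_nonneg _) K0
  have a2 := mul_le_mul (h0 q.1) m2 (norm_nonneg _) K0
  have a3 := mul_le_mul (h1 q.1) m0 (norm_nonneg _) K0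
  have a4 : 0 ≤ K * (C * q.1 ^ 2) := by positivity
  refine (pi_norm_le_iff_of_nonneg (by positivity)).2 fun k => ?_
  fin_cases k
  · simp [T1, jmul, jz]
    linarith
  · refine (norm_add_le ((deriv φ q.1 : ℝ) * m 0) ((φ q.1 : ℝ) * m 1)).trans ?_
    simp only [norm_mul, Complex.norm_real, Real.norm_eq_abs]
    linarith
  · simp [T1, jmul, jz]
    linarith
  all_goals
    simp [T1]
    positivity

theorem flux_bd (J : JetF D) (I : InvF G zm) (hv : C2S w v) (mu : G.Mod u)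
    (mv : G.Mod v) (e : En D) {ε : ℝ} (hε : 0 < ε) : ∀ᶠ ζ in atTop, ∀ θ R : ℝ,
      ‖u (pt e (ζ, θ)) * G.gG (fσ G (th R)) v (pt e (ζ, θ)) * (G.om (pt e (ζ, θ)) : ℝ) *
        Complex.sqrt (dg (jS (pt e) (ζ, θ)))‖ ≤ ε := by
  obtain ⟨K, K0, hK⟩ := dst_bd
  obtain ⟨C, z, C0, hC⟩ := ginv_bd G e
  obtain ⟨Cu, u0, hCu⟩ := mod_nonneg G mu
  obtain ⟨Cv, v0, hCv⟩ := mod_nonneg G mv
  have h1 : Tendsto (fun ζ : ℝ => Cu * (C * K * Cv) * 2 * 4 ^ 8 *
      ((ζ / 4) ^ 8 * Real.exp (-(ζ / 4)))) atTop (𝓝 (Cu * (C * K * Cv) * 2 * 4 ^ 8 * 0)) :=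
    ((Real.tendsto_pow_mul_exp_neg_atTop_nhds_zero 8).comp
      (tendsto_id.atTop_div_const (by norm_num))).const_mul _
  rw [mul_zero] at h1
  filter_upwards [h1.eventually (ge_mem_nhds hε), eventually_ge_atTop z,
    eventually_ge_atTop (G.z0 + 1)] with ζ k1 k2 k3 θ R
  have q0 : G.z0 < ((ζ, θ) : R2).1 := by linarith
  have q1 : 0 ≤ ζ := by linarith [G.one_le]
  have e1 := I.gG_eq _ _ (ep_mem G e q0) (fσ G (th R)) v (c2_fσ (cd_th R) _ _ (ep_mem G e q0))
    (hv _ _ (ep_mem G e q0))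
  rw [G.ep_φ, jet_fσ J (cd_th R) e q0] at e1
  have a1 : ‖u (pt e (ζ, θ))‖ ≤ Cu * ζ ^ 2 :=
    (norm_le_pi_norm (T1 (jet2 (fun z => u (pt e z)) (ζ, θ))) 0).trans (hCu e (ζ, θ) k3)
  have a2 : |deriv (th R) ζ| ≤ K := by
    have : deriv (th R) ζ = -deriv st (ζ - R) := by
      rw [← deriv_comp_sub_const]
      exact deriv_const_sub _
    rw [this, abs_neg]
    exact hK _
  have a3 := (hC (ζ, θ) k2 (th R) (jet2 (fun z => v (pt e z)) (ζ, θ))).trans
    (mul_le_mul (mul_le_mul_of_nonneg_left a2 (by positivity)) (hCv e (ζ, θ) k3) (norm_nonneg _)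
      (by positivity))
  obtain ⟨a4, a5⟩ := om_le G e q0
  rw [e1, mul_right_comm, mul_assoc (u _), norm_mul, norm_mul, Complex.norm_real,
    Real.norm_of_nonneg a4]
  refine (mul_le_mul (mul_le_mul a1 a3 (norm_nonneg _) (by positivity)) a5 a4
    (by positivity)).trans (le_trans (le_of_eq ?_) k1)
  rw [neg_div]
  ring

theorem bdd_gG (I : InvF G zm) {φ : ℝ → ℝ} {R c : ℝ} (h : ∀ x, R < x → φ x = c) :
    Bdd w (G.gG (fσ G φ) v) :=
  (bdd_iff G).2 ⟨R, fun _ hp hR => gG_const I hp (c := c)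
    ((ev_gt G hR).mono fun x hx => by rw [fσ, h _ hx.2])⟩

theorem inf (J : JetF D) (I : InvF G zm) (V : VarF G) (hu : C2S w u) (hv : C2S w v)
    (mu : G.Mod u) (mv : G.Mod v) (bu : Bdd w (G.LG zm u)) (bv : Bdd w (G.LG zm v)) :
    G.ip (G.LG zm u) v = G.ip u (G.LG zm v) := by
  obtain ⟨Ru, hRu⟩ := (bdd_iff G).1 bu
  obtain ⟨Rv, hRv⟩ := (bdd_iff G).1 bv
  have cu := I.cont u v hu hv
  have cv := I.cont v u hv hu
  have key : ∀ R : ℝ, Ru ≤ R → Rv ≤ R → G.ip (G.LG zm u) v - G.ip u (G.LG zm v) =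
      ∫ p, (u p * G.gG (fσ G (th R)) v p * (G.om p : ℝ) -
        v p * G.gG (fσ G (th R)) u p * (G.om p : ℝ)) ∂muS w := by
    intro R h1 h2
    have ct := c2_fσ (G := G) (cd_th R)
    have s1 := sym J I V hu (c2_mul ct hv) (bdd_mul (bdd_th R))
    have s2 := sym J I V hv (c2_mul ct hu) (bdd_mul (bdd_th R))
    have t1 : ∀ p, w p = 0 → fσ G (th R) p * G.LG zm u p = G.LG zm u p := fun p hp => by
      rcases lt_or_ge R (G.σ p) with h | h
      · rw [hRu p hp (h1.trans_lt h), mul_zero]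
      · rw [th_lo (by linarith), one_mul]
    have t2 : ∀ p, w p = 0 → fσ G (th R) p * G.LG zm v p = G.LG zm v p := fun p hp => by
      rcases lt_or_ge R (G.σ p) with h | h
      · rw [hRv p hp (h2.trans_lt h), mul_zero]
      · rw [th_lo (by linarith), one_mul]
    rw [ip_congr G (f' := G.LG zm u) (g' := v) fun p hp => by
      rw [Pi.mul_apply, ← mul_assoc, mul_comm (G.LG zm u p), t1 p hp]] at s1
    rw [ip_congr G (f' := u) (g' := G.LG zm v) fun p hp => by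
      rw [Pi.mul_apply, ← mul_assoc, mul_comm (G.LG zm v p), t2 p hp, mul_comm]] at s2
    have bL : ∀ {u : E3 → ℂ}, Bdd w (G.LG zm (fσ G (th R) * u)) := fun {u} =>
      (bdd_iff G).2 ⟨R + 1, fun p hp h => LG_zero I hp ((ev_gt G h).mono fun x hx => by
        simp [th_hi (G := G) (p := x) (R := R) (by linarith [hx.2])])⟩
    have i1 := int_mul I V cu.2.1 cv.1 (Or.inl bu)
    have i2 := int_mul I V cu.1 cv.2.1 (Or.inr bv)
    have i3 := int_mul I V cu.1 (I.cont _ v (c2_mul ct hv) hv).2.1 (Or.inr bL)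
    have i4 := int_mul I V cv.1 (I.cont _ v (c2_mul ct hu) hv).2.1 (Or.inr bL)
    have e : G.ip u (G.LG zm (fσ G (th R) * v)) - G.ip v (G.LG zm (fσ G (th R) * u)) +
        (G.ip (G.LG zm u) v - G.ip u (G.LG zm v)) =
        2 * ∫ p, (u p * G.gG (fσ G (th R)) v p * (G.om p : ℝ) -
          v p * G.gG (fσ G (th R)) u p * (G.om p : ℝ)) ∂muS w := by
      unfold Geo.ip
      rw [← integral_sub i3 i4, ← integral_sub i1 i2, ← integral_const_mul]
      refine (integral_add (i3.sub i4) (i1.sub i2)).symm.trans ?_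
      refine integral_congr_ae ((ae_mem G).mono fun p hp => ?_)
      simp only [Pi.sub_apply, LG_mul J I ct hv hp, LG_mul J I ct hu hp, t1 p hp, t2 p hp]
      ring
    linear_combination (e + s1 - s2) / 2
  refine sub_eq_zero.1 (norm_le_zero_iff.1 (le_of_forall_pos_le_add fun ε hε => ?_))
  set δ := ε / (4 * Real.pi * (Fintype.card (En D) + 1)) with hδ
  have hδ0 : 0 < δ := by positivity
  obtain ⟨z, hz⟩ := eventually_atTop.1 (eventually_all.2 fun e : En D =>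
    (flux_bd J I hv mu mv e hδ0).and (flux_bd J I hu mv mu e hδ0))
  obtain ⟨R, h1, h2, h3, h4⟩ := ((eventually_ge_atTop Ru).and ((eventually_ge_atTop Rv).and
    ((eventually_ge_atTop z).and (eventually_gt_atTop G.z0)))).exists
  have ct := c2_fσ (G := G) (cd_th R)
  have co := Complex.continuous_ofReal.comp_continuousOn I.om_cont
  rw [key R h1 h2, V.ends (fun p => u p * G.gG (fσ G (th R)) v p * (G.om p : ℝ) -
    v p * G.gG (fσ G (th R)) u p * (G.om p : ℝ)) R (R + 1)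
    (((cu.1.mul (I.cont _ v ct hv).2.2).mul co).sub
    ((cv.1.mul (I.cont _ u ct hu).2.2).mul co)) h4 (by linarith) fun p hp h => ?_]
  · refine (norm_sum_le_of_le _ (n := fun _ => 2 * δ * |2 * Real.pi - 0| * |R + 1 - R|)
      fun e _ => ?_).trans ?_
    · refine intervalIntegral.norm_integral_le_of_norm_le_const fun ζ hζ => ?_
      refine intervalIntegral.norm_integral_le_of_norm_le_const fun θ _ => ?_
      rw [uIoc_of_le (by linarith)] at hζ
      obtain ⟨k1, k2⟩ := hz ζ (h3.trans hζ.1.le) e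
      rw [sub_mul]
      exact (norm_sub_le _ _).trans (by linarith [k1 θ R, k2 θ R])
    · have h5 : ε = δ * (4 * Real.pi * (Fintype.card (En D) + 1)) := by
        rw [hδ]
        field_simp
      rw [Finset.sum_const, Finset.card_univ, nsmul_eq_mul, sub_zero, add_sub_cancel_left, abs_one,
        abs_of_pos (by positivity), h5]
      nlinarith [mul_pos hδ0 Real.pi_pos]
  · have g0 : ∀ v : E3 → ℂ, G.gG (fσ G (th R)) v p = 0 := fun v => by
      rcases not_and_or.1 h with h5 | h5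
      · exact gG_const I hp ((ev_lt G (not_le.1 h5)).mono fun x hx => th_lo (by linarith [hx.2]))
      · exact gG_const I hp ((ev_gt G (not_le.1 h5)).mono fun x hx => th_hi (by linarith [hx.2]))
    simp [g0]

theorem cut_mul (J : JetF D) (I : InvF G zm) (k : ℕ) (hu : C2S w u) (mu : G.Mod u)
    (bu : Bdd w (G.LG zm u)) : C2S w (fσ G (cut zm k) * u) ∧ G.Mod (fσ G (cut zm k) * u) ∧
      Bdd w (G.LG zm (fσ G (cut zm k) * u)) := by
  obtain ⟨K, K0, hK⟩ := dst_bd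
  obtain ⟨R, hR⟩ := (bdd_iff G).1 bu
  refine ⟨c2_mul (c2_fσ (cd_cut zm k)) hu, mod_mul J (cd_cut zm k) (K := K + 1) (fun x => ?_)
    (fun x => ?_) hu mu, (bdd_iff G).2 ⟨max R (zm + k + 1), fun p hp h => ?_⟩⟩
  · rw [cut, st, abs_of_nonneg (Real.smoothTransition.nonneg _)]
    linarith [Real.smoothTransition.le_one (3 * (x - zm - k) - 1)]
  · have : deriv (cut zm k) x = deriv st (x - zm - k) := by
      rw [← deriv_comp_sub_const, ← deriv_comp_sub_const]
      rfl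
    rw [this]
    linarith [hK (x - zm - k)]
  · rw [LG_congr I hp (v := u) ((ev_gt G h).mono fun x hx => by
      have := (le_max_right _ _).trans_lt hx.2
      simp [fσ, cut, st_hi (x := G.σ x - zm - k) (by linarith)])]
    exact hR p hp ((le_max_left _ _).trans_lt h)

theorem neg (J : JetF D) (I : InvF G zm) (V : VarF G) (k : ℕ) (hu : C2S w u) (mu : G.Mod u)
    (bu : Bdd w (G.LG zm u)) (h0 : ∀ p, w p = 0 → fσ G (cut zm k) p * G.LG zm u p = 0) :
    G.ip (fσ G (cut zm k) * u) (G.LG zm (fσ G (cut zm k) * u)) =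
      -G.ip (u * u) (G.gG (fσ G (cut zm k)) (fσ G (cut zm k))) := by
  obtain ⟨c1, m1, b1⟩ := cut_mul J I k hu mu bu
  obtain ⟨c2, m2, b2⟩ := cut_mul J I k c1 m1 b1
  have cf := c2_fσ (G := G) (cd_cut zm k)
  have h := inf J I V hu c2 mu m2 bu b2
  have bg : Bdd w (G.gG (fσ G (cut zm k)) (fσ G (cut zm k))) :=
    bdd_gG I (R := zm + k + 1) (c := 1) fun x hx => st_hi (by linarith)
  generalize fσ G (cut zm k) = f at *
  have i1 := int_mul I V (I.cont _ u c1 hu).1 (I.cont _ u c1 hu).2.1 (Or.inr b1)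
  have i2 := int_mul I V (I.cont _ u (c2_mul hu hu) hu).1 (I.cont f f cf cf).2.2 (Or.inr bg)
  have e1 : G.ip (G.LG zm u) (f * (f * u)) = 0 := by
    rw [ip_congr G (f' := 0) (g' := 0) fun p hp => by
      simp only [Pi.mul_apply, Pi.zero_apply]
      linear_combination f p * u p * h0 p hp]
    simp [Geo.ip]
  have e2 : G.ip u (G.LG zm (f * (f * u))) =
      2 * (G.ip (f * u) (G.LG zm (f * u)) + G.ip (u * u) (G.gG f f)) := by
    unfold Geo.ip
    rw [← integral_add i1 i2, ← integral_const_mul]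
    refine integral_congr_ae ((ae_mem G).mono fun p hp => ?_)
    simp only [LG_mul J I cf c1 hp, gG_mul J cf hu hp, LG_mul J I cf hu hp, h0 p hp, Pi.mul_apply]
    ring
  linear_combination (e1 - h - e2) / 2

end GreenP

theorem greenF (J : JetF D) (I : InvF G zm) (V : VarF G) : GreenF G zm where
  sym _ _ := GreenP.sym J I V
  inf _ _ := GreenP.inf J I V
  neg _ k hu mu bu h0 _ hf := by
    subst hf
    obtain ⟨h1, h2, h3⟩ := GreenP.cut_mul J I k hu mu bu
    exact ⟨h1, h2, h3, GreenP.neg J I V k hu mu bu h0⟩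

theorem greenStmt (hJ : JetStmt) (hI : InvStmt) (hV : VarStmt) : GreenStmt := fun w D G zm =>
  greenF (hJ w D) (hI w D G zm) (hV w D G)

end Vale.Agent.P218N.Core
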