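import Vale.Agent.P218N.Core.GreenA

/-! Polynomial bounds for the metric on the ends. -/

open Set Filter Topology Metric MeasureTheory
open scoped RealInnerProductSpace ContDiff Matrix

noncomputable section

namespace Vale.Agent.P218N.Core

open Vale.Agent.P218.H313 Vale.Agent.P218N.H Vale.Agent.P218N.End

variable {w : E3 → ℝ} {D : EndData w}

namespace GreenP

theorem gram_ge {A B e : E3} (he : ‖e‖ = 1) (h : ⟪A, e⟫ = 0) :
    ‖A‖ ^ 2 * ⟪B, e⟫ ^ 2 ≤ ‖A‖ ^ 2 * ‖B‖ ^ 2 - ⟪A, B⟫ ^ 2 := by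
  have h1 := real_inner_mul_inner_self_le A (B - ⟪B, e⟫ • e)
  rw [real_inner_self_eq_norm_sq, real_inner_self_eq_norm_sq, norm_sub_sq_real, inner_sub_right,
    inner_smul_right, inner_smul_right, h, norm_smul, he, mul_one, Real.norm_eq_abs, sq_abs] at h1
  nlinarith

theorem part1 {V : Type} [NormedAddCommGroup V] [NormedSpace ℝ V] {f : R2 → V} {q : R2}
    (h : DifferentiableAt ℝ f q) : HasDerivAt (fun t => f (t, q.2)) (fderiv ℝ f q (1, 0)) q.1 :=
  h.hasFDerivAt.comp_hasDerivAt_of_eq q.1 ((hasDerivAt_id' q.1).prodMk (hasDerivAt_const _ _)) rfl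

theorem part2 {V : Type} [NormedAddCommGroup V] [NormedSpace ℝ V] {f : R2 → V} {q : R2}
    (h : DifferentiableAt ℝ f q) : HasDerivAt (fun t => f (q.1, t)) (fderiv ℝ f q (0, 1)) q.2 :=
  h.hasFDerivAt.comp_hasDerivAt_of_eq q.2 ((hasDerivAt_const _ _).prodMk (hasDerivAt_id' q.2)) rfl

theorem dec_bd {h : R2 → ℝ} (H : Decays h) : ∃ s₀ : ℝ, ∀ p : R2, s₀ ≤ p.1 →
    |fderiv ℝ h p (1, 0)| ≤ 1 ∧ |fderiv ℝ h p (0, 1)| ≤ 1 := by
  obtain ⟨s₀, hs⟩ := H.small 1 1 one_pos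
  refine ⟨s₀, fun p hp => ?_⟩
  have h1 := hs p hp
  rw [norm_iteratedFDeriv_one] at h1
  constructor <;> exact ((fderiv ℝ h p).le_of_opNorm_le h1 _).trans (by simp)

theorem hasDerivAt_vec {a b c : ℝ → ℝ} {a' b' c' t : ℝ} (ha : HasDerivAt a a' t)
    (hb : HasDerivAt b b' t) (hc : HasDerivAt c c' t) :
    HasDerivAt (fun t => (!₂[a t, b t, c t] : E3)) !₂[a', b', c'] t := by
  have h : HasDerivAt (fun t => ![a t, b t, c t]) ![a', b', c'] t :=
    hasDerivAt_pi.2 fun i => by fin_cases i <;> assumption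
  exact (PiLp.continuousLinearEquiv 2 ℝ fun _ : Fin 3 => ℝ).symm.hasFDerivAt.comp_hasDerivAt t h

theorem inner_vec (a b c a' b' c' : ℝ) :
    ⟪(!₂[a, b, c] : E3), !₂[a', b', c']⟫ = a * a' + b * b' + c * c' := by
  simp [PiLp.inner_apply, Fin.sum_univ_three, mul_comm]

theorem normsq_vec (a b c : ℝ) : ‖(!₂[a, b, c] : E3)‖ ^ 2 = a ^ 2 + b ^ 2 + c ^ 2 := by
  rw [← real_inner_self_eq_norm_sq, inner_vec]
  ring

/-- polynomial bounds for a frame -/
def EB (A B : E3) (c : ℝ) : Prop :=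
  ‖A‖ ≤ c ∧ ‖B‖ ≤ c ∧ 1 ≤ c * (‖A‖ ^ 2 * ‖B‖ ^ 2 - ⟪A, B⟫ ^ 2)

theorem pt_cd (G : Geo D) (e : En D) {q : R2} (h : G.z0 < q.1) : ContDiffAt ℝ ∞ (pt e) q := by
  have h1 := cd_φ (G.ep e q.2) (y := q) (by
    rw [G.ep_O]
    exact ⟨h, by linarith [Real.pi_pos], by linarith [Real.pi_pos]⟩)
  rwa [G.ep_φ] at h1

theorem cone_bd (G : Geo D) (i : Fin D.a) : ∃ C z : ℝ, ∀ q : R2, z ≤ q.1 →
    EB (fderiv ℝ (pt (D := D) (.inl i)) q (1, 0)) (fderiv ℝ (pt (D := D) (.inl i)) q (0, 1))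
      (C * q.1) := by
  have L := D.link i
  obtain ⟨s₀, hs⟩ := dec_bd (D.hdec i)
  have dγ : Differentiable ℝ (D.γ i) := L.smooth.differentiable (by simp)
  have dn : Differentiable ℝ (D.n i) := L.nsmooth.differentiable (by simp)
  have dγ' : Differentiable ℝ (deriv (D.γ i)) := (L.smooth.iterate_deriv 1).differentiable (by simp)
  have dh : Differentiable ℝ (D.h i) := (D.hdec i).smooth.differentiable (by simp)
  obtain ⟨N, hN⟩ : ∃ N, ∀ θ, ‖deriv (D.n i) θ‖ ≤ N := by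
    have h1 : Function.Periodic (deriv (D.n i)) (2 * Real.pi) := fun θ => by
      rw [← deriv_comp_add_const, funext L.nper]
    obtain ⟨N, hN⟩ := (h1.isBounded_of_continuous (by positivity)
      (L.nsmooth.continuous_deriv (by simp))).exists_norm_le
    exact ⟨N, fun θ => hN _ ⟨θ, rfl⟩⟩
  have hN0 : 0 ≤ N := (norm_nonneg _).trans (hN 0)
  have hl := L.pos
  refine ⟨D.l i + N + 2 + 16 / D.l i ^ 2, max (G.z0 + 1) (Real.exp (2 * s₀)), fun q hq => ?_⟩
  have q0 : G.z0 < q.1 := by linarith [le_max_left (G.z0 + 1) (Real.exp (2 * s₀))]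
  have q1 : 1 ≤ q.1 := G.one_le.trans q0.le
  have q2 : 0 < q.1 := by linarith
  obtain ⟨b1, b2⟩ := hs (Real.log q.1 / 2, q.2) (by
    have := (Real.le_log_iff_exp_le q2).2 ((le_max_right _ _).trans hq)
    show s₀ ≤ Real.log q.1 / 2
    linarith)
  have b0 : |D.h i (Real.log q.1 / 2, q.2)| ≤ 1 / 2 := G.y_le (.inl i) q q0
  have b3 : |kaf i q.2 * D.h i (Real.log q.1 / 2, q.2)| ≤ 1 / 2 := G.ky_le i q q0
  have dp := (pt_cd G (.inl i) q0).differentiableAt (by simp)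
  have dL : HasDerivAt (fun t => Real.log t / 2) (q.1⁻¹ / 2) q.1 :=
    (Real.hasDerivAt_log q2.ne').div_const 2
  have v1 := HasDerivAt.comp q.1 (part1 (dh (Real.log q.1 / 2, q.2))) dL
  have v2 := dL.exp.smul ((v1.smul_const (D.n i q.2)).const_add (D.γ i q.2))
  have e1 := (part1 dp).unique v2
  have e2 := (part2 dp).unique ((((dγ q.2).hasDerivAt.add ((part2 (dh (Real.log q.1 / 2, q.2))).smul
    (dn q.2).hasDerivAt))).const_smul (Real.exp (Real.log q.1 / 2)))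
  have o1 : ⟪D.γ i q.2, deriv (D.γ i) q.2⟫ = 0 := by
    have h1 := ((dγ q.2).hasDerivAt.inner ℝ (dγ q.2).hasDerivAt).unique
      ((hasDerivAt_const q.2 (1 : ℝ)).congr_of_eventuallyEq (Eventually.of_forall fun t => by
        simp [L.norm]))
    rw [real_inner_comm (D.γ i q.2) (deriv (D.γ i) q.2)] at h1
    linarith
  have o2 : ⟪deriv (D.n i) q.2, deriv (D.γ i) q.2⟫ = -(D.l i ^ 2 * kaf i q.2) := by
    have h1 := ((dn q.2).hasDerivAt.inner ℝ (dγ' q.2).hasDerivAt).unique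
      ((hasDerivAt_const q.2 (0 : ℝ)).congr_of_eventuallyEq (Eventually.of_forall L.orth'))
    rw [kaf, cc, real_inner_comm (D.n i q.2)]
    field_simp
    linarith
  have hr : Real.exp (Real.log q.1 / 2) ^ 2 = q.1 := by
    rw [← Real.exp_nat_mul, show ((2 : ℕ) : ℝ) * (Real.log q.1 / 2) = Real.log q.1 by
      push_cast; ring, Real.exp_log q2]
  have r0 := Real.exp_pos (Real.log q.1 / 2)
  rw [e1, e2]
  simp only [Function.comp_apply]
  generalize Real.exp (Real.log q.1 / 2) = r at hr r0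
  generalize D.h i (Real.log q.1 / 2, q.2) = y at b0 b3
  generalize fderiv ℝ (D.h i) (Real.log q.1 / 2, q.2) (1, 0) = y1 at b1
  generalize fderiv ℝ (D.h i) (Real.log q.1 / 2, q.2) (0, 1) = y2 at b2
  have r1 : 1 ≤ r := by nlinarith
  have r2 : r ≤ q.1 := by nlinarith
  have i0 : 0 < q.1⁻¹ / 2 := by positivity
  have i1 : q.1⁻¹ / 2 ≤ 1 / 2 := by linarith [inv_le_one_of_one_le₀ q1]
  have c0 : 0 ≤ 16 / D.l i ^ 2 := by positivity
  set A := r • (y1 * (q.1⁻¹ / 2)) • D.n i q.2 + (r * (q.1⁻¹ / 2)) • (D.γ i q.2 + y • D.n i q.2)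
  set B := r • (deriv (D.γ i) q.2 + (y • deriv (D.n i) q.2 + y2 • D.n i q.2))
  refine ⟨?_, ?_, ?_⟩
  · have h1 : ‖D.γ i q.2 + y • D.n i q.2‖ ≤ 2 := by
      refine (norm_add_le _ _).trans ?_
      rw [norm_smul, L.norm, L.nnorm, Real.norm_eq_abs]
      linarith
    have h2 : ‖A‖ ≤ r * (1 * (1 / 2)) + r * (1 / 2) * 2 := by
      refine (norm_add_le _ _).trans (add_le_add ?_ ?_)
      · rw [norm_smul, norm_smul, L.nnorm, mul_one, Real.norm_of_nonneg r0.le, norm_mul,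
          Real.norm_of_nonneg i0.le, Real.norm_eq_abs]
        gcongr
      · rw [norm_smul, Real.norm_of_nonneg (by positivity)]
        gcongr
    nlinarith
  · have h1 : ‖B‖ ≤ r * (D.l i + (1 * N + 1)) := by
      rw [norm_smul, Real.norm_of_nonneg r0.le]
      refine mul_le_mul_of_nonneg_left ((norm_add_le _ _).trans (add_le_add (L.speed _).le
        ((norm_add_le _ _).trans (add_le_add ?_ ?_)))) r0.le
      · rw [norm_smul, Real.norm_eq_abs]
        exact mul_le_mul (by linarith) (hN _) (norm_nonneg _) zero_le_one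
      · rw [norm_smul, L.nnorm, mul_one]
        exact b2
    nlinarith
  · have h1 := gram_ge (A := A) (B := B) (e := (D.l i)⁻¹ • deriv (D.γ i) q.2)
      (by rw [norm_smul, L.speed, Real.norm_of_nonneg (by positivity), inv_mul_cancel₀ hl.ne'])
      (by simp only [A, inner_add_left, inner_smul_left, inner_smul_right, L.orth', o1]; simp)
    have h2 : ⟪B, (D.l i)⁻¹ • deriv (D.γ i) q.2⟫ = r * D.l i * (1 - kaf i q.2 * y) := by
      simp only [B, inner_add_left, inner_smul_left, inner_smul_right, L.orth', o2,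
        real_inner_self_eq_norm_sq, L.speed, conj_trivial]
      field_simp
      ring
    have h3 : r * (q.1⁻¹ / 2) ≤ ‖A‖ := by
      have h4 := real_inner_le_norm A (D.γ i q.2)
      simp only [A, inner_add_left, inner_smul_left, L.orth, real_inner_self_eq_norm_sq, L.norm,
        conj_trivial] at h4
      linarith
    have h4 : D.l i / 2 ≤ r * D.l i * (1 - kaf i q.2 * y) := by
      have := (abs_le.1 b3).2
      nlinarith [mul_le_mul r1 (show 1 / 2 ≤ 1 - kaf i q.2 * y by linarith) (by norm_num) r0.le]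
    have h5 : (r * (q.1⁻¹ / 2)) ^ 2 * (D.l i / 2) ^ 2 ≤ ‖A‖ ^ 2 * ‖B‖ ^ 2 - ⟪A, B⟫ ^ 2 := by
      refine le_trans ?_ h1
      rw [h2]
      gcongr
    refine le_trans (le_of_eq ?_) (mul_le_mul (mul_le_mul_of_nonneg_right
      (show 16 / D.l i ^ 2 ≤ _ by linarith) q2.le) h5 (by positivity) (by positivity))
    rw [mul_pow, hr]
    field_simp
    norm_num

theorem cyl_bd (G : Geo D) (b : Fin D.b) : ∃ C z : ℝ, ∀ q : R2, z ≤ q.1 →
    EB (fderiv ℝ (pt (D := D) (.inr b)) q (1, 0)) (fderiv ℝ (pt (D := D) (.inr b)) q (0, 1))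
      (C * q.1) := by
  obtain ⟨s₀, hs⟩ := dec_bd (D.vdec b)
  have dv : Differentiable ℝ (D.v b) := (D.vdec b).smooth.differentiable (by simp)
  refine ⟨8, max (G.z0 + 1) (s₀ ^ 2), fun q hq => ?_⟩
  have q0 : G.z0 < q.1 := by linarith [le_max_left (G.z0 + 1) (s₀ ^ 2)]
  have q1 : 1 ≤ q.1 := G.one_le.trans q0.le
  have q2 : 0 < q.1 := by linarith
  obtain ⟨b1, b2⟩ := hs (√q.1, q.2) (Real.le_sqrt_of_sq_le ((le_max_right _ _).trans hq))
  have b0 : |D.v b (√q.1, q.2)| ≤ 1 / 2 := G.y_le (.inr b) q q0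
  have dp := (pt_cd G (.inr b) q0).differentiableAt (by simp)
  have dL := Real.hasDerivAt_sqrt q2.ne'
  have dQ := fun x => (D.Q b).toContinuousLinearEquiv.hasFDerivAt (x := x)
  have v1 := ((HasDerivAt.comp q.1 (part1 (dv (√q.1, q.2))) dL).const_add 1).const_mul √2
  have v2 := ((part2 (dv (√q.1, q.2))).const_add 1).const_mul √2
  have e1 := (part1 dp).unique ((dQ _).comp_hasDerivAt q.1
    (hasDerivAt_vec (v1.mul_const (Real.cos q.2)) (v1.mul_const (Real.sin q.2)) dL))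
  have e2 := (part2 dp).unique ((dQ _).comp_hasDerivAt q.2
    (hasDerivAt_vec (v2.mul (Real.hasDerivAt_cos q.2)) (v2.mul (Real.hasDerivAt_sin q.2))
      (hasDerivAt_const q.2 √q.1)))
  have hr : √q.1 ^ 2 = q.1 := Real.sq_sqrt q2.le
  have r1 : 1 ≤ √q.1 := Real.one_le_sqrt.2 q1
  have hs2 : √2 ^ 2 = 2 := Real.sq_sqrt zero_le_two
  have cs := Real.sin_sq_add_cos_sq q.2
  rw [e1, e2]
  change EB (D.Q b _) (D.Q b _) _
  generalize √q.1 = r at *
  generalize D.v b (r, q.2) = y at *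
  generalize fderiv ℝ (D.v b) (r, q.2) (1, 0) = y1 at *
  generalize fderiv ℝ (D.v b) (r, q.2) (0, 1) = y2 at *
  generalize √2 = t at *
  generalize Real.cos q.2 = c at *
  generalize Real.sin q.2 = s at *
  have i0 : 0 < 1 / (2 * r) := by positivity
  have i1 : 1 / (2 * r) ≤ 1 / 2 := one_div_le_one_div_of_le two_pos (by linarith)
  have i2 : (1 / (2 * r)) ^ 2 * (4 * q.1) = 1 := by
    rw [← hr]
    field_simp
    norm_num
  generalize 1 / (2 * r) = ρ at *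
  set A : E3 := !₂[t * (y1 * ρ) * c, t * (y1 * ρ) * s, ρ]
  set B : E3 := !₂[t * y2 * c + t * (1 + y) * -s, t * y2 * s + t * (1 + y) * c, 0]
  have nA : ‖A‖ ^ 2 = 2 * (y1 ^ 2 * ρ ^ 2) + ρ ^ 2 := by
    rw [normsq_vec]
    linear_combination (y1 * ρ) ^ 2 * (s ^ 2 + c ^ 2) * hs2 + 2 * (y1 * ρ) ^ 2 * cs
  have nB : ‖B‖ ^ 2 = 2 * (y2 ^ 2 + (1 + y) ^ 2) := by
    rw [normsq_vec]
    linear_combination (y2 ^ 2 + (1 + y) ^ 2) * (s ^ 2 + c ^ 2) * hs2 +
      2 * (y2 ^ 2 + (1 + y) ^ 2) * cs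
  have y0 := abs_le.1 b0
  have y1' : y1 ^ 2 ≤ 1 := (sq_le_one_iff_abs_le_one _).2 b1
  have y2' : y2 ^ 2 ≤ 1 := (sq_le_one_iff_abs_le_one _).2 b2
  unfold EB
  simp only [LinearIsometryEquiv.norm_map, LinearIsometryEquiv.inner_map_map]
  refine ⟨abs_le_of_sq_le_sq' ?_ (by positivity) |>.2, abs_le_of_sq_le_sq' ?_ (by positivity) |>.2,
    ?_⟩
  · rw [nA]
    nlinarith [mul_le_mul_of_nonneg_right y1' (sq_nonneg ρ)]
  · rw [nB]
    nlinarith [y0.1, y0.2]
  · have h1 := gram_ge (A := A) (B := B) (e := !₂[-s, c, 0])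
      ((pow_eq_one_iff_of_nonneg (norm_nonneg _) two_ne_zero).1 (by rw [normsq_vec]; linarith))
      (by rw [inner_vec]; ring)
    have h2 : ⟪B, !₂[-s, c, 0]⟫ ^ 2 = 2 * (1 + y) ^ 2 := by
      rw [inner_vec]
      have : (t * y2 * c + t * (1 + y) * -s) * -s + (t * y2 * s + t * (1 + y) * c) * c + 0 * 0 =
          t * (1 + y) := by linear_combination t * (1 + y) * cs
      rw [this, mul_pow, hs2]
    have h3 : ρ ^ 2 * (1 / 2) ≤ ‖A‖ ^ 2 * ⟪B, !₂[-s, c, 0]⟫ ^ 2 := by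
      rw [h2, nA]
      exact mul_le_mul (by nlinarith [mul_nonneg (sq_nonneg y1) (sq_nonneg ρ)])
        (by nlinarith [y0.1]) (by norm_num) (by positivity)
    nlinarith [mul_le_mul_of_nonneg_left (h3.trans h1) q2.le]

theorem cx_dot (a b : E3) : cx a ⬝ᵥ cx b = (⟪a, b⟫ : ℝ) := by
  simp [cx, dotProduct, PiLp.inner_apply, mul_comm]

/-- the complexification as a linear map -/
def cxL : E3 →L[ℝ] C3 :=
  ContinuousLinearMap.pi fun i => Complex.ofRealCLM.comp (EuclideanSpace.proj i)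

theorem om_le (G : Geo D) (e : En D) {q : R2} (h : G.z0 < q.1) :
    0 ≤ G.om (pt e q) ∧ G.om (pt e q) ≤ 2 * q.1 * Real.exp (-q.1 / 4) := by
  have q1 : 1 ≤ q.1 := G.one_le.trans h.le
  have q2 : 0 < q.1 := by linarith
  have hs2 : √2 ^ 2 = 2 := Real.sq_sqrt zero_le_two
  have h1 : q.1 ≤ ‖pt e q‖ ^ 2 := by
    rcases e with i | b
    · have L := D.link i
      have h2 := real_inner_le_norm (pt (D := D) (.inl i) q) (D.γ i q.2)
      rw [L.norm, mul_one] at h2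
      simp only [pt, conePt, inner_add_left, inner_smul_left, L.orth, real_inner_self_eq_norm_sq,
        L.norm, conj_trivial, Real.exp_half, Real.exp_log q2] at h2 ⊢
      nlinarith [Real.sq_sqrt q2.le, Real.sqrt_nonneg q.1]
    · simp only [pt, cylPt, LinearIsometryEquiv.norm_map, normsq_vec, Real.sq_sqrt q2.le]
      nlinarith [sq_nonneg (√2 * (1 + D.v b (√q.1, q.2)) * Real.cos q.2),
        sq_nonneg (√2 * (1 + D.v b (√q.1, q.2)) * Real.sin q.2)]
  have h2 : ‖dir e q‖ ^ 2 ≤ 2 * q.1 := by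
    rcases e with i | b
    · simp only [dir, norm_smul, (D.link i).nnorm, mul_one, Real.norm_eq_abs, sq_abs,
        Real.sq_sqrt q2.le]
      linarith
    · simp only [dir, LinearIsometryEquiv.norm_map, normsq_vec, mul_pow, hs2]
      nlinarith [Real.sin_sq_add_cos_sq q.2]
  have h3 : ‖nuW w (pt e q)‖ ≤ 1 := by
    rw [nuW, norm_smul, norm_inv, norm_norm]
    exact inv_mul_le_one_of_le₀ le_rfl (norm_nonneg _)
  have h4 : ‖G.nn (pt e q)‖ = ‖dir e q‖ := by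
    rw [G.nn_pt e q h, norm_smul]
    rcases G.s_sq e with h | h <;> simp [h]
  have h5 : ⟪G.nn (pt e q), nuW w (pt e q)⟫ ^ 2 ≤ 2 * q.1 := by
    refine le_trans ?_ h2
    rw [← sq_abs, ← h4]
    exact pow_le_pow_left₀ (abs_nonneg _) ((abs_real_inner_le_norm _ _).trans
      (mul_le_of_le_one_right (norm_nonneg _) h3)) 2
  refine ⟨mul_nonneg (Real.exp_pos _).le (sq_nonneg _), ?_⟩
  rw [Geo.om, mul_comm]
  exact mul_le_mul h5 (Real.exp_le_exp.2 (by linarith)) (Real.exp_pos _).le (by linarith)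

/-- the conormal derivative on the ends -/
theorem ginv_bd (G : Geo D) (e : En D) : ∃ C z : ℝ, 0 ≤ C ∧ ∀ q : R2, z ≤ q.1 →
    ∀ (φ : ℝ → ℝ) (m : J2 ℂ), ‖ginv (jS (pt e) q) (jz φ q.1) m * Complex.sqrt (dg (jS (pt e) q))‖ ≤
      C * q.1 ^ 3 * |deriv φ q.1| * ‖T1 m‖ := by
  obtain ⟨C, z, h⟩ : ∃ C z : ℝ, ∀ q : R2, z ≤ q.1 →
      EB (fderiv ℝ (pt e) q (1, 0)) (fderiv ℝ (pt e) q (0, 1)) (C * q.1) := by
    rcases e with i | b
    · exact cone_bd G i
    · exact cyl_bd G b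
  refine ⟨2 * (|C| + 1) ^ 3, max z (G.z0 + 1), by positivity, fun q hq φ m => ?_⟩
  have q0 : G.z0 < q.1 := by linarith [le_max_right z (G.z0 + 1)]
  have q1 : 1 ≤ q.1 := G.one_le.trans q0.le
  obtain ⟨h1, h2, h3⟩ := h q ((le_max_left _ _).trans hq)
  have e0 : jS (pt e) q = fun k => cx (jet2 (pt e) q k) :=
    jet2_clm cxL ((pt_cd G e q0).of_le (by norm_cast))
  set A := fderiv ℝ (pt e) q (1, 0)
  set B := fderiv ℝ (pt e) q (0, 1)
  have e1 : g11 (jS (pt e) q) = (⟪A, A⟫ : ℝ) := by rw [e0]; exact cx_dot _ _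
  have e2 : g12 (jS (pt e) q) = (⟪A, B⟫ : ℝ) := by rw [e0]; exact cx_dot _ _
  have e3 : g22 (jS (pt e) q) = (⟪B, B⟫ : ℝ) := by rw [e0]; exact cx_dot _ _
  set d := ‖A‖ ^ 2 * ‖B‖ ^ 2 - ⟪A, B⟫ ^ 2 with hd
  have e4 : dg (jS (pt e) q) = d := by
    rw [dg, e1, e2, e3, real_inner_self_eq_norm_sq, real_inner_self_eq_norm_sq, hd]
    push_cast
    ring
  set c := (|C| + 1) * q.1 with hc
  have c1 : 1 ≤ c := by nlinarith [abs_nonneg C]
  have c2 : C * q.1 ≤ c := mul_le_mul_of_nonneg_right (by linarith [le_abs_self C]) (by linarith)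
  have d0 : 0 < d := by
    by_contra h4
    nlinarith [mul_nonneg ((norm_nonneg A).trans h1) (neg_nonneg.2 (not_lt.1 h4))]
  have s0 := Real.sqrt_pos.2 d0
  have s1 : √d / d ≤ c := by
    rw [Real.sqrt_div_self', div_le_iff₀ s0]
    refine abs_le_of_sq_le_sq' ?_ (by positivity) |>.2
    rw [mul_pow, Real.sq_sqrt d0.le]
    nlinarith [mul_le_mul_of_nonneg_right c2 d0.le]
  have a1 : |⟪A, B⟫| ≤ c ^ 2 := (abs_real_inner_le_norm _ _).trans
    ((mul_le_mul (h1.trans c2) (h2.trans c2) (norm_nonneg _) (by linarith)).trans_eq (pow_two c).symm)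
  have a2 : |⟪B, B⟫| ≤ c ^ 2 := (abs_real_inner_le_norm _ _).trans
    ((mul_le_mul (h2.trans c2) (h2.trans c2) (norm_nonneg _) (by linarith)).trans_eq (pow_two c).symm)
  have m1 : ‖m 1‖ ≤ ‖T1 m‖ := norm_le_pi_norm (T1 m) 1
  have m2 : ‖m 2‖ ≤ ‖T1 m‖ := norm_le_pi_norm (T1 m) 2
  have e5 : ginv (jS (pt e) q) (jz φ q.1) m * Complex.sqrt (dg (jS (pt e) q)) =
      (deriv φ q.1 : ℝ) * ((⟪B, B⟫ : ℝ) * m 1 - (⟪A, B⟫ : ℝ) * m 2) * (√d / d : ℝ) := by
    rw [ginv, e2, e3, e4, Complex.sqrt_of_nonneg (by exact_mod_cast d0.le)]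
    simp [jz]
    ring
  have n1 : ‖(⟪B, B⟫ : ℝ) * m 1 - (⟪A, B⟫ : ℝ) * m 2‖ ≤ c ^ 2 * ‖T1 m‖ + c ^ 2 * ‖T1 m‖ := by
    refine (norm_sub_le _ _).trans (add_le_add ?_ ?_) <;>
      rw [norm_mul, Complex.norm_real, Real.norm_eq_abs] <;> gcongr
  rw [e5, norm_mul, norm_mul, Complex.norm_real, Complex.norm_real, Real.norm_eq_abs,
    Real.norm_of_nonneg (by positivity)]
  refine (mul_le_mul (mul_le_mul_of_nonneg_left n1 (abs_nonneg _)) s1 (by positivity)
    (by positivity)).trans (le_of_eq ?_)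
  rw [hc]
  ring

end GreenP

end Vale.Agent.P218N.Core
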