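import Vale.Agent.P218N.Core.Spec
import Vale.Agent.P366C.Op

/-! The linear theory in complex Hölder spaces on a compact surface. -/

open Set Filter Topology Metric
open scoped ContDiff NNReal BoundedContinuousFunction

set_option maxSynthPendingDepth 3
set_option linter.unusedSectionVars false

noncomputable section

namespace Vale.Agent.P218N.Core

open Vale.Agent.P272.K Vale.Agent.P272.K.LIN

namespace HolP

/-! ### The two kinds of jets -/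

/-- componentwise application of a linear map -/
def pm {V V' : Type} [NormedAddCommGroup V] [NormedSpace ℝ V] [NormedAddCommGroup V']
    [NormedSpace ℝ V'] (L : V →L[ℝ] V') : J2 V →L[ℝ] J2 V' :=
  ContinuousLinearMap.pi fun k => L.comp (ContinuousLinearMap.proj k)

/-- first coordinate -/
abbrev f1 : R2 →L[ℝ] ℝ := ContinuousLinearMap.fst ℝ ℝ ℝ
/-- second coordinate -/
abbrev f2 : R2 →L[ℝ] ℝ := ContinuousLinearMap.snd ℝ ℝ ℝ

/-- the components of a jet -/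
def toJ : Jet R2 →L[ℝ] J2 ℝ := LinearMap.toContinuousLinearMap
  { toFun := fun p => ![p.1, p.2.1 (1, 0), p.2.1 (0, 1), p.2.2 (1, 0) (1, 0), p.2.2 (1, 0) (0, 1),
      p.2.2 (0, 1) (0, 1)]
    map_add' := fun p q => by ext k; fin_cases k <;> simp
    map_smul' := fun c p => by ext k; fin_cases k <;> simp }

/-- the symmetric jet with given components -/
def ofJ : J2 ℝ →L[ℝ] Jet R2 := LinearMap.toContinuousLinearMap
  { toFun := fun m => (m 0, m 1 • f1 + m 2 • f2, m 3 • f1.smulRight f1 +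
      m 4 • (f1.smulRight f2 + f2.smulRight f1) + m 5 • f2.smulRight f2)
    map_add' := fun p q => by
      refine Prod.ext rfl (Prod.ext ?_ ?_) <;> simp only [Pi.add_apply, Prod.mk_add_mk] <;> module
    map_smul' := fun c p => by
      refine Prod.ext rfl (Prod.ext ?_ ?_) <;>
        simp only [Pi.smul_apply, Prod.smul_mk, smul_eq_mul, RingHom.id_apply] <;> module }

theorem toJ_apply (p : Jet R2) : toJ p = ![p.1, p.2.1 (1, 0), p.2.1 (0, 1), p.2.2 (1, 0) (1, 0),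
    p.2.2 (1, 0) (0, 1), p.2.2 (0, 1) (0, 1)] := rfl

theorem ofJ_apply (m : J2 ℝ) : ofJ m = (m 0, m 1 • f1 + m 2 • f2, m 3 • f1.smulRight f1 +
    m 4 • (f1.smulRight f2 + f2.smulRight f1) + m 5 • f2.smulRight f2) := rfl

theorem toJ_ofJ (m : J2 ℝ) : toJ (ofJ m) = m := by
  ext k; fin_cases k <;> simp [toJ_apply, ofJ_apply]

theorem toJ_jet (f : R2 → ℝ) (y : R2) : toJ (jet f y) = jet2 f y := rfl

theorem ofJ_jet2 {f : R2 → ℝ} {y : R2} (hf : ContDiffAt ℝ 2 f y) : ofJ (jet2 f y) = jet f y := by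
  have := MP.fderiv2_symm hf (0, 1) (1, 0)
  rw [ofJ_apply, jet]
  refine Prod.ext rfl (Prod.ext ?_ ?_)
  · ext <;> simp [jet2]
  · ext <;> simp [jet2, this]

/-- the second order operator with coefficients `a, b, c` -/
def qf : ℂ × ℂ × ℂ →L[ℝ] Jet R2 →L[ℝ] ℝ := LinearMap.toContinuousLinearMap
  { toFun := fun a => a.1.re • (ContinuousLinearMap.proj 3).comp toJ +
      (2 * a.2.1.re) • (ContinuousLinearMap.proj 4).comp toJ +
        a.2.2.re • (ContinuousLinearMap.proj 5).comp toJ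
    map_add' := fun p q => by
      simp only [Prod.fst_add, Prod.snd_add, Complex.add_re]; module
    map_smul' := fun c p => by
      simp only [Prod.smul_fst, Prod.smul_snd, Complex.smul_re, smul_eq_mul, RingHom.id_apply]
      module }

theorem qf_apply (a : ℂ × ℂ × ℂ) (p : Jet R2) :
    qf a p = a.1.re * toJ p 3 + 2 * a.2.1.re * toJ p 4 + a.2.2.re * toJ p 5 := rfl

theorem qf_pos {a : ℂ × ℂ × ℂ} (h1 : 0 < a.1.re) (h2 : a.2.1.re ^ 2 < a.1.re * a.2.2.re)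
    {ξ : R2 →L[ℝ] ℝ} (hξ : ξ ≠ 0) : 0 < qf a (0, 0, ξ.smulRight ξ) := by
  have e : qf a (0, 0, ξ.smulRight ξ) = a.1.re * ξ (1, 0) ^ 2 +
      2 * a.2.1.re * (ξ (1, 0) * ξ (0, 1)) + a.2.2.re * ξ (0, 1) ^ 2 := by
    rw [pow_two, pow_two]; simp [qf_apply, toJ_apply]
  rw [e]
  by_cases h : ξ (0, 1) = 0
  · have : ξ (1, 0) ≠ 0 := fun h' => hξ (by ext <;> simp [h, h'])
    rw [h]; have := mul_pos h1 (sq_pos_of_ne_zero this); linarith
  · refine (pos_iff_pos_of_mul_pos ?_).1 h1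
    nlinarith [sq_nonneg (a.1.re * ξ (1, 0) + a.2.1.re * ξ (0, 1)),
      mul_pos (sub_pos.2 h2) (sq_pos_of_ne_zero h)]

theorem L_mul (L : ℂ →L[ℝ] ℝ) {a : ℂ} (ha : a.im = 0) (z : ℂ) : L (a * z) = a.re * L z := by
  have : a * z = a.re • z := by apply Complex.ext <;> simp [ha]
  rw [this, map_smul, smul_eq_mul]

theorem L_qf (L : ℂ →L[ℝ] ℝ) {a b c : ℂ} (ha : a.im = 0) (hb : b.im = 0) (hc : c.im = 0)
    {m : J2 ℂ} {p : Jet R2} (h : toJ p = pm L m) :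
    L (a * m 3 + 2 * (b * m 4) + c * m 5) = qf (a, b, c) p := by
  rw [qf_apply, h, map_add, map_add, two_mul, map_add, L_mul L ha, L_mul L hb, L_mul L hc]
  show _ = a.re * L (m 3) + 2 * b.re * L (m 4) + c.re * L (m 5)
  ring

variable {X : Type} [TopologicalSpace X] [ChartedSpace R2 X] [T2Space X] [CompactSpace X]
  [RSm R2 X] (𝒞 : Cov R2 X)

theorem jc_clm {V V' : Type} [NormedAddCommGroup V] [NormedSpace ℝ V] [NormedAddCommGroup V']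
    [NormedSpace ℝ V'] (L : V →L[ℝ] V') {f : X → V} (hf : CkFn R2 2 f) (i : Fin 𝒞.N) (x : X) :
    pm L (𝒞.η i x • jc 𝒞 i f x) = 𝒞.η i x • jc 𝒞 i (fun x => L (f x)) x := by
  by_cases h : 𝒞.η i x = 0
  · simp [h]
  · rw [map_smul, jc, jc, jet2_clm L (hf _ (𝒞.mem i) x (𝒞.η_ne_zero h).1)]; rfl

theorem toJ_Jf (i : Fin 𝒞.N) (g : X → ℝ) (x : X) : toJ (𝒞.Jf i g x) = 𝒞.η i x • jc 𝒞 i g x :=
  map_smul _ _ _

theorem ofJ_jc {g : X → ℝ} (hg : CkFn R2 2 g) (i : Fin 𝒞.N) (x : X) :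
    ofJ (𝒞.η i x • jc 𝒞 i g x) = 𝒞.Jf i g x := by
  by_cases h : 𝒞.η i x = 0
  · simp [h, Cov.Jf]
  · rw [map_smul, jc, ofJ_jet2 (hg _ (𝒞.mem i) x (𝒞.η_ne_zero h).1)]; rfl

/-- real or imaginary part, on the ambient spaces -/
def Pa (L : ℂ →L[ℝ] ℝ) (p : HH 𝒞 ℂ × (Fin 𝒞.N → HH 𝒞 (J2 ℂ))) :
    HH 𝒞 ℝ × (Fin 𝒞.N → HH 𝒞 (Jet R2)) :=
  (Hol.map L p.1, fun i => Hol.map (ofJ.comp (pm L)) (p.2 i))

theorem Pa_mem (L : ℂ →L[ℝ] ℝ) {p : HH 𝒞 ℂ × (Fin 𝒞.N → HH 𝒞 (J2 ℂ))} (hp : p ∈ UU 𝒞) :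
    Pa 𝒞 L p ∈ 𝒞.C2 (1 / 2) :=
  ⟨(hp.1.comp L.contDiff :), fun i x => by
    show ofJ (pm L (p.2 i x)) = _
    rw [hp.2, jc_clm 𝒞 L hp.1, ofJ_jc 𝒞 (hp.1.comp L.contDiff)]; rfl⟩

theorem mem_of_Pa {p : HH 𝒞 ℂ × (Fin 𝒞.N → HH 𝒞 (J2 ℂ))}
    (h1 : Pa 𝒞 Complex.reCLM p ∈ 𝒞.C2 (1 / 2)) (h2 : Pa 𝒞 Complex.imCLM p ∈ 𝒞.C2 (1 / 2)) :
    p ∈ UU 𝒞 := by
  have hc : CkFn R2 2 (p.1 : X → ℂ) := fun e he x hx =>
    (Complex.equivRealProdCLM.symm.contDiff.contDiffAt.comp _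
      ((h1.1 e he x hx).prodMk (h2.1 e he x hx)) :)
  have key : ∀ L, Pa 𝒞 L p ∈ 𝒞.C2 (1 / 2) → ∀ i x k,
      L (p.2 i x k) = L ((𝒞.η i x • jc 𝒞 i p.1 x) k) := fun L h i x k => by
    have := congrArg toJ (h.2 i x)
    rw [toJ_Jf, show (Pa 𝒞 L p).2 i x = ofJ (pm L (p.2 i x)) from rfl, toJ_ofJ] at this
    exact congrFun (this.trans (jc_clm 𝒞 L hc i x).symm) k
  exact ⟨hc, fun i x => funext fun k => Complex.ext (key _ h1 i x k) (key _ h2 i x k)⟩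

theorem complete : CompleteSpace (UU 𝒞) := by
  have hc : ∀ L, Continuous (Pa 𝒞 L) := fun L => ((Hol.map L).continuous.comp continuous_fst).prodMk
    (continuous_pi fun i => (Hol.map _).continuous.comp
      ((continuous_apply i).comp continuous_snd))
  have : IsClosed (UU 𝒞 : Set (HH 𝒞 ℂ × (Fin 𝒞.N → HH 𝒞 (J2 ℂ)))) := by
    convert ((𝒞.isClosed_C2 one_half_pos).preimage (hc Complex.reCLM)).inter
      ((𝒞.isClosed_C2 one_half_pos).preimage (hc Complex.imCLM)) using 1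
    exact Set.ext fun p => ⟨fun h => ⟨Pa_mem 𝒞 _ h, Pa_mem 𝒞 _ h⟩, fun h => mem_of_Pa 𝒞 h.1 h.2⟩
  exact this.completeSpace_coe

theorem UU_ext {u v : UU 𝒞} (h : ∀ x, Uv 𝒞 u x = Uv 𝒞 v x) : u = v := by
  have h1 : u.1.1 = v.1.1 := Hol.ext h
  refine Subtype.ext (Prod.ext h1 (funext fun i => Hol.ext fun x => ?_))
  rw [u.2.2, v.2.2, h1]

theorem Uj_apply (i : Fin 𝒞.N) (k : Fin 6) (v : UU 𝒞) (x : X) :
    Uj 𝒞 i k v x = (𝒞.η i x • jc 𝒞 i (Uv 𝒞 v) x) k := congrFun (v.2.2 i x) k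

/-- complex conjugation -/
def cjU (v : UU 𝒞) : UU 𝒞 :=
  ⟨(Hol.map Complex.conjCLE.toContinuousLinearMap v.1.1,
    fun i => Hol.map (pm Complex.conjCLE.toContinuousLinearMap) (v.1.2 i)),
    (v.2.1.comp Complex.conjCLE.contDiff :), fun i x => by
      show pm _ (v.1.2 i x) = _
      rw [v.2.2, jc_clm 𝒞 _ v.2.1]; rfl⟩

theorem norm_cjU (v : UU 𝒞) : ‖cjU 𝒞 v‖ ≤ ‖v‖ := by
  have h : ∀ {V : Type} [NormedAddCommGroup V] [NormedSpace ℝ V] (T : V →L[ℝ] V) (f : HH 𝒞 V),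
      (∀ a, ‖T a‖ ≤ ‖a‖) → ‖Hol.map T f‖ ≤ ‖f‖ := fun T f hT => (Hol.norm_map_le T f).trans
    (mul_le_of_le_one_left (norm_nonneg _) (T.opNorm_le_bound zero_le_one (by simpa using hT)))
  refine max_le ((h _ _ fun a => by simp).trans (norm_fst_le v.1))
    ((pi_norm_le_iff_of_nonneg (norm_nonneg _)).2 fun i => (h _ _ fun a => ?_).trans
      ((norm_le_pi_norm v.1.2 i).trans (norm_snd_le v.1)))
  exact (pi_norm_le_iff_of_nonneg (norm_nonneg _)).2 fun k => by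
    simpa [pm] using norm_le_pi_norm a k

theorem cj (v : UU 𝒞) : ∃ v' : UU 𝒞, ‖v'‖ = ‖v‖ ∧ ∀ x, Uv 𝒞 v' x = star (Uv 𝒞 v x) := by
  refine ⟨cjU 𝒞 v, (norm_cjU 𝒞 v).antisymm ?_, fun x => rfl⟩
  have : cjU 𝒞 (cjU 𝒞 v) = v := UU_ext 𝒞 fun x => Complex.conj_conj _
  conv_lhs => rw [← this]
  exact norm_cjU 𝒞 _

/-! ### Compactness -/

theorem compact_lip (M : ℝ) : IsCompact (closure
    {f : HH 𝒞 ℂ | (∀ x, ‖f x‖ ≤ M) ∧ ∀ x y, ‖f x - f y‖ ≤ M * 𝒞.d x y}) := by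
  set S := {f : HH 𝒞 ℂ | (∀ x, ‖f x‖ ≤ M) ∧ ∀ x y, ‖f x - f y‖ ≤ M * 𝒞.d x y}
  let ι : S → X →ᵇ ℂ := fun f =>
    BoundedContinuousFunction.mkOfCompact ⟨f.1, 𝒞.hol_continuous one_half_pos _⟩
  have h1 : IsUniformInducing ι := Metric.isUniformInducing_iff.2 ⟨(LipschitzWith.of_dist_le_mul
    (K := 1) fun f g => ?_).uniformContinuous, fun ε hε => ?_⟩
  · have h2 := BoundedContinuousFunction.arzela_ascoli (closedBall (0 : ℂ) M)
      (isCompact_closedBall _ _) (range ι) (by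
        rintro _ x ⟨f, rfl⟩; exact mem_closedBall_zero_iff.2 (f.2.1 x)) fun x => by
        refine Metric.equicontinuousAt_of_continuity_modulus (fun y => M * 𝒞.d x y) ?_ _
          (.of_forall ?_)
        · have h3 : Continuous fun y : X => (x, y) := continuous_const.prodMk continuous_id
          have h4 := ((𝒞.continuous_d.comp h3).tendsto x).const_mul M
          simp only [Function.comp, 𝒞.d_self, mul_zero] at h4
          exact h4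
        · rintro y ⟨_, f, rfl⟩
          exact (dist_eq_norm _ _).trans_le (f.2.2 x y)
    have h3 := (totallyBounded_preimage h1 (h2.totallyBounded.subset subset_closure)).image
      uniformContinuous_subtype_val
    rw [preimage_range, image_univ, Subtype.range_coe] at h3
    exact h3.closure.isCompact_of_isClosed isClosed_closure
  · rw [NNReal.coe_one, one_mul, BoundedContinuousFunction.dist_le dist_nonneg]
    intro x
    rw [Subtype.dist_eq, dist_eq_norm, dist_eq_norm]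
    exact (f.1 - g.1).norm_apply_le x
  · obtain ⟨δ, δ0, δe, h⟩ := P366C.interp (C := 2 * M) one_half_pos one_half_lt_one
      (show 0 < ε / 3 by positivity)
    refine ⟨δ, δ0, fun {f g} hfg => ?_⟩
    have h2 : ∀ x, ‖(f.1 - g.1) x‖ ≤ δ := fun x => by
      have := (BoundedContinuousFunction.dist_coe_le_dist x).trans hfg.le
      rwa [dist_eq_norm] at this
    rw [Subtype.dist_eq, dist_eq_norm]
    refine (Hol.norm_le_of (A := ε / 3) (B := ε / 3) (by positivity) (by positivity)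
      (fun x => (h2 x).trans δe) fun x y => ?_).trans_lt (by linarith)
    rw [𝒞.coe_w]
    refine h _ _ (𝒞.d_nonneg x y) ?_ ((norm_sub_le _ _).trans (by linarith [h2 x, h2 y]))
    rw [Real.rpow_one, Hol.sub_apply, Hol.sub_apply, sub_sub_sub_comm]
    exact (norm_sub_le _ _).trans (by linarith [f.2.2 x y, g.2.2 x y])

theorem cpt_of_lip {E : Type} [NormedAddCommGroup E] [NormedSpace ℂ E] (T : E →L[ℂ] HH 𝒞 ℂ)
    {C : ℝ} (h : ∀ v x y, ‖T v x - T v y‖ ≤ C * ‖v‖ * 𝒞.d x y) : IsCompactOperator T := by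
  refine ⟨_, compact_lip 𝒞 (‖T‖ + |C|), mem_of_superset (closedBall_mem_nhds 0 one_pos)
    fun v hv => subset_closure ⟨fun x => ?_, fun x y => (h v x y).trans ?_⟩⟩
  · exact ((T v).norm_apply_le x).trans ((T.unit_le_opNorm v (by simpa using hv)).trans
      (le_add_of_nonneg_right (abs_nonneg C)))
  · refine mul_le_mul_of_nonneg_right ?_ (𝒞.d_nonneg x y)
    have h1 : ‖v‖ ≤ 1 := by simpa using hv
    nlinarith [norm_nonneg T, norm_nonneg v, le_abs_self C, abs_nonneg C]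

theorem lip (E : Type) [NormedAddCommGroup E] [NormedSpace ℂ E] (T : E → X → ℂ) (C : ℝ)
    (hl : ∀ x, IsLinearMap ℂ fun v => T v x) (h0 : ∀ v x, ‖T v x‖ ≤ C * ‖v‖)
    (h1 : ∀ v x y, ‖T v x - T v y‖ ≤ C * ‖v‖ * 𝒞.d x y) :
    ∃ T' : E →L[ℂ] HH 𝒞 ℂ, IsCompactOperator T' ∧ ∀ v x, T' v x = T v x := by
  have p : 0 ≤ 𝒞.D ^ (1 - 1 / 2 : ℝ) := Real.rpow_nonneg 𝒞.D_nonneg _
  have h2 : ∀ v x y, ‖T v x - T v y‖ ≤ |C| * 𝒞.D ^ (1 - 1 / 2 : ℝ) * ‖v‖ * 𝒞.w (1 / 2) x y :=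
    fun v x y => (h1 v x y).trans ((mul_le_mul (mul_le_mul_of_nonneg_right (le_abs_self C)
      (norm_nonneg v)) (𝒞.lip_le_w one_half_pos one_half_lt_one.le x y) (𝒞.d_nonneg x y)
      (by positivity)).trans_eq (by ring))
  let T' : E →L[ℂ] HH 𝒞 ℂ := LinearMap.mkContinuous
    ⟨⟨fun v => ⟨T v, ⟨_, h0 v⟩, ⟨_, h2 v⟩⟩, fun u v => Hol.ext fun x => (hl x).map_add u v⟩,
      fun c v => Hol.ext fun x => (hl x).map_smul c v⟩ (|C| + |C| * 𝒞.D ^ (1 - 1 / 2 : ℝ))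
    fun v => by
      rw [add_mul]
      exact Hol.norm_le_of (by positivity) (by positivity) (fun x => (h0 v x).trans
        (mul_le_mul_of_nonneg_right (le_abs_self C) (norm_nonneg v))) (h2 v)
  exact ⟨T', cpt_of_lip 𝒞 T' h1, fun _ _ => rfl⟩

/-- An operator with values in `C¹` is compact. -/
theorem cpt_of_ck {E : Type} [NormedAddCommGroup E] [NormedSpace ℂ E] [CompleteSpace E]
    (T : E →L[ℂ] HH 𝒞 ℂ) (h : ∀ v, CkFn R2 1 (T v : X → ℂ)) : IsCompactOperator T := by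
  let g : X × X → E →L[ℝ] ℂ := fun p =>
    (𝒞.d p.1 p.2)⁻¹ • ((Hol.evalL p.1).comp (T.restrictScalars ℝ) -
      (Hol.evalL p.2).comp (T.restrictScalars ℝ))
  have hg : ∀ p v, ‖g p v‖ = (𝒞.d p.1 p.2)⁻¹ * ‖T v p.1 - T v p.2‖ := fun p v => by
    rw [← Real.norm_of_nonneg (inv_nonneg.2 (𝒞.d_nonneg p.1 p.2)), ← norm_smul]; rfl
  obtain ⟨C, hC⟩ := banach_steinhaus (g := g) fun v => by
    obtain ⟨B, B0, hB⟩ := 𝒞.ck_lip (h v)
    exact ⟨B, fun p => by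
      rw [hg]; exact inv_mul_le_of_le_mul₀ (𝒞.d_nonneg _ _) B0 ((hB _ _).trans_eq (mul_comm _ _))⟩
  refine cpt_of_lip 𝒞 T (C := C) fun v x y => ?_
  rcases (𝒞.d_nonneg x y).eq_or_lt with h0 | h0
  · simp [𝒞.eq_of_d_eq_zero h0.symm, 𝒞.d_self]
  · have := (g (x, y)).le_of_opNorm_le (hC _) v
    rwa [hg, inv_mul_le_iff₀' h0] at this

theorem cpt0 : IsCompactOperator (Uv 𝒞) :=
  have := complete 𝒞
  cpt_of_ck 𝒞 _ fun v => v.2.1.of_le (by norm_num)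

theorem cpt1 (i : Fin 𝒞.N) (k : Fin 6) (hk : k.1 < 3) : IsCompactOperator (Uj 𝒞 i k) := by
  have := complete 𝒞
  refine cpt_of_ck 𝒞 _ fun v => ?_
  rw [show (Uj 𝒞 i k v : X → ℂ) = _ from funext (Uj_apply 𝒞 i k v)]
  refine 𝒞.η_smul_ck i (by simp) (g := fun y => jet2 (fun y => Uv 𝒞 v ((𝒞.e i).symm y)) y k)
    fun y hy => ?_
  have h : ContDiffAt ℝ 2 (fun y => Uv 𝒞 v ((𝒞.e i).symm y)) y := v.2.1.at_target (𝒞.mem i) hy
  have h1 := h.fderiv_right (m := 1) (by norm_num)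
  obtain ⟨k, _⟩ := k
  interval_cases k
  · exact h.of_le (by norm_num)
  · exact h1.clm_apply contDiffAt_const
  · exact h1.clm_apply contDiffAt_const

/-! ### Ellipticity -/

/-- the change of charts for cut off jets -/
def kp (i j : Fin 𝒞.N) (y : R2) : Jet R2 →L[ℝ] Jet R2 :=
  𝒞.η i ((𝒞.e j).symm y) • TJ (𝒞.e j) (𝒞.e i) (𝒞.e i ((𝒞.e j).symm y))

theorem kp_sm (i j : Fin 𝒞.N) : ∀ y ∈ (𝒞.e j).target, ContDiffAt ℝ ∞ (kp 𝒞 i j) y := by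
  intro y hy
  have hx := (𝒞.e j).map_target hy
  by_cases h : (𝒞.e j).symm y ∈ (𝒞.e i).source
  · have h1 := RSm.trans _ (𝒞.mem j) _ (𝒞.mem i) _ hx h
    rw [(𝒞.e j).right_inv hy] at h1
    have h2 := (contDiffAt_TJ (𝒞.mem j) (𝒞.mem i) hx h).comp y h1
    exact ((𝒞.η_ck i).at_target (𝒞.mem j) hy).smul h2
  · have h1 := ext0_eventually_zero (g := 𝒞.bump i) (isCompact_closedBall (𝒞.c i) (3 * 𝒞.r i))
      (𝒞.sub i) (fun y hy => (𝒞.bump i).zero_of_le_dist (not_le.1 hy).le) h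
    refine (contDiffAt_const (c := 0)).congr_of_eventuallyEq
      ((((𝒞.e j).continuousAt_symm hy).eventually h1).mono fun z hz => ?_)
    rw [kp, Cov.η, hz]
    exact ContinuousLinearMap.ext fun p => by simp

theorem Jf_eq {u : X → ℝ} (hu : CkFn R2 2 u) (i : Fin 𝒞.N) {j : Fin 𝒞.N} {x : X}
    (hx : x ∈ (𝒞.e j).source) :
    kp 𝒞 i j (𝒞.e j x) (P366C.jc 𝒞 j u (𝒞.e j x)) = 𝒞.Jf i u x := by
  rw [kp, (𝒞.e j).left_inv hx, Cov.Jf]
  by_cases h : 𝒞.η i x = 0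
  · simp [h]
  · rw [jet_change hu (𝒞.mem j) (𝒞.mem i) hx (𝒞.η_ne_zero h).1]; rfl

theorem comp_ne {i j : Fin 𝒞.N} {x : X} (hi : x ∈ (𝒞.e i).source) (hj : x ∈ (𝒞.e j).source)
    {ξ : R2 →L[ℝ] ℝ} (hξ : ξ ≠ 0) :
    ξ.comp (fderiv ℝ (fun z => 𝒞.e j ((𝒞.e i).symm z)) (𝒞.e i x)) ≠ 0 := fun h => by
  have h1 := ((RSm.trans _ (𝒞.mem i) _ (𝒞.mem j) x hi hj).differentiableAt (by simp)).hasFDerivAt
  have h2 := ((RSm.trans _ (𝒞.mem j) _ (𝒞.mem i) x hj hi).differentiableAt (by simp)).hasFDerivAt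
  rw [← (𝒞.e j).left_inv hj] at h1
  have h3 := (h1.comp (𝒞.e j x) h2).unique ((hasFDerivAt_id _).congr_of_eventuallyEq
    ((symm_trans_eq hi hj).mono fun y hy => by
      simp only [Function.comp, (𝒞.e i).left_inv hy.1, (𝒞.e j).right_inv hy.2, id]))
  rw [(𝒞.e j).left_inv hj] at h3
  exact hξ (by rw [← ξ.comp_id, ← h3, ← ContinuousLinearMap.comp_assoc, h]; rfl)

theorem real_bij (ρ : Pou 𝒞) (a : Fin 𝒞.N → Fin 3 → HH 𝒞 ℂ) (ha : Coef ρ fun i k => a i k) :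
    ∃ L : 𝒞.C2 (1 / 2) →L[ℝ] HH 𝒞 ℝ, Function.Bijective ((1 : ℝ) • 𝒞.incl (1 / 2) - L) ∧
      ∀ u x, L u x = ∑ i, qf (a i 0 x, a i 1 x, a i 2 x) (𝒞.Jf i (𝒞.fn u) x) := by
  let q : Fin 𝒞.N → HH 𝒞 (Jet R2 →L[ℝ] ℝ) := fun i =>
    Hol.map (qf.comp (.inl ℝ _ _)) (a i 0) + (Hol.map (qf.comp ((ContinuousLinearMap.inr ℝ _ _).comp
      (.inl ℝ _ _))) (a i 1) + Hol.map (qf.comp ((ContinuousLinearMap.inr ℝ _ _).comp
        (.inr ℝ _ _))) (a i 2))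
  have hq : ∀ i x, q i x = qf (a i 0 x, a i 1 x, a i 2 x) := fun i x => by
    simp [q, ← map_add]
  let F : Fin 𝒞.N → HH 𝒞 (Jet R2 →L[ℝ] ℝ) := fun j => ∑ i,
    Hol.bil (ContinuousLinearMap.compL ℝ (Jet R2) (Jet R2) ℝ) (q i) (𝒞.ofCk one_half_pos
      one_half_lt_one.le _ (𝒞.η_smul_ck j (by simp) fun y hy => (kp_sm 𝒞 i j y hy).of_le (by simp)))
  let A : P366C.Co 𝒞 := fun j y => F j ((𝒞.e j).symm y)
  have hA : ∀ j x, P366C.In 𝒞 j x → ∀ p, A j (𝒞.e j x) p =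
      ∑ i, qf (a i 0 x, a i 1 x, a i 2 x) (kp 𝒞 i j (𝒞.e j x) p) := fun j x hx p => by
    simp only [A, F, (𝒞.e j).left_inv hx.1, Hol.sum_apply, _root_.sum_apply]
    refine Finset.sum_congr rfl fun i _ => ?_
    show q i x ((𝒞.η j x • kp 𝒞 i j (𝒞.e j x)) p) = _
    rw [hq, 𝒞.η_eq_one hx.1 (ball_subset_closedBall hx.2), one_smul]
  have hG : P366C.Good 𝒞 (1 / 2) A := by
    obtain ⟨C, -, hC⟩ := P366C.charts_of_hol 𝒞 (V := Jet R2 →L[ℝ] ℝ) one_half_pos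
    refine ⟨fun v hv i k x hi hk => ?_, _, hC (fun j => F j) ‖F‖ (fun j x =>
      ((F j).norm_apply_le x).trans (norm_le_pi_norm F j)) fun j x y => ((F j).norm_sub_le' x y).trans
        (mul_le_mul_of_nonneg_right (norm_le_pi_norm F j) (NNReal.coe_nonneg _))⟩
    simp only [hA _ _ hi, hA _ _ hk, Jf_eq 𝒞 hv _ hi.1, Jf_eq 𝒞 hv _ hk.1]
  refine ⟨_, P366C.Lop_bij 𝒞 one_half_pos one_half_lt_one hG (fun j y hy => ?_) one_pos,
    fun u x => ?_⟩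
  · have hx := P366C.in_symm 𝒞 hy
    rw [← (𝒞.η_symm hy).2.1]
    generalize (𝒞.e j).symm y = x at hx
    simp only [hA j x hx, kp, (𝒞.e j).left_inv hx.1, _root_.smul_apply, map_smul]
    refine ⟨Finset.sum_eq_zero fun i _ => by simp [qf_apply, toJ_apply, TJ, JT_snd_snd],
      fun ξ hξ => ?_⟩
    have e : ∀ i, TJ (𝒞.e j) (𝒞.e i) (𝒞.e i x) (0, 0, ξ.smulRight ξ) = (0, 0,
        (ξ.comp (fderiv ℝ (fun z => 𝒞.e j ((𝒞.e i).symm z)) (𝒞.e i x))).smulRight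
        (ξ.comp (fderiv ℝ (fun z => 𝒞.e j ((𝒞.e i).symm z)) (𝒞.e i x)))) := fun i =>
      Prod.ext rfl (Prod.ext rfl (ContinuousLinearMap.ext fun u => ContinuousLinearMap.ext fun v => by
        simp [TJ, JT_snd_snd]))
    have pos : ∀ i, ρ.ρ i x ≠ 0 → 0 < 𝒞.η i x • qf (a i 0 x, a i 1 x, a i 2 x)
        (TJ (𝒞.e j) (𝒞.e i) (𝒞.e i x) (0, 0, ξ.smulRight ξ)) := fun i h => by
      rw [e, 𝒞.η_eq_one (ρ.spt i x h).1 (closedBall_subset_closedBall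
        (by linarith [𝒞.r_pos i]) (ρ.spt i x h).2), one_smul]
      exact qf_pos (ha.pos i x h).1 (ha.pos i x h).2 (comp_ne 𝒞 (ρ.spt i x h).1 hx.1 hξ)
    obtain ⟨i, -, hi⟩ := Finset.exists_ne_zero_of_sum_ne_zero
      ((ρ.sum x).trans_ne one_ne_zero)
    refine Finset.sum_pos' (fun i _ => ?_) ⟨i, Finset.mem_univ i, pos i hi⟩
    by_cases h : ρ.ρ i x = 0
    · simp [qf_apply, ha.spt i _ x h]
    · exact (pos i h).le
  · rw [P366C.Lop_apply 𝒞 _ hG u (P366C.in_idx 𝒞 x), hA _ _ (P366C.in_idx 𝒞 x)]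
    simp only [Jf_eq 𝒞 (𝒞.fn_ck u) _ (P366C.in_idx 𝒞 x).1]

/-- a real function as a complex one -/
def ofR (u : 𝒞.C2 (1 / 2)) : UU 𝒞 :=
  ⟨(Hol.map Complex.ofRealCLM u.1.1, fun i => Hol.map ((pm Complex.ofRealCLM).comp toJ) (u.1.2 i)),
    (u.2.1.comp Complex.ofRealCLM.contDiff :), fun i x => by
      show pm Complex.ofRealCLM (toJ (u.1.2 i x)) = _
      rw [u.2.2, toJ_Jf, jc_clm 𝒞 _ u.2.1]; rfl⟩

theorem ell (ρ : Pou 𝒞) (a : Fin 𝒞.N → Fin 3 → HH 𝒞 ℂ) (ha : Coef ρ fun i k => a i k) :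
    Function.Bijective fun v : UU 𝒞 => ∑ i, (a i 0 * Uj 𝒞 i 3 v + 2 * (a i 1 * Uj 𝒞 i 4 v) +
      a i 2 * Uj 𝒞 i 5 v) - Uv 𝒞 v := by
  obtain ⟨L, hL, hf⟩ := real_bij 𝒞 ρ a ha
  have key : ∀ (T : ℂ →L[ℝ] ℝ) (v : UU 𝒞) x, T ((∑ i, (a i 0 * Uj 𝒞 i 3 v +
      2 * (a i 1 * Uj 𝒞 i 4 v) + a i 2 * Uj 𝒞 i 5 v) - Uv 𝒞 v) x) =
      -((1 : ℝ) • 𝒞.incl (1 / 2) - L) ⟨_, Pa_mem 𝒞 T v.2⟩ x := fun T v x => by
    rw [Hol.sub_apply, Hol.sum_apply, map_sub, map_sum, one_smul, _root_.sub_apply, Hol.sub_apply,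
      neg_sub, hf]
    congr 1
    refine Finset.sum_congr rfl fun i _ => ?_
    rw [← L_qf T (ha.real i 0 x) (ha.real i 1 x) (ha.real i 2 x) (m := v.1.2 i x) (by
      rw [toJ_Jf, v.2.2, jc_clm 𝒞 T v.2.1]; rfl), two_mul, two_mul]
    rfl
  refine ⟨fun u v h => UU_ext 𝒞 fun x => ?_, fun f => ?_⟩
  · have : ∀ T : ℂ →L[ℝ] ℝ, T (Uv 𝒞 u x) = T (Uv 𝒞 v x) := fun T =>
      congrArg (fun z => 𝒞.fn z x) (hL.1 (a₁ := ⟨_, Pa_mem 𝒞 T u.2⟩) (a₂ := ⟨_, Pa_mem 𝒞 T v.2⟩)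
        (Hol.ext fun x => neg_injective (by rw [← key, ← key]; exact congrArg (fun z => T (z x)) h)))
    exact Complex.ext (this Complex.reCLM) (this Complex.imCLM)
  · obtain ⟨u1, h1⟩ := hL.2 (-Hol.map Complex.reCLM f)
    obtain ⟨u2, h2⟩ := hL.2 (-Hol.map Complex.imCLM f)
    have e : ∀ x, Uv 𝒞 (ofR 𝒞 u1 + Complex.I • ofR 𝒞 u2) x = 𝒞.fn u1 x + Complex.I * 𝒞.fn u2 x :=
      fun x => rfl
    refine ⟨ofR 𝒞 u1 + Complex.I • ofR 𝒞 u2, Hol.ext fun x => Complex.ext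
      ((key Complex.reCLM _ x).trans ?_) ((key Complex.imCLM _ x).trans ?_)⟩
    · rw [𝒞.C2_ext (u := ⟨_, Pa_mem 𝒞 Complex.reCLM (ofR 𝒞 u1 + Complex.I • ofR 𝒞 u2).2⟩) (v := u1)
        fun x => (congrArg Complex.re (e x)).trans (by simp), h1]
      simp
    · rw [𝒞.C2_ext (u := ⟨_, Pa_mem 𝒞 Complex.imCLM (ofR 𝒞 u1 + Complex.I • ofR 𝒞 u2).2⟩) (v := u2)
        fun x => (congrArg Complex.im (e x)).trans (by simp), h2]
      simp

theorem max (ρ : Pou 𝒞) (a : Fin 𝒞.N → Fin 3 → X → ℂ) (ha : Coef ρ a) (d : X → ℂ) (Ω : Set X)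
    (hc : Continuous d) (h0 : ∀ x ∉ Ω, d x = 0) (hs : ∀ x ∈ Ω, ∀ i, ρ.ρ i x ≠ 0 →
      ContDiffAt ℝ 2 (fun y => d ((𝒞.e i).symm y)) (𝒞.e i x))
    (he : ∀ x ∈ Ω, ∑ i, (a i 0 x * jc 𝒞 i d x 3 + 2 * (a i 1 x * jc 𝒞 i d x 4) +
      a i 2 x * jc 𝒞 i d x 5) = d x) (x : X) : d x = 0 := by
  have key : ∀ T : ℂ →L[ℝ] ℝ, T (d x) ≤ 0 := fun T => by
    obtain ⟨z, -, hz⟩ := isCompact_univ.exists_isMaxOn ⟨x, mem_univ x⟩
      (T.continuous.comp hc).continuousOn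
    refine (hz (mem_univ x)).trans ?_
    by_cases hΩ : z ∈ Ω
    · rw [Function.comp, ← he z hΩ, map_sum]
      refine Finset.sum_nonpos fun i _ => ?_
      by_cases h : ρ.ρ i z = 0
      · simp [ha.spt i _ z h]
      have h1 := hs z hΩ i h
      rw [L_qf T (ha.real i 0 z) (ha.real i 1 z) (ha.real i 2 z) (m := jc 𝒞 i d z)
        (p := jet (fun y => T (d ((𝒞.e i).symm y))) (𝒞.e i z)) (jet2_clm T h1)]
      have := MP.op_nonpos_of_max ((qf (a i 0 z, a i 1 z, a i 2 z)).comp (P366C.i2 R2)) (fun ξ => by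
        by_cases hξ : ξ = 0
        · simp [hξ]
        · exact (qf_pos (ha.pos i z h).1 (ha.pos i z h).2 hξ).le) 0
        (MP.isLocalMax_chart (ρ.spt i z h).1 (hz.isLocalMax univ_mem))
        (T.contDiff.contDiffAt.comp _ h1)
      exact (add_zero _).symm.trans_le this
    · simp [h0 z hΩ]
  exact Complex.ext ((key Complex.reCLM).antisymm (neg_nonpos.1 (key (-Complex.reCLM))))
    ((key Complex.imCLM).antisymm (neg_nonpos.1 (key (-Complex.imCLM))))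

end HolP

theorem holStmt : HolStmt := fun _ _ _ _ _ _ 𝒞 ρ =>
  ⟨HolP.complete 𝒞, HolP.cj 𝒞, HolP.lip 𝒞, HolP.cpt0 𝒞, HolP.cpt1 𝒞, HolP.ell 𝒞 ρ, HolP.max 𝒞 ρ⟩

end Vale.Agent.P218N.Core
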