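import Vale.Agent.P218N.Core.IftA

/-! The implicit function theorem for the system. -/

open Set Filter Topology Metric MeasureTheory
open scoped RealInnerProductSpace ContDiff Matrix NNReal

noncomputable section

namespace Vale.Agent.P218N.Core

open Vale.Agent.P218.H313 Vale.Agent.P218N.H Vale.Agent.P218N.End Vale.Agent.P272.K.LIN

set_option linter.unusedSectionVars false

variable {w : E3 → ℝ} {D : EndData w} {G : Geo D} {zm : ℝ}
  {X : Type} [TopologicalSpace X] [ChartedSpace R2 X] [T2Space X] [CompactSpace X] [RSm R2 X]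

namespace Ift

theorem EE_cj (h : PathF D zm) (k n : ℕ) (e : En D) (j : EJ) :
    EE (gam zm k n) e j.cj = W.cj (EE (gam zm k n) e j) := ext_ev fun t θ => by
  rw [ev_cj, h.EE_eq, h.EE_eq, h.ev_EW, h.ev_EW]
  refine Eq.trans ?_ (h.EP_cj e _ _)
  congr 1
  funext i
  rw [h.jw_cj, ev_cj]
  rfl

variable (C : Ctx2 G zm X)

theorem EE_base {n : ℕ} (hn : 6 ≤ n) (e : En D) :
    EE (gam zm 3 n) e (Res 3 n ((C.B e).jS n)) = 0 := by
  rw [C.pf.EE_res 0 3 n n e _ (by omega) (by omega) le_rfl, (C.B e).sol, map_zero]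

/-- the nonlinear part on the ends -/
def NN (n : ℕ) (j : En D → EJ) : WE D := fun e =>
  EE (gam zm 3 n) e (Res 3 n ((C.B e).jS n) + j e) - (C.B e).dE n (j e)

/-- the solution operators -/
def Gn (n : ℕ) : WE D × (En D → WD) →L[ℂ] (En D → EJ) := ContinuousLinearMap.pi fun e =>
  ((C.B e).G n).comp (((ContinuousLinearMap.proj e).comp (ContinuousLinearMap.fst ℂ _ _)).prod
    ((ContinuousLinearMap.proj e).comp (ContinuousLinearMap.snd ℂ _ _)))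

theorem d_NN (n : ℕ) : Differentiable ℂ (NN C n) := differentiable_pi.2 fun e => by
  have := C.pf.dEE 3 n e
  unfold NN
  fun_prop

theorem h_NN (n : ℕ) : HasFDerivAt (NN C n) (0 : (En D → EJ) →L[ℂ] WE D) 0 := by
  refine hasFDerivAt_pi'.2 fun e => ?_
  have h1 : HasFDerivAt (EE (gam zm 3 n) e) ((C.B e).dE n)
      (Res 3 n ((C.B e).jS n) + (0 : En D → EJ) e) := by
    rw [Pi.zero_apply, add_zero]; exact (C.pf.dEE 3 n e _).hasFDerivAt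
  have h2 := (hasFDerivAt_apply (𝕜 := ℂ) e (0 : En D → EJ))
  have h3 := (HasFDerivAt.comp (f := fun j : En D → EJ => Res 3 n ((C.B e).jS n) + j e) 0 h1
    (h2.const_add _)).sub (HasFDerivAt.comp (f := fun j : En D → EJ => j e) 0
      ((C.B e).dE n).hasFDerivAt h2)
  rw [sub_self] at h3
  rw [ContinuousLinearMap.comp_zero]
  exact h3

theorem aX_zero (i : Fin C.Z.𝒞.N) (x : X) :
    C.aX i 0 x = G.bJ zm (C.Z.P i).φ (C.Z.𝒞.e i x) := by
  have : (fun k => C.mI i (0 : Cc D × (C.U × JJ D zm)).2 k x) = 0 := by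
    rw [Prod.snd_zero, map_zero]; rfl
  rw [Ctx.aX, this, Prod.fst_zero, emb_zero, add_zero]

theorem SM_zero (h : C.OpS) {F : J2 (WW D) → ℂ} {r : ℝ} (hr : 0 < r) (hF : C.SMF F r) {a : ℂ}
    (ha : ∀ P : Patch (SS w), ∀ y ∈ P.O, F (G.bJ zm P.φ y) = a) (x : X) :
    C.SM F 0 x = C.b1 x * a := by
  rw [hF.val 0 (mem_ball_self hr), ← h.sum_b1 x, Finset.sum_mul]
  refine Finset.sum_congr rfl fun i hi => ?_
  by_cases hρ : C.Z.pou.ρ i x = 0
  · simp [hρ]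
  · rw [aX_zero, ha _ _ (h.pt_eq i hi x hρ).1, h.sum_b1]

theorem star_b1 (x : X) : star (C.b1 x) = C.b1 x := by
  rw [C.b1_apply]; split_ifs <;> simp

theorem SM_cj (h : C.OpS) {F : J2 (WW D) → ℂ} {r : ℝ} (hF : C.SMF F r)
    (hc : ∀ a ∈ Om D, F (star a) = star (F a)) {z z' : Cc D × (C.U × JJ D zm)} (hz : z ∈ ball 0 r)
    (hz' : z' ∈ ball 0 r) (h1 : z'.1 = star z.1) (h2 : C.Cj z.2 z'.2) (x : X) :
    C.SM F z' x = star (C.SM F z x) := by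
  rw [hF.val z hz, hF.val z' hz', star_sum]
  refine Finset.sum_congr rfl fun i hi => ?_
  by_cases hρ : C.Z.pou.ρ i x = 0
  · simp [hρ]
  by_cases hb : C.b1 x = 0
  · simp [hb]
  rw [star_mul', star_mul', star_b1, ← hc _ (hF.om z hz i hi x hρ hb), Ctx.aX, Ctx.aX, star_add,
    star_emb, h1, h.cj_mI _ _ h2, (C.iv.base _ _ (h.pt_eq i hi x hρ).1).2.2.1]
  simp

theorem dv_cj {v v' : C.U} (h : ∀ x, Uv _ v' x = star (Uv _ v x)) (p : E3) :
    C.dv v' p = star (C.dv v p) := by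
  unfold Ctx.dv Dbl.dn
  split_ifs
  · exact h _
  · simp

variable {C} {Φ : Fin D.b → E3 → ℂ} {gb : Fin D.b → ℝ} {N : ℕ} {ψ : Fin N ⊕ Fin D.b → E3 → ℝ}
  {ψh : Fin N ⊕ Fin D.b → C.H} {l : Fin N ⊕ Fin D.b → C.U →L[ℂ] ℂ}

theorem b1_sH (hψ : C.PsiD Φ gb ψ ψh l) (m : Fin N ⊕ Fin D.b → ℂ) (x : X) :
    C.b1 x * C.sH ψh m x = C.sH ψh m x := by
  rw [C.sH_apply, Finset.mul_sum]
  refine Finset.sum_congr rfl fun k _ => ?_
  rw [hψ.up, Dbl.upF]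
  split_ifs with h
  · by_cases h2 : zm + 2 ≤ G.σ (C.Z.pr x)
    · simp [cF, hψ.spt k _ (C.Z.mem x).1 h2]
    · rw [C.b1_one h (by linarith), one_mul]
  · simp

theorem sH_cj (hψ : C.PsiD Φ gb ψ ψh l) (m : Fin N ⊕ Fin D.b → ℂ) (x : X) :
    C.sH ψh (star m) x = star (C.sH ψh m x) := by
  rw [C.sH_apply, C.sH_apply, star_sum]
  refine Finset.sum_congr rfl fun k _ => ?_
  rw [hψ.up, Dbl.upF]
  split_ifs <;> simp [cF]

theorem l_cj (hψ : C.PsiD Φ gb ψ ψh l) {v v' : C.U} (h : ∀ x, Uv _ v' x = star (Uv _ v x))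
    (k : Fin N ⊕ Fin D.b) : l k v' = star (l k v) := by
  rw [hψ.l_eq, hψ.l_eq, Geo.ip, Geo.ip, RCLike.star_def, ← integral_conj]
  simp [dv_cj C h, cF]

theorem norm_cjP {J : Type} [Fintype J] (p : Par D J) : ‖cjP p‖ = ‖p‖ := by
  simp only [cjP, Prod.norm_def, norm_star, Pi.norm_def]
  congr 4
  funext e
  exact NNReal.eq (W.norm_cj _)

/-- the conjugate solution -/
def cjY {J : Type} (v' : C.U) (y : C.EE3 J × (En D → EJ)) : C.EE3 J × (En D → EJ) :=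
  ((v', fun e => W.cj (y.1.2.1 e), star y.1.2.2), fun e => (y.2 e).cj)

theorem norm_cjY {J : Type} [Fintype J] {v' : C.U} {y : C.EE3 J × (En D → EJ)}
    (h : ‖v'‖ = ‖y.1.1‖) : ‖cjY v' y‖ = ‖y‖ := by
  simp only [cjY, Prod.norm_def, norm_star, h, Pi.norm_def]
  congr 3
  · congr 2
    funext e
    exact NNReal.eq (W.norm_cj _)
  · funext e
    exact NNReal.eq (EJ.norm_cj _)

variable {n : ℕ}

theorem ee (hn : 6 ≤ n) {g : WE D} {o : En D → WD} {j : En D → EJ}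
    (h : ∀ e, j e = (C.B e).G n (g e - NN C n j e, o e)) (e : En D) :
    (ctr (gam zm 3 n) e).IsJet (j e) ∧ EE (gam zm 3 n) e (Res 3 n ((C.B e).jS n) + j e) = g e ∧
      End.tr 0 (j e).y2 = 0 ∧ piT (gam zm 3 n) e (j e) = o e := by
  have n3 : 3 ≤ n := by omega
  have h1 := (C.B e).Geq n (g e - NN C n j e, o e) n3
  have h2 := (C.B e).Gjet n (g e - NN C n j e, o e) n3
  have h3 := (C.B e).Gd n (g e - NN C n j e, o e) n3
  have h4 := (C.B e).Gw n (g e - NN C n j e, o e) n3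
  rw [← h e] at h1 h2 h3 h4
  refine ⟨h2, ?_, h3, h4⟩
  simp only [NN, EndBox.dE] at h1
  linear_combination h1

theorem ee_cj (hn : 6 ≤ n) {g : WE D} {o : En D → WD} {j : En D → EJ}
    (h : ∀ e, j e = (C.B e).G n (g e - NN C n j e, o e)) (e : En D) :
    (j e).cj = (C.B e).G n (W.cj (g e) - NN C n (fun e => (j e).cj) e, W.cj (o e)) := by
  have n3 : 3 ≤ n := by omega
  obtain ⟨b1, b2, b3, b4⟩ := ee hn h e
  have c1 := C.pf.jet_cj 3 n e _ b1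
  refine sub_eq_zero.1 ((C.B e).uniq n _ n3 ((JS _).sub_mem c1 ((C.B e).Gjet n _ n3)) ?_ ?_ ?_)
  · rw [map_sub, (C.B e).Geq n _ n3]
    have e1 := EE_cj C.pf 3 n e (Res 3 n ((C.B e).jS n) + j e)
    rw [b2, EJ.cj_add, ← C.pf.res_cj, (C.lf e).real] at e1
    simp only [NN, EndBox.dE, e1]
    ring
  · have := (C.B e).Gd n (W.cj (g e) - NN C n (fun e => (j e).cj) e, W.cj (o e)) n3
    refine (map_sub (End.tr 0) _ _).trans (sub_eq_zero.2 (Eq.trans ?_ this.symm))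
    exact (cj_tr 0 _).symm.trans (by rw [b3, W.cj_zero])
  · rw [(C.pf.piT_lin 3 n e).map_sub, (C.B e).Gw n _ n3, C.pf.piT_cj, b4]
    exact sub_self _

/-- the equations -/
structure Eqs (ψh : Fin N ⊕ Fin D.b → C.H) (l : Fin N ⊕ Fin D.b → C.U →L[ℂ] ℂ) (n : ℕ)
    (p : Par D (Fin N ⊕ Fin D.b)) (y : C.EE3 (Fin N ⊕ Fin D.b) × (En D → EJ))
    (z : C.U × JJ D zm) : Prop where
  e1 : C.SM Mh (p.2.1, z) + C.rest z = C.SM kap (p.2.1, z) * C.sH ψh y.1.2.2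
  e2 : y.1.2.1 = C.Gam z
  e3 : (fun k => l k y.1.1) = p.1
  e4 : ∀ e, y.2 e = (C.B e).G n (y.1.2.1 e - NN C n y.2 e, p.2.2 e)

theorem Eqs.cj (hF : C.Facts) (hψ : C.PsiD Φ gb ψ ψh l) (hn : 6 ≤ n) {ra : ℝ} (hA : C.SMF Mh ra)
    (hB : C.SMF kap ra) {p : Par D (Fin N ⊕ Fin D.b)} {y : C.EE3 (Fin N ⊕ Fin D.b) × (En D → EJ)}
    {z z' : C.U × JJ D zm} (h : Eqs ψh l n p y z) {v' : C.U}
    (hv : ∀ x, Uv _ v' x = star (Uv _ y.1.1 x)) (hc : C.Cj z z')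
    (m1 : (p.2.1, z) ∈ ball 0 ra) (m2 : ((cjP p).2.1, z') ∈ ball 0 ra) :
    Eqs ψh l n (cjP p) (cjY v' y) z' := by
  refine ⟨Hol.ext fun q => ?_, funext fun e => ?_, funext fun k => ?_, ee_cj hn h.e4⟩
  · have := congrArg star (congrArg (fun f : C.H => f q) h.e1)
    simp only [Hol.add_apply, Hol.mul_apply, star_add, star_mul'] at this ⊢
    rw [SM_cj C hF.op hA (fun a _ => (C.jf.cj a).1) m1 m2 rfl hc,
      SM_cj C hF.op hB (fun a h => ((C.jf.cj a).2 h).2.1) m1 m2 rfl hc,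
      hF.op.cj_rest _ _ hc, this, ← sH_cj hψ]
    rfl
  · rw [hF.gam.cj _ _ hc, ← congrFun h.e2 e]
    rfl
  · exact (l_cj hψ hv k).trans (congrArg star (congrFun h.e3 k))

theorem SMF_mono {F : J2 (WW D) → ℂ} {r r' : ℝ} (h : C.SMF F r) (hr : r' ≤ r) : C.SMF F r' :=
  ⟨h.hol.mono (ball_subset_ball hr), fun z hz => h.om z (ball_subset_ball hr hz),
    fun z hz => h.val z (ball_subset_ball hr hz), fun z hz => h.der z (ball_subset_ball hr hz)⟩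

/-- the data of the system -/
def dat (hF : C.Facts) (hψ : C.PsiD Φ gb ψ ψh l) (hn : 6 ≤ n) {𝓛 : C.U ≃L[ℂ] C.H}
    {L' : C.EE3 (Fin N ⊕ Fin D.b) ≃L[ℂ] C.EE3 (Fin N ⊕ Fin D.b)}
    (hL' : (L' : C.EE3 (Fin N ⊕ Fin D.b) →L[ℂ] _) =
      C.Sys 𝓛 ψh l ((C.Th n hn).comp (ContinuousLinearMap.inl ℂ _ _)))
    {ra : ℝ} (ha : 0 < ra) (hA : C.SMF Mh ra) (hB : C.SMF kap ra) :
    Dat C.U C.H (JJ D zm) (WE D) (En D → WD) (En D → EJ) (Cc D) (Fin N ⊕ Fin D.b → ℂ) where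
  A := C.SM Mh
  B := C.SM kap
  rest := C.rest
  sH := C.sH ψh
  Gam := C.Gam
  GamL := C.GamL
  NN := NN C n
  Th := C.Th n hn
  Gn := Gn C n
  𝓛 := 𝓛
  l := ContinuousLinearMap.pi l
  L := L'
  r0 := ra
  r0_pos := ha
  dA := hA.hol
  dB := hB.hol
  A0 := Hol.ext fun x => by
    rw [SM_zero C hF.op ha hA fun P y hy => (C.iv.base P y hy).2.2.2.2.2.1, mul_zero]; rfl
  B0 := fun m => Hol.ext fun x => by
    rw [Hol.mul_apply, SM_zero C hF.op ha hB fun P y hy => (C.iv.base P y hy).2.2.2.2.2.2.1,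
      mul_one, b1_sH hψ]
  dG := hF.gam.hol
  G0 := hF.gam.zero
  hG := hF.gam.der
  dN := d_NN C n
  N0 := funext fun e => by simp [NN, EE_base C hn]
  hN := h_NN C n
  hL := fun a => (DFunLike.congr_fun hL' a).trans (C.Sys_apply _ _ _ _ a)

section
variable (hF : C.Facts) (hψ : C.PsiD Φ gb ψ ψh l) (hn : 6 ≤ n) {𝓛 : C.U ≃L[ℂ] C.H}
  {L' : C.EE3 (Fin N ⊕ Fin D.b) ≃L[ℂ] C.EE3 (Fin N ⊕ Fin D.b)}
  (hL' : (L' : C.EE3 (Fin N ⊕ Fin D.b) →L[ℂ] _) =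
    C.Sys 𝓛 ψh l ((C.Th n hn).comp (ContinuousLinearMap.inl ℂ _ _)))
  {ra : ℝ} (ha : 0 < ra) (hA : C.SMF Mh ra) (hB : C.SMF kap ra)

theorem key (p : Par D (Fin N ⊕ Fin D.b)) (y : C.EE3 (Fin N ⊕ Fin D.b) × (En D → EJ)) :
    (dat hF hψ hn hL' ha hA hB).Φ (p, y) = 0 ↔
      Eqs ψh l n p y ((dat hF hψ hn hL' ha hA hB).zz (p, y)) := by
  rw [Dat.Φ, Prod.mk_eq_zero, Prod.mk_eq_zero, Prod.mk_eq_zero,
    map_eq_zero_iff _ (dat hF hψ hn hL' ha hA hB).𝓛.symm.injective, sub_eq_zero, sub_eq_zero,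
    sub_eq_zero, sub_eq_zero]
  exact ⟨fun h => ⟨h.1.1, h.1.2.1, h.1.2.2, congrFun h.2⟩,
    fun h => ⟨⟨h.1, h.2, h.3⟩, funext h.4⟩⟩

theorem res {p : Par D (Fin N ⊕ Fin D.b)} {y : C.EE3 (Fin N ⊕ Fin D.b) × (En D → EJ)}
    (h : ∀ e, y.2 e = (C.B e).G n (y.1.2.1 e - NN C n y.2 e, p.2.2 e)) (e : En D) :
    (((dat hF hψ hn hL' ha hA hB).zz (p, y)).2 e).1 = Res 3 6 (y.2 e) := by
  rw [h e]; rfl

end

end Ift

open Ift in
theorem Ctx2.iftS (C : Ctx2 G zm X) : C.IftS := by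
  intro hF Φ gb N ψ ψh l 𝓛 hψ n hn L' hL' r0 hr0
  obtain ⟨r1, h1, hA⟩ := hF.op.sm Mh C.jf.dMh
  obtain ⟨r2, h2, hB⟩ := hF.op.sm kap C.jf.dkap
  have ha : 0 < min r0 (min r1 r2) := lt_min hr0 (lt_min h1 h2)
  replace hA := SMF_mono hA ((min_le_right r0 _).trans (min_le_left r1 r2))
  replace hB := SMF_mono hB ((min_le_right r0 _).trans (min_le_right r1 r2))
  have := C.hf.complete
  obtain ⟨r, hr, ρ, hρ, B, hB0, x, h1, h2, h3, h4⟩ :=
    (dat hF hψ hn hL' ha hA hB).exists_sol (C.abs _ _)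
  have sol := fun p hp => (key hF hψ hn hL' ha hA hB p (x p)).1 (h3 p hp).2.2.2.2.2.1
  refine ⟨r, B, fun p => (dat hF hψ hn hL' ha hA hB).zz (p, x p), fun p => (x p).2,
    fun p => (x p).1.2.2, ⟨hn, hr, hB0, h2, h1.snd, h1.fst.snd.snd, fun p hp => ⟨(h3 p hp).2.2.2.1,
      (norm_snd_le _).trans (h3 p hp).2.2.1, (norm_snd_le _).trans ((norm_snd_le _).trans
        ((norm_fst_le _).trans (h3 p hp).2.2.1)), (h3 p hp).2.2.2.2.1⟩, fun p hp =>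
      ⟨(mem_ball_zero_iff.1 ((h3 p hp).2.2.2.2.2.2 _ (h3 p hp).1).1).trans_le (min_le_left _ _),
        (norm_snd_le _).trans_lt ((h3 p hp).2.1.trans_le (min_le_left _ _))⟩,
      fun p hp e => (ee hn (sol p hp).e4 e).1, fun p hp => res hF hψ hn hL' ha hA hB (sol p hp).e4,
      fun p hp => (sol p hp).e1,
      fun p hp e => (ee hn (sol p hp).e4 e).2.1.trans (congrFun (sol p hp).e2 e),
      fun p hp e => (ee hn (sol p hp).e4 e).2.2.2, fun p hp => congrFun (sol p hp).e3,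
      fun p hp => ?_⟩, fun p e => ?_⟩
  · obtain ⟨v', hv1, hv2⟩ := C.hf.cj (x p).1.1
    have np : cjP p ∈ ball (0 : Par D (Fin N ⊕ Fin D.b)) r := by
      rwa [mem_ball_zero_iff, norm_cjP, ← mem_ball_zero_iff]
    have ny : ‖cjY v' (x p)‖ < ρ := (norm_cjY hv1).trans_lt (h3 p hp).1
    have hc : C.Cj ((dat hF hψ hn hL' ha hA hB).zz (p, x p))
        ((dat hF hψ hn hL' ha hA hB).zz (cjP p, cjY v' (x p))) := ⟨hv2, fun e => by
      rw [res hF hψ hn hL' ha hA hB (ee_cj hn (sol p hp).e4),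
        res hF hψ hn hL' ha hA hB (sol p hp).e4, ← C.pf.res_cj]
      rfl⟩
    have hz : cjY v' (x p) = x (cjP p) := ((h3 _ np).2.2.2.2.2.2 _ ny).2
      ((key hF hψ hn hL' ha hA hB _ _).2 ((sol p hp).cj hF hψ hn hA hB hv2 hc
        ((h3 p hp).2.2.2.2.2.2 _ (h3 p hp).1).1 ((h3 _ np).2.2.2.2.2.2 _ ny).1))
    rw [← hz]
    exact ⟨hc, fun e => rfl, rfl⟩
  · rw [fderiv.snd (h1.differentiableAt (ball_mem_nhds _ hr)), ContinuousLinearMap.comp_apply, h4]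
    rfl

end Vale.Agent.P218N.Core
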