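import Vale.Agent.P218N.Core.Sys

/-! The implicit function theorem for the system, abstract form. -/

open Set Filter Topology Metric

noncomputable section

namespace Vale.Agent.P218N.Core.Ift

open Vale.Agent.P218N.End

variable {U H Jn Wg Wd Ej Cs Λ : Type} [NormedAddCommGroup U] [NormedSpace ℂ U]
  [NormedCommRing H] [NormedAlgebra ℂ H] [NormedAddCommGroup Jn] [NormedSpace ℂ Jn]
  [NormedAddCommGroup Wg] [NormedSpace ℂ Wg] [NormedAddCommGroup Wd] [NormedSpace ℂ Wd]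
  [NormedAddCommGroup Ej] [NormedSpace ℂ Ej] [NormedAddCommGroup Cs] [NormedSpace ℂ Cs]
  [NormedAddCommGroup Λ] [NormedSpace ℂ Λ]

/-- the data of the system -/
structure Dat (U H Jn Wg Wd Ej Cs Λ : Type) [NormedAddCommGroup U] [NormedSpace ℂ U]
    [NormedCommRing H] [NormedAlgebra ℂ H] [NormedAddCommGroup Jn] [NormedSpace ℂ Jn]
    [NormedAddCommGroup Wg] [NormedSpace ℂ Wg] [NormedAddCommGroup Wd] [NormedSpace ℂ Wd]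
    [NormedAddCommGroup Ej] [NormedSpace ℂ Ej] [NormedAddCommGroup Cs] [NormedSpace ℂ Cs]
    [NormedAddCommGroup Λ] [NormedSpace ℂ Λ] where
  A : Cs × (U × Jn) → H
  B : Cs × (U × Jn) → H
  rest : U × Jn →L[ℂ] H
  sH : Λ →L[ℂ] H
  Gam : U × Jn → Wg
  GamL : U × Jn →L[ℂ] Wg
  NN : Ej → Wg
  Th : Wg × Wd →L[ℂ] Jn
  Gn : Wg × Wd →L[ℂ] Ej
  𝓛 : U ≃L[ℂ] H
  l : U →L[ℂ] Λ
  L : (U × Wg × Λ) ≃L[ℂ] (U × Wg × Λ)
  r0 : ℝ
  r0_pos : 0 < r0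
  dA : DifferentiableOn ℂ A (ball 0 r0)
  dB : DifferentiableOn ℂ B (ball 0 r0)
  A0 : A 0 = 0
  B0 : ∀ m, B 0 * sH m = sH m
  dG : Differentiable ℂ Gam
  G0 : Gam 0 = 0
  hG : HasFDerivAt Gam GamL 0
  dN : Differentiable ℂ NN
  N0 : NN 0 = 0
  hN : HasFDerivAt NN (0 : Ej →L[ℂ] Wg) 0
  hL : ∀ a, L a = (𝓛.symm (fderiv ℂ A 0 (0, (a.1, Th (a.2.1, 0))) + rest (a.1, Th (a.2.1, 0)) -
    sH a.2.2), a.2.1 - GamL (a.1, Th (a.2.1, 0)), l a.1)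

namespace Dat
variable (d : Dat U H Jn Wg Wd Ej Cs Λ)

def arg (a : (Λ × Cs × Wd) × ((U × Wg × Λ) × Ej)) : Wg × Wd := (a.2.1.2.1 - d.NN a.2.2, a.1.2.2)
def zz (a : (Λ × Cs × Wd) × ((U × Wg × Λ) × Ej)) : U × Jn := (a.2.1.1, d.Th (d.arg a))
def cz (a : (Λ × Cs × Wd) × ((U × Wg × Λ) × Ej)) : Cs × (U × Jn) := (a.1.2.1, d.zz a)
def Φ (a : (Λ × Cs × Wd) × ((U × Wg × Λ) × Ej)) : (U × Wg × Λ) × Ej :=
  ((d.𝓛.symm (d.A (d.cz a) + d.rest (d.zz a) - d.B (d.cz a) * d.sH a.2.1.2.2),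
    a.2.1.2.1 - d.Gam (d.zz a), d.l a.2.1.1 - a.1.1), a.2.2 - d.Gn (d.arg a))
def rhs (p : Λ × Cs × Wd) : U × Wg × Λ :=
  (-d.𝓛.symm (fderiv ℂ d.A 0 (p.2.1, 0) + (fderiv ℂ d.A 0 (0, (0, d.Th (0, p.2.2))) +
    d.rest (0, d.Th (0, p.2.2)))), d.GamL (0, d.Th (0, p.2.2)), p.1)

theorem d_arg : Differentiable ℂ d.arg := by
  have := d.dN
  unfold arg
  fun_prop

theorem d_zz : Differentiable ℂ d.zz := by
  have := d.d_arg
  unfold zz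
  fun_prop

theorem d_cz : Differentiable ℂ d.cz := by
  have := d.d_zz
  unfold cz
  fun_prop

theorem arg0 : d.arg 0 = 0 := by simp [arg, d.N0]
theorem zz0 : d.zz 0 = 0 := by simp [zz, d.arg0]
theorem cz0 : d.cz 0 = 0 := by simp [cz, d.zz0]
theorem Φ0 : d.Φ 0 = 0 := by simp [Φ, d.arg0, d.zz0, d.cz0, d.A0, d.G0]

theorem exists_r : ∃ r > 0, r ≤ d.r0 ∧ ∀ a ∈ ball (0 : (Λ × Cs × Wd) × ((U × Wg × Λ) × Ej)) r,
    d.cz a ∈ ball 0 d.r0 := by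
  have h := d.d_cz.continuous.continuousAt (x := 0)
  rw [ContinuousAt, d.cz0] at h
  obtain ⟨r, hr, h⟩ := Metric.eventually_nhds_iff_ball.1 (h.eventually (ball_mem_nhds _ d.r0_pos))
  exact ⟨min r d.r0, lt_min hr d.r0_pos, min_le_right _ _,
    fun a ha => h a (ball_subset_ball (min_le_left _ _) ha)⟩

theorem d_Φ {r : ℝ} (h : ∀ a ∈ ball (0 : (Λ × Cs × Wd) × ((U × Wg × Λ) × Ej)) r,
    d.cz a ∈ ball 0 d.r0) : DifferentiableOn ℂ d.Φ (ball 0 r) := by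
  have h1 := d.dA.comp d.d_cz.differentiableOn h
  have h2 := d.dB.comp d.d_cz.differentiableOn h
  have h3 := d.d_zz
  have h4 := d.d_arg
  have h5 := d.dG
  refine DifferentiableOn.prodMk (DifferentiableOn.prodMk
    (d.𝓛.symm.differentiable.comp_differentiableOn ((h1.add ?_).sub (h2.mul ?_))) ?_) ?_ <;>
  fun_prop

theorem fderiv_Φ (a : (Λ × Cs × Wd) × ((U × Wg × Λ) × Ej)) : fderiv ℂ d.Φ 0 a =
    ((d.𝓛.symm (fderiv ℂ d.A 0 (a.1.2.1, (a.2.1.1, d.Th (a.2.1.2.1, a.1.2.2))) +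
      d.rest (a.2.1.1, d.Th (a.2.1.2.1, a.1.2.2)) - d.sH a.2.1.2.2),
      a.2.1.2.1 - d.GamL (a.2.1.1, d.Th (a.2.1.2.1, a.1.2.2)), d.l a.2.1.1 - a.1.1),
      a.2.2 - d.Gn (a.2.1.2.1, a.1.2.2)) := by
  have p1 : HasFDerivAt (𝕜 := ℂ) (fun a : (Λ × Cs × Wd) × ((U × Wg × Λ) × Ej) => a.1) _ 0 :=
    hasFDerivAt_fst
  have p2 : HasFDerivAt (𝕜 := ℂ) (fun a : (Λ × Cs × Wd) × ((U × Wg × Λ) × Ej) => a.2) _ 0 :=
    hasFDerivAt_snd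
  have ha : HasFDerivAt d.arg _ 0 :=
    (p2.fst.snd.fst.sub (HasFDerivAt.comp 0 (g := d.NN) d.hN p2.snd)).prodMk p1.snd.snd
  have hz : HasFDerivAt d.zz _ 0 := p2.fst.fst.prodMk (d.Th.hasFDerivAt.comp 0 ha)
  have hc : HasFDerivAt d.cz _ 0 := p1.snd.fst.prodMk hz
  have hA : HasFDerivAt d.A (fderiv ℂ d.A 0) (d.cz 0) := by
    rw [d.cz0]; exact (d.dA.differentiableAt (ball_mem_nhds _ d.r0_pos)).hasFDerivAt
  have hB : HasFDerivAt d.B (fderiv ℂ d.B 0) (d.cz 0) := by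
    rw [d.cz0]; exact (d.dB.differentiableAt (ball_mem_nhds _ d.r0_pos)).hasFDerivAt
  have hG : HasFDerivAt d.Gam d.GamL (d.zz 0) := by rw [d.zz0]; exact d.hG
  have h : HasFDerivAt d.Φ _ 0 := ((d.𝓛.symm.hasFDerivAt.comp 0 (((hA.comp 0 hc).add
    (d.rest.hasFDerivAt.comp 0 hz)).sub ((hB.comp 0 hc).mul (d.sH.hasFDerivAt.comp 0
      p2.fst.snd.snd)))).prodMk ((p2.fst.snd.fst.sub (hG.comp 0 hz)).prodMk
      ((d.l.hasFDerivAt.comp 0 p2.fst.fst).sub p1.fst))).prodMk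
      (p2.snd.sub (d.Gn.hasFDerivAt.comp 0 ha))
  rw [h.fderiv]
  simp [d.cz0, d.B0]

/-- the derivative with respect to the unknowns -/
def LL : ((U × Wg × Λ) × Ej) ≃L[ℂ] ((U × Wg × Λ) × Ej) :=
  d.L.skewProd (ContinuousLinearEquiv.refl ℂ Ej) (-(d.Gn.comp ((ContinuousLinearMap.inl ℂ _ _).comp
    ((ContinuousLinearMap.fst ℂ _ _).comp (ContinuousLinearMap.snd ℂ _ _)))))

theorem LL_apply (v : (U × Wg × Λ) × Ej) : d.LL v = (d.L v.1, v.2 - d.Gn (v.1.2.1, 0)) := by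
  simp [LL, sub_eq_add_neg]

theorem LL_symm (p : Λ × Cs × Wd) : -d.LL.symm (fderiv ℂ d.Φ 0 (p, 0)) =
    (d.L.symm (d.rhs p), d.Gn ((d.L.symm (d.rhs p)).2.1, p.2.2)) := by
  rw [← map_neg, ContinuousLinearEquiv.symm_apply_eq, LL_apply, fderiv_Φ,
    ContinuousLinearEquiv.apply_symm_apply, ← map_sub]
  have e : ((p.2.1, (0, d.Th (0, p.2.2))) : Cs × (U × Jn)) = (p.2.1, 0) + (0, (0, d.Th (0, p.2.2))) := by
    simp
  simp only [rhs, Prod.fst_zero, Prod.snd_zero, e, map_add, map_zero, Prod.neg_mk, Prod.mk_sub_mk,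
    sub_zero, zero_sub, neg_neg, sub_self, add_assoc]

theorem exists_sol (hA : AbsF (Λ × Cs × Wd) ((U × Wg × Λ) × Ej)) :
    ∃ r > 0, ∃ ρ > 0, ∃ B > 0, ∃ x : Λ × Cs × Wd → (U × Wg × Λ) × Ej,
      DifferentiableOn ℂ x (ball 0 r) ∧ DifferentiableOn ℂ (fun p => d.zz (p, x p)) (ball 0 r) ∧
      (∀ p ∈ ball (0 : Λ × Cs × Wd) r, ‖x p‖ < ρ ∧ ‖x p‖ < d.r0 ∧ ‖x p‖ ≤ B * ‖p‖ ∧
        ‖d.zz (p, x p)‖ ≤ B * ‖p‖ ∧ ‖fderiv ℂ (fun p => d.zz (p, x p)) p‖ ≤ B ∧ d.Φ (p, x p) = 0 ∧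
        ∀ y, ‖y‖ < ρ → d.cz (p, y) ∈ ball 0 d.r0 ∧ (d.Φ (p, y) = 0 → y = x p)) ∧
      ∀ p, fderiv ℂ x 0 p = (d.L.symm (d.rhs p), d.Gn ((d.L.symm (d.rhs p)).2.1, p.2.2)) := by
  obtain ⟨r, hr, hr0, h⟩ := d.exists_r
  obtain ⟨r₁, h1, r₂, h2, x, a1, a2, hx, x0, hs, hd⟩ := hA.ift d.Φ r d.LL hr (d.d_Φ h) d.Φ0
    fun v => by rw [fderiv_Φ, LL_apply, d.hL]; simp
  have hc : ∀ p ∈ ball (0 : Λ × Cs × Wd) r₁, ∀ y : (U × Wg × Λ) × Ej, ‖y‖ < r₂ →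
      d.cz (p, y) ∈ ball 0 d.r0 := fun p hp y hy => h _ (by
    rw [mem_ball_zero_iff] at hp ⊢
    exact max_lt (hp.trans_le a1) (hy.trans_le a2))
  have hz : DifferentiableOn ℂ (fun p => d.zz (p, x p)) (ball 0 r₁) :=
    d.d_zz.comp_differentiableOn (differentiableOn_id.prodMk hx)
  have sub : ∀ p ∈ ball (0 : Λ × Cs × Wd) (r₁ / 2), ball p (r₁ / 2) ⊆ ball 0 r₁ := fun p hp =>
    ball_subset_ball' (by rw [mem_ball] at hp; linarith)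
  have sub' : ball (0 : Λ × Cs × Wd) (r₁ / 2) ⊆ ball 0 r₁ := ball_subset_ball (by linarith)
  have b1 : ∀ p ∈ ball (0 : Λ × Cs × Wd) (r₁ / 2), ‖fderiv ℂ x p‖ ≤ 2 * d.r0 / (r₁ / 2) :=
    fun p hp => norm_fderiv_le_of_bdd (by linarith) (hx.mono (sub p hp))
      fun y hy => (hs y (sub p hp hy)).1.le.trans (a2.trans hr0)
  have b2 : ∀ p ∈ ball (0 : Λ × Cs × Wd) (r₁ / 2),
      ‖fderiv ℂ (fun p => d.zz (p, x p)) p‖ ≤ 2 * d.r0 / (r₁ / 2) :=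
    fun p hp => norm_fderiv_le_of_bdd (by linarith) (hz.mono (sub p hp)) fun y hy =>
      (norm_snd_le (d.cz (y, x y))).trans
        (mem_ball_zero_iff.1 (hc y (sub p hp hy) _ (hs y (sub p hp hy)).1)).le
  have h0 : (0 : Λ × Cs × Wd) ∈ ball 0 (r₁ / 2) := mem_ball_self (by linarith)
  refine ⟨r₁ / 2, by linarith, r₂, h2, 2 * d.r0 / (r₁ / 2), by have := d.r0_pos; positivity, x,
    hx.mono sub', hz.mono sub', fun p hp => ⟨(hs p (sub' hp)).1,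
      (hs p (sub' hp)).1.trans_le (a2.trans hr0), ?_, ?_, b2 p hp, (hs p (sub' hp)).2.1,
      fun y hy => ⟨hc p (sub' hp) y hy, (hs p (sub' hp)).2.2 y hy⟩⟩,
    fun p => by rw [hd, LL_symm]⟩
  · simpa [x0] using (convex_ball (0 : Λ × Cs × Wd) (r₁ / 2)).norm_image_sub_le_of_norm_fderiv_le
      (fun y hy => hx.differentiableAt (isOpen_ball.mem_nhds (sub' hy))) b1 h0 hp
  · have := (convex_ball (0 : Λ × Cs × Wd) (r₁ / 2)).norm_image_sub_le_of_norm_fderiv_le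
      (fun y hy => hz.differentiableAt (isOpen_ball.mem_nhds (sub' hy))) b2 h0 hp
    rwa [x0, Prod.mk_zero_zero, d.zz0, sub_zero, sub_zero] at this

end Dat

end Vale.Agent.P218N.Core.Ift
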