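import Vale.Agent.P218N.Core.InvA
import Vale.Agent.P218N.Core.JetC

/-! Independence of the patch, the base point, lifts from the ends. -/

open Set Filter Topology
open scoped RealInnerProductSpace ContDiff Matrix

noncomputable section

namespace Vale.Agent.P218N.Core

open Vale.Agent.P218.H313 Vale.Agent.P218N.H Vale.Agent.P218N.End

set_option linter.unusedSectionVars false
set_option linter.unusedVariables false

namespace Iv

/-! ### real jets -/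

/-- the complexification as a linear map -/
def cxL : E3 →L[ℝ] C3 := LinearMap.toContinuousLinearMap
  ⟨⟨cx, fun a b => by ext i; simp [cx]⟩, fun r a => by ext i; simp [cx]⟩

theorem cxL_apply (a : E3) : cxL a = cx a := rfl

theorem contDiff_cx {n : WithTop ℕ∞} : ContDiff ℝ n cx := cxL.contDiff

theorem star_cx (a : E3) : star (cx a) = cx a := by ext i; simp [cx]

theorem cx_dot (a b : E3) : cx a ⬝ᵥ cx b = (⟪a, b⟫ : ℝ) := by
  simp [cx, dotProduct, Fin.sum_univ_three, inner3]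

/-- the cross product -/
def crs (a b : E3) : E3 := !₂[a 1 * b 2 - a 2 * b 1, a 2 * b 0 - a 0 * b 2, a 0 * b 1 - a 1 * b 0]

theorem det3_cx (a b c : E3) : det3 (cx a) (cx b) (cx c) = (⟪c, crs a b⟫ : ℝ) := by
  simp [det3, cx, crs, cross_apply, dotProduct, Fin.sum_univ_three, inner3]; ring

theorem crs_left (a b : E3) : ⟪crs a b, a⟫ = 0 := by simp [crs, inner3]; ring
theorem crs_right (a b : E3) : ⟪crs a b, b⟫ = 0 := by simp [crs, inner3]; ring
theorem crs_sq (a b : E3) : ⟪crs a b, crs a b⟫ = gram a b := by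
  simp only [gram, inner3]; simp [crs]; ring

theorem dg_cx (j : J2 E3) : dg (fun k => cx (j k)) = (gram (j 1) (j 2) : ℝ) := by
  simp only [dg, g11, g12, g22, cx_dot, gram]; push_cast; ring

theorem Mp_cx (j : J2 E3) : Mp (fun k => cx (j k)) =
    (shrP (j 0) (j 1) (j 2) (j 3) (j 4) (j 5) (crs (j 1) (j 2)) : ℝ) := by
  rw [Mp_eq, dg_cx]
  simp only [g11, g12, g22, cx_dot, det3_cx, shrP, shrS, gram]
  push_cast; ring

theorem jS_eq {φ : R2 → E3} {y : R2} (h : ContDiffAt ℝ 2 φ y) :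
    jS φ y = fun k => cx (jet2 φ y k) := jet2_clm cxL h

theorem det_sq {X1 X2 ν : E3} (hg : gram X1 X2 ≠ 0) (hν : ‖ν‖ = 1) (h1 : ⟪ν, X1⟫ = 0)
    (h2 : ⟪ν, X2⟫ = 0) (n : E3) : ⟪n, crs X1 X2⟫ ^ 2 = gram X1 X2 * ⟪n, ν⟫ ^ 2 := by
  have h3 := eq_smul_of_orth hg hν h1 h2 (crs_left X1 X2) (crs_right X1 X2)
  have h4 := crs_sq X1 X2
  rw [h3, real_inner_smul_left, real_inner_smul_right, real_inner_self_eq_norm_sq, hν] at h4
  rw [h3, real_inner_smul_right, mul_pow, ← h4]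
  ring

theorem gram_pos {L : R2 →L[ℝ] E3} (h : Function.Injective L) :
    0 < ⟪L (1, 0), L (1, 0)⟫ ∧ 0 < ⟪L (0, 1), L (0, 1)⟫ ∧ 0 < gram (L (1, 0)) (L (0, 1)) := by
  have h0 : ∀ v : R2, v ≠ 0 → 0 < ⟪L v, L v⟫ := fun v hv =>
    real_inner_self_pos.2 fun h' => hv (h (h'.trans (map_zero L).symm))
  have h1 := h0 (1, 0) (by simp)
  refine ⟨h1, h0 (0, 1) (by simp), ?_⟩
  have h2 := h0 (⟪L (1, 0), L (0, 1)⟫, -⟪L (1, 0), L (1, 0)⟫)
    fun h' => h1.ne' (neg_eq_zero.1 (congrArg Prod.snd h'))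
  rw [clm_R2 L] at h2
  simp only [inner_add_left, inner_add_right, real_inner_smul_left, real_inner_smul_right,
    real_inner_comm (L (1, 0)) (L (0, 1))] at h2
  refine pos_of_mul_pos_left (b := ⟪L (1, 0), L (1, 0)⟫) ?_ h1.le
  unfold gram
  linarith

variable {w : E3 → ℝ} {D : EndData w}

theorem gram_ne (P : Patch (SS w)) {y : R2} (hy : y ∈ P.O) :
    gram (jet2 P.φ y 1) (jet2 P.φ y 2) ≠ 0 := (gram_pos (P.imm y hy)).2.2.ne'

theorem dg_ne (P : Patch (SS w)) {y : R2} (hy : y ∈ P.O) : dg (jS P.φ y) ≠ 0 := by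
  rw [jS_eq (P.cdAt2 hy), dg_cx]
  exact Complex.ofReal_ne_zero.2 (gram_ne P hy)

theorem ev_zero (P : Patch (SS w)) {y : R2} (hy : y ∈ P.O) : ∀ᶠ z in 𝓝 y, w (P.φ z) = 0 :=
  (P.ev_mem hy).mono fun z hz => (P.maps z hz).1

theorem det_eq (hw : Shr w) (P : Patch (SS w)) {y : R2} (hy : y ∈ P.O) (n : E3) :
    det3 (jS P.φ y 1) (jS P.φ y 2) (cx n) ^ 2 = dg (jS P.φ y) * (⟪n, nuW w (P.φ y)⟫ : ℝ) ^ 2 := by
  rw [jS_eq (P.cdAt2 hy), dg_cx, det3_cx]
  exact_mod_cast det_sq (gram_ne P hy) (norm_nuW (hw.ne _ (P.maps y hy).1))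
    (inner_nuW_d1 hw.smooth (P.cdAt2 hy) (ev_zero P hy) _)
    (inner_nuW_d1 hw.smooth (P.cdAt2 hy) (ev_zero P hy) _) n

theorem Mp_jS (hw : Shr w) (P : Patch (SS w)) {y : R2} (hy : y ∈ P.O) : Mp (jS P.φ y) = 0 := by
  rw [jS_eq (P.cdAt2 hy), Mp_cx]
  exact_mod_cast hw.shrP_eq_zero (P.cdAt2 hy) (ev_zero P hy) (1, 0) (0, 1) (gram_ne P hy)
    (crs_left _ _) (crs_right _ _)

/-! ### change of the patch -/

theorem cd_trans {F : Type} [NormedAddCommGroup F] [NormedSpace ℝ F] [FiniteDimensional ℝ F]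
    {Z : Set F} {P P' : Patch Z} {y y' : R2} (hy : y ∈ P.O) (hy' : y' ∈ P'.O)
    (h : P.φ y = P'.φ y') {V : Type*} [NormedAddCommGroup V] [NormedSpace ℝ V] {u : F → V}
    {k : WithTop ℕ∞} (hk : k ≤ ∞) (hu : ContDiffAt ℝ k (fun z => u (P.φ z)) y) :
    ContDiffAt ℝ k (fun z => u (P'.φ z)) y' := by
  obtain ⟨h1, h2, h3⟩ := P.trans P' hy hy' h
  refine (ContDiffAt.comp y' (h3.symm ▸ hu) (h1.of_le hk)).congr_of_eventuallyEq ?_
  filter_upwards [h2] with z hz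
  simp only [Function.comp, hz.2]

theorem rep_of_patch {P P' : Patch (SS w)} {y y' : R2} (hy : y ∈ P.O) (hy' : y' ∈ P'.O)
    (h : P.φ y = P'.φ y') : ∃ s : J2 R2, jd s ≠ 0 ∧ ∀ (V : Type) [NormedAddCommGroup V]
      [NormedSpace ℝ V] (u : E3 → V), ContDiffAt ℝ 2 (fun z => u (P'.φ z)) y' →
        jet2 (fun z => u (P'.φ z)) y' = rep s (jet2 (fun z => u (P.φ z)) y) := by
  obtain ⟨h1, h2, h3⟩ := P.trans P' hy hy' h
  have key : ∀ (V : Type) [NormedAddCommGroup V] [NormedSpace ℝ V] (u : E3 → V),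
      ContDiffAt ℝ 2 (fun z => u (P'.φ z)) y' → jet2 (fun z => u (P'.φ z)) y' =
        rep (jet2 (fun z => P.ι (P'.φ z)) y') (jet2 (fun z => u (P.φ z)) y) := by
    intro V _ _ u hu
    have h4 := jet2_comp (F := fun z => u (P.φ z)) (h1.of_le two_le_inf)
      (h3.symm ▸ cd_trans hy' hy h.symm two_le_inf hu)
    rw [h3] at h4
    rw [← h4]
    exact jet2_congr (h2.mono fun z hz => by simp only [hz.2])
  refine ⟨_, fun h0 => dg_ne P' hy' ?_, key⟩
  rw [jS, key C3 cx (contDiff_cx.contDiffAt.comp y' (P'.cdAt2 hy')), dg_rep, h0]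
  simp

theorem pa_spec (G : Geo D) {p : E3} (hp : w p = 0) :
    (G.pa p).ι p ∈ (G.pa p).O ∧ (G.pa p).φ ((G.pa p).ι p) = p :=
  (G.pa p).inv p hp (G.pa_mem p hp)

theorem exists_rep (G : Geo D) (P : Patch (SS w)) {y : R2} (hy : y ∈ P.O) :
    ∃ s : J2 R2, jd s ≠ 0 ∧ ∀ (V : Type) [NormedAddCommGroup V] [NormedSpace ℝ V] (u : E3 → V),
      ContDiffAt ℝ 2 (fun z => u (P.φ z)) y →
        jet2 (fun z => u (P.φ z)) y = rep s (G.jG u (P.φ y)) :=
  rep_of_patch (pa_spec G (P.maps y hy).1).1 hy (pa_spec G (P.maps y hy).1).2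

theorem contOn_of_patch (G : Geo D) {V : Type*} [TopologicalSpace V] {f : E3 → V}
    (h : ∀ (P : Patch (SS w)), ∀ y ∈ P.O, ContinuousAt (fun z => f (P.φ z)) y) :
    ContinuousOn f (SS w) := fun p hp => by
  obtain ⟨h1, h2⟩ := pa_spec G hp
  have h3 := h _ _ h1
  have h4 := (G.pa p).map_nhds h1
  rw [h2] at h4
  rw [ContinuousAt, h2] at h3
  rw [ContinuousWithinAt, ← h4]
  exact h3

/-! ### the operators -/

variable {s : J2 R2} {a : J2 (WW D)}

theorem pJ_rep (s : J2 R2) (a : J2 (WW D)) : pJ (rep s a) = rep s (pJ a) := by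
  ext1 k; fin_cases k <;> rfl

theorem nV_rep (s : J2 R2) (a : J2 (WW D)) : nV (rep s a) = nV a := rfl

theorem xJ_rep (hJ : JetF D) (s : J2 R2) (a : J2 (WW D)) : xJ (rep s a) = rep s (xJ a) :=
  jcomp_rep s a (hJ.smG.of_le two_le_inf).contDiffAt

theorem emb_rep (s : J2 R2) (c : Fin D.b → ℂ × ℂ) (m : J2 ℂ) :
    rep s (emb c m) = emb c (rep s m) := by
  ext1 k; fin_cases k <;> simp [emb, rep]

theorem Om_rep (hJ : JetF D) (h : jd s ≠ 0) : rep s a ∈ Om D ↔ a ∈ Om D := by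
  have h' : (jd s : ℂ) ≠ 0 := Complex.ofReal_ne_zero.2 h
  simp only [Om, mem_ofPred_eq, pJ_rep, nV_rep, xJ_rep hJ, dg_div_rep _ _ h, det3_rep]
  rw [dg_rep]
  simp [h']

theorem Mh_rep (hJ : JetF D) (h : jd s ≠ 0) : Mh (rep s a) = Mh a := by
  have h' : (jd s : ℂ) ^ 3 ≠ 0 := pow_ne_zero 3 (Complex.ofReal_ne_zero.2 h)
  rw [Mh, Mh, pJ_rep, nV_rep, xJ_rep hJ, Mp_rep, det3_rep, dg_rep,
    ← mul_div_mul_left (Mp (xJ a)) _ h']
  congr 1; ring

theorem kap_rep (hJ : JetF D) (h : jd s ≠ 0) : kap (rep s a) = kap a := by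
  have h' : (jd s : ℂ) ≠ 0 := Complex.ofReal_ne_zero.2 h
  rw [kap, kap, pJ_rep, nV_rep, xJ_rep hJ, det3_rep, det3_rep, sq_rep _ _ h, eG_rep, eG_rep,
    ← mul_div_mul_left _ (eG (xJ a) * det3 (xJ a 1) (xJ a 2) (nV a)) h']
  congr 1 <;> ring

theorem lam_rep (hJ : JetF D) (h : jd s ≠ 0) : lam (rep s a) = lam a := by
  rw [lam, lam, pJ_rep, xJ_rep hJ, lag_rep _ _ h]

theorem Lh_rep (hJ : JetF D) (h : jd s ≠ 0) (ha : a ∈ Om D) (m : J2 ℂ) :
    Lh (rep s a) (rep s m) = Lh a m := by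
  have h1 : DifferentiableAt ℂ (fun m => Mh (rep s a + emb 0 m)) (repL s 0) := by
    have h2 : DifferentiableAt ℂ Mh (rep s a + embL D (0, repL s 0)) := by
      rw [map_zero, embL_apply, emb_zero, add_zero]
      exact hJ.dMh.differentiableAt (hJ.opn.mem_nhds ((Om_rep hJ h).2 ha))
    simp_rw [← embL_apply]
    exact h2.comp (repL s 0) (f := fun m => rep s a + embL D (0, m)) (by fun_prop)
  have h2 := (h1.hasFDerivAt.comp 0 (repL s).hasFDerivAt).fderiv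
  have h3 : ((fun m => Mh (rep s a + emb 0 m)) ∘ repL s) = fun m => Mh (a + emb 0 m) := by
    funext m
    simp only [Function.comp, repL_apply]
    rw [← emb_rep, ← rep_add, Mh_rep hJ h]
  rw [h3, map_zero] at h2
  rw [Lh, Lh, h2]
  rfl

/-! ### the base point -/

variable (G : Geo D) (zm : ℝ)

theorem contDiff_bW : ContDiff ℝ ∞ (G.bW zm) :=
  contDiff_const.prodMk ((contDiff_pi.2 fun b => Complex.ofRealCLM.contDiff.comp
    (((contDiff_cut zm 2).comp G.σ_sm).mul (G.ind_sm _))).prodMk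
      (contDiff_cx.prodMk ((contDiff_cx.comp G.nn_sm).prodMk contDiff_const)))

variable (P : Patch (SS w)) {y : R2}

theorem cd_bW (hy : y ∈ P.O) : ContDiffAt ℝ ∞ (fun z => G.bW zm (P.φ z)) y :=
  (contDiff_bW G zm).contDiffAt.comp y (P.cdAt hy)

theorem cd_bW2 (hy : y ∈ P.O) : ContDiffAt ℝ 2 (fun z => G.bW zm (P.φ z)) y :=
  (cd_bW G zm P hy).of_le two_le_inf

theorem isBase (hy : y ∈ P.O) : IsBase (G.bJ zm P.φ y) := fun k => by
  have h1 := jet2_clm (ContinuousLinearMap.fst ℝ _ _) (cd_bW2 G zm P hy)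
  have h2 := jet2_clm ((ContinuousLinearMap.snd ℝ _ _).comp ((ContinuousLinearMap.snd ℝ _ _).comp
    ((ContinuousLinearMap.snd ℝ _ _).comp (ContinuousLinearMap.snd ℝ _ _)))) (cd_bW2 G zm P hy)
  exact ⟨(congrFun h1 k).symm.trans (congrFun jet2_zero k),
    (congrFun h2 k).symm.trans (congrFun jet2_zero k)⟩

theorem pJ_bJ (hy : y ∈ P.O) : pJ (G.bJ zm P.φ y) = jS P.φ y := by
  have h1 := jet2_clm ((ContinuousLinearMap.fst ℝ _ _).comp ((ContinuousLinearMap.snd ℝ _ _).comp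
    (ContinuousLinearMap.snd ℝ _ _))) (cd_bW2 G zm P hy)
  exact h1.symm

theorem nV_bJ (φ : R2 → E3) (y : R2) : nV (G.bJ zm φ y) = cx (G.nn (φ y)) := rfl

theorem star_bJ (hy : y ∈ P.O) : star (G.bJ zm P.φ y) = G.bJ zm P.φ y := by
  have h1 := jet2_clm (starL' ℝ : WW D ≃L[ℝ] WW D).toContinuousLinearMap (cd_bW2 G zm P hy)
  refine h1.symm.trans (congrArg (jet2 · y) (funext fun z => ?_))
  show star (G.bW zm (P.φ z)) = _
  simp only [Geo.bW, Prod.star_def, star_zero, star_cx]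
  congr 2
  ext b
  simp

theorem det_ne (hy : y ∈ P.O) : det3 (jS P.φ y 1) (jS P.φ y 2) (cx (G.nn (P.φ y))) ≠ 0 := by
  intro h
  have h1 := det_eq G.shr P hy (G.nn (P.φ y))
  rw [h, zero_pow two_ne_zero] at h1
  exact mul_ne_zero (dg_ne P hy) (pow_ne_zero 2 (Complex.ofReal_ne_zero.2
    (G.pos _ (P.maps y hy).1).ne')) h1.symm

theorem xJ_bJ (hJ : JetF D) (hy : y ∈ P.O) : xJ (G.bJ zm P.φ y) = jS P.φ y := by
  rw [hJ.xJ_base _ (isBase G zm P hy), pJ_bJ G zm P hy]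

theorem bJ_mem (hJ : JetF D) (hy : y ∈ P.O) : G.bJ zm P.φ y ∈ Om D := by
  simp only [Om, mem_ofPred_eq, xJ_bJ G zm P hJ hy, pJ_bJ G zm P hy, nV_bJ,
    div_self (dg_ne P hy)]
  exact ⟨dg_ne P hy, det_ne G P hy, Complex.one_mem_slitPlane, det_ne G P hy⟩

theorem cd_bJ (hy : y ∈ P.O) : ContDiffAt ℝ ∞ (G.bJ zm P.φ) y :=
  contDiffAt_jet2 (cd_bW G zm P hy) (le_of_eq rfl)

theorem jet_eq (hy : y ∈ P.O) (c : Fin D.b → ℂ × ℂ) {u : R2 → ℂ} (hu : ContDiffAt ℝ 2 u y) :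
    G.bJ zm P.φ y + emb c (jet2 u y) =
      jet2 (fun z => G.bW zm (P.φ z) + (c, 0, 0, 0, u z)) y := by
  set L : ℂ →L[ℝ] WW D := (ContinuousLinearMap.inr ℝ _ _).comp ((ContinuousLinearMap.inr ℝ _ _).comp
    ((ContinuousLinearMap.inr ℝ _ _).comp (ContinuousLinearMap.inr ℝ _ _))) with hL
  have h1 : ContDiffAt ℝ 2 (fun z => L (u z)) y := L.contDiff.contDiffAt.comp y hu
  have h2 : (fun z => ((c, 0, 0, 0, u z) : WW D)) = fun z => (c, 0, 0, 0, 0) + L (u z) := by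
    funext z; simp [hL]
  have h3 : ContDiffAt ℝ 2 (fun z => ((c, 0, 0, 0, u z) : WW D)) y := by
    rw [h2]; exact contDiffAt_const.add h1
  rw [jet2_add (cd_bW2 G zm P hy) h3, h2, jet2_add contDiffAt_const h1, jet2_const, jet2_clm L hu]
  congr 1
  ext1 k
  fin_cases k <;> simp [emb, hL]

theorem aG_rep (hy : y ∈ P.O) : ∃ s : J2 R2, jd s ≠ 0 ∧
    G.bJ zm P.φ y = rep s (G.bJ zm (G.pa (P.φ y)).φ ((G.pa (P.φ y)).ι (P.φ y))) ∧
    jS P.φ y = rep s (G.jG cx (P.φ y)) ∧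
    ∀ (V : Type) [NormedAddCommGroup V] [NormedSpace ℝ V] (u : E3 → V),
      ContDiffAt ℝ 2 (fun z => u (P.φ z)) y →
        jet2 (fun z => u (P.φ z)) y = rep s (G.jG u (P.φ y)) := by
  obtain ⟨s, h1, h2⟩ := exists_rep G P hy
  exact ⟨s, h1, h2 _ _ (cd_bW2 G zm P hy),
    h2 _ _ (contDiff_cx.contDiffAt.comp y (P.cdAt2 hy)), h2⟩

theorem LG_eq (hJ : JetF D) (hy : y ∈ P.O) {u : E3 → ℂ}
    (hu : ContDiffAt ℝ 2 (fun z => u (P.φ z)) y) :
    G.LG zm u (P.φ y) = Lh (G.bJ zm P.φ y) (jet2 (fun z => u (P.φ z)) y) := by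
  obtain ⟨s, h1, h2, -, h3⟩ := aG_rep G zm P hy
  rw [h2, h3 _ u hu, Lh_rep hJ h1 (bJ_mem G zm _ hJ (pa_spec G (P.maps y hy).1).1)]
  rfl

theorem gG_eq (hy : y ∈ P.O) {u v : E3 → ℂ} (hu : ContDiffAt ℝ 2 (fun z => u (P.φ z)) y)
    (hv : ContDiffAt ℝ 2 (fun z => v (P.φ z)) y) : G.gG u v (P.φ y) =
      ginv (jS P.φ y) (jet2 (fun z => u (P.φ z)) y) (jet2 (fun z => v (P.φ z)) y) := by
  obtain ⟨s, h1, -, h2, h3⟩ := aG_rep G 0 P hy
  rw [h2, h3 _ u hu, h3 _ v hv, ginv_rep _ h1]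
  rfl

theorem continuousAt_ginv {X : Type*} [TopologicalSpace X] {j : X → J2 C3} {m m' : X → J2 ℂ}
    {x : X} (hj : ContinuousAt j x) (hm : ContinuousAt m x) (hm' : ContinuousAt m' x)
    (h : dg (j x) ≠ 0) : ContinuousAt (fun x => ginv (j x) (m x) (m' x)) x := by
  have h1 : Continuous fun q : J2 C3 × J2 ℂ × J2 ℂ => g22 q.1 * (q.2.1 1 * q.2.2 1) -
      g12 q.1 * (q.2.1 1 * q.2.2 2 + q.2.1 2 * q.2.2 1) + g11 q.1 * (q.2.1 2 * q.2.2 2) := by
    unfold g11 g12 g22; fun_prop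
  have h2 : Continuous dg := by unfold dg g11 g12 g22; fun_prop
  exact (h1.continuousAt.comp (hj.prodMk (hm.prodMk hm'))).div (h2.continuousAt.comp hj) h

/-! ### the ends -/

theorem per (e : En D) (ζ θ : ℝ) : pt e (ζ, θ + 2 * Real.pi) = pt e (ζ, θ) := by
  cases e with
  | inl i => simp only [pt, conePt, (D.link i).per, (D.link i).nper, (D.hdec i).per]
  | inr b => simp only [pt, cylPt, (D.vdec b).per, Real.cos_add_two_pi, Real.sin_add_two_pi]

theorem lift_pt {V : Type} [Zero V] (e e' : En D) (F : R2 → V) (q : R2) (hq : G.z0 < q.1)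
    (hF : ∀ θ, F (q.1, θ + 2 * Real.pi) = F (q.1, θ)) :
    G.lift e F (pt e' q) = if e = e' then F q else 0 := by
  unfold Geo.lift
  split_ifs with h1 h2 h2
  · subst h2
    obtain ⟨k, hk⟩ := G.inj e q _ hq h1.choose_spec.1 h1.choose_spec.2
    rw [hk]
    exact (show Function.Periodic (fun θ => F (q.1, θ)) (2 * Real.pi) from hF).int_mul k q.2
  · obtain ⟨q', h3, h4⟩ := h1
    have h5 := G.ind_pt e e' q hq
    rw [h4, G.ind_pt e e q' h3] at h5
    simp [h2] at h5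
  · exact absurd ⟨q, hq, h2 ▸ rfl⟩ h1
  · rfl

theorem lift_zero {V : Type} [Zero V] (e : En D) {F : R2 → V} {p : E3}
    (h : ∀ q : R2, G.z0 < q.1 → q.1 = G.σ p → F q = 0) : G.lift e F p = 0 := by
  unfold Geo.lift
  split_ifs with h1
  · refine h _ h1.choose_spec.1 ?_
    conv_rhs => rw [h1.choose_spec.2]
    exact (G.σ_pt e _ h1.choose_spec.1).symm
  · rfl

theorem lift_ck {V : Type} [NormedAddCommGroup V] [NormedSpace ℝ V] {k : WithTop ℕ∞} (e : En D)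
    {F : R2 → V} {R : ℝ} (hk : k ≤ ∞)
    (h1 : ∀ ζ θ, F (ζ, θ + 2 * Real.pi) = F (ζ, θ)) (h2 : ∀ q : R2, q.1 < G.z0 + 1 → F q = 0)
    (h3 : ∀ q : R2, G.z0 < q.1 → q.1 < R → ContDiffAt ℝ k F q) (hy : y ∈ P.O)
    (hR : G.σ (P.φ y) < R) : ContDiffAt ℝ k (fun z => G.lift e F (P.φ z)) y := by
  rcases lt_or_ge (G.σ (P.φ y)) (G.z0 + 1) with h | h
  · refine (contDiffAt_const (c := 0)).congr_of_eventuallyEq ?_
    filter_upwards [(G.σ_sm.continuous.continuousAt.comp (P.cdAt hy).continuousAt).eventually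
      (gt_mem_nhds h)] with z hz
    exact lift_zero G e fun q _ hq => h2 q (hq.trans_lt hz)
  obtain ⟨e', q, h4, h5⟩ := G.cover _ (P.maps y hy).1 (by linarith)
  have h6 : q ∈ (G.ep e' q.2).O := by
    rw [G.ep_O]
    exact ⟨h4, by linarith [Real.pi_pos], by linarith [Real.pi_pos]⟩
  obtain ⟨h7, h8, h9⟩ := (G.ep e' q.2).trans P h6 hy (by rw [G.ep_φ, h5])
  have h10 : ContDiffAt ℝ k (fun z => if e = e' then F ((G.ep e' q.2).ι (P.φ z)) else 0) y := by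
    split_ifs
    · refine ContDiffAt.comp y ?_ (h7.of_le hk)
      rw [h9]
      exact h3 q h4 (by rwa [h5, G.σ_pt e' q h4] at hR)
    · exact contDiffAt_const
  refine h10.congr_of_eventuallyEq ?_
  filter_upwards [h8] with z hz
  rw [G.ep_O, G.ep_φ] at hz
  rw [← lift_pt G e e' F _ hz.1.1 (h1 _), hz.2]

end Iv

open Iv in
theorem invStmt (hJ : JetStmt) : InvStmt := by
  intro w D G zm
  have J := hJ w D
  refine ⟨fun P P' y y' hy hy' h => ?_, fun P y hy => P.map_nhds hy, fun P y hy => ?_,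
    fun P y hy => ?_, fun P y hy c u hu => jet_eq G zm P hy c hu, fun P y hy c u hu a ha => ?_,
    fun P y hy u hu => LG_eq G zm P J hy hu, fun P y hy u v hu hv => gG_eq G P hy hu hv,
    fun P y hy X Y hX hY => ?_, fun P y hy => ?_, fun p hp => ?_, ?_, fun u v hu hv => ?_, per,
    fun V _ e e' F q hq hF => lift_pt G e e' F q hq hF,
    fun V _ e F p hp => lift_zero G e fun q h1 h2 => absurd (h2 ▸ h1) (not_lt.2 hp),
    fun k e F R hk h1 h2 h3 P y hy hR => lift_ck G P e hk h1 h2 h3 hy hR⟩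
  · obtain ⟨h1, h2, -⟩ := P.trans P' hy hy' h
    exact ⟨h1, h2.mono fun z hz => hz.2⟩
  · refine ⟨isBase G zm P hy, bJ_mem G zm P J hy, star_bJ G zm P hy, pJ_bJ G zm P hy, rfl, ?_, ?_,
      cd_bJ G zm P hy⟩
    · rw [Mh, xJ_bJ G zm P J hy, Mp_jS G.shr P hy, zero_div]
    · rw [kap, xJ_bJ G zm P J hy, pJ_bJ G zm P hy, sq, div_self (dg_ne P hy), Complex.sqrt_one,
        one_pow, mul_one, nV_bJ]
      exact div_self (mul_ne_zero (Complex.exp_ne_zero _) (det_ne G P hy))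
  · obtain ⟨h1, h2, h3⟩ := gram_pos (P.imm y hy)
    rw [jS_eq (P.cdAt2 hy)]
    exact ⟨_, _, _, cx_dot _ _, cx_dot _ _, cx_dot _ _, h1, h2, sub_pos.1 h3⟩
  · obtain ⟨s, h1, h2, -, h3⟩ := aG_rep G zm P hy
    have h4 : a = rep s (G.aG zm c u (P.φ y)) := by
      rw [ha, h2, h3 _ u hu, ← emb_rep, ← rep_add]; rfl
    rw [h4]
    exact ⟨(Om_rep J h1).symm, (Mh_rep J h1).symm, (kap_rep J h1).symm, (lam_rep J h1).symm⟩
  · obtain ⟨s, h1, -, h2, h3⟩ := aG_rep G zm P hy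
    have h4 := h3 ℂ (fun x => (G.σ x : ℂ)) ((Complex.ofRealCLM.contDiff.comp
      (G.σ_sm.of_le two_le_inf)).contDiffAt.comp y (P.cdAt2 hy))
    rw [h2, h3 _ X hX, h3 _ Y hY, h4, dg_div_rep _ _ h1, dlag_rep _ _ _ h1, eul_rep _ _ h1,
      flx_rep _ _ h1]
    exact ⟨rfl, rfl, rfl, rfl⟩
  · rw [det_eq G.shr P hy, mul_div_assoc, mul_div_cancel_left₀ _ (dg_ne P hy), Geo.om, eG,
      jS_eq (P.cdAt2 hy), cx_dot, rho, real_inner_self_eq_norm_sq]
    push_cast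
    rfl
  · exact mul_pos (Real.exp_pos _) (pow_pos (G.pos p hp) 2)
  · refine ContinuousOn.mul (by unfold rho; fun_prop) (ContinuousOn.pow
      (G.nn_sm.continuous.continuousOn.inner fun p hp => ?_) 2)
    exact (contDiffAt_nuW G.shr.smooth (G.shr.ne p hp)).continuousAt.continuousWithinAt
  · refine ⟨contOn_of_patch G fun P y hy => (hu P y hy).continuousAt,
      contOn_of_patch G fun P y hy => ?_, contOn_of_patch G fun P y hy => ?_⟩
    · refine ContinuousAt.congr ?_ ((P.ev_mem hy).mono fun z hz =>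
        (LG_eq G zm P J hz (hu P z hz)).symm)
      exact ((J.smL.continuousOn.continuousAt (J.opn.mem_nhds (bJ_mem G zm P J hy))).comp
        (cd_bJ G zm P hy).continuousAt).clm_apply (continuousAt_jet2 (hu P y hy))
    · refine ContinuousAt.congr ?_ ((P.ev_mem hy).mono fun z hz =>
        (gG_eq G P hz (hu P z hz) (hv P z hz)).symm)
      exact continuousAt_ginv (continuousAt_jet2 (contDiff_cx.contDiffAt.comp y (P.cdAt2 hy)))
        (continuousAt_jet2 (hu P y hy)) (continuousAt_jet2 (hv P y hy)) (dg_ne P hy)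

theorem invStmt' : InvStmt := invStmt jetStmt

end Vale.Agent.P218N.Core
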