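import Vale.Agent.P218N.Core.Ctx
import Vale.Agent.P218N.End.GeoJ
import Vale.Agent.P218N.H.Indep

/-! Patches, reparametrisation of jets, covariance of the operators. -/

open Set Filter Topology
open scoped RealInnerProductSpace ContDiff Matrix

noncomputable section

namespace Vale.Agent.P218N.Core

open Vale.Agent.P218.H313 Vale.Agent.P218N.H Vale.Agent.P218N.End

set_option linter.unusedSectionVars false
set_option linter.unusedVariables false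

theorem Iv.two_le_inf : (2 : WithTop ℕ∞) ≤ ∞ :=
  show ((2 : ℕ∞) : WithTop ℕ∞) ≤ ((⊤ : ℕ∞) : WithTop ℕ∞) from WithTop.coe_le_coe.2 le_top

/-! ### patches -/

namespace Patch

variable {F : Type} [NormedAddCommGroup F] [NormedSpace ℝ F] {Z : Set F} (P : Patch Z) {y : R2}

theorem cdAt (hy : y ∈ P.O) : ContDiffAt ℝ ∞ P.φ y := P.smooth.contDiffAt (P.isOpen_O.mem_nhds hy)

theorem cdAt2 (hy : y ∈ P.O) : ContDiffAt ℝ 2 P.φ y :=
  (P.cdAt hy).of_le Iv.two_le_inf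

theorem ev_mem (hy : y ∈ P.O) : ∀ᶠ z in 𝓝 y, z ∈ P.O := P.isOpen_O.mem_nhds hy

theorem tendsto_ι {p : F} (hp : p ∈ Z) (hV : p ∈ P.V) : Tendsto P.ι (𝓝[Z] p) (𝓝 (P.ι p)) := by
  have h := P.cont p ⟨hp, hV⟩
  rwa [ContinuousWithinAt, nhdsWithin_inter_of_mem' (mem_nhdsWithin_of_mem_nhds
    (P.isOpen_V.mem_nhds hV))] at h

theorem map_nhds (hy : y ∈ P.O) : map P.φ (𝓝 y) = 𝓝[Z] (P.φ y) := by
  refine le_antisymm (tendsto_nhdsWithin_iff.2 ⟨(P.cdAt hy).continuousAt,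
    (P.ev_mem hy).mono fun z hz => (P.maps z hz).1⟩) fun s hs => ?_
  have h1 := P.tendsto_ι (P.maps y hy).1 (P.maps y hy).2
  rw [P.left y hy] at h1
  filter_upwards [h1 hs, self_mem_nhdsWithin,
    mem_nhdsWithin_of_mem_nhds (P.isOpen_V.mem_nhds (P.maps y hy).2)] with p h2 h3 h4
  have h5 : P.φ (P.ι p) ∈ s := h2
  rwa [(P.inv p h3 h4).2] at h5

/-- the inverse of a patch is locally the restriction of a smooth map -/
theorem exists_ext [FiniteDimensional ℝ F] (hy : y ∈ P.O) : ∃ g : F → R2,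
    ContDiffAt ℝ ∞ g (P.φ y) ∧ ∀ᶠ p in 𝓝[Z] (P.φ y), P.ι p = g p := by
  obtain ⟨L, hL⟩ := LinearMap.exists_leftInverse_of_injective (fderiv ℝ P.φ y : R2 →ₗ[ℝ] F)
    (LinearMap.ker_eq_bot.2 (P.imm y hy))
  set L' := LinearMap.toContinuousLinearMap L with hL'
  have h1 : fderiv ℝ (fun z => L' (P.φ z)) y = ContinuousLinearMap.id ℝ R2 := by
    rw [show fderiv ℝ (fun z => L' (P.φ z)) y = _ from (L'.hasFDerivAt.comp y
      ((P.cdAt hy).differentiableAt (by simp)).hasFDerivAt).fderiv]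
    exact ContinuousLinearMap.ext fun v => LinearMap.congr_fun hL v
  obtain ⟨Φ, h2, h3, h4, h5, -⟩ := ift (G := fun z => L' (P.φ z)) P.isOpen_O
    (fun z hz => L'.contDiff.contDiffAt.comp z (P.cdAt hz)) hy (by
      rw [h1]; exact Function.bijective_id)
  refine ⟨fun p => Φ.symm (L' p), ContDiffAt.comp _ (h5 _ ?_) L'.contDiff.contDiffAt, ?_⟩
  · rw [← h4]; exact Φ.map_source h2
  · rw [← P.map_nhds hy, eventually_map]
    filter_upwards [Φ.open_source.mem_nhds h2] with z hz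
    rw [P.left z (h3 hz), ← h4, Φ.left_inv hz]

theorem comp_ι [FiniteDimensional ℝ F] {A : Type*} [NormedAddCommGroup A] [NormedSpace ℝ A]
    {k : WithTop ℕ∞} (hk : k ≤ ∞) {f : A → F} {a : A} (hf : ContDiffAt ℝ k f a)
    (hZ : ∀ᶠ x in 𝓝 a, f x ∈ Z) (hV : f a ∈ P.V) : ContDiffAt ℝ k (fun x => P.ι (f x)) a ∧
      ∀ᶠ x in 𝓝 a, P.ι (f x) ∈ P.O ∧ P.φ (P.ι (f x)) = f x := by
  obtain ⟨h1, h2⟩ := P.inv _ hZ.self_of_nhds hV
  obtain ⟨g, h3, h4⟩ := P.exists_ext h1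
  rw [h2] at h3 h4
  have h5 : Tendsto f (𝓝 a) (𝓝[Z] (f a)) := tendsto_nhdsWithin_iff.2 ⟨hf.continuousAt, hZ⟩
  refine ⟨((h3.of_le hk).comp a hf).congr_of_eventuallyEq (h5.eventually h4), ?_⟩
  filter_upwards [hZ, hf.continuousAt.eventually (P.isOpen_V.mem_nhds hV)] with x h6 h7
  exact P.inv _ h6 h7

theorem trans [FiniteDimensional ℝ F] (P' : Patch Z) {y' : R2} (hy : y ∈ P.O) (hy' : y' ∈ P'.O)
    (h : P.φ y = P'.φ y') : ContDiffAt ℝ ∞ (fun z => P.ι (P'.φ z)) y' ∧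
      (∀ᶠ z in 𝓝 y', P.ι (P'.φ z) ∈ P.O ∧ P.φ (P.ι (P'.φ z)) = P'.φ z) ∧ P.ι (P'.φ y') = y := by
  obtain ⟨h1, h2⟩ := P.comp_ι le_rfl (P'.cdAt hy')
    ((P'.ev_mem hy').mono fun z hz => (P'.maps z hz).1) (h ▸ (P.maps y hy).2)
  exact ⟨h1, h2, by rw [← h, P.left y hy]⟩

end Patch

/-! ### jets -/

namespace Iv

section jets
variable {V : Type} [NormedAddCommGroup V] [NormedSpace ℝ V] {f : R2 → V} {y : R2}

theorem jet2_const (v : V) (y : R2) : jet2 (fun _ : R2 => v) y = ![v, 0, 0, 0, 0, 0] := by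
  ext k; fin_cases k <;> simp [jet2]

theorem contDiffAt_jet2 {n m : WithTop ℕ∞} (hf : ContDiffAt ℝ m f y) (h : n + 2 ≤ m) :
    ContDiffAt ℝ n (jet2 f) y := by
  have h1 : ContDiffAt ℝ (n + 1) (fderiv ℝ f) y :=
    hf.fderiv_right (by rw [add_assoc, one_add_one_eq_two]; exact h)
  have h2 : ContDiffAt ℝ n (fderiv ℝ (fderiv ℝ f)) y := h1.fderiv_right le_rfl
  have h3 : ContDiffAt ℝ n (fderiv ℝ f) y := h1.of_le le_self_add
  refine contDiffAt_pi.2 fun k => ?_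
  fin_cases k
  · exact hf.of_le (le_self_add.trans h)
  · exact h3.clm_apply contDiffAt_const
  · exact h3.clm_apply contDiffAt_const
  · exact (h2.clm_apply contDiffAt_const).clm_apply contDiffAt_const
  · exact (h2.clm_apply contDiffAt_const).clm_apply contDiffAt_const
  · exact (h2.clm_apply contDiffAt_const).clm_apply contDiffAt_const

theorem continuousAt_jet2 (hf : ContDiffAt ℝ 2 f y) : ContinuousAt (jet2 f) y :=
  (contDiffAt_jet2 (n := 0) hf (by simp)).continuousAt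

end jets

/-- the jet of `F ∘ ψ` from the jets `s` of `ψ` and `j` of `F` -/
def rep {V : Type} [AddCommGroup V] [Module ℝ V] (s : J2 R2) (j : J2 V) : J2 V :=
  ![j 0, (s 1).1 • j 1 + (s 1).2 • j 2, (s 2).1 • j 1 + (s 2).2 • j 2,
    ((s 1).1 * (s 1).1) • j 3 + (2 * (s 1).1 * (s 1).2) • j 4 + ((s 1).2 * (s 1).2) • j 5 +
      ((s 3).1 • j 1 + (s 3).2 • j 2),
    ((s 1).1 * (s 2).1) • j 3 + ((s 1).1 * (s 2).2 + (s 1).2 * (s 2).1) • j 4 +
      ((s 1).2 * (s 2).2) • j 5 + ((s 4).1 • j 1 + (s 4).2 • j 2),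
    ((s 2).1 * (s 2).1) • j 3 + (2 * (s 2).1 * (s 2).2) • j 4 + ((s 2).2 * (s 2).2) • j 5 +
      ((s 5).1 • j 1 + (s 5).2 • j 2)]

/-- the Jacobian -/
def jd (s : J2 R2) : ℝ := (s 1).1 * (s 2).2 - (s 1).2 * (s 2).1

theorem clm_R2 {V : Type*} [NormedAddCommGroup V] [NormedSpace ℝ V] (L : R2 →L[ℝ] V) (v : R2) :
    L v = v.1 • L (1, 0) + v.2 • L (0, 1) := by
  rw [← map_smul, ← map_smul, ← map_add]; congr 1; ext <;> simp

theorem jet2_comp {V : Type} [NormedAddCommGroup V] [NormedSpace ℝ V] {F : R2 → V} {ψ : R2 → R2}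
    {y : R2} (hψ : ContDiffAt ℝ 2 ψ y) (hF : ContDiffAt ℝ 2 F (ψ y)) :
    jet2 (fun z => F (ψ z)) y = rep (jet2 ψ y) (jet2 F (ψ y)) := by
  have h := (J2.self ((1, 0) : R2) (0, 1) hψ).comp hF
  have hs := (J2.self ((1, 0) : R2) (0, 1) hF).e21
  have h2 : ∀ u v : R2, fderiv ℝ (fderiv ℝ F) (ψ y) u v =
      (u.1 * v.1) • fderiv ℝ (fderiv ℝ F) (ψ y) (1, 0) (1, 0) +
      (u.1 * v.2 + u.2 * v.1) • fderiv ℝ (fderiv ℝ F) (ψ y) (1, 0) (0, 1) +
      (u.2 * v.2) • fderiv ℝ (fderiv ℝ F) (ψ y) (0, 1) (0, 1) := by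
    intro u v
    rw [clm_R2 _ u, add_apply, smul_apply, smul_apply,
      clm_R2 _ v, clm_R2 (fderiv ℝ (fderiv ℝ F) (ψ y) (0, 1)) v, hs]
    module
  ext k
  fin_cases k
  · rfl
  · exact h.e1.trans (clm_R2 _ _)
  · exact h.e2.trans (clm_R2 _ _)
  · refine h.e11.trans ?_
    rw [h2, clm_R2 (fderiv ℝ F (ψ y))]
    simp only [rep, jet2]
    simp
    module
  · refine h.e12.trans ?_
    rw [h2, clm_R2 (fderiv ℝ F (ψ y))]
    simp only [rep, jet2]
    simp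
  · refine h.e22.trans ?_
    rw [h2, clm_R2 (fderiv ℝ F (ψ y))]
    simp only [rep, jet2]
    simp
    module

section rep
variable {V V' : Type} [AddCommGroup V] [Module ℝ V] [AddCommGroup V'] [Module ℝ V'] (s : J2 R2)

theorem rep_zero' (j : J2 V) : rep s j 0 = j 0 := rfl
theorem rep_one (j : J2 V) : rep s j 1 = (s 1).1 • j 1 + (s 1).2 • j 2 := rfl
theorem rep_two (j : J2 V) : rep s j 2 = (s 2).1 • j 1 + (s 2).2 • j 2 := rfl
theorem rep_three (j : J2 V) : rep s j 3 = ((s 1).1 * (s 1).1) • j 3 +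
    (2 * (s 1).1 * (s 1).2) • j 4 + ((s 1).2 * (s 1).2) • j 5 +
      ((s 3).1 • j 1 + (s 3).2 • j 2) := rfl
theorem rep_four (j : J2 V) : rep s j 4 = ((s 1).1 * (s 2).1) • j 3 +
    ((s 1).1 * (s 2).2 + (s 1).2 * (s 2).1) • j 4 + ((s 1).2 * (s 2).2) • j 5 +
      ((s 4).1 • j 1 + (s 4).2 • j 2) := rfl
theorem rep_five (j : J2 V) : rep s j 5 = ((s 2).1 * (s 2).1) • j 3 +
    (2 * (s 2).1 * (s 2).2) • j 4 + ((s 2).2 * (s 2).2) • j 5 +
      ((s 5).1 • j 1 + (s 5).2 • j 2) := rfl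

theorem rep_map (L : V →ₗ[ℝ] V') (j : J2 V) : rep s (fun k => L (j k)) = fun k => L (rep s j k) := by
  ext k; fin_cases k <;> simp [rep]

theorem rep_add (j j' : J2 V) : rep s (j + j') = rep s j + rep s j' := by
  ext k; fin_cases k <;> simp [rep] <;> module

end rep

/-- reparametrisation of scalar jets as a linear map -/
def repL (s : J2 R2) : J2 ℂ →L[ℂ] J2 ℂ := LinearMap.toContinuousLinearMap
  ⟨⟨rep s, rep_add s⟩, fun c j => by
    ext k; fin_cases k <;> simp [rep] <;> ring⟩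

theorem repL_apply (s : J2 R2) (m : J2 ℂ) : repL s m = rep s m := rfl

theorem jcomp_rep {A B : Type} [NormedAddCommGroup A] [NormedSpace ℂ A] [NormedSpace ℝ A]
    [IsScalarTower ℝ ℂ A] [NormedAddCommGroup B] [NormedSpace ℂ B] [NormedSpace ℝ B]
    [IsScalarTower ℝ ℂ B] {G : A → B} (s : J2 R2) (a : J2 A) (hG : ContDiffAt ℂ 2 G (a 0)) :
    jcomp G (rep s a) = rep s (jcomp G a) := by
  have hs : fderiv ℂ (fderiv ℂ G) (a 0) (a 2) (a 1) = fderiv ℂ (fderiv ℂ G) (a 0) (a 1) (a 2) :=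
    (hG.isSymmSndFDerivAt (by simp)).eq _ _
  ext k
  fin_cases k <;> simp [jcomp, rep, ContinuousLinearMap.map_smul_of_tower, hs] <;> module

/-! ### covariance -/

section cov
variable (s : J2 R2) (b j k : J2 C3)

theorem det3_add (a b c d : C3) : det3 a b (c + d) = det3 a b c + det3 a b d :=
  dotProduct_add _ _ _
theorem det3_sub (a b c d : C3) : det3 a b (c - d) = det3 a b c - det3 a b d :=
  dotProduct_sub _ _ _
theorem det3_smul (a b c : C3) (z : ℂ) : det3 a b (z • c) = z * det3 a b c :=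
  dotProduct_smul _ _ _
theorem det3_rsmul (a b c : C3) (r : ℝ) : det3 a b (r • c) = r * det3 a b c :=
  dotProduct_smul _ _ _
theorem det3_left (a b : C3) : det3 a b a = 0 := by
  rw [det3, dotProduct_comm]; exact dot_self_cross _ _
theorem det3_right (a b : C3) : det3 a b b = 0 := by
  rw [det3, dotProduct_comm]; exact dot_cross_self _ _

theorem det3_rep (Y : C3) : det3 (rep s j 1) (rep s j 2) Y = jd s * det3 (j 1) (j 2) Y := by
  simp [det3, rep_one, rep_two, jd, cross_apply, dotProduct, Fin.sum_univ_three]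
  ring

theorem dot_lin (a b c d : ℝ) (u v u' v' : C3) : (a • u + b • v) ⬝ᵥ (c • u' + d • v') =
    a * c * (u ⬝ᵥ u') + a * d * (u ⬝ᵥ v') + b * c * (v ⬝ᵥ u') + b * d * (v ⬝ᵥ v') := by
  simp only [add_dotProduct, dotProduct_add, smul_dotProduct, dotProduct_smul, Complex.real_smul]
  ring

theorem g11_rep : g11 (rep s j) = (s 1).1 * (s 1).1 * g11 j + 2 * (s 1).1 * (s 1).2 * g12 j +
    (s 1).2 * (s 1).2 * g22 j := by
  simp only [g11, g12, g22, rep_one, dot_lin, dotProduct_comm (j 2) (j 1)]; ring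

theorem g12_rep : g12 (rep s j) = (s 1).1 * (s 2).1 * g11 j +
    ((s 1).1 * (s 2).2 + (s 1).2 * (s 2).1) * g12 j + (s 1).2 * (s 2).2 * g22 j := by
  simp only [g11, g12, g22, rep_one, rep_two, dot_lin, dotProduct_comm (j 2) (j 1)]; ring

theorem g22_rep : g22 (rep s j) = (s 2).1 * (s 2).1 * g11 j + 2 * (s 2).1 * (s 2).2 * g12 j +
    (s 2).2 * (s 2).2 * g22 j := by
  simp only [g11, g12, g22, rep_two, dot_lin, dotProduct_comm (j 2) (j 1)]; ring

theorem dg_rep : dg (rep s j) = (jd s : ℂ) ^ 2 * dg j := by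
  simp only [dg, g11_rep, g12_rep, g22_rep, jd]; push_cast; ring

theorem Mp_eq : Mp j = g22 j * det3 (j 1) (j 2) (j 3) - 2 * g12 j * det3 (j 1) (j 2) (j 4) +
    g11 j * det3 (j 1) (j 2) (j 5) + dg j / 2 * det3 (j 1) (j 2) (j 0) := by
  simp only [Mp, det3_add, det3_sub, det3_smul]

theorem Mp_rep : Mp (rep s j) = (jd s : ℂ) ^ 3 * Mp j := by
  rw [Mp_eq, Mp_eq, dg_rep]
  simp only [det3_rep]
  simp only [g11_rep, g12_rep, g22_rep, rep_zero', rep_three, rep_four, rep_five, det3_add,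
    det3_rsmul, det3_left, det3_right, jd]
  push_cast; ring

theorem eG_rep : eG (rep s j) = eG j := rfl

variable {s}

theorem dg_div_rep (h : jd s ≠ 0) : dg (rep s j) / dg (rep s b) = dg j / dg b := by
  rw [dg_rep, dg_rep, mul_div_mul_left _ _ (pow_ne_zero 2 (Complex.ofReal_ne_zero.2 h))]

theorem sq_rep (h : jd s ≠ 0) : sq (rep s b) (rep s j) = sq b j := by
  rw [sq, sq, dg_div_rep b j h]

theorem lag_rep (h : jd s ≠ 0) : lag (rep s b) (rep s j) = lag b j := by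
  rw [lag, lag, sq_rep b j h, eG_rep]

theorem flx_rep (h : jd s ≠ 0) (f : J2 ℂ) :
    flx (rep s b) (rep s j) (rep s f 1) (rep s f 2) = flx b j (f 1) (f 2) := by
  have h' : (jd s : ℂ) ≠ 0 := Complex.ofReal_ne_zero.2 h
  have h1 : (rep s f 1 * g22 (rep s j) - rep s f 2 * g12 (rep s j)) • rep s j 1 +
      (rep s f 2 * g11 (rep s j) - rep s f 1 * g12 (rep s j)) • rep s j 2 = (jd s : ℂ) ^ 2 •
      ((f 1 * g22 j - f 2 * g12 j) • j 1 + (f 2 * g11 j - f 1 * g12 j) • j 2) := by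
    ext i
    simp only [g11_rep, g12_rep, g22_rep, rep_one, rep_two, jd, Pi.add_apply, Pi.smul_apply,
      smul_eq_mul, Complex.real_smul]
    push_cast; ring
  rw [flx, flx, h1, sq_rep b j h, eG_rep, dg_rep, smul_smul]
  congr 1
  rw [← mul_assoc, mul_comm (sq b j), mul_assoc, mul_comm ((jd s : ℂ) ^ 2), ← div_div,
    div_mul_cancel₀ _ (pow_ne_zero 2 h')]

theorem flx_dot : flx b j 1 0 ⬝ᵥ k 1 + flx b j 0 1 ⬝ᵥ k 2 = eG j / (sq b j * dg b) *
    (g22 j * (j 1 ⬝ᵥ k 1) - g12 j * (j 2 ⬝ᵥ k 1 + j 1 ⬝ᵥ k 2) + g11 j * (j 2 ⬝ᵥ k 2)) := by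
  simp only [flx, smul_dotProduct, add_dotProduct, smul_eq_mul]; ring

theorem dlag_rep (h : jd s ≠ 0) : dlag (rep s b) (rep s j) (rep s k) = dlag b j k := by
  have h' : (jd s : ℂ) ≠ 0 := Complex.ofReal_ne_zero.2 h
  have h1 : g22 (rep s j) * (rep s j 1 ⬝ᵥ rep s k 1) - g12 (rep s j) *
      (rep s j 2 ⬝ᵥ rep s k 1 + rep s j 1 ⬝ᵥ rep s k 2) + g11 (rep s j) * (rep s j 2 ⬝ᵥ rep s k 2)
      = (jd s : ℂ) ^ 2 * (g22 j * (j 1 ⬝ᵥ k 1) - g12 j * (j 2 ⬝ᵥ k 1 + j 1 ⬝ᵥ k 2) +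
        g11 j * (j 2 ⬝ᵥ k 2)) := by
    simp only [g11_rep, g12_rep, g22_rep, rep_one, rep_two, dot_lin, jd]
    push_cast; ring
  rw [dlag, dlag, add_assoc, add_assoc, flx_dot, flx_dot, h1, lag_rep b j h, sq_rep b j h, eG_rep,
    dg_rep, rep_zero', rep_zero']
  congr 1
  rw [← mul_assoc]
  congr 1
  rw [← mul_assoc, mul_comm (sq b j), mul_assoc, mul_comm ((jd s : ℂ) ^ 2), ← div_div,
    div_mul_cancel₀ _ (pow_ne_zero 2 h')]

theorem eul_rep (h : jd s ≠ 0) (Y : C3) : eul (rep s b) (rep s j) Y = eul b j Y := by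
  have h' : (jd s : ℂ) ^ 4 ≠ 0 := pow_ne_zero 4 (Complex.ofReal_ne_zero.2 h)
  rw [eul, eul, sq_rep b j h, eG_rep, dg_rep, Mp_rep, det3_rep,
    ← mul_div_mul_left (eG j * Mp j * det3 (j 1) (j 2) Y) _ h']
  congr 1 <;> ring

theorem ginv_rep (h : jd s ≠ 0) (m m' : J2 ℂ) :
    ginv (rep s j) (rep s m) (rep s m') = ginv j m m' := by
  have h' : (jd s : ℂ) ^ 2 ≠ 0 := pow_ne_zero 2 (Complex.ofReal_ne_zero.2 h)
  rw [ginv, ginv, dg_rep, ← mul_div_mul_left _ (dg j) h']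
  congr 1
  simp only [g11_rep, g12_rep, g22_rep, rep_one, rep_two, jd, Complex.real_smul]
  push_cast; ring

end cov

end Iv

end Vale.Agent.P218N.Core
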