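import Vale.Agent.P218N.Core.Tan
import Mathlib.Topology.Algebra.Module.FiniteDimensionBilinear

/-! The linearised operator is the Jacobi operator. -/

open Set Filter Topology
open scoped RealInnerProductSpace ContDiff Matrix

noncomputable section

namespace Vale.Agent.P218N.Core

open Vale.Agent.P218.H313 Vale.Agent.P218N.H Vale.Agent.P218N.End

namespace Tn

theorem det3_fst (s t : ℂ) (a a' b c : C3) :
    det3 (s • a + t • a') b c = s * det3 a b c + t * det3 a' b c := by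
  simp only [JA.det3_eq, Pi.add_apply, Pi.smul_apply, smul_eq_mul]; ring

theorem det3_snd (s t : ℂ) (a b b' c : C3) :
    det3 a (s • b + t • b') c = s * det3 a b c + t * det3 a b' c := by
  simp only [JA.det3_eq, Pi.add_apply, Pi.smul_apply, smul_eq_mul]; ring

theorem dot_frame {j : J2 C3} {Y : C3} (h : det3 (j 1) (j 2) Y = 0) (Z : C3) :
    dg j * (Y ⬝ᵥ Z) = (g22 j * (j 1 ⬝ᵥ Y) - g12 j * (j 2 ⬝ᵥ Y)) * (j 1 ⬝ᵥ Z) +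
      (g11 j * (j 2 ⬝ᵥ Y) - g12 j * (j 1 ⬝ᵥ Y)) * (j 2 ⬝ᵥ Z) := by
  have := congrArg (· ⬝ᵥ Z) (frame j Y)
  simpa only [h, zero_smul, add_zero, smul_dotProduct, add_dotProduct, smul_eq_mul] using this

/-- normal variations -/
theorem jac_alg {j N : J2 C3} {f : J2 ℂ} {Z : C3} {s11 s12 s22 : ℂ} (hg : dg j ≠ 0)
    (hM : Mp j = 0) (n0 : N 0 ⬝ᵥ N 0 = 1) (n1 : N 0 ⬝ᵥ N 1 = 0) (n2 : N 0 ⬝ᵥ N 2 = 0)
    (n11 : N 0 ⬝ᵥ N 3 = -(N 1 ⬝ᵥ N 1)) (n12 : N 0 ⬝ᵥ N 4 = -(N 1 ⬝ᵥ N 2))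
    (n22 : N 0 ⬝ᵥ N 5 = -(N 2 ⬝ᵥ N 2)) (x1 : N 0 ⬝ᵥ j 1 = 0) (x2 : N 0 ⬝ᵥ j 2 = 0)
    (x11 : j 1 ⬝ᵥ N 1 = -(N 0 ⬝ᵥ j 3)) (x12 : j 2 ⬝ᵥ N 1 = -(N 0 ⬝ᵥ j 4))
    (x21 : j 1 ⬝ᵥ N 2 = -(N 0 ⬝ᵥ j 4)) (x22 : j 2 ⬝ᵥ N 2 = -(N 0 ⬝ᵥ j 5))
    (f1 : f 1 = j 1 ⬝ᵥ Z) (f2 : f 2 = j 2 ⬝ᵥ Z) (f11 : f 3 = s11 + j 3 ⬝ᵥ Z)
    (f12 : f 4 = s12 + j 4 ⬝ᵥ Z) (f22 : f 5 = s22 + j 5 ⬝ᵥ Z) :
    dMp j (jsm f N) = det3 (j 1) (j 2) (N 0) * (g22 j * s11 - 2 * g12 j * s12 + g11 j * s22 -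
      dg j / 2 * (j 0 ⬝ᵥ Z) + f 0 * (g22 j * (N 1 ⬝ᵥ N 1) - 2 * g12 j * (N 1 ⬝ᵥ N 2) +
        g11 j * (N 2 ⬝ᵥ N 2) + dg j / 2)) := by
  have hd := det3_normal n0 x1 x2
  have hM' : det3 (j 1) (j 2) (Tv j) = 0 := hM
  have hδ : det3 (j 1) (j 2) (N 0) ≠ 0 := fun h => hg (by
    simpa only [n0, mul_one, dotProduct_comm (j _), x1, x2, mul_zero, add_zero] using
      dot_frame h (N 0))
  have hT : N 0 ⬝ᵥ Tv j = 0 := (mul_eq_zero.1 ((hd _).symm.trans hM')).resolve_left hδ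
  have a1 : det3 (N 1) (j 2) (Tv j) = 0 := by rw [det3_normal n0 n1 x2, hT, mul_zero]
  have a2 : det3 (j 1) (N 2) (Tv j) = 0 := by rw [det3_normal n0 x1 n2, hT, mul_zero]
  have a3 : f 1 * det3 (N 0) (j 2) (Tv j) + f 2 * det3 (j 1) (N 0) (Tv j) =
      -(det3 (j 1) (j 2) (N 0) * (Tv j ⬝ᵥ Z)) := by
    refine mul_left_cancel₀ hg ?_
    have h1 := frame j (Tv j)
    rw [hM', zero_smul, add_zero] at h1
    have h2 := congrArg (det3 (N 0) (j 2)) h1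
    have h3 := congrArg (det3 (j 1) (N 0)) h1
    simp only [Iv.det3_add, Iv.det3_smul, Iv.det3_left, Iv.det3_right] at h2 h3
    have e1 : det3 (N 0) (j 2) (j 1) = -det3 (j 1) (j 2) (N 0) := by simp only [JA.det3_eq]; ring
    have e2 : det3 (j 1) (N 0) (j 2) = -det3 (j 1) (j 2) (N 0) := by simp only [JA.det3_eq]; ring
    rw [e1] at h2
    rw [e2] at h3
    rw [f1, f2]
    linear_combination (j 1 ⬝ᵥ Z) * h2 + (j 2 ⬝ᵥ Z) * h3 + det3 (j 1) (j 2) (N 0) * dot_frame hM' Z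
  have b11 := dot_frame ((hd (N 1)).trans (by rw [n1, mul_zero])) (N 1)
  have b12 := dot_frame ((hd (N 1)).trans (by rw [n1, mul_zero])) (N 2)
  have b22 := dot_frame ((hd (N 2)).trans (by rw [n2, mul_zero])) (N 2)
  simp only [Tv, dotProduct_add, dotProduct_sub, dotProduct_smul, smul_eq_mul] at hT
  simp only [x11, x12, x21, x22] at b11 b12 b22
  have ch : -(4 * (N 0 ⬝ᵥ j 3 * N 0 ⬝ᵥ j 5 - (N 0 ⬝ᵥ j 4) ^ 2)) - (g22 j * N 0 ⬝ᵥ j 3 -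
      2 * g12 j * N 0 ⬝ᵥ j 4 + g11 j * N 0 ⬝ᵥ j 5) * N 0 ⬝ᵥ j 0 = 2 * (g22 j * (N 1 ⬝ᵥ N 1) -
        2 * g12 j * (N 1 ⬝ᵥ N 2) + g11 j * (N 2 ⬝ᵥ N 2)) := by
    refine mul_left_cancel₀ hg ?_
    have e : dg j = g11 j * g22 j - g12 j ^ 2 := rfl
    linear_combination -2 * g22 j * b11 + 4 * g12 j * b12 - 2 * g11 j * b22 - 2 * (g22 j * N 0 ⬝ᵥ j 3 -
      2 * g12 j * N 0 ⬝ᵥ j 4 + g11 j * N 0 ⬝ᵥ j 5) * hT -
      4 * (N 0 ⬝ᵥ j 3 * N 0 ⬝ᵥ j 5 - (N 0 ⬝ᵥ j 4) ^ 2) * e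
  have k0 : jsm f N 0 = f 0 • N 0 := rfl
  have k1 : jsm f N 1 = f 1 • N 0 + f 0 • N 1 := rfl
  have k2 : jsm f N 2 = f 2 • N 0 + f 0 • N 2 := rfl
  have k3 : jsm f N 3 = f 3 • N 0 + (2 * f 1) • N 1 + f 0 • N 3 := rfl
  have k4 : jsm f N 4 = f 4 • N 0 + f 1 • N 2 + f 2 • N 1 + f 0 • N 4 := rfl
  have k5 : jsm f N 5 = f 5 • N 0 + (2 * f 2) • N 2 + f 0 • N 5 := rfl
  rw [dMp, hd (dTv _ _), k1, k2, det3_fst, det3_snd, a1, a2]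
  simp only [dTv, k0, k1, k2, k3, k4, k5, dotProduct_add, dotProduct_sub, dotProduct_smul,
    smul_eq_mul, n0, n1, n2, n11, n12, n22, x11, x12, x21, x22, dotProduct_comm (j _) (N 0), x1, x2,
    f11, f12, f22]
  simp only [Tv, add_dotProduct, sub_dotProduct, smul_dotProduct, smul_eq_mul] at a3
  simp only [Tv]
  linear_combination a3 + det3 (j 1) (j 2) (N 0) * f 0 * ch

/-- the dot product as a continuous bilinear map -/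
def dotL : C3 →L[ℝ] C3 →L[ℝ] ℂ := (dotProductBilin ℝ ℝ).toContinuousBilinearMap

theorem jet2_dot {f g : R2 → C3} {y : R2} {c : ℂ} (hf : ContDiffAt ℝ 2 f y)
    (hg : ContDiffAt ℝ 2 g y) (h : ∀ᶠ z in 𝓝 y, f z ⬝ᵥ g z = c) {a b : J2 C3} (ha : a = jet2 f y)
    (hb : b = jet2 g y) : a 1 ⬝ᵥ b 0 + a 0 ⬝ᵥ b 1 = 0 ∧ a 2 ⬝ᵥ b 0 + a 0 ⬝ᵥ b 2 = 0 ∧
      a 3 ⬝ᵥ b 0 + a 1 ⬝ᵥ b 1 + a 1 ⬝ᵥ b 1 + a 0 ⬝ᵥ b 3 = 0 ∧
      a 4 ⬝ᵥ b 0 + a 1 ⬝ᵥ b 2 + a 2 ⬝ᵥ b 1 + a 0 ⬝ᵥ b 4 = 0 ∧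
      a 5 ⬝ᵥ b 0 + a 2 ⬝ᵥ b 2 + a 2 ⬝ᵥ b 2 + a 0 ⬝ᵥ b 5 = 0 := by
  have e := (JA.jet2_bil dotL hf hg).symm.trans ((jet2_congr h).trans (JA.jet2_const c))
  rw [← ha, ← hb] at e
  exact ⟨congrFun e 1, congrFun e 2, congrFun e 3, congrFun e 4, congrFun e 5⟩

variable {w : E3 → ℝ} {D : EndData w} (G : Geo D) (zm : ℝ) (P : Patch (SS w)) {y : R2}

theorem cd_nu (hw : Shr w) (hy : y ∈ P.O) : ContDiffAt ℝ ∞ (fun z => nuW w (P.φ z)) y :=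
  (contDiffAt_nuW hw.smooth (hw.ne _ (P.maps y hy).1)).comp y (P.cdAt hy)

/-- normal variations of the surface -/
theorem dMp_normal (hw : Shr w) (hy : y ∈ P.O) {W ζ : E3 → ℝ} {c K : ℝ}
    (hW : Vale.Agent.P218N.G.Tube0 W c K) (h0 : ∀ p, W p = 0 ↔ w p = 0)
    (h1 : ∀ p, w p = 0 → grad W p = nuW w p) (hζ : ContDiff ℝ 2 ζ) :
    dMp (jS P.φ y) (jet2 (fun z => (ζ (P.φ z) : ℂ) • cx (nuW w (P.φ z))) y) =
      det3 (jS P.φ y 1) (jS P.φ y 2) (cx (nuW w (P.φ y))) * dg (jS P.φ y) *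
        (jac W ζ (P.φ y) : ℝ) := by
  have hp := (P.maps y hy).1
  have hφ := P.cdAt2 hy
  have hν := (cd_nu P hw hy).of_le JA.two_le
  have hN : ContDiffAt ℝ 2 (fun z => cx (nuW w (P.φ z))) y := Iv.contDiff_cx.contDiffAt.comp y hν
  have hf : ContDiffAt ℝ 2 (fun z => ζ (P.φ z)) y := hζ.contDiffAt.comp y hφ
  have hfc : ContDiffAt ℝ 2 (fun z => (ζ (P.φ z) : ℂ)) y :=
    Complex.ofRealCLM.contDiff.contDiffAt.comp y hf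
  have hX := cd_cx P hy
  have h2 := hX.of_le JA.two_le
  obtain ⟨N, eN⟩ : ∃ N, N = jet2 (fun z => cx (nuW w (P.φ z))) y := ⟨_, rfl⟩
  have N0 : N 0 = cx (nuW w (P.φ y)) := by rw [eN]; rfl
  obtain ⟨n1, n2, n3, n4, n5⟩ :=
    jet2_dot hN hN ((P.ev_mem hy).mono fun z hz => nu_nu hw (P.maps z hz).1) eN eN
  obtain ⟨x1, x2, -⟩ := jet2_dot hN ((cd_pd hX (1, 0)).of_le JA.two_le)
    ((P.ev_mem hy).mono fun z hz => (nu_X hw P hz).1) eN rfl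
  obtain ⟨x3, x4, -⟩ := jet2_dot hN ((cd_pd hX (0, 1)).of_le JA.two_le)
    ((P.ev_mem hy).mono fun z hz => (nu_X hw P hz).2) eN rfl
  rw [jet2_pd1 h2] at x1 x3
  rw [jet2_pd2 h2] at x2 x4
  rw [sym2 h2] at x2
  change N 1 ⬝ᵥ jS P.φ y 1 + N 0 ⬝ᵥ jS P.φ y 3 = 0 at x1
  change N 2 ⬝ᵥ jS P.φ y 1 + N 0 ⬝ᵥ jS P.φ y 4 = 0 at x2
  change N 1 ⬝ᵥ jS P.φ y 2 + N 0 ⬝ᵥ jS P.φ y 4 = 0 at x3
  change N 2 ⬝ᵥ jS P.φ y 2 + N 0 ⬝ᵥ jS P.φ y 5 = 0 at x4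
  simp only [dotProduct_comm (N _) (N 0), dotProduct_comm (N 2) (N 1)] at n1 n2 n3 n4 n5
  rw [dotProduct_comm] at x1 x2 x3 x4
  have J := (J2.self ((1, 0) : R2) (0, 1) hφ).comp (hζ.contDiffAt (x := P.φ y))
  have ef : jet2 (fun z => (ζ (P.φ z) : ℂ)) y = fun k => ((jet2 (fun z => ζ (P.φ z)) y k : ℝ) : ℂ) :=
    jet2_clm Complex.ofRealCLM hf
  have eX := Iv.jS_eq hφ
  have eZ : ∀ k, jS P.φ y k ⬝ᵥ cx (grad ζ (P.φ y)) = (fderiv ℝ ζ (P.φ y) (jet2 P.φ y k) : ℝ) :=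
    fun k => by rw [eX, Iv.cx_dot, inner_grad']
  have eB : ∀ v, fderiv ℝ (fun z => nuW w (P.φ z)) y v =
      fderiv ℝ (grad W) (P.φ y) (fderiv ℝ P.φ y v) := fun v => by
    rw [Filter.EventuallyEq.fderiv_eq (f := grad W ∘ P.φ)
      ((P.ev_mem hy).mono fun z hz => (h1 _ (P.maps z hz).1).symm), fderiv_comp y
        (hW.grad_cd.differentiable (by simp) _) (hφ.differentiableAt (by simp))]
    rfl
  rw [jet2_smul hfc hN, ← eN, jac_alg (Z := cx (grad ζ (P.φ y)))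
      (s11 := (fderiv ℝ (fderiv ℝ ζ) (P.φ y) (jet2 P.φ y 1) (jet2 P.φ y 1) : ℝ))
      (s12 := (fderiv ℝ (fderiv ℝ ζ) (P.φ y) (jet2 P.φ y 1) (jet2 P.φ y 2) : ℝ))
      (s22 := (fderiv ℝ (fderiv ℝ ζ) (P.φ y) (jet2 P.φ y 2) (jet2 P.φ y 2) : ℝ))
      (Iv.dg_ne P hy) (Iv.Mp_jS hw P hy) (N0 ▸ nu_nu hw hp) (by linear_combination n1 / 2)
      (by linear_combination n2 / 2) (by linear_combination n3 / 2) (by linear_combination n4 / 2)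
      (by linear_combination n5 / 2) (N0 ▸ (nu_X hw P hy).1) (N0 ▸ (nu_X hw P hy).2)
      (by linear_combination x1) (by linear_combination x3) (by linear_combination x2)
      (by linear_combination x4) (by rw [ef, eZ]; exact congrArg _ J.e1)
      (by rw [ef, eZ]; exact congrArg _ J.e2)
      (by rw [ef, eZ, ← Complex.ofReal_add]; exact congrArg _ J.e11)
      (by rw [ef, eZ, ← Complex.ofReal_add]; exact congrArg _ J.e12)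
      (by rw [ef, eZ, ← Complex.ofReal_add]; exact congrArg _ J.e22), N0,
    mul_assoc _ (dg _) (Complex.ofReal _)]
  congr 1
  have t1 := inner_nuW_d1 hw.smooth hφ (Iv.ev_zero P hy) (1, 0)
  have t2 := inner_nuW_d1 hw.smooth hφ (Iv.ev_zero P hy) (0, 1)
  have hn := norm_nuW (hw.ne _ hp)
  have r1 := gram_mul_tr (Iv.gram_ne P hy) hn t1 t2 (fderiv ℝ (grad ζ) (P.φ y))
  have r2 := gram_mul_tr (Iv.gram_ne P hy) hn t1 t2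
    ((fderiv ℝ (grad W) (P.φ y)).comp (fderiv ℝ (grad W) (P.φ y)))
  have r3 := hW.hess_grad (x := P.φ y) (by rw [(h0 _).2 hp, abs_zero]; exact hW.cpos)
  rw [h1 _ hp] at r3
  simp only [ContinuousLinearMap.comp_apply, r3, map_zero, inner_zero_right] at r2
  simp only [← hess_symm hW.smooth _ (jet2 P.φ y _) (fderiv ℝ (grad W) (P.φ y) _)] at r2
  simp only [← hess_symm hζ, inner_fderiv_grad hζ] at r1
  have r4 : fderiv ℝ (fderiv ℝ ζ) (P.φ y) (jet2 P.φ y 2) (jet2 P.φ y 1) =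
      fderiv ℝ (fderiv ℝ ζ) (P.φ y) (jet2 P.φ y 1) (jet2 P.φ y 2) :=
    (hζ.contDiffAt.isSymmSndFDerivAt (by simp)).eq _ _
  have e1 : N 1 = cx (fderiv ℝ (grad W) (P.φ y) (jet2 P.φ y 1)) :=
    (congrFun (eN.trans (jet2_clm Iv.cxL hν)) 1).trans (congrArg cx (eB _))
  have e2 : N 2 = cx (fderiv ℝ (grad W) (P.φ y) (jet2 P.φ y 2)) :=
    (congrFun (eN.trans (jet2_clm Iv.cxL hν)) 2).trans (congrArg cx (eB _))
  rw [e1, e2, ef, eX, Iv.dg_cx, jac, h1 _ hp, inner_fderiv_grad hζ]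
  simp only [g11, g12, g22, Iv.cx_dot]
  rw [r4] at r1
  rw [real_inner_comm (fderiv ℝ (grad W) (P.φ y) (jet2 P.φ y 1))
    (fderiv ℝ (grad W) (P.φ y) (jet2 P.φ y 2))] at r2
  have e0 : jet2 P.φ y 0 = P.φ y := rfl
  have e3 : jet2 (fun z => ζ (P.φ z)) y 0 = ζ (P.φ y) := rfl
  rw [e0, e3]
  norm_cast
  linear_combination -r1 - ζ (P.φ y) * r2

theorem YV_zero (u : ℂ) (p : E3) : YV G zm 0 u p = u • cx (G.nn p) := by
  have : ∀ v, Kc 0 v = 0 := fun v => by ext i; fin_cases i <;> simp [Kc]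
  simp [YV, KQ, this]

end Tn

open Tn in
theorem jacStmt : JacStmt := by
  intro w D G zm W c K hW h0 h1 u ζ hζ hu p hp
  obtain ⟨hy, e⟩ := Iv.pa_spec G hp
  rw [Geo.LG, Geo.jG]
  generalize (G.pa p).ι p = y at hy e
  generalize G.pa p = P at hy e
  subst e
  have hφ := P.cdAt2 hy
  have hν := (cd_nu P G.shr hy).of_le JA.two_le
  have hn : ContDiffAt ℝ 2 (fun z => G.nn (P.φ z)) y :=
    (G.nn_sm.of_le JA.two_le).contDiffAt.comp y hφ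
  have hf : ContDiffAt ℝ 2 (fun z => ζ (P.φ z)) y := hζ.contDiffAt.comp y hφ
  have hU : ContDiffAt ℝ 2 (fun z => u (P.φ z)) y := by
    refine (hf.div (hn.inner ℝ hν) (G.pos _ hp).ne').congr_of_eventuallyEq ?_
    filter_upwards [P.ev_mem hy] with z hz
    rw [Pi.div_apply, hu _ (P.maps z hz).1, mul_div_cancel_left₀ _ (G.pos _ (P.maps z hz).1).ne']
  have c1 : ∀ {f : R2 → ℝ}, ContDiffAt ℝ 2 f y → ContDiffAt ℝ 2 (fun z => (f z : ℂ)) y :=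
    fun h => Complex.ofRealCLM.contDiff.contDiffAt.comp y h
  have c2 : ∀ {f : R2 → E3}, ContDiffAt ℝ 2 f y → ContDiffAt ℝ 2 (fun z => cx (f z)) y :=
    fun h => Iv.contDiff_cx.contDiffAt.comp y h
  have d1 : ContDiffAt ℝ 2 (fun z => (ζ (P.φ z) : ℂ) • cx (nuW w (P.φ z))) y :=
    (c1 hf).smul (c2 hν)
  have d2 : ContDiffAt ℝ 2 (fun z => (u (P.φ z) : ℂ) • cx (G.nn (P.φ z)) -
      (ζ (P.φ z) : ℂ) • cx (nuW w (P.φ z))) y := ((c1 hU).smul (c2 hn)).sub d1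
  have e1 := jet2_add d1 d2
  have e2 := tanS G.shr P hy d2 fun z hz => by
    simp only [dotProduct_sub, dotProduct_smul,
      nu_nu G.shr (P.maps z hz).1, Iv.cx_dot, hu _ (P.maps z hz).1, real_inner_comm (G.nn _)]
    simp [mul_comm]
  simp only [add_sub_cancel] at e1
  rw [JA.Lh_eq (Iv.bJ_mem G zm P (jetStmt w D) hy), dMh G zm P hy 0 (c1 hU)]
  simp only [YV_zero]
  have e3 := det3_normal (nu_nu G.shr hp) (nu_X G.shr P hy).1 (nu_X G.shr P hy).2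
    (cx (G.nn (P.φ y)))
  have e4 := Iv.det_ne G P hy
  have e5 := Iv.dg_ne P hy
  rw [e3, Iv.cx_dot, real_inner_comm] at e4
  have e6 := left_ne_zero_of_mul e4
  have e7 := right_ne_zero_of_mul e4
  rw [e1, dMp_add, e2, add_zero, e3, Iv.cx_dot, real_inner_comm (G.nn _),
    dMp_normal P G.shr hy hW h0 h1 hζ]
  field_simp

end Vale.Agent.P218N.Core
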