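import Vale.Agent.P218N.Defs
import Vale.Agent.P218N.End.EvR
import Vale.Agent.P218N.End.ToJ

/-! Definitions for the core problem, first part: paths, cutoff functions, two-jets in the plane,
the shrinker operator on jets, patches, the ends of a shrinker in the coordinates `(ζ, θ)`. -/

open Set Filter Topology
open scoped RealInnerProductSpace ContDiff Matrix

noncomputable section

namespace Vale.Agent.P218N.Core

open Vale.Agent.P218.H313 Vale.Agent.P218N.H Vale.Agent.P218N.End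

/-! ### The universal real path -/

/-- the nodes of the parameter interval -/
def tau (k : ℕ) : ℝ := 1 - (1 / 2) ^ k
/-- the smooth step `3 x² - 2 x³` -/
def sm (x : ℝ) : ℝ := 3 * cl x ^ 2 - 2 * cl x ^ 3
/-- its derivative -/
def sm' (x : ℝ) : ℝ := 6 * cl x * (1 - cl x)
/-- its inverse -/
def smi (y : ℝ) : ℝ := 1 / 2 - Real.sin (Real.arcsin (1 - 2 * y) / 3)
/-- the path through the segments `k, …, n`, from `zm + k` to `zm + n + 1` -/
def zr (zm : ℝ) (k n : ℕ) (t : ℝ) : ℝ :=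
  zm + k + ∑ j ∈ Finset.Icc k n, sm (2 ^ (j + 1) * (t - tau j))
/-- its speed -/
def gr (k n : ℕ) (t : ℝ) : ℝ :=
  ∑ j ∈ Finset.Icc k n, 2 ^ (j + 1) * sm' (2 ^ (j + 1) * (t - tau j))
/-- the path as a contour -/
def gam (zm : ℝ) (k n : ℕ) : Path := ⟨mkB fun t => zr zm k n t, mkB fun t => gr k n t⟩
/-- the end point of the path -/
def TT (zm : ℝ) (n : ℕ) : ℝ := zm + n + 1
/-- the parameter of the point `ζ` -/
def tt (zm ζ : ℝ) : ℝ := ∑' j : ℕ, (1 / 2) ^ (j + 1) * smi (cl (ζ - zm - j))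
/-- the clamp to the parameter interval of the segments `k, …, n` -/
def clp (k n : ℕ) : C(ℝ, ℝ) := ⟨fun t => max (tau k) (min t (tau (n + 1))), by fun_prop⟩
/-- restriction to the segments `k, …, n` -/
def resB (k n : ℕ) : BC →L[ℂ] BC :=
  LinearMap.mkContinuous ⟨⟨fun f => f.compContinuous (clp k n), fun _ _ => rfl⟩, fun _ _ => rfl⟩ 1
    fun f => (f.norm_compContinuous_le (clp k n)).trans_eq (one_mul _).symm
/-- restriction to the segments `k, …, n` -/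
def resW (k n : ℕ) : WB →L[ℂ] WB := W.diag fun _ => resB k n
/-- restriction to the segments `k, …, n` -/
def Res (k n : ℕ) : EJ →L[ℂ] EJ :=
  (resW k n).prodMap ((resW k n).prodMap ((resW k n).prodMap (resW k n)))

/-- the smooth step from `0` on `(-∞, 1/3]` to `1` on `[2/3, ∞)` -/
def st (x : ℝ) : ℝ := Real.smoothTransition (3 * x - 1)
/-- the step in the segment `k` -/
def cut (zm : ℝ) (k : ℕ) (ζ : ℝ) : ℝ := st (ζ - zm - k)

/-! ### Jets -/

abbrev R2 : Type := ℝ × ℝ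
abbrev C3 : Type := Fin 3 → ℂ
/-- two-jets `(v, v₁, v₂, v₁₁, v₁₂, v₂₂)` -/
abbrev J2 (V : Type) : Type := Fin 6 → V

/-- the two-jet of a function -/
def jet2 {V : Type} [NormedAddCommGroup V] [NormedSpace ℝ V] (F : R2 → V) (x : R2) : J2 V :=
  ![F x, fderiv ℝ F x (1, 0), fderiv ℝ F x (0, 1), fderiv ℝ (fderiv ℝ F) x (1, 0) (1, 0),
    fderiv ℝ (fderiv ℝ F) x (1, 0) (0, 1), fderiv ℝ (fderiv ℝ F) x (0, 1) (0, 1)]

/-- the one-jet part -/
def T1 {V : Type} [Zero V] (a : J2 V) : J2 V := ![a 0, a 1, a 2, 0, 0, 0]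

/-- the Leibniz rule -/
def jmul {R : Type} [CommRing R] (a b : J2 R) : J2 R :=
  ![a 0 * b 0, a 1 * b 0 + a 0 * b 1, a 2 * b 0 + a 0 * b 2,
    a 3 * b 0 + 2 * (a 1 * b 1) + a 0 * b 3, a 4 * b 0 + a 1 * b 2 + a 2 * b 1 + a 0 * b 4,
    a 5 * b 0 + 2 * (a 2 * b 2) + a 0 * b 5]

/-- the chain rule -/
def jcomp {A B : Type} [NormedAddCommGroup A] [NormedSpace ℂ A] [NormedAddCommGroup B]
    [NormedSpace ℂ B] (G : A → B) (a : J2 A) : J2 B :=
  ![G (a 0), fderiv ℂ G (a 0) (a 1), fderiv ℂ G (a 0) (a 2),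
    fderiv ℂ (fderiv ℂ G) (a 0) (a 1) (a 1) + fderiv ℂ G (a 0) (a 3),
    fderiv ℂ (fderiv ℂ G) (a 0) (a 1) (a 2) + fderiv ℂ G (a 0) (a 4),
    fderiv ℂ (fderiv ℂ G) (a 0) (a 2) (a 2) + fderiv ℂ G (a 0) (a 5)]

/-- the jet of a function of the first coordinate -/
def jz (f : ℝ → ℝ) (ζ : ℝ) : J2 ℂ :=
  ![(f ζ : ℂ), (deriv f ζ : ℝ), 0, (deriv (deriv f) ζ : ℝ), 0, 0]

/-- the determinant of three vectors -/
def det3 (a b c : C3) : ℂ := (a ⨯₃ b) ⬝ᵥ c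
def g11 (j : J2 C3) : ℂ := j 1 ⬝ᵥ j 1
def g12 (j : J2 C3) : ℂ := j 1 ⬝ᵥ j 2
def g22 (j : J2 C3) : ℂ := j 2 ⬝ᵥ j 2
/-- the determinant of the metric -/
def dg (j : J2 C3) : ℂ := g11 j * g22 j - g12 j ^ 2
/-- the shrinker operator `det (X₁, X₂, adj(g)^{ab} X_ab + det g X / 2)` -/
def Mp (j : J2 C3) : ℂ := det3 (j 1) (j 2)
  (g22 j • j 3 - (2 * g12 j) • j 4 + g11 j • j 5 + (dg j / 2) • j 0)
/-- the Gaussian weight -/
def eG (j : J2 C3) : ℂ := Complex.exp (-(j 0 ⬝ᵥ j 0) / 4)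
/-- the ratio of the area elements of `j` and of the base `b` -/
def sq (b j : J2 C3) : ℂ := Complex.sqrt (dg j / dg b)
/-- the Gaussian area density with respect to the area of the base -/
def lag (b j : J2 C3) : ℂ := eG j * sq b j
/-- the vector `e^{-X·X/4} adj(g)^{ab} ξ_a X_b / (√(det g) √(det g_base))` -/
def flx (b j : J2 C3) (ξ₁ ξ₂ : ℂ) : C3 := (eG j / (sq b j * dg b)) •
  ((ξ₁ * g22 j - ξ₂ * g12 j) • j 1 + (ξ₂ * g11 j - ξ₁ * g12 j) • j 2)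
/-- the derivative of `lag b` at `j` in the direction `k` -/
def dlag (b j k : J2 C3) : ℂ :=
  -(lag b j * (j 0 ⬝ᵥ k 0)) / 2 + flx b j 1 0 ⬝ᵥ k 1 + flx b j 0 1 ⬝ᵥ k 2
/-- the Euler-Lagrange expression, paired with the vector `Y` -/
def eul (b j : J2 C3) (Y : C3) : ℂ :=
  eG j * Mp j * det3 (j 1) (j 2) Y / (sq b j ^ 3 * dg b ^ 2)

/-- the complexification of a vector -/
def cx (p : E3) : C3 := fun i => (p i : ℂ)
/-- the jet of a parametrisation -/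
def jS (φ : R2 → E3) (y : R2) : J2 C3 := jet2 (fun z => cx (φ z)) y

/-! ### Patches -/

/-- A parametrisation `φ : O → Z ∩ V` of a relatively open part of the surface `Z`, with
inverse `ι`. -/
structure Patch {F : Type} [NormedAddCommGroup F] [NormedSpace ℝ F] (Z : Set F) where
  O : Set R2
  φ : R2 → F
  V : Set F
  ι : F → R2
  isOpen_O : IsOpen O
  isOpen_V : IsOpen V
  smooth : ContDiffOn ℝ ∞ φ O
  imm : ∀ y ∈ O, Function.Injective (fderiv ℝ φ y)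
  maps : ∀ y ∈ O, φ y ∈ Z ∧ φ y ∈ V
  left : ∀ y ∈ O, ι (φ y) = y
  inv : ∀ p ∈ Z, p ∈ V → ι p ∈ O ∧ φ (ι p) = p
  cont : ContinuousOn ι (Z ∩ V)

/-- the surface -/
abbrev SS (w : E3 → ℝ) : Set E3 := {p | w p = 0}

/-- `u` is of class `C²` on the surface -/
def C2S (w : E3 → ℝ) {V : Type} [NormedAddCommGroup V] [NormedSpace ℝ V] (u : E3 → V) : Prop :=
  ∀ P : Patch (SS w), ∀ y ∈ P.O, ContDiffAt ℝ 2 (fun z => u (P.φ z)) y

/-- `u` has bounded support on the surface -/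
def Bdd (w : E3 → ℝ) {V : Type} [Zero V] (u : E3 → V) : Prop :=
  ∃ R : ℝ, ∀ p, w p = 0 → R ≤ ‖p‖ → u p = 0

/-- the area measure of the surface -/
def muS (w : E3 → ℝ) : MeasureTheory.Measure E3 :=
  (MeasureTheory.Measure.euclideanHausdorffMeasure 2).restrict (SS w)

/-! ### Rotations -/

def rotX (t : ℂ) : Matrix (Fin 3) (Fin 3) ℂ :=
  !![1, 0, 0; 0, Complex.cos t, -Complex.sin t; 0, Complex.sin t, Complex.cos t]
def rotY (t : ℂ) : Matrix (Fin 3) (Fin 3) ℂ :=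
  !![Complex.cos t, 0, Complex.sin t; 0, 1, 0; -Complex.sin t, 0, Complex.cos t]
/-- the rotation with parameter `c` -/
def Rot (c : ℂ × ℂ) : Matrix (Fin 3) (Fin 3) ℂ := rotX c.2 * rotY (-c.1)
/-- `R⁻¹ dR v = al c dc × v` for `R = Rot c` -/
def al (c dc : ℂ × ℂ) : C3 := ![dc.2 * Complex.cos c.1, -dc.1, -(dc.2 * Complex.sin c.1)]
/-- the matrix of an isometry -/
def QM (Q : E3 ≃ₗᵢ[ℝ] E3) : Matrix (Fin 3) (Fin 3) ℂ :=
  Matrix.of fun i k => (Q (EuclideanSpace.single k 1) i : ℂ)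
/-- the rotation in the frame `Q` -/
def RQ (Q : E3 ≃ₗᵢ[ℝ] E3) (c : ℂ × ℂ) : Matrix (Fin 3) (Fin 3) ℂ := QM Q * Rot c * (QM Q)ᵀ

/-! ### The ends -/

variable {w : E3 → ℝ} (D : EndData w)

/-- the ends: cones and cylinders -/
abbrev En : Type := Fin D.a ⊕ Fin D.b

variable {D}

/-- the parametrisation of an end by `(ζ, θ)` -/
def pt : En D → R2 → E3
  | .inl i, q => conePt (D.γ i) (D.n i) (D.h i) (Real.log q.1 / 2, q.2)
  | .inr b, q => cylPt (D.Q b) (D.v b) (√q.1, q.2)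
/-- the height of the end over the cone or cylinder -/
def yS : En D → R2 → ℝ
  | .inl i, q => D.h i (Real.log q.1 / 2, q.2)
  | .inr b, q => D.v b (√q.1, q.2)
/-- the derivative of the point with respect to the height -/
def dir : En D → R2 → E3
  | .inl i, q => √q.1 • D.n i q.2
  | .inr b, q => D.Q b !₂[√2 * Real.cos q.2, √2 * Real.sin q.2, 0]
/-- the inverse speed of the link -/
def cc (i : Fin D.a) : ℝ := (D.l i)⁻¹
/-- the geodesic curvature of the link -/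
def kaf (i : Fin D.a) (θ : ℝ) : ℝ := cc i ^ 2 * ⟪deriv (deriv (D.γ i)) θ, D.n i θ⟫
/-- its derivative with respect to arc length -/
def kdf (i : Fin D.a) (θ : ℝ) : ℝ := cc i * deriv (kaf i) θ
def ka (i : Fin D.a) : WD := toD fun θ => kaf i θ
def kd (i : Fin D.a) : WD := toD fun θ => kdf i θ
/-- the contour data of an end -/
def ctr (γ : Path) : En D → Ctr
  | .inl _ => γ.cone
  | .inr _ => γ.cyl 0
/-- the modes of an end -/
def mu : En D → ℤ → ℝ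
  | .inl i => muCone (cc i)
  | .inr _ => muCyl
/-- the equation on an end -/
def EE (γ : Path) : En D → EJ → WB
  | .inl i => γ.Econe (cc i) (ka i) (kd i)
  | .inr _ => γ.Ecyl 0
/-- the fast component at the end of the path -/
def piT (γ : Path) (e : En D) (j : EJ) : WD := End.tr 1 ((ctr γ e).piJ (mu e) j)
/-- the unscaled jet `(y, y_ζ, y_θ, y_ζζ, y_ζθ, y_θθ)` -/
def jw (Γ : Ctr) (j : EJ) : J2 WB := ![j.y, Γ.jP j, j.yt, Γ.jQ j, j.pt, j.ytt]

/-- The equation on an end as a polynomial in the unscaled jet, over a commutative ring: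
`z = ζ`, `iz = 1/ζ`, `h = 1/2`, `c, k, k'` the data of the link. -/
def Epol {R : Type} [CommRing R] (cyl : Bool) (z iz h c k k' : R) (m : J2 R) : R :=
  if cyl then cylE 0 iz (h * iz) 0 0 (m 0) (m 2) (m 5) (2 * z * m 1) (2 * z * m 3) (m 4)
  else coneE c k k' iz (m 0) (m 2) (m 5) (z * z * m 1) (z * z * m 3) (z * m 4)
/-- the normalising factor of the equation -/
def Fpol {R : Type} [CommRing R] (cyl : Bool) (z iz h c k : R) (m : J2 R) : R :=
  if cyl then 2 * (1 + m 0) * cylD (h * iz) 0 0 (m 0) (m 2) (2 * z * m 1)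
  else z * (1 - k * m 0) * coneD k (m 0) (m 0 + 2 * iz * (z * z * m 1)) (c * m 2)
/-- the equation on an end at a point -/
def EP : En D → R2 → J2 ℂ → ℂ
  | .inl i, q => Epol false (q.1 : ℂ) (q.1 : ℂ)⁻¹ 2⁻¹ (cc i : ℝ) (kaf i q.2 : ℝ) (kdf i q.2 : ℝ)
  | .inr _, q => Epol true (q.1 : ℂ) (q.1 : ℂ)⁻¹ 2⁻¹ 0 0 0
/-- the normalising factor at a point -/
def FP : En D → R2 → J2 ℂ → ℂ
  | .inl i, q => Fpol false (q.1 : ℂ) (q.1 : ℂ)⁻¹ 2⁻¹ (cc i : ℝ) (kaf i q.2 : ℝ)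
  | .inr _, q => Fpol true (q.1 : ℂ) (q.1 : ℂ)⁻¹ 2⁻¹ 0 0
/-- the equation on an end along a path -/
def EW (γ : Path) : En D → J2 WB → WB
  | .inl i => Epol false (W.C γ.ze) (W.C (binv γ.ze)) (algebraMap ℂ WB 2⁻¹)
      (algebraMap ℂ WB (cc i : ℝ)) (cst (ka i)) (cst (kd i))
  | .inr _ => Epol true (W.C γ.ze) (W.C (binv γ.ze)) (algebraMap ℂ WB 2⁻¹) 0 0 0
/-- the normalising factor along a path -/
def FW (γ : Path) : En D → J2 WB → WB
  | .inl i => Fpol false (W.C γ.ze) (W.C (binv γ.ze)) (algebraMap ℂ WB 2⁻¹)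
      (algebraMap ℂ WB (cc i : ℝ)) (cst (ka i))
  | .inr _ => Fpol true (W.C γ.ze) (W.C (binv γ.ze)) (algebraMap ℂ WB 2⁻¹) 0 0
/-- the jet of the height of the end -/
def jy (e : En D) (q : R2) : J2 ℂ := jet2 (fun z => (yS e z : ℂ)) q
/-- the Gaussian area density on an end, with respect to `dζ dθ` -/
def lagE : En D → R2 → J2 ℂ → ℂ
  | .inl i, q, m => lagCone (cc i) (kaf i q.2 : ℝ) q.1 (m 0) (m 2) (q.1 * q.1 * m 1)
  | .inr _, q, m => lagCyl 0 q.1 (m 0) (m 2) (2 * q.1 * m 1)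
/-- the flux density on an end -/
def fluxE : En D → R2 → J2 ℂ → ℂ → ℂ
  | .inl i, q, m, dy => fluxCone (cc i) (kaf i q.2 : ℝ) q.1 (m 0) (m 2) (q.1 * q.1 * m 1) dy
  | .inr _, q, m, dy => fluxCyl 0 q.1 (m 0) (m 2) (2 * q.1 * m 1) 0 dy
/-- the flux through `ζ = ze t` -/
def FluxE (γ : Path) : En D → EJ → ℝ → WB → ℂ
  | .inl i, j, t, dy => γ.FluxCone (cc i) (ka i) j t dy
  | .inr _, j, t, dy => γ.FluxCyl 0 j t 0 dy
/-- The torque density `α · (X × W^ζ)` on a cylindrical end, `W^ζ = ∂L/∂X_ζ`. -/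
def tqCyl (a ζ y yt op : ℂ) (θ : ℝ) (α : C3) : ℂ :=
  Complex.exp (-(ζ + rh a ζ * (1 + y) ^ 2) / 4) * (2 * ζ * rh a ζ) /
    Complex.sqrt (Dc a ζ y yt op) *
  ((((1 + y) ^ 2 + yt ^ 2) * ((op + a / 2 * ζ * (1 + y)) / (ζ * rh a ζ) - (1 + y) / (2 * ζ)) -
      (op + a / 2 * ζ * (1 + y)) / (ζ * rh a ζ) * yt ^ 2) *
      (-(α 0 * Real.sin θ) + α 1 * Real.cos θ) +
    (op + a / 2 * ζ * (1 + y)) / (ζ * rh a ζ) * yt * (1 + y) *
      (α 0 * Real.cos θ + α 1 * Real.sin θ) -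
    (op + a / 2 * ζ * (1 + y)) / (ζ * rh a ζ) * yt * rh a ζ * (1 + y) ^ 2 /
      Complex.sqrt (ζ * rh a ζ) * α 2)
/-- the torque through `ζ = ze t` -/
def TqCyl (γ : Path) (a : ℂ) (j : EJ) (t : ℝ) (α : C3) : ℂ := ∫ θ in (0 : ℝ)..2 * Real.pi,
  tqCyl a (γ.ze t) (ev j.y t θ) (ev j.yt t θ) (ev j.op t θ) θ α
/-- the torque density on an end -/
def tqE : En D → R2 → J2 ℂ → (Fin D.b → C3) → ℂ
  | .inl _, _, _, _ => 0
  | .inr b, q, m, α => tqCyl 0 q.1 (m 0) (m 2) (2 * q.1 * m 1) q.2 (α b)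
/-- the change of the height of a cylindrical end under the rotation `c₂ e₁ - c₁ e₂` -/
def phR (b : Fin D.b) (c : ℂ × ℂ) (q : R2) : ℂ :=
  (√q.1 : ℝ) / (√2 : ℝ) * ((1 + 4 * (1 + jy (.inr b) q 0) * jy (.inr b) q 1) *
    (-(c.2 * Real.sin q.2) - c.1 * Real.cos q.2) + jy (.inr b) q 2 / (1 + jy (.inr b) q 0) *
    (c.2 * Real.cos q.2 - c.1 * Real.sin q.2))

end Vale.Agent.P218N.Core
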