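import Vale.Agent.P218N.Core.Spec
import Mathlib.Analysis.Calculus.FDeriv.Star
import Mathlib.Analysis.Calculus.FDeriv.Symmetric

/-! General facts about two-jets: Leibniz rule, chain rule, conjugation. -/

open Set Filter Topology
open scoped ContDiff

noncomputable section

namespace Vale.Agent.P218N.Core.JA

theorem two_le : (2 : WithTop ℕ∞) ≤ ∞ := WithTop.coe_le_coe.2 (le_top : (2 : ℕ∞) ≤ ⊤)

section real
variable {U V W : Type} [NormedAddCommGroup U] [NormedSpace ℝ U] [NormedAddCommGroup V]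
  [NormedSpace ℝ V] [NormedAddCommGroup W] [NormedSpace ℝ W] {f : R2 → U} {g : R2 → V} {y : R2}

theorem diff2 (hf : ContDiffAt ℝ 2 f y) : DifferentiableAt ℝ (fderiv ℝ f) y :=
  (hf.fderiv_right (m := 1) (by norm_num)).differentiableAt (by simp)

theorem diffv (hf : ContDiffAt ℝ 2 f y) (v : R2) :
    DifferentiableAt ℝ (fun z => fderiv ℝ f z v) y := (diff2 hf).clm_apply (differentiableAt_const v)

theorem d2_apply (hf : ContDiffAt ℝ 2 f y) (u v : R2) :
    fderiv ℝ (fun z => fderiv ℝ f z v) y u = fderiv ℝ (fderiv ℝ f) y u v := by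
  rw [fderiv_clm_apply (diff2 hf) (differentiableAt_const v)]
  simp

theorem d1_bil (B : U →L[ℝ] V →L[ℝ] W) (hf : DifferentiableAt ℝ f y)
    (hg : DifferentiableAt ℝ g y) (v : R2) : fderiv ℝ (fun z => B (f z) (g z)) y v =
      B (fderiv ℝ f y v) (g y) + B (f y) (fderiv ℝ g y v) := by
  rw [B.fderiv_of_bilinear hf hg, add_comm]
  simp

theorem d2_bil (B : U →L[ℝ] V →L[ℝ] W) (hf : ContDiffAt ℝ 2 f y) (hg : ContDiffAt ℝ 2 g y)
    (u v : R2) : fderiv ℝ (fderiv ℝ fun z => B (f z) (g z)) y u v =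
      B (fderiv ℝ (fderiv ℝ f) y u v) (g y) + B (fderiv ℝ f y u) (fderiv ℝ g y v) +
        B (fderiv ℝ f y v) (fderiv ℝ g y u) + B (f y) (fderiv ℝ (fderiv ℝ g) y u v) := by
  have df := hf.differentiableAt (by simp)
  have dg := hg.differentiableAt (by simp)
  have e : (fun z => fderiv ℝ (fun z => B (f z) (g z)) z v) =ᶠ[𝓝 y]
      fun z => B (fderiv ℝ f z v) (g z) + B (f z) (fderiv ℝ g z v) := by
    filter_upwards [hf.eventually (by simp), hg.eventually (by simp)] with z h1 h2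
    exact d1_bil B (h1.differentiableAt (by simp)) (h2.differentiableAt (by simp)) v
  have c : ContDiffAt ℝ 2 (fun z => B (f z) (g z)) y :=
    (B.contDiff.contDiffAt.comp y hf).clm_apply hg
  have k1 : DifferentiableAt ℝ (fun z => B (fderiv ℝ f z v) (g z)) y :=
    (B.differentiableAt.comp y (diffv hf v)).clm_apply dg
  have k2 : DifferentiableAt ℝ (fun z => B (f z) (fderiv ℝ g z v)) y :=
    (B.differentiableAt.comp y df).clm_apply (diffv hg v)
  rw [← d2_apply c, e.fderiv_eq, fderiv_fun_add k1 k2, _root_.add_apply,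
    d1_bil B (diffv hf v) dg, d1_bil B df (diffv hg v), d2_apply hf, d2_apply hg]
  abel

/-- the Leibniz rule for a bilinear map -/
def jbil (B : U →L[ℝ] V →L[ℝ] W) (a : J2 U) (b : J2 V) : J2 W :=
  ![B (a 0) (b 0), B (a 1) (b 0) + B (a 0) (b 1), B (a 2) (b 0) + B (a 0) (b 2),
    B (a 3) (b 0) + B (a 1) (b 1) + B (a 1) (b 1) + B (a 0) (b 3),
    B (a 4) (b 0) + B (a 1) (b 2) + B (a 2) (b 1) + B (a 0) (b 4),
    B (a 5) (b 0) + B (a 2) (b 2) + B (a 2) (b 2) + B (a 0) (b 5)]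

theorem jet2_bil (B : U →L[ℝ] V →L[ℝ] W) (hf : ContDiffAt ℝ 2 f y) (hg : ContDiffAt ℝ 2 g y) :
    jet2 (fun z => B (f z) (g z)) y = jbil B (jet2 f y) (jet2 g y) := by
  have df := hf.differentiableAt (by simp)
  have dg := hg.differentiableAt (by simp)
  simp only [jet2, jbil, d1_bil B df dg, d2_bil B hf hg]
  rfl

theorem jet2_const (c : U) : jet2 (fun _ : R2 => c) y = ![c, 0, 0, 0, 0, 0] := by
  ext k; fin_cases k <;> simp [jet2]

theorem jet2_prod (hf : ContDiffAt ℝ 2 f y) (hg : ContDiffAt ℝ 2 g y) :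
    jet2 (fun z => (f z, g z)) y = fun k => (jet2 f y k, jet2 g y k) := by
  funext k
  exact Prod.ext (congrFun (jet2_clm (ContinuousLinearMap.fst ℝ U V) (hf.prodMk hg)) k).symm
    (congrFun (jet2_clm (ContinuousLinearMap.snd ℝ U V) (hf.prodMk hg)) k).symm

end real

theorem leib (f g : R2 → ℂ) (y : R2) (hf : ContDiffAt ℝ 2 f y) (hg : ContDiffAt ℝ 2 g y) :
    jet2 (fun z => f z * g z) y = jmul (jet2 f y) (jet2 g y) := by
  refine (jet2_bil (ContinuousLinearMap.mul ℝ ℂ) hf hg).trans ?_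
  ext k
  fin_cases k <;> simp [jbil, jmul] <;> ring

theorem jz_eq (f : ℝ → ℝ) (q : R2) (hf : ContDiffAt ℝ 2 f q.1) :
    jet2 (fun z : R2 => (f z.1 : ℂ)) q = jz f q.1 := by
  have d1 : ∀ (g : ℝ → ℝ) (z v : R2), DifferentiableAt ℝ g z.1 →
      fderiv ℝ (fun z : R2 => g z.1) z v = v.1 * deriv g z.1 := fun g z v h => by
    rw [show fderiv ℝ (fun z : R2 => g z.1) z = _ from
      (h.hasDerivAt.hasFDerivAt.comp z hasFDerivAt_fst).fderiv]
    simp
  have c2 : ContDiffAt ℝ 2 (fun z : R2 => f z.1) q := hf.comp q contDiffAt_fst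
  have df := hf.differentiableAt (by simp)
  have dd : DifferentiableAt ℝ (deriv f) q.1 :=
    (hf.derivWithin (m := 1) (by norm_num)).differentiableAt (by simp)
  have d2 : ∀ u v : R2, fderiv ℝ (fderiv ℝ fun z : R2 => f z.1) q u v =
      v.1 * (u.1 * deriv (deriv f) q.1) := fun u v => by
    have e : (fun z => fderiv ℝ (fun z : R2 => f z.1) z v) =ᶠ[𝓝 q] fun z => v.1 * deriv f z.1 := by
      filter_upwards [continuousAt_fst.eventually (hf.eventually (by simp))] with z h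
      exact d1 f z v (h.differentiableAt (by simp))
    have k : DifferentiableAt ℝ (fun z : R2 => deriv f z.1) q := dd.comp q differentiableAt_fst
    rw [← d2_apply c2, e.fderiv_eq, fderiv_const_mul k,
      _root_.smul_apply, d1 _ q u dd, smul_eq_mul]
  refine (jet2_clm Complex.ofRealCLM c2).trans ?_
  ext k
  fin_cases k <;> simp [jet2, jz, d1 f q _ df, d2]

section cx
variable {A B : Type} [NormedAddCommGroup A] [NormedSpace ℂ A] [NormedAddCommGroup B]
  [NormedSpace ℂ B] {G G' : A → B}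

section
variable [NormedSpace ℝ A] [IsScalarTower ℝ ℂ A] [NormedSpace ℝ B] [IsScalarTower ℝ ℂ B]
  {F H : R2 → A} {y : R2}

theorem d1_comp (hG : DifferentiableAt ℂ G (F y)) (hF : DifferentiableAt ℝ F y) (v : R2) :
    fderiv ℝ (fun z => G (F z)) y v = fderiv ℂ G (F y) (fderiv ℝ F y v) := by
  rw [show fderiv ℝ (fun z => G (F z)) y = _ from
    ((hG.hasFDerivAt.restrictScalars ℝ).comp y hF.hasFDerivAt).fderiv]
  rfl

/-- the chain rule -/
theorem jet2_comp (hG : ContDiffAt ℂ 2 G (F y)) (hF : ContDiffAt ℝ 2 F y) :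
    jet2 (fun z => G (F z)) y = jcomp G (jet2 F y) := by
  have dF := hF.differentiableAt (by simp)
  have dG : DifferentiableAt ℂ (fderiv ℂ G) (F y) :=
    (hG.fderiv_right (m := 1) (by norm_num)).differentiableAt (by simp)
  have d2 : ∀ u v : R2, fderiv ℝ (fderiv ℝ fun z => G (F z)) y u v =
      fderiv ℂ (fderiv ℂ G) (F y) (fderiv ℝ F y u) (fderiv ℝ F y v) +
        fderiv ℂ G (F y) (fderiv ℝ (fderiv ℝ F) y u v) := fun u v => by
    have e : (fun z => fderiv ℝ (fun z => G (F z)) z v) =ᶠ[𝓝 y] fun z =>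
        ContinuousLinearMap.restrictScalarsL ℂ A B ℝ ℝ (fderiv ℂ G (F z)) (fderiv ℝ F z v) := by
      filter_upwards [hF.eventually (by simp),
        hF.continuousAt.eventually (hG.eventually (by simp))] with z h1 h2
      exact d1_comp (h2.differentiableAt (by simp)) (h1.differentiableAt (by simp)) v
    have c : ContDiffAt ℝ 2 (fun z => G (F z)) y := (hG.restrict_scalars ℝ).comp y hF
    have k : DifferentiableAt ℝ (fun z => fderiv ℂ G (F z)) y := (dG.restrictScalars ℝ).comp y dF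
    rw [← d2_apply c, e.fderiv_eq, d1_bil _ k (diffv hF v), d1_comp dG dF, d2_apply hF]
    rfl
  simp only [jet2, jcomp, d1_comp (hG.differentiableAt (by simp)) dF, d2]
  rfl

end

theorem contDiff_jcomp (hG : ContDiff ℂ ∞ G) : ContDiff ℂ ∞ (jcomp G) := by
  have h1 : ContDiff ℂ ∞ (fderiv ℂ G) := hG.fderiv_right le_rfl
  have h2 : ContDiff ℂ ∞ (fderiv ℂ (fderiv ℂ G)) := h1.fderiv_right le_rfl
  have p : ∀ i, ContDiff ℂ ∞ fun a : J2 A => a i := fun i => contDiff_apply ℂ A i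
  have a1 : ∀ i, ContDiff ℂ ∞ fun a : J2 A => fderiv ℂ G (a 0) (a i) := fun i =>
    (h1.comp (p 0)).clm_apply (p i)
  have a2 : ∀ i j, ContDiff ℂ ∞ fun a : J2 A => fderiv ℂ (fderiv ℂ G) (a 0) (a i) (a j) :=
    fun i j => ((h2.comp (p 0)).clm_apply (p i)).clm_apply (p j)
  refine contDiff_pi.2 fun k => ?_
  fin_cases k
  exacts [hG.comp (p 0), a1 1, a1 2, (a2 1 1).add (a1 3), (a2 1 2).add (a1 4), (a2 2 2).add (a1 5)]

theorem sym2 (hG : ContDiff ℂ ∞ G) (x u v : A) :
    fderiv ℂ (fderiv ℂ G) x u v = fderiv ℂ (fderiv ℂ G) x v u :=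
  (hG.contDiffAt.isSymmSndFDerivAt (by simpa using two_le)).eq u v

theorem sym3 (hG : ContDiff ℂ ∞ G) (x h u v : A) :
    fderiv ℂ (fderiv ℂ (fderiv ℂ G)) x h u v = fderiv ℂ (fderiv ℂ (fderiv ℂ G)) x u v h := by
  have h1 : ContDiff ℂ ∞ (fderiv ℂ G) := hG.fderiv_right le_rfl
  have h2 : Differentiable ℂ (fderiv ℂ (fderiv ℂ G)) :=
    (h1.fderiv_right (m := ∞) le_rfl).differentiable (by simp)
  have e : ∀ a b : A, fderiv ℂ (fun x => fderiv ℂ (fderiv ℂ G) x a b) x u =
      fderiv ℂ (fderiv ℂ (fderiv ℂ G)) x u a b := fun a b => by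
    rw [fderiv_clm_apply ((h2 x).clm_apply (differentiableAt_const a)) (differentiableAt_const b),
      fderiv_clm_apply (h2 x) (differentiableAt_const a)]
    simp
  rw [sym2 h1 x h u, ← e, ← e]
  simp only [sym2 hG _ h v]

theorem fderiv_jcomp (hG : ContDiff ℂ ∞ G) (a h : J2 A) : fderiv ℂ (jcomp G) a h =
    ![fderiv ℂ G (a 0) (h 0),
      fderiv ℂ (fderiv ℂ G) (a 0) (a 1) (h 0) + fderiv ℂ G (a 0) (h 1),
      fderiv ℂ (fderiv ℂ G) (a 0) (a 2) (h 0) + fderiv ℂ G (a 0) (h 2),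
      jcomp (fderiv ℂ G) a 3 (h 0) + fderiv ℂ (fderiv ℂ G) (a 0) (a 1) (h 1) +
        fderiv ℂ (fderiv ℂ G) (a 0) (a 1) (h 1) + fderiv ℂ G (a 0) (h 3),
      jcomp (fderiv ℂ G) a 4 (h 0) + fderiv ℂ (fderiv ℂ G) (a 0) (a 1) (h 2) +
        fderiv ℂ (fderiv ℂ G) (a 0) (a 2) (h 1) + fderiv ℂ G (a 0) (h 4),
      jcomp (fderiv ℂ G) a 5 (h 0) + fderiv ℂ (fderiv ℂ G) (a 0) (a 2) (h 2) +
        fderiv ℂ (fderiv ℂ G) (a 0) (a 2) (h 2) + fderiv ℂ G (a 0) (h 5)] := by
  have h1 : ContDiff ℂ ∞ (fderiv ℂ G) := hG.fderiv_right le_rfl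
  have h2 : ContDiff ℂ ∞ (fderiv ℂ (fderiv ℂ G)) := h1.fderiv_right le_rfl
  have p : ∀ i, HasFDerivAt (fun a : J2 A => a i) (ContinuousLinearMap.proj (R := ℂ) i) a :=
    fun i => hasFDerivAt_apply i a
  have d0 := ((hG.differentiable (by simp)) (a 0)).hasFDerivAt.comp a (p 0)
  have d1 := ((h1.differentiable (by simp)) (a 0)).hasFDerivAt.comp a (p 0)
  have d2 := ((h2.differentiable (by simp)) (a 0)).hasFDerivAt.comp a (p 0)
  have a1 := fun i => d1.clm_apply (p i)
  have a2 := fun i j => (d2.clm_apply (p i)).clm_apply (p j)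
  have e : ∀ k, fderiv ℂ (jcomp G) a h k = fderiv ℂ (fun a => jcomp G a k) a h := fun k => by
    rw [fderiv_apply (((contDiff_jcomp hG).differentiable (by simp)) a)]
    rfl
  funext k
  rw [e]
  fin_cases k
  · exact congrArg (· h) d0.fderiv
  · refine (congrArg (· h) (a1 1).fderiv).trans ?_
    simp [sym2 hG _ (h 0), add_comm]
  · refine (congrArg (· h) (a1 2).fderiv).trans ?_
    simp [sym2 hG _ (h 0), add_comm]
  · refine (congrArg (· h) ((a2 1 1).add (a1 3)).fderiv).trans ?_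
    simp [jcomp, sym2 hG _ (h 0), sym2 hG _ (h 1), sym3 hG _ (h 0)]
    abel
  · refine (congrArg (· h) ((a2 1 2).add (a1 4)).fderiv).trans ?_
    simp [jcomp, sym2 hG _ (h 0), sym2 hG _ (h 1), sym3 hG _ (h 0)]
    abel
  · refine (congrArg (· h) ((a2 2 2).add (a1 5)).fderiv).trans ?_
    simp [jcomp, sym2 hG _ (h 0), sym2 hG _ (h 2), sym3 hG _ (h 0)]
    abel

/-- the derivative of the chain rule -/
theorem jet2_dcomp [NormedSpace ℝ A] [IsScalarTower ℝ ℂ A] [NormedSpace ℝ B] [IsScalarTower ℝ ℂ B]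
    {F H : R2 → A} {y : R2} (hG : ContDiff ℂ ∞ G) (hF : ContDiffAt ℝ 2 F y)
    (hH : ContDiffAt ℝ 2 H y) :
    fderiv ℂ (jcomp G) (jet2 F y) (jet2 H y) = jet2 (fun z => fderiv ℂ G (F z) (H z)) y := by
  have h1 : ContDiffAt ℂ 2 (fderiv ℂ G) (F y) :=
    ((hG.fderiv_right (m := ∞) le_rfl).of_le two_le).contDiffAt
  have c : ContDiffAt ℝ 2 (fun z => fderiv ℂ G (F z)) y := (h1.restrict_scalars ℝ).comp y hF
  rw [fderiv_jcomp hG]
  refine ((jet2_bil (ContinuousLinearMap.restrictScalarsL ℂ A B ℝ ℝ) c hH).trans ?_).symm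
  rw [jet2_comp h1 hF]
  rfl

theorem jcomp_clm (T : A →L[ℂ] B) (a : J2 A) : jcomp T a = fun k => T (a k) := by
  have e : fderiv ℂ T = fun _ => T := funext fun _ => T.fderiv
  funext k
  fin_cases k <;> simp [jcomp, e]

theorem jcomp_comp {C : Type} [NormedAddCommGroup C] [NormedSpace ℂ C] (hG : ContDiff ℂ ∞ G)
    (T : C →L[ℂ] A) (a : J2 C) : jcomp (fun x => G (T x)) a = jcomp G fun k => T (a k) := by
  have h1 : Differentiable ℂ (fderiv ℂ G) :=
    (hG.fderiv_right (m := ∞) le_rfl).differentiable (by simp)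
  have e1 : fderiv ℂ (fun x => G (T x)) = fun x => (fderiv ℂ G (T x)).comp T := funext fun x =>
    (((hG.differentiable (by simp)) (T x)).hasFDerivAt.comp x T.hasFDerivAt).fderiv
  have e2 : ∀ x u v, fderiv ℂ (fun x => (fderiv ℂ G (T x)).comp T) x u v =
      fderiv ℂ (fderiv ℂ G) (T x) (T u) (T v) := fun x u v => by
    rw [show fderiv ℂ (fun x => (fderiv ℂ G (T x)).comp T) x = _ from
      (((h1 (T x)).hasFDerivAt.comp x T.hasFDerivAt).clm_comp (hasFDerivAt_const T x)).fderiv]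
    simp
  funext k
  fin_cases k <;> simp [jcomp, e1, e2]

theorem jcomp_add (a h : J2 A) (h0 : h 0 = 0) (h1 : h 1 = 0) (h2 : h 2 = 0) :
    jcomp G (a + h) = jcomp G a + fun k => fderiv ℂ G (a 0) (h k) := by
  funext k
  fin_cases k <;> simp [jcomp, h0, h1, h2, add_assoc]

variable [StarAddMonoid A] [StarModule ℂ A] [ContinuousStar A] [StarAddMonoid B] [StarModule ℂ B]
  [ContinuousStar B]

theorem fderiv_cj {x : A} (hG : DifferentiableAt ℂ G x) (h : ∀ x, G' (star x) = star (G x))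
    (v : A) : fderiv ℂ G' (star x) (star v) = star (fderiv ℂ G x v) := by
  have e : G' = star ∘ G ∘ star := funext fun z => by
    rw [Function.comp_apply, Function.comp_apply, ← h, star_star]
  rw [e, hG.hasFDerivAt.star_star.fderiv]
  simp

theorem jcomp_cj (hG : ContDiff ℂ ∞ G) (h : ∀ x, G (star x) = star (G x)) (a : J2 A) :
    jcomp G (star a) = star (jcomp G a) := by
  have dG := hG.differentiable (by simp)
  have h1 : Differentiable ℂ (fderiv ℂ G) :=
    (hG.fderiv_right (m := ∞) le_rfl).differentiable (by simp)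
  have e : ∀ x u v : A, fderiv ℂ (fun x => fderiv ℂ G x v) x u = fderiv ℂ (fderiv ℂ G) x u v :=
    fun x u v => by
      rw [fderiv_clm_apply (h1 x) (differentiableAt_const v)]
      simp
  have e1 := fun x => fderiv_cj (dG x) h
  have e2 : ∀ x u v : A, fderiv ℂ (fderiv ℂ G) (star x) (star u) (star v) =
      star (fderiv ℂ (fderiv ℂ G) x u v) := fun x u v => by
    rw [← e, ← e]
    exact fderiv_cj ((h1 x).clm_apply (differentiableAt_const v)) (fun x => e1 x v) u
  funext k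
  fin_cases k <;> simp [jcomp, h, e1, e2]

end cx

end Vale.Agent.P218N.Core.JA
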