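import Vale.Agent.P218N.Core.JetA
import Mathlib.Analysis.Complex.SqrtDeriv

/-! The operators on jets of points, rotations, the deformation map. -/

open Set Filter Topology
open scoped ContDiff Matrix RealInnerProductSpace

noncomputable section

namespace Vale.Agent.P218N.Core.JA

open Vale.Agent.P218N.H

theorem dot3 (a b : C3) : a ⬝ᵥ b = a 0 * b 0 + a 1 * b 1 + a 2 * b 2 := by
  simp [dotProduct, Fin.sum_univ_three]

theorem det3_eq (a b c : C3) : det3 a b c = (a 1 * b 2 - a 2 * b 1) * c 0 +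
    (a 2 * b 0 - a 0 * b 2) * c 1 + (a 0 * b 1 - a 1 * b 0) * c 2 := by
  rw [det3, dot3, cross_apply]
  rfl

theorem det3_smul (a b c : C3) (u : ℂ) : det3 a b (u • c) = u * det3 a b c := by
  simp [det3]

theorem det3_add (a b c d : C3) : det3 a b (c + d) = det3 a b c + det3 a b d := by
  simp [det3]

section smooth
variable {E : Type} [NormedAddCommGroup E] [NormedSpace ℂ E] {f g h : E → C3} {j : E → J2 C3}

theorem sm_dot (hf : ContDiff ℂ ∞ f) (hg : ContDiff ℂ ∞ g) : ContDiff ℂ ∞ fun x => f x ⬝ᵥ g x := by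
  simp only [dot3]
  fun_prop

theorem sm_det3 (hf : ContDiff ℂ ∞ f) (hg : ContDiff ℂ ∞ g) (hh : ContDiff ℂ ∞ h) :
    ContDiff ℂ ∞ fun x => det3 (f x) (g x) (h x) := by
  simp only [det3_eq]
  fun_prop

end smooth

theorem sm_ap (k : Fin 6) : ContDiff ℂ ∞ fun j : J2 C3 => j k := contDiff_apply ℂ C3 k
theorem sm_g11 : ContDiff ℂ ∞ g11 := sm_dot (sm_ap 1) (sm_ap 1)
theorem sm_g12 : ContDiff ℂ ∞ g12 := sm_dot (sm_ap 1) (sm_ap 2)
theorem sm_g22 : ContDiff ℂ ∞ g22 := sm_dot (sm_ap 2) (sm_ap 2)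
theorem sm_dg : ContDiff ℂ ∞ dg := (sm_g11.mul sm_g22).sub (sm_g12.pow 2)
theorem sm_Mp : ContDiff ℂ ∞ Mp := sm_det3 (sm_ap 1) (sm_ap 2)
  ((((sm_g22.smul (sm_ap 3)).sub ((contDiff_const.mul sm_g12).smul (sm_ap 4))).add
    (sm_g11.smul (sm_ap 5))).add ((sm_dg.div_const 2).smul (sm_ap 0)))
theorem sm_eG : ContDiff ℂ ∞ eG := ((sm_dot (sm_ap 0) (sm_ap 0)).neg.div_const 4).cexp

theorem eG_ne (j : J2 C3) : eG j ≠ 0 := Complex.exp_ne_zero _

theorem sqrt_sq (z : ℂ) : Complex.sqrt z ^ 2 = z := Complex.cpow_ofNat_inv_pow _ 2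

theorem sqrt_ne {z : ℂ} (h : z ∈ Complex.slitPlane) : Complex.sqrt z ≠ 0 := fun h0 =>
  Complex.slitPlane_ne_zero h (by rw [← sqrt_sq z, h0]; simp)

theorem sm_sqrt {z : ℂ} (h : z ∈ Complex.slitPlane) : ContDiffAt ℂ ∞ Complex.sqrt z :=
  (Complex.differentiableOn_sqrt.contDiffOn Complex.isOpen_slitPlane).contDiffAt
    (Complex.isOpen_slitPlane.mem_nhds h)

theorem hasDerivAt_sqrt {z : ℂ} (h : z ∈ Complex.slitPlane) :
    HasDerivAt Complex.sqrt (1 / (2 * Complex.sqrt z)) z := by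
  have d := ((sm_sqrt h).differentiableAt (by simp)).hasDerivAt
  have e := (d.pow 2).unique ((hasDerivAt_id z).congr_of_eventuallyEq
    (.of_forall fun x => sqrt_sq x))
  refine d.congr_deriv ?_
  rw [eq_div_iff (mul_ne_zero two_ne_zero (sqrt_ne h)), ← e]
  simp [mul_comm]

theorem sqrt_cj {z : ℂ} (h : z ∈ Complex.slitPlane) :
    Complex.sqrt (star z) = star (Complex.sqrt z) := by
  have := Complex.conj_cpow z 2⁻¹ (Complex.slitPlane_arg_ne_pi h)
  simpa [Complex.sqrt, map_ofNat] using this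

theorem slit_cj {z : ℂ} (h : z ∈ Complex.slitPlane) : star z ∈ Complex.slitPlane := by
  simpa [Complex.mem_slitPlane_iff] using h

theorem dot_cj (a b : C3) : star a ⬝ᵥ star b = star (a ⬝ᵥ b) := by simp [dot3]
theorem det3_cj (a b c : C3) : det3 (star a) (star b) (star c) = star (det3 a b c) := by
  simp [det3_eq]
theorem g11_cj (j : J2 C3) : g11 (star j) = star (g11 j) := dot_cj _ _
theorem g12_cj (j : J2 C3) : g12 (star j) = star (g12 j) := dot_cj _ _
theorem g22_cj (j : J2 C3) : g22 (star j) = star (g22 j) := dot_cj _ _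
theorem dg_cj (j : J2 C3) : dg (star j) = star (dg j) := by simp [dg, g11_cj, g12_cj, g22_cj]
theorem Mp_cj (j : J2 C3) : Mp (star j) = star (Mp j) := by
  rw [Mp, Mp, ← det3_cj, g11_cj, g12_cj, g22_cj, dg_cj]
  simp
theorem eG_cj (j : J2 C3) : eG (star j) = star (eG j) := by
  rw [eG, eG, Pi.star_apply, dot_cj, RCLike.star_def, ← Complex.exp_conj]
  simp [map_ofNat]
theorem sq_cj {b j : J2 C3} (h : dg j / dg b ∈ Complex.slitPlane) :
    sq (star b) (star j) = star (sq b j) := by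
  rw [sq, sq, dg_cj, dg_cj, ← star_div₀, sqrt_cj h]

theorem hasDerivAt_dot {X Y : ℂ → C3} {X' Y' : C3} {t : ℂ} (hX : HasDerivAt X X' t)
    (hY : HasDerivAt Y Y' t) : HasDerivAt (fun t => X t ⬝ᵥ Y t) (X' ⬝ᵥ Y t + X t ⬝ᵥ Y') t := by
  have x := hasDerivAt_pi.1 hX
  have y := hasDerivAt_pi.1 hY
  simp only [dot3]
  exact ((((x 0).mul (y 0)).add ((x 1).mul (y 1))).add ((x 2).mul (y 2))).congr_deriv (by ring)

theorem hasDerivAt_lag {b k : J2 C3} {X : ℂ → J2 C3} {t : ℂ} (hX : HasDerivAt X k t)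
    (hb : dg b ≠ 0) (hs : dg (X t) / dg b ∈ Complex.slitPlane) :
    HasDerivAt (fun t => lag b (X t)) (dlag b (X t) k) t := by
  have x := hasDerivAt_pi.1 hX
  have d1 := ((hasDerivAt_dot (x 0) (x 0)).neg.div_const 4).cexp
  have d2 := (((hasDerivAt_dot (x 1) (x 1)).mul (hasDerivAt_dot (x 2) (x 2))).sub
    ((hasDerivAt_dot (x 1) (x 2)).pow 2)).div_const (dg b)
  have d3 := (hasDerivAt_sqrt hs).comp t d2
  refine (d1.mul d3).congr_deriv ?_
  have n := sqrt_ne hs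
  simp only [dlag, lag, flx, sq, eG, g11, g12, g22, Function.comp_apply, Pi.neg_apply,
    smul_dotProduct, add_dotProduct, smul_eq_mul, dotProduct_comm (k _)]
  change _ * Complex.sqrt (dg (X t) / dg b) + _ = _
  field_simp
  ring

theorem dlag_lin (b j k : J2 C3) (f : J2 ℂ) (k' : J2 C3) (h0 : k' 0 = f 0 • k 0)
    (h1 : k' 1 = f 1 • k 0 + f 0 • k 1) (h2 : k' 2 = f 2 • k 0 + f 0 • k 2) :
    dlag b j k' = f 0 * dlag b j k + flx b j (f 1) (f 2) ⬝ᵥ k 0 := by
  simp only [dlag, flx, h0, h1, h2, smul_dotProduct, add_dotProduct, dotProduct_smul,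
    dotProduct_add, smul_eq_mul]
  ring

theorem Mp_add (j h : J2 C3) (h0 : h 0 = 0) (h1 : h 1 = 0) (h2 : h 2 = 0) : Mp (j + h) =
    Mp j + det3 (j 1) (j 2) (g22 j • h 3 - (2 * g12 j) • h 4 + g11 j • h 5) := by
  simp only [Mp, dg, g11, g12, g22, Pi.add_apply, h0, h1, h2, add_zero, ← det3_add]
  congr 1
  module

/-! ### rotations -/

theorem QM_apply (Q : E3 ≃ₗᵢ[ℝ] E3) (i k : Fin 3) :
    QM Q i k = (Q.symm (EuclideanSpace.single i 1) k : ℝ) := by
  have := Q.inner_map_eq_flip (EuclideanSpace.single k 1) (EuclideanSpace.single i 1)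
  simp only [EuclideanSpace.inner_single_left, EuclideanSpace.inner_single_right] at this
  simpa [QM] using this

theorem QM_mul (Q : E3 ≃ₗᵢ[ℝ] E3) : QM Q * (QM Q)ᵀ = 1 := by
  ext i k
  have := Q.symm.inner_map_map (EuclideanSpace.single i 1) (EuclideanSpace.single k 1)
  rw [EuclideanSpace.inner_single_left, PiLp.inner_apply] at this
  simp only [Matrix.mul_apply, Matrix.transpose_apply, QM_apply, ← Complex.ofReal_mul,
    ← Complex.ofReal_sum]
  rw [show (∑ x, Q.symm (EuclideanSpace.single i 1) x * Q.symm (EuclideanSpace.single k 1) x) =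
    if i = k then 1 else 0 by simpa [mul_comm, Pi.single_apply] using this, Matrix.one_apply]
  split_ifs <;> simp

theorem Rot_zero : Rot 0 = 1 := by
  simp [Rot, rotX, rotY, ← Matrix.one_fin_three]

theorem RQ_zero (Q : E3 ≃ₗᵢ[ℝ] E3) : RQ Q 0 = 1 := by rw [RQ, Rot_zero, mul_one, QM_mul]

theorem sm_Rot (i k : Fin 3) : ContDiff ℂ ∞ fun c => Rot c i k := by
  fin_cases i <;> fin_cases k <;>
    simp [Rot, rotX, rotY, Matrix.mul_apply, Fin.sum_univ_three] <;> fun_prop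

theorem sm_RQ (Q : E3 ≃ₗᵢ[ℝ] E3) (i k : Fin 3) : ContDiff ℂ ∞ fun c => RQ Q c i k := by
  simp only [RQ, Matrix.mul_apply (M := _ * _), Matrix.mul_apply (M := QM Q)]
  exact ContDiff.sum fun l _ => (ContDiff.sum fun m _ => contDiff_const.mul (sm_Rot m l)).mul
    contDiff_const

theorem RQ_cj (Q : E3 ≃ₗᵢ[ℝ] E3) (c : ℂ × ℂ) (v : C3) :
    RQ Q (star c) *ᵥ star v = star (RQ Q c *ᵥ v) := by
  have e1 : Rot (star c) = (Rot c).map (starRingEnd ℂ) := by
    ext i k
    fin_cases i <;> fin_cases k <;>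
      simp [Rot, rotX, rotY, Matrix.mul_apply, Fin.sum_univ_three, Complex.cos_conj,
        Complex.sin_conj]
  have e2 : (QM Q).map (starRingEnd ℂ) = QM Q := by
    ext i k
    simp [QM]
  have e3 : RQ Q (star c) = (RQ Q c).map (starRingEnd ℂ) := by
    rw [RQ, RQ, Matrix.map_mul, Matrix.map_mul, Matrix.transpose_map, e1, e2]
  rw [e3]
  ext i
  exact ((starRingEnd ℂ).map_mulVec _ _ i).symm

variable {w : E3 → ℝ} {D : EndData w}

theorem smG : ContDiff ℂ ∞ (Gm (D := D)) := by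
  have p : ContDiff ℂ ∞ fun a : WW D => a.2.2.1 + a.2.2.2.2 • a.2.2.2.1 := by fun_prop
  refine p.add (ContDiff.sum fun b _ => ContDiff.sub (contDiff_pi.2 fun i => ?_) p)
  have c : ContDiff ℂ ∞ fun a : WW D => a.2.1 b • a.1 b := by fun_prop
  exact ContDiff.sum (s := Finset.univ) fun k _ =>
    ((sm_RQ (D.Q b) i k).comp c).mul (contDiff_pi.1 p k)

theorem Gm_cj (a : WW D) : Gm (star a) = star (Gm a) := by
  simp only [Gm, star_add, star_sum, star_sub, ← RQ_cj, star_smul]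
  rfl

theorem Gm_zero {a : WW D} (h : ∀ b, a.2.1 b • a.1 b = 0) :
    Gm a = a.2.2.1 + a.2.2.2.2 • a.2.2.2.1 := by
  simp [Gm, h, RQ_zero]

theorem hasDerivAt_line {E F : Type} [NormedAddCommGroup E] [NormedSpace ℂ E]
    [NormedAddCommGroup F] [NormedSpace ℂ F] {f : E → F} {a : E} (hf : DifferentiableAt ℂ f a)
    (h : E) : HasDerivAt (fun t : ℂ => f (a + t • h)) (fderiv ℂ f a h) 0 := by
  have d : HasDerivAt (fun t : ℂ => a + t • h) h 0 := by
    simpa using ((hasDerivAt_id (0 : ℂ)).smul_const h).const_add a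
  exact HasFDerivAt.comp_hasDerivAt_of_eq 0 hf.hasFDerivAt d (by simp)

theorem dG_zero (a : WW D) (c : Fin D.b → ℂ × ℂ) (u : ℂ)
    (h : ∀ (t : ℂ) b, a.2.1 b • (a.1 b + t • c b) = 0) :
    fderiv ℂ Gm a (c, 0, 0, 0, u) = u • a.2.2.2.1 := by
  refine (hasDerivAt_line ((smG.differentiable (by simp)) a) _).unique ?_
  have d : HasDerivAt (fun t : ℂ => a.2.2.1 + (a.2.2.2.2 + t * u) • a.2.2.2.1) (u • a.2.2.2.1) 0 := by
    simpa using ((((hasDerivAt_id (0 : ℂ)).mul_const u).const_add a.2.2.2.2).smul_const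
      a.2.2.2.1).const_add a.2.2.1
  refine d.congr_of_eventuallyEq (.of_forall fun t => ?_)
  exact (Gm_zero fun b => by simpa using h t b).trans (by simp)

end Vale.Agent.P218N.Core.JA
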