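import Vale.Agent.P218N.Core.Sys
import Mathlib.Topology.TietzeExtension

/-! The functions `ψ` which span the cokernel of the linear system. -/

open Set Filter Topology Metric MeasureTheory
open scoped RealInnerProductSpace ContDiff Matrix NNReal

noncomputable section

namespace Vale.Agent.P218N.Core

open Vale.Agent.P218.H313 Vale.Agent.P218N.H Vale.Agent.P218N.End Vale.Agent.P272.K.LIN

set_option linter.unusedSectionVars false

variable {w : E3 → ℝ} {D : EndData w} {G : Geo D} {zm : ℝ}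

namespace KerP

/-! ### Abstract lemmas -/

section cpt
variable {E F H : Type} [NormedAddCommGroup E] [NormedSpace ℂ E] [NormedAddCommGroup F]
  [NormedSpace ℂ F] [NormedAddCommGroup H] [NormedSpace ℂ H] {A B : E →L[ℂ] F}

theorem cpt_add (hA : IsCompactOperator A) (hB : IsCompactOperator B) :
    IsCompactOperator (A + B : E →L[ℂ] F) := hA.add hB

theorem cpt_sub (hA : IsCompactOperator A) (hB : IsCompactOperator B) :
    IsCompactOperator (A - B : E →L[ℂ] F) := hA.sub hB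

theorem cpt_l (T : F →L[ℂ] H) (hA : IsCompactOperator A) : IsCompactOperator (T.comp A) :=
  hA.clm_comp T

theorem cpt_r (T : H →L[ℂ] E) (hA : IsCompactOperator A) : IsCompactOperator (A.comp T) :=
  hA.comp_clm T

end cpt

theorem fin_ker (hA : AbsStmt) {U H W P : Type} [NormedAddCommGroup U] [NormedSpace ℂ U]
    [NormedAddCommGroup H] [NormedSpace ℂ H] [NormedAddCommGroup W] [NormedSpace ℂ W]
    [NormedAddCommGroup P] [NormedSpace ℂ P] [CompleteSpace U] [CompleteSpace W]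
    [FiniteDimensional ℂ P] (𝓛 : U ≃L[ℂ] H) (K1 : U × W × P →L[ℂ] H) (K2 : U × W × P →L[ℂ] W)
    (h1 : IsCompactOperator K1) (h2 : IsCompactOperator K2) :
    ∃ K : Submodule ℂ (U × W × P), FiniteDimensional ℂ K ∧
      ∀ a, a ∈ K ↔ 𝓛 a.1 + K1 a = 0 ∧ a.2.1 = K2 a := by
  have := FiniteDimensional.complete ℂ P
  have := FiniteDimensional.proper ℂ P
  have h3 := isCompactOperator_of_locallyCompactSpace_dom
    ((ContinuousLinearMap.snd ℂ W P).comp (ContinuousLinearMap.snd ℂ U (W × P)))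
  refine ⟨_, (hA ℂ (U × W × P)).fin _ (cpt_sub (cpt_sub
    (cpt_l ((ContinuousLinearMap.inl ℂ U (W × P)).comp (𝓛.symm : H →L[ℂ] U)) h1)
    (cpt_l ((ContinuousLinearMap.inr ℂ U (W × P)).comp (ContinuousLinearMap.inl ℂ W P)) h2))
    (cpt_l ((ContinuousLinearMap.inr ℂ U (W × P)).comp (ContinuousLinearMap.inr ℂ W P)) h3)),
    fun a => ?_⟩
  rw [← 𝓛.symm.map_eq_zero_iff, map_add, 𝓛.symm_apply_apply, ← sub_eq_zero (a := a.2.1)]
  simp [Prod.ext_iff, sub_eq_add_neg]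

theorem real_basis {Y : Type} {ϖ : Y → Y → ℝ≥0} (K W : Submodule ℂ (Hol ϖ ℂ))
    [FiniteDimensional ℂ K] (hle : K ≤ W) (hcj : ∀ h ∈ W, cjH h ∈ W) :
    ∃ (N : ℕ) (k : Fin N → Hol ϖ ℂ), (∀ i, k i ∈ W ∧ ∀ x, (k i x).im = 0) ∧
      LinearIndependent ℂ k ∧ ∀ h ∈ K, ∃ μ : Fin N → ℂ, ∑ i, μ i • k i = h := by
  obtain ⟨s, hs⟩ := (Submodule.fg_iff_finiteDimensional K).2 inferInstance
  set re : Hol ϖ ℂ → Hol ϖ ℂ := fun h => (2⁻¹ : ℂ) • (h + cjH h) with hre
  set A := re '' s ∪ (fun h => re (Complex.I • h)) '' s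
  have : Module.Finite ℂ (Submodule.span ℂ A) := FiniteDimensional.span_of_finite ℂ
    ((s.finite_toSet.image _).union (s.finite_toSet.image _))
  have h1 : ∀ h ∈ W, re h ∈ W ∧ ∀ x, (re h x).im = 0 := fun h hh =>
    ⟨W.smul_mem _ (W.add_mem hh (hcj h hh)), fun x => by simp [hre]⟩
  have h2 : ∀ h ∈ s, h ∈ W := fun h hh => hle (hs ▸ Submodule.subset_span hh)
  obtain ⟨k, k1, k2, k3⟩ := Submodule.exists_fun_fin_finrank_span_eq ℂ A
  refine ⟨_, k, fun i => ?_, k3, fun h hh => (Submodule.mem_span_range_iff_exists_fun ℂ).1 ?_⟩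
  · obtain ⟨h, hh, e⟩ | ⟨h, hh, e⟩ := k1 i
    · exact e ▸ h1 h (h2 h hh)
    · exact e ▸ h1 _ (W.smul_mem _ (h2 h hh))
  · rw [k2]
    refine Submodule.span_le.2 (fun h hh => ?_) (hs ▸ hh)
    have e : h = re h - Complex.I • re (Complex.I • h) := Hol.ext fun x => by
      apply Complex.ext <;> simp [hre] <;> ring
    rw [e]
    exact Submodule.sub_mem _ (Submodule.subset_span (Or.inl ⟨h, hh, rfl⟩))
      (Submodule.smul_mem _ _ (Submodule.subset_span (Or.inr ⟨h, hh, rfl⟩)))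

/-! ### Functions on the surface -/

theorem closed_S (G : Geo D) : IsClosed (SS w) :=
  isClosed_eq G.shr.smooth.continuous continuous_const

/-- extension to the ambient space -/
theorem exists_ext {f : E3 → ℝ} {R : ℝ} (hf : ContinuousOn f (SS w))
    (h0 : ∀ p, w p = 0 → R ≤ G.σ p → f p = 0) :
    ∃ g : E3 → ℝ, Continuous g ∧ HasCompactSupport g ∧ ∀ p, w p = 0 → g p = f p := by
  obtain ⟨g, hg⟩ := ContinuousMap.exists_restrict_eq (closed_S G) ⟨_, hf.domRestrict⟩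
  obtain ⟨χ, h1, -, h2, -⟩ := exists_continuous_one_zero_of_isCompact (G.cpt R) isClosed_empty
    (disjoint_empty _)
  refine ⟨fun p => χ p * g p, by fun_prop, h2.mul_right, fun p hp => ?_⟩
  have e : g p = f p := congrArg (fun F : C(SS w, ℝ) => F ⟨p, hp⟩) hg
  rcases le_total R (G.σ p) with h | h
  · simp [e, h0 p hp h]
  · simp [e, h1 (show p ∈ {p | w p = 0 ∧ G.σ p ≤ R} from ⟨hp, h⟩)]

theorem bdd_of {ψ : E3 → ℂ} {R : ℝ} (h0 : ∀ p, w p = 0 → R ≤ G.σ p → ψ p = 0) : Bdd w ψ := by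
  obtain ⟨C, hC⟩ := (G.cpt R).isBounded.exists_norm_le
  refine ⟨C + 1, fun p hp h => h0 p hp ?_⟩
  by_contra h1
  have := hC p ⟨hp, (not_le.1 h1).le⟩
  linarith

theorem ip_congr {f g f' g' : E3 → ℂ} (h : ∀ p, w p = 0 → f p * g p = f' p * g' p) :
    G.ip f g = G.ip f' g' :=
  setIntegral_congr_fun (closed_S G).measurableSet fun p hp => by simp only [h p hp]

theorem ip_zero {f g : E3 → ℂ} (h : ∀ p, w p = 0 → f p * g p = 0) : G.ip f g = 0 := by
  rw [ip_congr (f' := 0) (g' := 0) fun p hp => by simpa using h p hp]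
  simp [Geo.ip]

theorem ip_sum (I : InvF G zm) (V : VarF G) {ι : Type} [Fintype ι] {f : ι → E3 → ℂ} {g : E3 → ℂ}
    {R : ℝ} (hf : ∀ k, ContinuousOn (f k) (SS w)) (hg : ContinuousOn g (SS w))
    (h0 : ∀ k p, w p = 0 → R ≤ G.σ p → f k p * g p = 0) (c : ι → ℂ) :
    G.ip (fun p => ∑ k, c k * f k p) g = ∑ k, c k * G.ip (f k) g := by
  simp only [Geo.ip, Finset.sum_mul, ← integral_const_mul]
  rw [integral_finsetSum]
  · simp only [mul_assoc]
  · exact fun k _ => V.int _ (((continuousOn_const.mul (hf k)).mul hg).mul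
      (Complex.continuous_ofReal.comp_continuousOn I.om_cont))
      (bdd_of (G := G) fun p hp h => by rw [mul_assoc (c k), h0 k p hp h]; simp)

theorem c2_pt {u : E3 → ℂ} (hu : C2S w u) (e : En D) {q : R2} (h : G.z0 + 1 ≤ q.1) :
    ContDiffAt ℝ 2 (fun z => u (pt e z)) q := by
  have := hu _ _ (G.mem_ep e (q := q) (by linarith))
  rwa [G.ep_φ] at this

variable (G zm) in
/-- solutions of moderate growth -/
structure Sol (u f : E3 → ℂ) : Prop where
  c2 : C2S w u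
  md : G.Mod u
  eq : ∀ p, w p = 0 → G.LG zm u p = f p

namespace Sol

variable {u v f g : E3 → ℂ}

theorem congr (h : Sol G zm u f) (e : ∀ p, w p = 0 → f p = g p) : Sol G zm u g :=
  ⟨h.c2, h.md, fun p hp => (h.eq p hp).trans (e p hp)⟩

theorem zero : Sol G zm (fun _ => 0) fun _ => 0 :=
  ⟨fun _ _ _ => contDiffAt_const, ⟨0, fun e q _ => by simp [jet2_zero, T1_zero]⟩, fun p _ => by
    simp [Geo.LG, Geo.jG, jet2_zero]⟩

theorem add (h : Sol G zm u f) (h' : Sol G zm v g) :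
    Sol G zm (fun p => u p + v p) fun p => f p + g p := by
  refine ⟨fun P y hy => (h.c2 P y hy).add (h'.c2 P y hy), ?_, fun p hp => ?_⟩
  · obtain ⟨a, ha⟩ := h.md
    obtain ⟨b, hb⟩ := h'.md
    refine ⟨a + b, fun e q hq => ?_⟩
    rw [jet2_add (c2_pt h.c2 e hq) (c2_pt h'.c2 e hq), ← T1L_apply, map_add, T1L_apply, T1L_apply,
      add_mul]
    exact norm_add_le_of_le (ha e q hq) (hb e q hq)
  · rw [← h.eq p hp, ← h'.eq p hp]
    simp only [Geo.LG, Geo.jG]
    rw [jet2_add (h.c2 _ _ (G.pa_O hp).1) (h'.c2 _ _ (G.pa_O hp).1), map_add]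

theorem cmul (h : Sol G zm u f) (c : ℂ) : Sol G zm (fun p => c * u p) fun p => c * f p := by
  refine ⟨fun P y hy => contDiffAt_const.mul (h.c2 P y hy), ?_, fun p hp => ?_⟩
  · obtain ⟨a, ha⟩ := h.md
    refine ⟨‖c‖ * a, fun e q hq => ?_⟩
    rw [jet2_smul c (c2_pt h.c2 e hq), T1_smul, norm_smul, mul_assoc]
    exact mul_le_mul_of_nonneg_left (ha e q hq) (norm_nonneg c)
  · rw [← h.eq p hp]
    simp only [Geo.LG, Geo.jG]
    rw [jet2_smul c (h.c2 _ _ (G.pa_O hp).1), map_smul, smul_eq_mul]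

theorem star (J : JetF D) (I : InvF G zm) (h : Sol G zm u f) :
    Sol G zm (fun p => star (u p)) fun p => star (f p) := by
  have e : ∀ {F : R2 → ℂ} {y : R2}, ContDiffAt ℝ 2 F y →
      jet2 (fun z => Star.star (F z)) y = Star.star (jet2 F y) := fun hF =>
    jet2_clm (Complex.conjCLE : ℂ →L[ℝ] ℂ) hF
  refine ⟨fun P y hy => (Complex.conjCLE.contDiff.contDiffAt.comp y (h.c2 P y hy)), ?_,
    fun p hp => ?_⟩
  · obtain ⟨a, ha⟩ := h.md
    refine ⟨a, fun e' q hq => ?_⟩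
    rw [e (c2_pt h.c2 e' hq), ← star_T1, norm_star]
    exact ha e' q hq
  · obtain ⟨-, h1, h2, -⟩ := I.base _ _ (G.pa_O hp).1
    rw [← h.eq p hp]
    simp only [Geo.LG, Geo.jG]
    rw [e (h.c2 _ _ (G.pa_O hp).1), J.Lh_cj _ h1 h2]

theorem sum {ι : Type} [Fintype ι] {u f : ι → E3 → ℂ} (h : ∀ i, Sol G zm (u i) (f i)) (c : ι → ℂ) :
    Sol G zm (fun p => ∑ i, c i * u i p) fun p => ∑ i, c i * f i p := by
  classical
  induction (Finset.univ : Finset ι) using Finset.induction_on with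
  | empty => simpa using zero
  | insert i s hi ih => simpa only [Finset.sum_insert hi] using ((h i).cmul (c i)).add ih

end Sol

variable (G zm) in
/-- the cutoff function of the kernel -/
def be (p : E3) : ℂ := 1 - (cut zm 0 (G.σ p) : ℝ)

theorem be_hi {p : E3} (h : zm + 1 ≤ G.σ p) : be G zm p = 0 := by
  rw [be, cut_one (by push_cast; linarith)]; simp

theorem be_lo {p : E3} (h : G.σ p ≤ zm + 1 / 3) : be G zm p = 1 := by
  rw [be, cut_zero (by push_cast; linarith)]; simp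

theorem be_cont : Continuous (be G zm) :=
  continuous_const.sub ((Ctx.contDiff_cutC 0).continuous.comp G.σ_sm.continuous)

theorem pos (I : InvF G zm) (V : VarF G) {k : E3 → ℂ} (hk : ContinuousOn k (SS w))
    (h : G.ip (fun p => be G zm p * k p) (fun p => star (k p)) = 0) :
    ∀ p, w p = 0 → be G zm p * k p = 0 := by
  have e : ∀ p, be G zm p * k p * star (k p) * (G.om p : ℝ) =
      (((1 - cut zm 0 (G.σ p)) * ‖k p‖ ^ 2 * G.om p : ℝ) : ℂ) := fun p => by
    rw [mul_assoc (be G zm p), Complex.star_def, Complex.mul_conj', be]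
    push_cast
    rfl
  simp only [Geo.ip, e, integral_complex_ofReal, Complex.ofReal_eq_zero] at h
  obtain ⟨R, hR⟩ := bdd_of (G := G) (R := zm + 1) (ψ := be G zm) fun p _ h => be_hi h
  intro p hp
  have h1 := V.pos _ ((((continuous_const.sub ((contDiff_cut zm 0).continuous.comp
    G.σ_sm.continuous)).continuousOn).mul (hk.norm.pow 2)).mul I.om_cont)
    ⟨R, fun p hp h => by
      have := hR p hp h
      rw [be, sub_eq_zero] at this
      simp [← (by exact_mod_cast this : 1 = cut zm 0 (G.σ p))]⟩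
    (fun p hp => mul_nonneg (mul_nonneg (sub_nonneg.2 cut_le_one) (sq_nonneg _))
      (I.om_pos p hp).le) h p hp
  simp only [Pi.mul_apply, Pi.pow_apply, mul_eq_zero, (I.om_pos p hp).ne', or_false,
    pow_eq_zero_iff two_ne_zero, norm_eq_zero] at h1
  refine mul_eq_zero.2 (h1.imp_left fun h2 => ?_)
  rw [be]
  exact_mod_cast h2

theorem rotN_lo (c : Cc D) {p : E3} (h : G.σ p ≤ zm + 2) : G.rotN zm c p = 0 := by
  rw [Geo.rotN, cut_zero (by push_cast; linarith)]; simp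

variable {X : Type} [TopologicalSpace X] [ChartedSpace R2 X] [T2Space X] [CompactSpace X]
  [RSm R2 X] (C : Ctx2 G zm X)

theorem tot_lo (v : C.U) (Yf : En D → R2 → ℂ) {p : E3} (h : G.σ p ≤ zm + 3) :
    C.tot v Yf p = C.dv v p := by
  rw [Ctx.tot, cut_zero (by push_cast; linarith)]; simp

theorem up_b1 {f : E3 → ℂ} (h0 : ∀ p, w p = 0 → zm + 2 ≤ G.σ p → f p = 0) (x : X) :
    C.Z.upF f x = C.b1 x * f (C.Z.pr x) := by
  unfold Dbl.upF
  split_ifs with h
  · rcases le_total (zm + 2) (G.σ (C.Z.pr x)) with h1 | h1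
    · rw [h0 _ (C.Z.mem x).1 h1, mul_zero]
    · rw [C.b1_one h (by linarith), one_mul]
  · rw [C.b1_apply, if_neg h, zero_mul]

include C in
theorem LG_rot (c : Cc D) (e : En D) {q : R2} (hq : zm + 3 ≤ q.1) :
    G.LG zm (G.rotN zm c) (pt e q) = 0 := by
  have h0 : G.z0 < q.1 := by linarith [C.hz]
  have h1 := (C.rot c).2.2 _ _ (G.mem_ep e h0)
  have h2 := (C.iv.base _ _ (G.mem_ep e h0)).2.1
  rw [G.ep_φ] at h1 h2
  obtain ⟨r, r0, hr⟩ := C.ef.pos e q h0
  have h3 : ∀ c', Mh (G.bJ zm (pt e) q + embL D (ContinuousLinearMap.inl ℂ _ _ c')) =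
      G.s e * EP e q (jy e q) / r := fun c' => by
    have := C.ef.eq e q c' 0 h0 (Or.inr hq)
    rw [smul_zero, add_zero, hr] at this
    rw [ContinuousLinearMap.inl_apply, embL_apply, ← this,
      mul_div_cancel_right₀ _ (by exact_mod_cast r0.ne')]
  have h4 := HasFDerivAt.comp (0 : Cc D) (g := Mh)
    (by simpa [emb_zero] using (C.jf.dMh.differentiableAt (C.jf.opn.mem_nhds h2)).hasFDerivAt)
    (((embL D).comp (ContinuousLinearMap.inl ℂ _ _)).hasFDerivAt.const_add (G.bJ zm (pt e) q))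
  have h5 := h4.unique ((hasFDerivAt_const _ _).congr_of_eventuallyEq (Eventually.of_forall h3))
  rw [← h1, ← embL_apply]
  exact congrArg (fun L : Cc D →L[ℂ] ℂ => L c) h5

theorem Dc_eq (F : C.OpS) (c : Cc D) (x : X) :
    C.Dc c x = C.b1 x * G.LG zm (G.rotN zm c) (C.Z.pr x) := by
  obtain ⟨r, r0, h⟩ := F.sm Mh C.jf.dMh
  rw [← F.sum_b1, Finset.sum_mul]
  refine (h.der 0 (mem_ball_self r0) (c, 0) x).trans (Finset.sum_congr rfl fun i hi => ?_)
  by_cases hρ : C.Z.pou.ρ i x = 0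
  · simp [hρ]
  obtain ⟨h1, h2⟩ := F.pt_eq i hi x hρ
  have e : (fun k => C.mI i 0 k x) = 0 := by rw [map_zero]; rfl
  rw [← h2, ← (C.rot c).2.2 _ _ h1, Ctx.aX, Prod.snd_zero, Prod.fst_zero, e, emb_zero, add_zero]

variable {Φ : Fin D.b → E3 → ℂ} {gb : Fin D.b → ℝ}

/-- the total function, corrected by the rotations and the slow solutions -/
def uu (Φ : Fin D.b → E3 → ℂ) (v : C.U) (g : WE D) (lam : Fin D.b → ℂ) (c : Cc D) (p : E3) : ℂ :=
  C.ti v g p + G.rotN zm c p + ∑ b, -lam b * Φ b p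

variable {C}

theorem be_uu (hΦ : C.PhiF Φ gb) (v : C.U) (g : WE D) (lam : Fin D.b → ℂ) (c : Cc D) {p : E3}
    (hp : w p = 0) : be G zm p * uu C Φ v g lam c p = be G zm p * C.dv v p := by
  rcases le_total (zm + 1) (G.σ p) with h | h
  · rw [be_hi h, zero_mul, zero_mul]
  · rw [uu, rotN_lo c (by linarith), Ctx2.ti, tot_lo C _ _ (by linarith)]
    simp [hΦ.lo _ p hp h]

theorem LΦ_hi (hΦ : C.PhiF Φ gb) (b : Fin D.b) (p : E3) (hp : w p = 0) (h : zm + 2 ≤ G.σ p) :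
    G.LG zm (Φ b) p = 0 := hΦ.spt b p hp fun h' => absurd h'.2 (not_lt.2 h)

theorem sol (F : C.Facts) (hΦ : C.PhiF Φ gb) {v : C.U} {g : WE D} {lam : Fin D.b → ℂ} {c : Cc D}
    {f0 : E3 → ℂ} (h0 : ∀ p, w p = 0 → zm + 2 ≤ G.σ p → f0 p = 0)
    (h1 : ∀ x, C.L0 (v, C.Ti g) x + C.Dc c x =
      C.b1 x * (f0 (C.Z.pr x) + ∑ b, lam b * G.LG zm (Φ b) (C.Z.pr x)))
    (h2 : g = C.GamL (v, C.Ti g)) : Sol G zm (uu C Φ v g lam c) f0 := by
  obtain ⟨a1, -, a2, -, -, a3⟩ := F.lin (fun e m => C.Gi e m (g e)) v (C.Ti g)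
    (fun p => f0 p + ∑ b, lam b * G.LG zm (Φ b) p - G.LG zm (G.rotN zm c) p) 0
    (fun e => (C.lf e).fam _) (fun _ => rfl) (fun T e q hq => by
      have b0 : G.z0 < q.1 := by linarith [C.hz, hq.1]
      have b1 : zm + 2 ≤ G.σ (pt e q) := by rw [G.σ_pt e q b0]; linarith [hq.1]
      simp [h0 _ (G.pt_mem e b0) b1, LΦ_hi hΦ _ _ (G.pt_mem e b0) b1, LG_rot C c e hq.1.le])
    (fun x => by rw [mul_sub, ← h1, ← Dc_eq C F.op, add_sub_cancel_right])
    (fun e m hm => by rw [← h2, Pi.zero_apply, add_zero, (C.lf e).eq m _ (by omega)])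
  refine (((Sol.mk a1 a2 a3).add ⟨(C.rot c).1, (C.rot c).2.1, fun _ _ => rfl⟩).add (Sol.sum
    (fun b => ⟨hΦ.c2 b, hΦ.md b, fun _ _ => rfl⟩) fun b => -lam b)).congr fun p _ => ?_
  simp

variable (C) in
/-- the cut off Jacobi fields -/
def WJ : Submodule ℂ C.H where
  carrier := {h | ∃ k, Sol G zm k (fun _ => 0) ∧ ∀ x, h x = C.Z.upF (fun p => be G zm p * k p) x}
  add_mem' := by
    rintro h h' ⟨k, h1, h2⟩ ⟨k', h1', h2'⟩
    refine ⟨_, (h1.add h1').congr fun _ _ => add_zero _, fun x => ?_⟩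
    simp only [Hol.add_apply, h2, h2', Dbl.upF]
    split_ifs <;> ring
  zero_mem' := ⟨_, Sol.zero, fun x => by simp [Dbl.upF]⟩
  smul_mem' := by
    rintro c h ⟨k, h1, h2⟩
    refine ⟨_, (h1.cmul c).congr fun _ _ => mul_zero _, fun x => ?_⟩
    simp only [Hol.smul_apply, h2, Dbl.upF, smul_eq_mul]
    split_ifs <;> ring

theorem cj_WJ : ∀ h ∈ WJ C, cjH h ∈ WJ C := by
  rintro h ⟨k, h1, h2⟩
  refine ⟨_, (h1.star C.jf C.iv).congr fun _ _ => star_zero _, fun x => ?_⟩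
  simp only [cjH_apply, h2, Dbl.upF]
  split_ifs <;> simp [be]

variable (C) in
/-- the cutoff function on the double -/
def b0 : C.H := C.cH fun ζ => 1 - (cut zm 0 ζ : ℝ)

theorem b0_mul (v : C.U) (x : X) :
    (b0 C * Uv _ v) x = C.Z.upF (fun p => be G zm p * C.dv v p) x := by
  rw [Hol.mul_apply, b0, C.cH_apply (contDiff_const.sub (Ctx.contDiff_cutC 0))
    fun ζ h => by rw [cut_one (by push_cast; linarith)]; simp]
  unfold Dbl.upF
  split_ifs with h
  · rw [← C.dv_pr v h]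
    rfl
  · rw [zero_mul]

/-- the finite dimensional space of cut off Jacobi fields -/
theorem exists_basis (F : C.Facts) (hΦ : C.PhiF Φ gb) {ψ1 : Fin D.b → C.H}
    (hψ : ∀ b x, ψ1 b x = C.Z.upF (G.LG zm (Φ b)) x) : ∃ (N : ℕ) (k : Fin N → C.H),
    (∀ i, k i ∈ WJ C ∧ ∀ x, (k i x).im = 0) ∧ LinearIndependent ℂ k ∧
    ∀ v g lam c, C.L0 (v, C.Ti g) + C.Dc c = C.sH ψ1 lam → g = C.GamL (v, C.Ti g) →
      ∃ μ : Fin N → ℂ, ∑ i, μ i • k i = b0 C * Uv _ v := by
  obtain ⟨𝓛, K0, hK0, hL⟩ := F.op.ell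
  have := C.hf.complete
  set zz : C.U × WE D × ((Fin D.b → ℂ) × Cc D) →L[ℂ] C.U × JJ D zm :=
    (ContinuousLinearMap.fst ℂ _ _).prod
      (C.Ti.comp ((ContinuousLinearMap.fst ℂ _ _).comp (ContinuousLinearMap.snd ℂ _ _)))
  set t3 : C.U × WE D × ((Fin D.b → ℂ) × Cc D) →L[ℂ] (Fin D.b → ℂ) × Cc D :=
    (ContinuousLinearMap.snd ℂ _ _).comp (ContinuousLinearMap.snd ℂ _ _)
  obtain ⟨K, hK, mK⟩ := fin_ker C.abs 𝓛 _ _ (cpt_add (cpt_r zz hK0) (cpt_l
    (C.Dc.comp (ContinuousLinearMap.snd ℂ _ _) - (C.sH ψ1).comp (ContinuousLinearMap.fst ℂ _ _))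
    (isCompactOperator_of_locallyCompactSpace_dom t3))) (cpt_r zz F.gam.cpt)
  have mK' : ∀ a, a ∈ K ↔ C.L0 (a.1, C.Ti a.2.1) + C.Dc a.2.2.2 = C.sH ψ1 a.2.2.1 ∧
      a.2.1 = C.GamL (a.1, C.Ti a.2.1) := fun a => by
    rw [mK, hL, ← sub_eq_zero (b := C.sH ψ1 a.2.2.1), add_assoc, add_sub_assoc, add_sub_assoc]
    rfl
  obtain ⟨N, k, h1, h2, h3⟩ := real_basis (K.map ((mulA (b0 C)).comp ((Uv _).comp
    (ContinuousLinearMap.fst ℂ C.U (WE D × ((Fin D.b → ℂ) × Cc D))))).toLinearMap) (WJ C) (by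
      rintro _ ⟨a, ha, rfl⟩
      obtain ⟨a1, a2⟩ := (mK' a).1 ha
      refine ⟨_, sol (lam := a.2.2.1) (c := a.2.2.2) F hΦ (fun _ _ _ => rfl) (fun x => ?_) a2,
        fun x => (b0_mul a.1 x).trans ?_⟩
      · rw [← Hol.add_apply, a1, C.sH_apply, zero_add, Finset.mul_sum]
        exact Finset.sum_congr rfl fun b _ => by rw [hψ, up_b1 C (LΦ_hi hΦ b), mul_left_comm]
      · simp only [Dbl.upF, be_uu hΦ _ _ _ _ (C.Z.mem x).1]) cj_WJ
  exact ⟨N, k, h1, h2, fun v g lam c a1 a2 =>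
    h3 _ ⟨(v, g, lam, c), (mK' _).2 ⟨a1, a2⟩, rfl⟩⟩

end KerP

open KerP in
/-- the functions `ψ` -/
theorem Ctx2.kerS {X : Type} [TopologicalSpace X] [ChartedSpace R2 X] [T2Space X] [CompactSpace X]
    [RSm R2 X] (C : Ctx2 G zm X) : C.KerS := by
  intro F Φ gb hΦ
  have hψ : ∀ b x, mkH (C.Z.𝒞.w (1 / 2)) (C.Z.upF (G.LG zm (Φ b))) x = _ := fun b x =>
    mkH_apply _ (hΦ.c1 b) x
  obtain ⟨N, k, hk, hind, hspan⟩ := exists_basis F hΦ hψ
  choose κ hκ hκ' using fun i => (hk i).1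
  set ψh : Fin N ⊕ Fin D.b → C.H :=
    Sum.elim k fun b => mkH (C.Z.𝒞.w (1 / 2)) (C.Z.upF (G.LG zm (Φ b))) with hψh
  set f : Fin N ⊕ Fin D.b → E3 → ℂ :=
    Sum.elim (fun i p => be G zm p * κ i p) fun b => G.LG zm (Φ b) with hf
  have cΦ := fun b => C.iv.cont _ _ (hΦ.c2 b) (hΦ.c2 b)
  have f1 : ∀ j, ContinuousOn (f j) (SS w) := by
    rintro (i | b)
    exacts [be_cont.continuousOn.mul (C.iv.cont _ _ (hκ i).c2 (hκ i).c2).1, (cΦ b).2.1]
  have f2 : ∀ j p, w p = 0 → zm + 2 ≤ G.σ p → f j p = 0 := by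
    rintro (i | b) p hp h
    exacts [mul_eq_zero_of_left (be_hi (by linarith)) _, LΦ_hi hΦ b p hp h]
  have f3 : ∀ j x, ψh j x = C.Z.upF (f j) x := by
    rintro (i | b) x
    exacts [hκ' i x, hψ b x]
  have f4 : ∀ j p, w p = 0 → (f j p).im = 0 := by
    rintro (i | b) p hp
    · rcases le_or_gt (zm + 2) (G.σ p) with h | h
      · rw [f2 _ p hp h, Complex.zero_im]
      · obtain ⟨x, rfl, hx⟩ := C.tf.ex p hp (by linarith)
        simpa only [hκ', Dbl.upF, if_pos hx, hf, Sum.elim_inl] using (hk i).2 x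
    · exact hΦ.real b p hp
  have ind : ∀ μ : Fin N → ℂ, (∀ p, w p = 0 → ∑ i, μ i * f (.inl i) p = 0) → ∀ i, μ i = 0 :=
    fun μ h => Fintype.linearIndependent_iff.1 hind μ (Hol.ext fun x => by
      simp only [Hol.sum_apply, Hol.smul_apply, hκ', Dbl.upF, smul_eq_mul, Hol.zero_apply]
      split_ifs
      · exact h _ (C.Z.mem x).1
      · simp)
  have pr : ∀ (μ : Fin D.b → ℂ) b, G.ip (fun p => ∑ b', μ b' * Φ b' p) (G.LG zm (Φ b)) =
      gb b * μ b := fun μ b => by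
    rw [ip_sum C.iv C.vf (fun b => (cΦ b).1) (cΦ b).2.1
      fun _ p hp h => mul_eq_zero_of_right _ (LΦ_hi hΦ b p hp h)]
    simp [hΦ.ip, mul_comm]
  choose ψ c1 c2 c3 using fun j => exists_ext (G := G) (f := fun p => (f j p).re)
    (Complex.continuous_re.comp_continuousOn (f1 j)) fun p hp h => by
      rw [f2 j p hp h, Complex.zero_re]
  have e : ∀ j p, w p = 0 → cF (ψ j) p = f j p := fun j p hp =>
    Complex.ext (c3 j p hp) (f4 j p hp).symm
  choose l0 hl0 using fun j => C.tf.int (fun p => f j p * (G.om p : ℝ))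
    ((f1 j).mul (Complex.continuous_ofReal.comp_continuousOn C.iv.om_cont))
    fun p hp h => by rw [f2 j p hp (by linarith), zero_mul]
  have l1 : ∀ j v, (l0 j).comp (Uv _) v = G.ip (C.dv v) (f j) := fun j v => by
    simp only [ContinuousLinearMap.comp_apply, hl0, Geo.ip, mul_assoc, Ctx.dv]
  have l2 : ∀ j v Yf, G.ip (C.tot v Yf) (cF (ψ j)) = (l0 j).comp (Uv _) v := fun j v Yf => by
    rw [l1]
    refine ip_congr fun p hp => ?_
    rw [e j p hp]
    rcases le_total (zm + 2) (G.σ p) with h | h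
    · rw [f2 j p hp h, mul_zero, mul_zero]
    · rw [tot_lo C _ _ (by linarith)]
  refine ⟨N, ψ, ψh, fun j => (l0 j).comp (Uv _), c1, c2,
    fun j p hp h => by rw [c3 j p hp, f2 j p hp h, Complex.zero_re], fun μ hμ => ?_,
    fun j x => by simp only [f3, Dbl.upF, e j _ (C.Z.mem x).1],
    fun j v => (l1 j v).trans (ip_congr fun p hp => by rw [e j p hp]), l2,
    fun v g lm c h1 h2 h3 => ?_⟩
  · have a1 : ∀ p, w p = 0 → ∑ i, (μ (.inl i) : ℂ) * f (.inl i) p +
        ∑ b, (μ (.inr b) : ℂ) * f (.inr b) p = 0 := fun p hp => by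
      rw [← Fintype.sum_sum_type fun j => (μ j : ℂ) * f j p]
      simp only [← e _ p hp, cF]
      exact_mod_cast hμ p hp
    have a2 : ∀ b, μ (.inr b) = 0 := fun b => by
      have b1 := ip_sum C.iv C.vf (fun b => f1 (.inr b)) (cΦ b).1
        (fun b' p hp h => mul_eq_zero_of_left (f2 _ p hp h) _) fun b => μ (.inr b)
      have b2 : ∀ b', G.ip (f (.inr b')) (Φ b) = if b = b' then (gb b' : ℂ) else 0 := fun b' =>
        (ip_congr fun _ _ => mul_comm _ _).trans (hΦ.ip b b')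
      rw [ip_zero fun p hp => ?_] at b1
      · simpa [b2, hΦ.ne b] using b1
      rcases le_total (zm + 1) (G.σ p) with h | h
      · rw [eq_neg_of_add_eq_zero_right (a1 p hp)]
        simp [hf, be_hi h]
      · rw [hΦ.lo b p hp h, mul_zero]
    funext j
    rcases j with i | b
    · exact_mod_cast ind (fun i => μ (.inl i)) (fun p hp => by simpa [a2] using a1 p hp) i
    · exact a2 b
  have s1 : Sol G zm (uu C Φ v g (fun b => lm (.inr b)) c)
      fun p => ∑ i, lm (.inl i) * f (.inl i) p :=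
    sol F hΦ (fun p hp h => by simp [f2 _ p hp h]) (fun x => by
      rw [← Hol.add_apply, h1, C.sH_apply, Fintype.sum_sum_type, mul_add, Finset.mul_sum,
        Finset.mul_sum]
      simp only [f3, up_b1 C (f2 _), mul_left_comm (C.b1 x)]
      rfl) h2
  have cu := (C.iv.cont _ _ s1.c2 s1.c2).1
  have a1 : ∀ i, lm (.inl i) = 0 := by
    have s2 := Sol.sum hκ fun i => lm (.inl i)
    have s3 := (s2.star C.jf C.iv).congr (g := fun _ => 0) fun _ _ => by simp
    have b1 : ∀ p, ∑ i, lm (.inl i) * f (.inl i) p = be G zm p * ∑ i, lm (.inl i) * κ i p :=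
      fun p => by simp only [hf, Sum.elim_inl, Finset.mul_sum, mul_left_comm]
    have b2 := C.gf.inf _ _ s1.c2 s3.c2 s1.md s3.md
      (bdd_of (G := G) (R := zm + 2) fun p hp h => by simp [s1.eq p hp, f2 _ p hp h])
      (bdd_of (G := G) (R := 0) fun p hp _ => s3.eq p hp)
    rw [ip_zero (g := G.LG zm _) fun p hp => mul_eq_zero_of_right _ (s3.eq p hp)] at b2
    exact ind _ fun p hp => (b1 p).trans (pos C.iv C.vf (C.iv.cont _ _ s2.c2 s2.c2).1
      ((ip_congr fun p hp => by rw [s1.eq p hp, b1]).trans b2) p hp)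
  obtain ⟨μ, hμ⟩ := hspan v g (fun b => lm (.inr b)) c (h1.trans (Hol.ext fun x => by
    simp [C.sH_apply, a1, hψh])) h2
  have a2 : ∀ p, w p = 0 → be G zm p * uu C Φ v g (fun b => lm (.inr b)) c p =
      ∑ i, μ i * f (.inl i) p := fun p hp => by
    rcases le_or_gt (zm + 2) (G.σ p) with h | h
    · simp [be_hi (show zm + 1 ≤ G.σ p by linarith), f2 _ p hp h]
    · obtain ⟨x, rfl, hx⟩ := C.tf.ex p hp (by linarith)
      have b1 := b0_mul v x
      simp only [← hμ, Hol.sum_apply, Hol.smul_apply, hκ', Dbl.upF, if_pos hx] at b1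
      rw [be_uu hΦ _ _ _ _ hp, ← b1]
      rfl
  have a3 := pos C.iv C.vf cu (by
    rw [ip_congr (f' := fun p => ∑ i, star (μ i) * f (.inl i) p)
      (g' := uu C Φ v g (fun b => lm (.inr b)) c) fun p hp => ?_,
      ip_sum C.iv C.vf (fun i => f1 _) cu fun i p hp h => mul_eq_zero_of_left (f2 _ p hp h) _]
    · refine Finset.sum_eq_zero fun i _ => mul_eq_zero_of_right _ ?_
      rw [← h3 i, l1]
      refine ip_congr fun p hp => ?_
      simp only [hf, Sum.elim_inl]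
      rw [mul_right_comm, be_uu hΦ _ _ _ _ hp]
      ring
    · have b1 := congrArg star (a2 p hp)
      simp only [star_mul', star_sum, Complex.star_def, Complex.conj_eq_iff_im.2 (f4 _ p hp)] at b1
      rw [Complex.star_def, ← b1]
      simp only [be, map_sub, map_one, Complex.conj_ofReal]
      ring)
  have a4 := C.mx _ s1.c2 s1.md (fun p hp _ => by simp [s1.eq p hp, a1])
    fun p hp h => by simpa [be_lo h] using a3 p hp
  have a5 : ∀ p, w p = 0 → C.ti v g p = ∑ b, lm (.inr b) * Φ b p - G.rotN zm c p := fun p hp => by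
    have := a4 p hp
    simp only [KerP.uu, neg_mul, Finset.sum_neg_distrib] at this
    linear_combination this
  refine ⟨a1, fun b => ?_, a5⟩
  rw [← pr (fun b => lm (.inr b)) b]
  refine (l2 _ v fun e => Yinf zm fun m => C.Gi e m (g e)).symm.trans (ip_congr fun p hp => ?_)
  rw [e _ p hp, show C.tot v _ p = _ from a5 p hp]
  rcases le_total (zm + 2) (G.σ p) with h | h
  · rw [f2 _ p hp h, LΦ_hi hΦ b p hp h, mul_zero, mul_zero]
  · rw [rotN_lo c h, sub_zero]
    rfl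

end Vale.Agent.P218N.Core
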