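import Vale.Agent.P218N.Core.Jet
import Vale.Agent.P218N.End.LagC

/-! Conservation of the torque on a cylindrical end. -/

open Set Filter Topology Complex

noncomputable section

namespace Vale.Agent.P218N.Core.Tq

open Vale.Agent.P218N.End Vale.Agent.P218N.End.Lag

section pt
variable (ζ S y q P A B a qq Q pt : ℂ)

/-- the numerator of the `ζ` component of the current -/
def tN : ℂ := (4 * ζ * (1 + y) ^ 2 * P - 2 * (1 + y) * ((1 + y) ^ 2 + q ^ 2)) * A +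
  4 * ζ * (1 + y) * P * q * B - 4 * S * (1 + y) ^ 2 * P * q * a

/-- the numerator of the `θ` component of the current -/
def tM : ℂ := q * A * (1 / 2 + 2 * (1 + y) * P) - B * (1 + y) * (1 + 8 * ζ * P ^ 2) / 2 +
  a * S⁻¹ * ((1 + y) ^ 2 * (1 + 8 * ζ * P ^ 2))

/-- the derivative of `tN` with respect to `ζ` -/
def dtN : ℂ := (4 * (1 + y) ^ 2 * P + 8 * ζ * (1 + y) * P * P + 4 * ζ * (1 + y) ^ 2 * Q -
    2 * P * ((1 + y) ^ 2 + q ^ 2) - 2 * (1 + y) * (2 * (1 + y) * P + 2 * q * pt)) * A +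
  4 * ((1 + y) * P * q + ζ * P * P * q + ζ * (1 + y) * Q * q + ζ * (1 + y) * P * pt) * B -
  4 * (S⁻¹ * (1 + y) ^ 2 * P * q + S * (2 * (1 + y) * P) * P * q + S * (1 + y) ^ 2 * Q * q +
    S * (1 + y) ^ 2 * P * pt) * a

/-- the derivative of `tM` with respect to `θ` -/
def dtM : ℂ := (qq * A - q * B) * (1 / 2 + 2 * (1 + y) * P) +
  q * A * (2 * q * P + 2 * (1 + y) * pt) - ((A * (1 + y) + B * q) * (1 + 8 * ζ * P ^ 2) +
    B * (1 + y) * (16 * ζ * P * pt)) / 2 +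
  a * S⁻¹ * (2 * (1 + y) * q * (1 + 8 * ζ * P ^ 2) + (1 + y) ^ 2 * (16 * ζ * P * pt))

/-- the Gaussian -/
def eF : ℂ := Complex.exp (-(ζ + rh 0 ζ * (1 + y) ^ 2) / 4)

theorem rh0 : rh 0 ζ = 2 := by simp [rh]

variable {ζ S}

theorem tq_id (hS : S ≠ 0) (h : S ^ 2 = ζ * 2) :
    brF (cD 0 ζ y q P) (tN ζ S y q P A B a) 1 (-(1 + 4 * (1 + y) * P) / 4)
        (dD 0 ζ y q P 0 1 P pt Q) (dtN ζ S y q P A B a Q pt) 0 +
      brF (cD 0 ζ y q P) (tM ζ S y q P A B a) 1 (-((1 + y) * q)) (dD 0 ζ y q P 0 0 q qq pt)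
        (dtM ζ S y q P A B a qq pt) 0 =
      cylE 0 ζ⁻¹ (ζ⁻¹ * (rh 0 ζ)⁻¹) (0 / 2 * (rh 0 ζ)⁻¹) (0 / 2 * ζ) y q qq (ζ * rh 0 ζ * P)
        (ζ * rh 0 ζ * Q) pt *
        ((1 + y) * A / 2 + 2 * (1 + y) ^ 2 * A * P + B * q / 2 - a * (1 + y) * q / S) := by
  obtain rfl : ζ = S ^ 2 / 2 := by rw [h]; ring
  simp only [brF, cD, dD, dB, cB, dR, tN, tM, dtN, dtM, cylE, cylD, cylB, rh0]
  field_simp
  ring

theorem tq_eq (hζ : ζ ≠ 0) (θ : ℝ) (α : C3) : tqCyl 0 ζ y q (ζ * rh 0 ζ * P) θ α =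
    eF ζ y * tN ζ (Complex.sqrt (ζ * rh 0 ζ)) y q P (-(α 0 * Real.sin θ) + α 1 * Real.cos θ)
      (α 0 * Real.cos θ + α 1 * Real.sin θ) (α 2) / Complex.sqrt (cD 0 ζ y q P) * 1 := by
  have hρ : rh 0 ζ ≠ 0 := by rw [rh0]; exact two_ne_zero
  have h1 := sqrt_ne (mul_ne_zero hζ hρ)
  have h2 := sqrt_sq (ζ * rh 0 ζ)
  rw [tqCyl, Dc_eq _ _ _ hζ hρ, eF, tN]
  generalize Complex.sqrt (ζ * rh 0 ζ) = S at *
  generalize Complex.exp _ = e
  rw [rh0] at *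
  obtain rfl : ζ = S ^ 2 / 2 := by rw [h2]; ring
  rw [div_eq_mul_inv _ (Complex.sqrt (cD _ _ _ _ _)), div_eq_mul_inv _ (Complex.sqrt (cD _ _ _ _ _))]
  generalize (Complex.sqrt (cD _ _ _ _ _))⁻¹ = d
  field_simp
  ring

end pt

section curves
variable {ζ S y q P A B : ℝ → ℂ} {g ζ' y' Q pt qq : ℂ} {τ : ℝ}

theorem hd_eF (hζ : HasDerivAt ζ (g * ζ') τ) (hy : HasDerivAt y (g * y') τ) :
    HasDerivAt (fun τ => eF (ζ τ) (y τ))
      (eF (ζ τ) (y τ) * (g * (-(ζ' + 4 * (1 + y τ) * y') / 4))) τ := by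
  simp only [eF, rh0]
  exact (((hζ.fun_add (((hy.const_add 1).fun_pow 2).const_mul 2)).fun_neg.div_const
    4).cexp).congr_deriv (by push_cast; ring)

theorem hd_tN (A B a : ℂ) (hζ : HasDerivAt ζ (g * 1) τ) (hS : HasDerivAt S (g * (S τ)⁻¹) τ)
    (hy : HasDerivAt y (g * P τ) τ) (hq : HasDerivAt q (g * pt) τ) (hP : HasDerivAt P (g * Q) τ) :
    HasDerivAt (fun τ => tN (ζ τ) (S τ) (y τ) (q τ) (P τ) A B a)
      (g * dtN (ζ τ) (S τ) (y τ) (q τ) (P τ) A B a Q pt) τ := by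
  have hu := hy.const_add 1
  have h2 := hu.fun_pow 2
  exact (((((((hζ.const_mul 4).fun_mul h2).fun_mul hP).fun_sub ((hu.const_mul 2).fun_mul
    (h2.fun_add (hq.fun_pow 2)))).mul_const A).fun_add
    (((((hζ.const_mul 4).fun_mul hu).fun_mul hP).fun_mul hq).mul_const B)).fun_sub
    (((((hS.const_mul 4).fun_mul h2).fun_mul hP).fun_mul hq).mul_const a)).congr_deriv
    (by simp only [dtN]; push_cast; ring)

theorem hd_tM (ζ S a : ℂ) (hy : HasDerivAt y (q τ) τ) (hq : HasDerivAt q qq τ)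
    (hP : HasDerivAt P pt τ) (hA : HasDerivAt A (-B τ) τ) (hB : HasDerivAt B (A τ) τ) :
    HasDerivAt (fun τ => tM ζ S (y τ) (q τ) (P τ) (A τ) (B τ) a)
      (1 * dtM ζ S (y τ) (q τ) (P τ) (A τ) (B τ) a qq pt) τ := by
  have hu := hy.const_add 1
  have h2 := ((hP.fun_pow 2).const_mul (8 * ζ)).const_add 1
  exact ((((hq.fun_mul hA).fun_mul (((hu.const_mul 2).fun_mul hP).const_add (1 / 2))).fun_sub
    (((hB.fun_mul hu).fun_mul h2).div_const 2)).fun_add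
    (((hu.fun_pow 2).fun_mul h2).const_mul (a * S⁻¹))).congr_deriv
    (by simp only [dtM]; push_cast; ring)

end curves

/-- the torque is constant along solutions -/
theorem torque {γ : Path} (ho : γ.Ok) {j : EJ} (k : γ.CylOk 0 j) (J : (γ.cyl 0).IsJet j)
    (hE : γ.Ecyl 0 j = 0) (α : C3) (t t' : ℝ) : TqCyl γ 0 j t α = TqCyl γ 0 j t' α := by
  let y : ℝ × ℝ → ℂ := fun p => ev j.y p.1 p.2
  let q : ℝ × ℝ → ℂ := fun p => ev j.yt p.1 p.2
  let P : ℝ × ℝ → ℂ := fun p => ev ((γ.cyl 0).jP j) p.1 p.2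
  let S : ℝ → ℂ := fun t => Complex.sqrt (γ.ze t * rh 0 (γ.ze t))
  let A : ℝ → ℂ := fun θ => -(α 0 * Real.sin θ) + α 1 * Real.cos θ
  let B : ℝ → ℂ := fun θ => α 0 * Real.cos θ + α 1 * Real.sin θ
  let c : ℝ × ℝ → ℂ := fun p => eF (γ.ze p.1) (y p)
  let D : ℝ × ℝ → ℂ := fun p => cD 0 (γ.ze p.1) (y p) (q p) (P p)
  let N : ℝ × ℝ → ℂ := fun p => tN (γ.ze p.1) (S p.1) (y p) (q p) (P p) (A p.2) (B p.2) (α 2)
  let M : ℝ × ℝ → ℂ := fun p => tM (γ.ze p.1) (S p.1) (y p) (q p) (P p) (A p.2) (B p.2) (α 2)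
  let Ψ : ℝ × ℝ → ℂ := fun p => 1 * (c p / Complex.sqrt (D p) ^ 3 * brF (D p) (M p) 1
    (-(0 + 4 * (1 + y p) * q p) / 4)
    (dD 0 (γ.ze p.1) (y p) (q p) (P p) 0 0 (q p) (ev j.ytt p.1 p.2) (ev j.pt p.1 p.2))
    (dtM (γ.ze p.1) (S p.1) (y p) (q p) (P p) (A p.2) (B p.2) (α 2) (ev j.ytt p.1 p.2)
      (ev j.pt p.1 p.2)) 0)
  have hD : ∀ p, D p ∈ slitPlane := fun p => slit_of_near (k.cD p.1 p.2)
  have hS0 : ∀ t, S t ≠ 0 := fun t => sqrt_ne (slitPlane_ne_zero (k.slit t))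
  have hζ : ∀ t, HasDerivAt γ.ze (γ.g t * 1) t := fun t => (ho.der t).congr_deriv (mul_one _).symm
  have hS : ∀ t, HasDerivAt S (γ.g t * (S t)⁻¹) t := fun t => by
    have h := hS0 t
    refine (hd_sqrt ((hζ t).fun_mul (hd_rh (hd0 0 (γ.g t) t) (hζ t))) (k.slit t)).congr_deriv ?_
    simp only [rh0, dR, S] at h ⊢
    field_simp
    ring
  have hs : ∀ θ : ℝ, HasDerivAt (fun θ : ℝ => (Real.sin θ : ℂ)) (Real.cos θ) θ :=
    fun θ => (Real.hasDerivAt_sin θ).ofReal_comp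
  have hc : ∀ θ : ℝ, HasDerivAt (fun θ : ℝ => (Real.cos θ : ℂ)) (-Real.sin θ : ℝ) θ :=
    fun θ => (Real.hasDerivAt_cos θ).ofReal_comp
  have hA : ∀ θ, HasDerivAt A (-B θ) θ := fun θ =>
    (((hs θ).const_mul (α 0)).fun_neg.fun_add ((hc θ).const_mul (α 1))).congr_deriv
      (by simp only [B, ofReal_neg]; ring)
  have hB : ∀ θ, HasDerivAt B (A θ) θ := fun θ =>
    (((hc θ).const_mul (α 0)).fun_add ((hs θ).const_mul (α 1))).congr_deriv
      (by simp only [A, ofReal_neg]; ring)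
  have cA : Continuous A := continuous_iff_continuousAt.2 fun θ => (hA θ).continuousAt
  have cB' : Continuous B := continuous_iff_continuousAt.2 fun θ => (hB θ).continuousAt
  have cS : Continuous S := continuous_iff_continuousAt.2 fun t => (hS t).continuousAt
  have c2 : Continuous D := by
    simp only [D, y, q, P, cD, cB, rh0]
    fun_prop
  have c3 := csqrt c2 hD
  have c5 : Continuous c := by
    simp only [c, y, eF, rh0]
    fun_prop
  have h3 : ∀ p, Complex.sqrt (D p) ≠ 0 := fun p => sqrt_ne (slitPlane_ne_zero (hD p))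
  have cΨ : Continuous Ψ := by
    refine continuous_const.mul ((c5.div (c3.pow 3) fun p => pow_ne_zero 3 (h3 p)).mul ?_)
    simp only [brF, M, tM, dtM, y, q, P, dD, dB, dR, cB, rh0]
    fun_prop (disch := intro p; exact hS0 _)
  have cN : Continuous fun p => c p * N p / Complex.sqrt (D p) * 1 := by
    refine ((c5.mul ?_).div c3 h3).mul continuous_const
    simp only [N, tN, y, q, P]
    fun_prop
  have key : ∀ t, HasDerivAt (fun t => ∫ θ in (0 : ℝ)..2 * Real.pi,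
      c (t, θ) * N (t, θ) / Complex.sqrt (D (t, θ)) * 1)
      (γ.g t * ∫ θ in (0 : ℝ)..2 * Real.pi, (-Ψ (t, θ) + Ψ (t, θ))) t := by
    refine noether (Φ := fun p => -Ψ p) (A := fun p => c p * N p / Complex.sqrt (D p) * 1)
      (B := fun p => c p * M p / Complex.sqrt (D p) * 1) γ.g.continuous (fun t θ => ?_)
      (fun t θ => ?_) (fun t => ?_) cN cΨ.neg cΨ
    · refine (hd_flux (hd_eF (hζ t) (J.hasDerivAt_y_t t θ))
        (hd_cD (hd0 0 _ _) (hζ t) (J.hasDerivAt_y_t t θ) (J.hasDerivAt_yt_t t θ)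
          (J.hasDerivAt_P_t t θ) (k.rh_ne t))
        (hd_tN (A θ) (B θ) (α 2) (hζ t) (hS t) (J.hasDerivAt_y_t t θ) (J.hasDerivAt_yt_t t θ)
          (J.hasDerivAt_P_t t θ)) (hd0 1 _ t) (hD (t, θ))).congr_deriv ?_
      have h := tq_id (y (t, θ)) (q (t, θ)) (P (t, θ)) (A θ) (B θ) (α 2) (ev j.ytt t θ)
        (ev ((γ.cyl 0).jQ j) t θ) (ev j.pt t θ) (hS0 t)
        ((sqrt_sq _).trans (by rw [rh0]) : S t ^ 2 = γ.ze t * 2)
      rw [← k.ev_E, hE, ev_zero, zero_mul] at h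
      have e : -(0 + 4 * (1 + y (t, θ)) * q (t, θ)) / 4 = -((1 + y (t, θ)) * q (t, θ)) := by ring
      simp only [Ψ, e]
      exact congrArg _ ((congrArg (fun z => c (t, θ) / Complex.sqrt (D (t, θ)) ^ 3 * z)
        (eq_neg_of_add_eq_zero_left h)).trans (by rw [one_mul, mul_neg]))
    · have h1 := j.hasDerivAt_y_theta t θ
      have h2 := j.hasDerivAt_yt_theta t θ
      have h3 := hd0 (γ.ze t) 1 θ
      exact hd_flux (hd_eF h3 (hd1 h1))
        (hd_cD (hd0 0 _ _) h3 (hd1 h1) (hd1 h2) (hd1 (J.hasDerivAt_P_theta t θ)) (k.rh_ne t))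
        (hd_tM (γ.ze t) (S t) (α 2) h1 h2 (J.hasDerivAt_P_theta t θ) (hA θ) (hB θ)) (hd0 1 _ θ)
        (hD (t, θ))
    · have e : ∀ f : WB, ev f t (2 * Real.pi) = ev f t 0 := fun f => by
        rw [← ev_add_two_pi f t 0, zero_add]
      simp only [c, D, M, A, B, y, q, P, e, Real.sin_two_pi, Real.cos_two_pi, Real.sin_zero,
        Real.cos_zero]
  have e : ∀ t, TqCyl γ 0 j t α = ∫ θ in (0 : ℝ)..2 * Real.pi,
      c (t, θ) * N (t, θ) / Complex.sqrt (D (t, θ)) * 1 := fun t => by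
    simp only [TqCyl, k.op_eq, tq_eq _ _ _ (k.ze_ne t)]
    rfl
  rw [e, e]
  refine is_const_of_deriv_eq_zero (fun t => (key t).differentiableAt) (fun t => ?_) t t'
  rw [(key t).deriv]
  simp

end Vale.Agent.P218N.Core.Tq
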