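import Vale.Agent.P218N.Core.Spec
import Vale.Agent.P218N.Core.LagT
import Vale.Agent.P218N.End.LagK
import Vale.Agent.P218N.End.JS2

/-! The first variation on the ends with a cutoff, conservation of the torque. -/

open Set Filter Topology Metric Complex
open scoped ContDiff

noncomputable section

namespace Vale.Agent.P218N.Core

open Vale.Agent.P218.H313 Vale.Agent.P218N.H Vale.Agent.P218N.End

namespace LagS

theorem near {x s b : ℂ} (hx : ‖x‖ ≤ 1 / 10) (hs : ‖s‖ ≤ 1 / 10) (hb : ‖b‖ ≤ 1 / 10) :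
    ‖(1 + x) ^ 2 * (1 + s) + b ^ 2 - 1‖ ≤ 1 / 2 := by
  have h1 : ‖2 + x‖ ≤ 21 / 10 := (norm_add_le _ _).trans (by rw [Complex.norm_two]; linarith)
  have h2 : ‖1 + s‖ ≤ 11 / 10 := (norm_add_le _ _).trans (by rw [norm_one]; linarith)
  have h3 : ‖x * (2 + x) * (1 + s)‖ ≤ 1 / 10 * (21 / 10) * (11 / 10) := by
    rw [norm_mul, norm_mul]; gcongr
  have h4 : ‖b ^ 2‖ ≤ (1 / 10) ^ 2 := by rw [norm_pow]; gcongr
  rw [show (1 + x) ^ 2 * (1 + s) + b ^ 2 - 1 = x * (2 + x) * (1 + s) + s + b ^ 2 by ring]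
  linarith [norm_add₃_le (a := x * (2 + x) * (1 + s)) (b := s) (c := b ^ 2)]

theorem jet_comp {v : ℝ × ℝ → ℝ} (hv : Per v) {φ : ℝ → ℝ} {φ' ζ : ℝ} (hφ : HasDerivAt φ φ' ζ)
    (θ : ℝ) : jet2 (fun z : R2 => (v (φ z.1, z.2) : ℂ)) (ζ, θ) 1 = (φ' * ds v (φ ζ, θ) : ℝ) ∧
      jet2 (fun z : R2 => (v (φ z.1, z.2) : ℂ)) (ζ, θ) 2 = (dt v (φ ζ, θ) : ℝ) := by
  have h1 : HasFDerivAt (fun z : R2 => (φ z.1, z.2)) _ (ζ, θ) :=
    (hφ.hasFDerivAt.comp (ζ, θ) hasFDerivAt_fst).prodMk hasFDerivAt_snd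
  have h2 : HasFDerivAt (fun z : R2 => (v (φ z.1, z.2) : ℂ)) _ (ζ, θ) :=
    Complex.ofRealCLM.hasFDerivAt.comp (ζ, θ) ((hv.hasFDerivAt (φ ζ, θ)).comp (ζ, θ) h1)
  constructor
  · change fderiv ℝ _ _ (1, 0) = _
    rw [h2.fderiv, ds, ← smul_eq_mul, ← map_smul]
    simp
  · change fderiv ℝ _ _ (0, 1) = _
    rw [h2.fderiv, dt]
    simp

theorem line {F F' : EJ → ℂ} {U : Set EJ} (hU : IsOpen U) (e : ∀ j ∈ U, F j = F' j)
    (hF : DifferentiableOn ℂ F' U) {j : EJ} (hj : j ∈ U) (v : EJ) :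
    fderiv ℂ F j v = fderiv ℂ (fun x : ℂ => F' (j + x • v)) 0 1 := by
  have h1 : F =ᶠ[𝓝 j] F' := eventually_of_mem (hU.mem_nhds hj) e
  have h2 : HasDerivAt (fun x : ℂ => j + x • v) v 0 := by
    simpa using ((hasDerivAt_id (0 : ℂ)).smul_const v).const_add j
  have h3 : HasFDerivAt F' (fderiv ℂ F' j) (j + (0 : ℂ) • v) := by
    simpa using ((hF j hj).differentiableAt (hU.mem_nhds hj)).hasFDerivAt
  rw [h1.fderiv_eq]
  exact (h3.comp_hasDerivAt _ h2).deriv.symm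

theorem fderiv_line (j v : EJ) : fderiv ℂ (fun x : ℂ => j + x • v) 0 1 = v := by
  have h2 : HasDerivAt (fun x : ℂ => j + x • v) v 0 := by
    simpa using ((hasDerivAt_id (0 : ℂ)).smul_const v).const_add j
  exact h2.deriv

theorem jet_line {Γ : Ctr} {j v : EJ} (hj : Γ.IsJet j) (hv : Γ.IsJet v) (x : ℂ) :
    Γ.IsJet (j + x • v) := (JS Γ).add_mem hj ((JS Γ).smul_mem x hv)

theorem close {j j₀ : EJ} {r : ℝ} (h : j ∈ ball j₀ r) (t θ : ℝ) :
    ‖ev j.y t θ‖ ≤ ‖ev j₀.y t θ‖ + r ∧ ‖ev j.yt t θ‖ ≤ ‖ev j₀.yt t θ‖ + r ∧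
      ‖ev j.op t θ‖ ≤ ‖ev j₀.op t θ‖ + r := by
  have h0 := (mem_ball_iff_norm.1 h).le
  have k : ∀ f f₀ : WB, ‖f - f₀‖ ≤ ‖j - j₀‖ → ‖ev f t θ‖ ≤ ‖ev f₀ t θ‖ + r := fun f f₀ hf => by
    have := (norm_ev_le (f - f₀) t θ).trans (hf.trans h0)
    rw [ev_sub] at this
    linarith [norm_sub_norm_le (ev f t θ) (ev f₀ t θ)]
  exact ⟨k _ _ (by rw [← EJ.sub_y]; exact EJ.norm_y_le _),
    k _ _ (by rw [← EJ.sub_yt]; exact EJ.norm_yt_le _),
    k _ _ (by rw [← EJ.sub_op]; exact EJ.norm_op_le _)⟩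

theorem cylOk {γ : Path} {z : ℝ → ℝ} (hz : ∀ t, γ.ze t = z t) (h1 : ∀ t, 1 ≤ z t) {j₀ : EJ}
    (h : ∀ t θ, ‖ev j₀.y t θ‖ ≤ 1 / 20 ∧ ‖ev j₀.yt t θ‖ ≤ 1 / 20 ∧
      ‖ev j₀.op t θ‖ ≤ √(z t) / 20) {j : EJ} (hj : j ∈ ball j₀ (1 / 20)) : γ.CylOk 0 j := by
  have e : ∀ t, γ.ze t * rh 0 (γ.ze t) = (2 * z t : ℝ) := fun t => by
    rw [Tq.rh0, hz]; push_cast; ring
  refine ⟨⟨1, one_pos, fun t => ?_⟩, fun t => ?_, fun t θ => ?_⟩
  · rw [e, Complex.norm_real, Real.norm_eq_abs]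
    linarith [le_abs_self (2 * z t), h1 t]
  · rw [e]; exact Complex.ofReal_mem_slitPlane.2 (by linarith [h1 t])
  · obtain ⟨a1, a2, a3⟩ := close hj t θ
    obtain ⟨b1, b2, b3⟩ := h t θ
    have hz0 : 0 < z t := by linarith [h1 t]
    have s1 : 1 ≤ √(z t) := Real.one_le_sqrt.2 (h1 t)
    have s2 : ‖ev j.op t θ‖ ^ 2 ≤ (√(z t) / 10) ^ 2 := by gcongr; linarith
    rw [div_pow, Real.sq_sqrt hz0.le] at s2
    have := near (x := ev j.y t θ) (s := 4 * ((2 * z t : ℝ) : ℂ)⁻¹ * ev j.op t θ ^ 2)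
      (b := ev j.yt t θ) (by linarith) (by
        rw [norm_mul, norm_mul, norm_inv, norm_pow, Complex.norm_real,
          Real.norm_of_nonneg (by linarith), Complex.norm_ofNat, mul_comm, ← mul_assoc,
          mul_inv_le_iff₀ (by linarith)]
        linarith) (by linarith)
    rw [Dc, e]
    convert this using 2
    simp only [cylD, cylB]
    ring

theorem coneOk {γ : Path} {z : ℝ → ℝ} (hz : ∀ t, γ.ze t = z t) (h1 : ∀ t, 1 ≤ z t) {cc M : ℝ}
    {ka : WD} (hM : 1 ≤ M) (hc : |cc| ≤ M) (hk : ‖ka‖ ≤ M) {j₀ : EJ}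
    (h : ∀ t θ, ‖ev j₀.y t θ‖ ≤ 1 / (20 * M) ∧ ‖ev j₀.yt t θ‖ ≤ 1 / (20 * M) ∧
      ‖ev j₀.op t θ‖ ≤ z t / (20 * M)) {j : EJ} (hj : j ∈ ball j₀ (1 / (20 * M))) :
    γ.ConeOk cc ka j := by
  have n : ∀ t, ‖γ.ze t‖ = z t := fun t => by
    rw [hz, Complex.norm_real, Real.norm_of_nonneg (by linarith [h1 t])]
  refine ⟨⟨1, one_pos, fun t => n t ▸ h1 t⟩, fun t θ => ?_⟩
  obtain ⟨a1, a2, a3⟩ := close hj t θ
  obtain ⟨b1, b2, b3⟩ := h t θ
  have hz1 := h1 t
  set r := 1 / (20 * M) with hr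
  have r0 : 0 < r := by positivity
  have r1 : M * r = 1 / 20 := by rw [hr]; field_simp
  have r2 : r ≤ 1 / 20 := by nlinarith
  have k : ∀ (a x : ℂ), ‖a‖ ≤ M → ‖x‖ ≤ r + r → ‖a * x‖ ≤ 1 / 10 := fun a x ha hx => by
    rw [norm_mul]
    exact (mul_le_mul ha hx (norm_nonneg _) (by linarith)).trans (by linarith)
  have c1 : ‖2 * (γ.ze t)⁻¹ * ev j.op t θ‖ ≤ 4 * r := by
    rw [norm_mul, norm_mul, norm_inv, n, Complex.norm_two, mul_comm, ← mul_assoc,
      mul_inv_le_iff₀ (by linarith)]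
    rw [div_eq_mul_one_div, ← hr] at b3
    nlinarith
  have c2 : ‖ev j.y t θ + 2 * (γ.ze t)⁻¹ * ev j.op t θ‖ ≤ 3 / 10 :=
    (norm_add_le _ _).trans (by linarith)
  have := near (x := -(W.sumL θ ka * ev j.y t θ))
    (s := (ev j.y t θ + 2 * (γ.ze t)⁻¹ * ev j.op t θ) ^ 2) (b := cc * ev j.yt t θ)
    (by rw [norm_neg]; exact k _ _ ((W.norm_sumL_le θ ka).trans hk) (by linarith))
    (by rw [norm_pow]; nlinarith [norm_nonneg (ev j.y t θ + 2 * (γ.ze t)⁻¹ * ev j.op t θ)])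
    (k _ _ (by rwa [Complex.norm_real]) (by linarith))
  rwa [← sub_eq_add_neg] at this

variable {w : E3 → ℝ} {D : EndData w}

theorem ka_eq (i : Fin D.a) : ka i = kaD (D.γ i) (D.n i) (D.l i) ∧
    kd i = kdD (D.γ i) (D.n i) (D.l i) ∧ kaf i = kaL (D.γ i) (D.n i) (D.l i) := by
  have h : kaf i = kaL (D.γ i) (D.n i) (D.l i) := funext fun θ => by
    rw [kaf, kaL, cc, inv_pow, div_eq_inv_mul]
  exact ⟨by rw [ka, h, kaD], by simp only [kd, kdf, h, kdD, cc], h⟩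

/-- the cutoff function along the path -/
theorem weight {zm : ℝ} (H : PathF D zm) {n : ℕ} (hn : 4 ≤ n) : ∃ χ : BC,
    (∀ t, χ t = (cut zm 4 (zr zm 4 n t) : ℝ)) ∧ χ 0 = 0 ∧ χ 1 = 1 ∧
    (∀ t, HasDerivAt χ ((deriv (cut zm 4) (zr zm 4 n t) * gr 4 n t : ℝ) : ℂ) t) ∧
    Continuous fun t => ((deriv (cut zm 4) (zr zm 4 n t) * gr 4 n t : ℝ) : ℂ) := by
  have hc : ContDiff ℝ ∞ (cut zm 4) := (Real.smoothTransition.contDiff.comp
    ((contDiff_const.mul contDiff_id).sub contDiff_const)).comp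
      ((contDiff_id.sub contDiff_const).sub contDiff_const)
  have hz : ∀ t, HasDerivAt (zr zm 4 n) (gr 4 n t) t := fun t => by
    have h := Complex.reCLM.hasFDerivAt.comp_hasDerivAt t ((H.real 4 n).ok.der t)
    simp only [H.g, Complex.reCLM_apply, Complex.ofReal_re] at h
    refine h.congr_of_eventuallyEq (Eventually.of_forall fun s => ?_)
    simp [H.ze]
  have cz : Continuous (zr zm 4 n) := continuous_iff_continuousAt.2 fun t => (hz t).continuousAt
  have cg : Continuous (gr 4 n) :=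
    (Complex.continuous_re.comp (gam zm 4 n).g.continuous).congr fun t => by simp [H.g]
  have e : ∀ t, mkB (fun t => (cut zm 4 (zr zm 4 n t) : ℝ)) t = (cut zm 4 (zr zm 4 n t) : ℝ) :=
    mkB_apply (C := 1) (Complex.continuous_ofReal.comp (hc.continuous.comp cz)) fun t => by
      rw [Complex.norm_real]
      exact (Real.norm_of_nonneg (Real.smoothTransition.nonneg _)).trans_le
        (Real.smoothTransition.le_one _)
  refine ⟨_, e, ?_, ?_, fun t => ?_, Complex.continuous_ofReal.comp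
    (((hc.continuous_deriv (by simp)).comp cz).mul cg)⟩
  · rw [e, H.lo 4 n 0 (by norm_num [tau]), Complex.ofReal_eq_zero]
    exact Real.smoothTransition.zero_of_nonpos (by linarith)
  · have : (4 : ℝ) ≤ n := by exact_mod_cast hn
    rw [e, H.hi 4 n 1 hn (sub_le_self _ (by positivity)), Complex.ofReal_eq_one]
    exact Real.smoothTransition.one_of_one_le (by rw [TT]; push_cast; linarith)
  · rw [funext e]
    exact (((hc.differentiable (by simp) _).hasDerivAt).comp t (hz t)).ofReal_comp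

theorem val {zm : ℝ} (H : PathF D zm) {e : En D} (B : EndBox zm e) {n : ℕ} (hn : 4 ≤ n)
    (t θ : ℝ) (k : Fin 6) : ev (jw (ctr (gam zm 4 n) e) (Res 4 n (B.jS n)) k) t θ =
      jy e (zr zm 4 n t, θ) k := by
  rw [H.jw_res 0 4 n n e _ k (by omega) hn le_rfl, H.ev_res, B.val,
    H.zr_clp 0 4 n n t (by omega) hn le_rfl]

theorem op_val {Γ : Ctr} (h : Γ.Ok) (j : EJ) (t θ : ℝ) :
    ev j.op t θ = Γ.Om t * ev (jw Γ j 1) t θ := by
  rw [← h.Om_jP j, ev_mul, ev_C]; rfl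

/-- the statement for one end -/
def At (zm : ℝ) (e : En D) : Prop := ∀ (B : EndBox zm e) (n : ℕ), 4 ≤ n → ∃ r > 0,
    DifferentiableOn ℂ (FE zm n e) (ball (Res 4 n (B.jS n)) r) ∧
    ∀ j ∈ ball (Res 4 n (B.jS n)) r, (ctr (gam zm 4 n) e).IsJet j → EE (gam zm 4 n) e j = 0 →
      (∀ t α, TqE (gam zm 4 n) e j t α = TqE (gam zm 4 n) e j 1 α) ∧
      ∀ v, (ctr (gam zm 4 n) e).IsJet v → fderiv ℂ (FE zm n e) j v =
        FluxE (gam zm 4 n) e j 1 v.y - ∫ t in (0 : ℝ)..1,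
          (deriv (cut zm 4) (zr zm 4 n t) * gr 4 n t : ℝ) * FluxE (gam zm 4 n) e j t v.y

theorem cyl (b : Fin D.b) : ∀ᶠ zm in atTop, PathF D zm → At (D := D) zm (.inr b) := by
  have hv := D.vdec b
  have ε : (0 : ℝ) < 1 / 20 := by norm_num
  filter_upwards [Real.tendsto_sqrt_atTop.eventually ((hv.abs_le ε).and ((hv.ds.abs_le ε).and
    (hv.dt.abs_le ε))), eventually_ge_atTop 1] with zm hs h1 H B n hn
  have hz : ∀ t, zm ≤ zr zm 4 n t := fun t => by linarith [(H.mem 4 n t hn).1]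
  have hk : ∀ j ∈ ball (Res 4 n (B.jS n)) (1 / 20), (gam zm 4 n).CylOk 0 j := fun j hj => by
    refine cylOk (H.ze 4 n) (fun t => h1.trans (hz t)) (fun t θ => ?_) hj
    have z0 : 0 < zr zm 4 n t := by linarith [hz t]
    have s := Real.sqrt_le_sqrt (hz t)
    obtain ⟨e1, e2⟩ := jet_comp hv.toPer (Real.hasDerivAt_sqrt z0.ne') θ
    refine ⟨?_, ?_, ?_⟩
    · exact ((congrArg norm (val H B hn t θ 0)).trans (Complex.norm_real _)).trans_le
        (hs.1 (_, θ) s)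
    · exact ((congrArg norm ((val H B hn t θ 2).trans e2)).trans (Complex.norm_real _)).trans_le
        (hs.2.2 (_, θ) s)
    · rw [op_val (H.cok 4 n (.inr b)), (val H B hn t θ 1).trans e1]
      have s0 := Real.sqrt_pos.2 z0
      have e3 : (ctr (gam zm 4 n) (.inr b : En D)).Om t = (2 * (√(zr zm 4 n t)) ^ 2 : ℝ) := by
        change (gam zm 4 n).ze t * rh 0 ((gam zm 4 n).ze t) = _
        rw [Tq.rh0, H.ze, Real.sq_sqrt z0.le]; push_cast; ring
      rw [e3, ← Complex.ofReal_mul, Complex.norm_real, Real.norm_eq_abs,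
        show ∀ x, 2 * √(zr zm 4 n t) ^ 2 * (1 / (2 * √(zr zm 4 n t)) * x) = √(zr zm 4 n t) * x from
          fun x => by field_simp, abs_mul, abs_of_pos s0, div_eq_mul_one_div]
      exact mul_le_mul_of_nonneg_left (hs.2.1 (_, θ) s) s0.le
  obtain ⟨χ, c0, c1, c2, c3, c4⟩ := weight H hn
  set γ := gam zm 4 n with hγ
  have eF : ∀ j ∈ ball (Res 4 n (B.jS n)) (1 / 20), FE zm n (.inr b : En D) j =
      ∫ t in (0 : ℝ)..1, χ t * γ.g t * ∫ θ in (0 : ℝ)..2 * Real.pi,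
        lagCyl 0 (γ.ze t) (ev j.y t θ) (ev j.yt t θ) (ev j.op t θ) := fun j hj => by
    refine intervalIntegral.integral_congr fun t _ => ?_
    simp only [c0, hγ, H.g, Complex.ofReal_mul]
    congr 2
    funext θ
    rw [(hk j hj).op_eq, Tq.rh0, hγ, H.ze, mul_comm _ (2 : ℂ)]
    rfl
  have dF := Path.differentiableOn_lagCyl (γ := fun _ => γ) (a := fun _ => 0) (j := fun j => j)
    (G := fun _ => χ * γ.g) isOpen_ball (differentiableOn_const _) (differentiableOn_const _)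
    (differentiableOn_const _) differentiableOn_id hk 0 1
  refine ⟨1 / 20, ε, dF.congr eF, fun j hj J hE => ⟨fun t α =>
    Tq.torque (H.real 4 n).ok (hk j hj) J hE _ _ _, fun v hv => ?_⟩⟩
  have h := Path.fderiv_FCI_weight (γ := γ) (a := fun _ : ℂ => 0) (j := fun x => j + x • v)
    (U := (fun x => j + x • v) ⁻¹' ball (Res 4 n (B.jS n)) (1 / 20)) (x := 0)
    (isOpen_ball.preimage (by fun_prop)) (H.real 4 n).ok (differentiableOn_const _) (by fun_prop)
    (fun x _ => jet_line J hv x) (fun x hx => hk _ hx) (by simpa using hj) 1 χ c3 c4 0 1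
  refine (line isOpen_ball eF dF hj v).trans (h.trans ?_)
  simp only [fderiv_line, zero_smul, add_zero, c1, c2, fderiv_fun_const, Pi.zero_apply,
    zero_apply, Path.IsCyl.resCyl ⟨J, hE⟩, mul_zero, one_mul, zero_mul,
    sub_zero, intervalIntegral.integral_zero]
  rfl

theorem cone (i : Fin D.a) : ∀ᶠ zm in atTop, PathF D zm → At (D := D) zm (.inl i) := by
  have hv := D.hdec i
  have hl := D.link i
  set M := 1 + |cc i| + ‖ka i‖ with hM
  have M1 : 1 ≤ M := by linarith [abs_nonneg (cc i), norm_nonneg (ka i)]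
  have ε : 0 < 1 / (20 * M) := by positivity
  filter_upwards [(Real.tendsto_log_atTop.atTop_div_const two_pos).eventually ((hv.abs_le ε).and
    ((hv.ds.abs_le ε).and (hv.dt.abs_le ε))), eventually_ge_atTop 1] with zm hs h1 H B n hn
  have hz : ∀ t, zm ≤ zr zm 4 n t := fun t => by linarith [(H.mem 4 n t hn).1]
  have hk : ∀ j ∈ ball (Res 4 n (B.jS n)) (1 / (20 * M)), (gam zm 4 n).ConeOk (cc i) (ka i) j :=
    fun j hj => by
    refine coneOk (H.ze 4 n) (fun t => h1.trans (hz t)) M1 (by linarith [norm_nonneg (ka i)])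
      (by linarith [abs_nonneg (cc i)]) (fun t θ => ?_) hj
    have z0 : 0 < zr zm 4 n t := by linarith [hz t]
    have s : Real.log zm / 2 ≤ Real.log (zr zm 4 n t) / 2 := by
      linarith [Real.log_le_log (by linarith) (hz t)]
    obtain ⟨e1, e2⟩ := jet_comp hv.toPer ((Real.hasDerivAt_log z0.ne').div_const 2) θ
    refine ⟨?_, ?_, ?_⟩
    · exact ((congrArg norm (val H B hn t θ 0)).trans (Complex.norm_real _)).trans_le
        (hs.1 (_, θ) s)
    · exact ((congrArg norm ((val H B hn t θ 2).trans e2)).trans (Complex.norm_real _)).trans_le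
        (hs.2.2 (_, θ) s)
    · rw [op_val (H.cok 4 n (.inl i)), (val H B hn t θ 1).trans e1]
      have e3 : (ctr (gam zm 4 n) (.inl i : En D)).Om t = (zr zm 4 n t * zr zm 4 n t : ℝ) := by
        change (gam zm 4 n).ze t * (gam zm 4 n).ze t = _
        rw [H.ze, Complex.ofReal_mul]
      rw [e3, ← Complex.ofReal_mul, Complex.norm_real, Real.norm_eq_abs,
        show ∀ x, zr zm 4 n t * zr zm 4 n t * ((zr zm 4 n t)⁻¹ / 2 * x) = zr zm 4 n t / 2 * x from
          fun x => by field_simp, abs_mul, abs_of_pos (half_pos z0),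
        div_eq_mul_one_div _ (20 * M)]
      exact mul_le_mul (half_le_self z0.le) (hs.2.1 (_, θ) s) (abs_nonneg _) z0.le
  obtain ⟨χ, c0, c1, c2, c3, c4⟩ := weight H hn
  obtain ⟨k1, k2, k3⟩ := ka_eq i
  set γ := gam zm 4 n with hγ
  have eF : ∀ j ∈ ball (Res 4 n (B.jS n)) (1 / (20 * M)), FE zm n (.inl i : En D) j =
      ∫ t in (0 : ℝ)..1, χ t * γ.g t * ∫ θ in (0 : ℝ)..2 * Real.pi, lagCone (cc i)
        (W.sumL θ (ka i)) (γ.ze t) (ev j.y t θ) (ev j.yt t θ) (ev j.op t θ) := fun j hj => by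
    refine intervalIntegral.integral_congr fun t _ => ?_
    simp only [c0, hγ, H.g, Complex.ofReal_mul]
    congr 2
    funext θ
    rw [(hk j hj).op_eq, hγ, H.ze, k1, LinkD.sumL_ka hl, ← k3]
    rfl
  have dF := Path.differentiableOn_lagCone (γ := fun _ => γ) (j := fun j => j)
    (G := fun _ => χ * γ.g) isOpen_ball (differentiableOn_const _) (differentiableOn_const _)
    differentiableOn_id hk 0 1
  refine ⟨_, ε, dF.congr eF, fun j hj J hE => ⟨fun t α => rfl, fun v hv => ?_⟩⟩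
  have h := Path.fderiv_FKI_weight (γ := γ) (cc := cc i) (kd := kd i) (j := fun x : ℂ => j + x • v)
    (U := (fun x => j + x • v) ⁻¹' ball (Res 4 n (B.jS n)) (1 / (20 * M))) (x := 0)
    (isOpen_ball.preimage (by fun_prop)) (H.real 4 n).ok (inv_ne_zero hl.pos.ne')
    (fun m => by rw [k1, k2]; exact LinkD.c_kd hl m) (by fun_prop)
    (fun x _ => jet_line J hv x) (fun x hx => hk _ hx) (by simpa using hj) 1 χ c3 c4 0 1
  refine (line isOpen_ball eF dF hj v).trans (h.trans ?_)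
  simp only [fderiv_line, zero_smul, add_zero, c1, c2, Path.IsCone.resCone ⟨J, hE⟩, mul_zero,
    one_mul, zero_mul, sub_zero, intervalIntegral.integral_zero]
  rfl

end LagS

/-- the first variation on the ends, the conservation of the torque -/
theorem lagStmt (hP : PathStmt) : LagStmt := fun w D => by
  have h : ∀ᶠ zm in atTop, ∀ e : En D, PathF D zm → LagS.At zm e :=
    eventually_all.2 fun e => by
      rcases e with i | b
      exacts [LagS.cone i, LagS.cyl b]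
  obtain ⟨z1, h1⟩ := eventually_atTop.1 (h.and (eventually_ge_atTop 1000))
  exact ⟨z1, fun zm hz e => (h1 zm hz).1 e (hP w D zm (h1 zm hz).2)⟩

end Vale.Agent.P218N.Core
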