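import Vale.Agent.P218N.Core.Sys
import Vale.Agent.P218N.Core.Lag
import Vale.Agent.P218N.End.LagB

/-! Reality of the area of the ends, the fluxes as integrals. -/

open Set Filter Topology Metric Complex
open scoped ComplexConjugate

noncomputable section

namespace Vale.Agent.P218N.Core

open Vale.Agent.P218.H313 Vale.Agent.P218N.H Vale.Agent.P218N.End

namespace Lag2P

open LagS

variable {w : E3 → ℝ} {D : EndData w}

theorem cylK (b : Fin D.b) : ∀ᶠ zm in atTop, PathF D zm → ∀ (B : EndBox zm (.inr b : En D))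
    (n : ℕ), 4 ≤ n → ∀ j ∈ ball (Res 4 n (B.jS n)) (1 / 20), (gam zm 4 n).CylOk 0 j := by
  have hv := D.vdec b
  have ε : (0 : ℝ) < 1 / 20 := by norm_num
  filter_upwards [Real.tendsto_sqrt_atTop.eventually ((hv.abs_le ε).and ((hv.ds.abs_le ε).and
    (hv.dt.abs_le ε))), eventually_ge_atTop 1] with zm hs h1 H B n hn j hj
  have hz : ∀ t, zm ≤ zr zm 4 n t := fun t => by linarith [(H.mem 4 n t hn).1]
  refine cylOk (H.ze 4 n) (fun t => h1.trans (hz t)) (fun t θ => ?_) hj
  have z0 : 0 < zr zm 4 n t := by linarith [hz t]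
  have s := Real.sqrt_le_sqrt (hz t)
  obtain ⟨e1, e2⟩ := jet_comp hv.toPer (Real.hasDerivAt_sqrt z0.ne') θ
  refine ⟨?_, ?_, ?_⟩
  · exact ((congrArg norm (val H B hn t θ 0)).trans (Complex.norm_real _)).trans_le
      (hs.1 (_, θ) s)
  · exact ((congrArg norm ((val H B hn t θ 2).trans e2)).trans (Complex.norm_real _)).trans_le
      (hs.2.2 (_, θ) s)
  · rw [op_val (H.cok 4 n (.inr b)), (val H B hn t θ 1).trans e1]
    have s0 := Real.sqrt_pos.2 z0
    have e3 : (ctr (gam zm 4 n) (.inr b : En D)).Om t = (2 * (√(zr zm 4 n t)) ^ 2 : ℝ) := by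
      change (gam zm 4 n).ze t * rh 0 ((gam zm 4 n).ze t) = _
      rw [Tq.rh0, H.ze, Real.sq_sqrt z0.le]; push_cast; ring
    rw [e3, ← Complex.ofReal_mul, Complex.norm_real, Real.norm_eq_abs,
      show ∀ x, 2 * √(zr zm 4 n t) ^ 2 * (1 / (2 * √(zr zm 4 n t)) * x) = √(zr zm 4 n t) * x from
        fun x => by field_simp, abs_mul, abs_of_pos s0, div_eq_mul_one_div]
    exact mul_le_mul_of_nonneg_left (hs.2.1 (_, θ) s) s0.le

theorem coneK (i : Fin D.a) : ∃ r > 0, ∀ᶠ zm in atTop, PathF D zm →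
    ∀ (B : EndBox zm (.inl i : En D)) (n : ℕ), 4 ≤ n → ∀ j ∈ ball (Res 4 n (B.jS n)) r,
      (gam zm 4 n).ConeOk (cc i) (ka i) j := by
  have hv := D.hdec i
  set M := 1 + |cc i| + ‖ka i‖ with hM
  have M1 : 1 ≤ M := by linarith [abs_nonneg (cc i), norm_nonneg (ka i)]
  have ε : 0 < 1 / (20 * M) := by positivity
  refine ⟨_, ε, ?_⟩
  filter_upwards [(Real.tendsto_log_atTop.atTop_div_const two_pos).eventually ((hv.abs_le ε).and
    ((hv.ds.abs_le ε).and (hv.dt.abs_le ε))), eventually_ge_atTop 1] with zm hs h1 H B n hn j hj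
  have hz : ∀ t, zm ≤ zr zm 4 n t := fun t => by linarith [(H.mem 4 n t hn).1]
  refine coneOk (H.ze 4 n) (fun t => h1.trans (hz t)) M1 (by linarith [norm_nonneg (ka i)])
    (by linarith [abs_nonneg (cc i)]) (fun t θ => ?_) hj
  have z0 : 0 < zr zm 4 n t := by linarith [hz t]
  have s : Real.log zm / 2 ≤ Real.log (zr zm 4 n t) / 2 := by
    linarith [Real.log_le_log (by linarith) (hz t)]
  obtain ⟨e1, e2⟩ := jet_comp hv.toPer ((Real.hasDerivAt_log z0.ne').div_const 2) θ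
  refine ⟨?_, ?_, ?_⟩
  · exact ((congrArg norm (val H B hn t θ 0)).trans (Complex.norm_real _)).trans_le
      (hs.1 (_, θ) s)
  · exact ((congrArg norm ((val H B hn t θ 2).trans e2)).trans (Complex.norm_real _)).trans_le
      (hs.2.2 (_, θ) s)
  · rw [op_val (H.cok 4 n (.inl i)), (val H B hn t θ 1).trans e1]
    have e3 : (ctr (gam zm 4 n) (.inl i : En D)).Om t = (zr zm 4 n t * zr zm 4 n t : ℝ) := by
      change (gam zm 4 n).ze t * (gam zm 4 n).ze t = _
      rw [H.ze, Complex.ofReal_mul]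
    rw [e3, ← Complex.ofReal_mul, Complex.norm_real, Real.norm_eq_abs,
      show ∀ x, zr zm 4 n t * zr zm 4 n t * ((zr zm 4 n t)⁻¹ / 2 * x) = zr zm 4 n t / 2 * x from
        fun x => by field_simp, abs_mul, abs_of_pos (half_pos z0),
      div_eq_mul_one_div _ (20 * M)]
    exact mul_le_mul (half_le_self z0.le) (hs.2.1 (_, θ) s) (abs_nonneg _) z0.le

theorem real {zm : ℝ} {n : ℕ} {e : En D} {j : EJ} (h : ∀ t θ,
    lagE e (zr zm 4 n t, θ) (fun k => ev (jw (ctr (gam zm 4 n) e) j.cj k) t θ) =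
      conj (lagE e (zr zm 4 n t, θ) fun k => ev (jw (ctr (gam zm 4 n) e) j k) t θ)) :
    FE zm n e j.cj = star (FE zm n e j) := by
  change _ = conj (FE zm n e j)
  simp only [FE, ← intervalIntegral.intervalIntegral_conj, map_mul, conj_ofReal, h]

theorem cyl (b : Fin D.b) : ∀ᶠ zm in atTop, PathF D zm → ∀ (B : EndBox zm (.inr b : En D))
    (n : ℕ), 4 ≤ n → Lag2 B n := by
  filter_upwards [cylK b] with zm hk H B n hn
  have op : ∀ (j : EJ) t θ, 2 * (zr zm 4 n t : ℂ) *
      ev (jw (ctr (gam zm 4 n) (.inr b : En D)) j 1) t θ = ev j.op t θ := fun j t θ => by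
    rw [op_val (H.cok 4 n (.inr b))]
    change _ = (gam zm 4 n).ze t * rh 0 ((gam zm 4 n).ze t) * _
    rw [Tq.rh0, H.ze, mul_comm _ (2 : ℂ)]
  refine ⟨1 / 20, by norm_num, fun j hj => ?_⟩
  have k := hk H B n hn j hj
  refine ⟨real fun t θ => ?_, fun t dy α => ?_⟩
  · have h := k.conj_lag t θ
    have e : (gam zm 4 n).cj.ze t = (zr zm 4 n t : ℝ) := by
      change conj ((gam zm 4 n).ze t) = _
      rw [H.ze, conj_ofReal]
    rw [e, H.ze, map_zero] at h
    simp only [lagE, op]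
    exact h.symm
  · simp only [fluxE, tqE, op]
    simp only [← H.ze]
    exact intervalIntegral.integral_add
      (((k.cont_flux 0 dy).comp (Continuous.prodMk_right t)).intervalIntegrable _ _)
      (((cont_tq k (α b)).comp (Continuous.prodMk_right t)).intervalIntegrable _ _)

theorem cone (i : Fin D.a) : ∀ᶠ zm in atTop, PathF D zm → ∀ (B : EndBox zm (.inl i : En D))
    (n : ℕ), 4 ≤ n → Lag2 B n := by
  obtain ⟨r, r0, hr⟩ := coneK i
  obtain ⟨k1, -, k3⟩ := ka_eq i
  have ek : ∀ θ, ((kaf i θ : ℝ) : ℂ) = W.sumL θ (ka i) := fun θ => by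
    rw [k1, LinkD.sumL_ka (D.link i), k3]
  filter_upwards [hr] with zm hk H B n hn
  have op : ∀ (j : EJ) t θ, (zr zm 4 n t : ℂ) * (zr zm 4 n t : ℂ) *
      ev (jw (ctr (gam zm 4 n) (.inl i : En D)) j 1) t θ = ev j.op t θ := fun j t θ => by
    rw [op_val (H.cok 4 n (.inl i))]
    change _ = (gam zm 4 n).ze t * (gam zm 4 n).ze t * _
    rw [H.ze]
  refine ⟨r, r0, fun j hj => ?_⟩
  have k := hk H B n hn j hj
  refine ⟨real fun t θ => ?_, fun t dy α => ?_⟩
  · have h := End.Lag.slit_of_near (k.D t θ)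
    rw [← ek, H.ze] at h
    simp only [lagE, op]
    change lagCone _ _ _ (ev j.cj.y t θ) (ev j.cj.yt t θ) _ =
      conj (lagCone _ _ _ (ev j.y t θ) (ev j.yt t θ) _)
    simp only [lagCone, map_mul, map_div₀, End.Lag.conj_sqrt h, map_coneD, ← Complex.exp_conj,
      map_neg, map_add, map_pow, map_one, map_ofNat, map_inv₀, conj_ofReal, EJ.y_cj, EJ.yt_cj,
      EJ.op_cj, ev_cj]
  · simp only [fluxE, tqE, TqE, op, add_zero, ek]
    simp only [← H.ze]
    rfl

end Lag2P

/-- reality of the area, the fluxes as integrals -/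
theorem lag2Stmt (hP : PathStmt) : Lag2Stmt := fun w D => by
  have h : ∀ᶠ zm in atTop, ∀ e : En D, PathF D zm → ∀ (B : EndBox zm e) (n : ℕ), 4 ≤ n →
      Lag2 B n := eventually_all.2 fun e => by
    rcases e with i | b
    exacts [Lag2P.cone i, Lag2P.cyl b]
  obtain ⟨z1, h1⟩ := eventually_atTop.1 (h.and (eventually_ge_atTop 1000))
  exact ⟨z1, fun zm hz e => (h1 zm hz).1 e (hP w D zm (h1 zm hz).2)⟩

end Vale.Agent.P218N.Core
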