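import Vale.Agent.P218N.Core.Sys

/-! The functions of families of jets, the solution operators on the infinite ends. -/

open Set Filter Topology Metric

noncomputable section

namespace Vale.Agent.P218N.Core

open Vale.Agent.P218.H313 Vale.Agent.P218N.H Vale.Agent.P218N.End Vale.Agent.P272.K.LIN

namespace LimP

variable {w : E3 → ℝ} {D : EndData w} {zm : ℝ}

theorem jet2_cle (L : ℂ ≃L[ℝ] ℂ) (f : R2 → ℂ) (y : R2) (k : Fin 6) :
    jet2 (fun z => L (f z)) y k = L (jet2 f y k) := by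
  have h1 : fderiv ℝ (fun z => L (f z)) = fun z => (L : ℂ →L[ℝ] ℂ).comp (fderiv ℝ f z) :=
    funext fun z => L.comp_fderiv
  have h2 : fderiv ℝ (fun z => (L : ℂ →L[ℝ] ℂ).comp (fderiv ℝ f z)) y = _ :=
    ((ContinuousLinearEquiv.refl ℝ R2).arrowCongr L).comp_fderiv (f := fderiv ℝ f) (x := y)
  unfold jet2
  rw [h1, h2]
  fin_cases k <;> simp

theorem conj_jy (e : En D) (q : R2) (k : Fin 6) : (starRingEnd ℂ) (jy e q k) = jy e q k := by
  have h := jet2_cle Complex.conjCLE (fun z => (yS e z : ℂ)) q k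
  simp only [Complex.conjCLE_apply, Complex.conj_ofReal] at h
  exact h.symm

theorem tau_nonneg (k : ℕ) : 0 ≤ tau k :=
  sub_nonneg.2 (pow_le_one₀ (by norm_num) (by norm_num))

theorem clp_zero (k n : ℕ) : clp k n 0 = tau k := by
  change max (tau k) (min 0 (tau (n + 1))) = tau k
  rw [min_eq_left (tau_nonneg _), max_eq_left (tau_nonneg _)]

theorem tends (zm : ℝ) (p : ℕ) {κ : ℝ} (hκ : 0 < κ) (m c : ℝ) :
    Tendsto (fun n : ℕ => c * (TT zm n ^ p * Real.exp (-(κ * ((n : ℝ) - m))))) atTop (𝓝 0) := by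
  have h1 : Tendsto (fun n : ℕ => κ * TT zm n) atTop atTop :=
    Tendsto.const_mul_atTop hκ (tendsto_atTop_add_const_right _ _
      (tendsto_atTop_add_const_left _ _ tendsto_natCast_atTop_atTop))
  have h2 := ((Real.tendsto_pow_mul_exp_neg_atTop_nhds_zero p).comp h1).const_mul
    (c * (κ ^ p)⁻¹ * Real.exp (κ * (zm + 1 + m)))
  rw [mul_zero] at h2
  refine h2.congr fun n => ?_
  have e : Real.exp (-(κ * ((n : ℝ) - m))) =
      Real.exp (κ * (zm + 1 + m)) * Real.exp (-(κ * TT zm n)) := by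
    rw [← Real.exp_add, TT]
    congr 1
    ring
  simp only [Function.comp_apply, e, mul_pow]
  field_simp

section
variable (pf : PathF D zm)
include pf

theorem clp_tt (k n : ℕ) (ζ : ℝ) (h : k ≤ n) (hζ : ζ ∈ Icc (zm + k) (TT zm n)) :
    clp k n (tt zm ζ) = tt zm ζ := by
  rw [← pf.tt_zr k n _ h, pf.zr_tt k n ζ h hζ]

theorem clp3 {m : ℕ} {ζ : ℝ} (h : 3 ≤ m) (hζ : ζ ∈ Icc (zm + 3) (TT zm m)) :
    clp 3 m (tt zm ζ) = tt zm ζ := clp_tt pf 3 m ζ h (by simpa using hζ)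

theorem jev_res (e : En D) {m n : ℕ} (h : 3 ≤ m) (hn : m ≤ n) (j : EJ) {q : R2}
    (hq : q.1 ∈ Icc (zm + 3) (TT zm m)) :
    jev zm (ctr (gam zm 3 m) e) (Res 3 m j) q = jev zm (ctr (gam zm 3 n) e) j q := by
  funext k
  rw [jev, jev, pf.jw_res 3 3 m n e j k le_rfl h hn, pf.ev_res, clp3 pf h hq]

theorem Yj_res (e : En D) {m : ℕ} (h : 3 ≤ m) (j : EJ) {q : R2}
    (hq : q.1 ∈ Icc (zm + 3) (TT zm m)) : Yj zm (Res 3 m j) q = Yj zm j q :=
  congrFun (jev_res pf e h le_rfl j hq) 0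

theorem jet (n : ℕ) (e : En D) (j : EJ) (q : R2) (h : (ctr (gam zm 3 n) e).IsJet j)
    (hq : q.1 ∈ Ioo (zm + 3) (TT zm n)) :
    ContDiffAt ℝ 2 (Yj zm j) q ∧ jet2 (Yj zm j) q = jev zm (ctr (gam zm 3 n) e) j q :=
  pf.c2 3 n e j q h (by simpa using hq)

theorem loc (hz : 1000 ≤ zm) (e : En D) (j : ℕ → EJ) (m : ℕ) (q : R2) (h : Fam zm e j)
    (hm : 3 ≤ m) (hq : q.1 ∈ Icc (zm + 3) (TT zm m)) : Yinf zm j q = Yj zm (j m) q := by
  rcases le_total m (⌈q.1⌉₊ + 3) with h1 | h1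
  · rw [← h.res m _ hm h1, Yj_res pf e hm _ hq, Yinf]
  · rw [Yinf, ← h.res _ m (Nat.le_add_left _ _) h1, Yj_res pf e (Nat.le_add_left _ _)]
    refine ⟨hq.1, (Nat.le_ceil _).trans ?_⟩
    rw [TT]
    push_cast
    linarith

theorem inf_jet (hz : 1000 ≤ zm) (e : En D) (j : ℕ → EJ) (m : ℕ) (q : R2) (h : Fam zm e j)
    (hm : 3 ≤ m) (hq : q.1 ∈ Ioo (zm + 3) (TT zm m)) : ContDiffAt ℝ 2 (Yinf zm j) q ∧
      jet2 (Yinf zm j) q = jev zm (ctr (gam zm 3 m) e) (j m) q := by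
  have h1 : Yinf zm j =ᶠ[𝓝 q] Yj zm (j m) := by
    filter_upwards [(isOpen_Ioo.preimage continuous_fst).mem_nhds hq] with z hz'
    exact loc pf hz e j m z h hm (Ioo_subset_Icc_self hz')
  obtain ⟨h2, h3⟩ := jet pf m e (j m) q (h.jet m hm) hq
  exact ⟨h2.congr_of_eventuallyEq h1, (jet2_congr h1).trans h3⟩

theorem yjF (hz : 1000 ≤ zm) : YjF D zm where
  jet := jet pf
  fin n j j0 hn hj h0 := by
    have h7 : zm + 7 ≤ TT zm n := by
      have : (6 : ℝ) ≤ n := by exact_mod_cast hn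
      rw [TT]
      linarith
    have e7 : TT zm 6 = zm + 7 := by rw [TT]; push_cast; ring
    refine ⟨h7, fun e ζ θ => ev_add_two_pi _ _ _, fun e q hq => (jet pf n e _ q (hj e) hq).1,
      fun e q hq => ?_⟩
    rw [(jet pf n e _ q (hj e) ⟨hq.1, hq.2.trans_le h7⟩).2, h0,
      jev_res pf e (by norm_num) hn _ ⟨hq.1.le, e7 ▸ hq.2.le⟩]
  loc := loc pf hz
  inf j j0 T hT hj h0 := by
    have e7 : TT zm 6 = zm + 7 := by rw [TT]; push_cast; ring
    refine ⟨hT, fun e ζ θ => ev_add_two_pi _ _ _, fun e q hq => ?_, fun e q hq => ?_⟩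
    · refine (inf_jet pf hz e _ (⌈q.1⌉₊ + 3) q (hj e) (Nat.le_add_left _ _)
        ⟨hq.1, (Nat.le_ceil _).trans_lt ?_⟩).1
      rw [TT]
      push_cast
      linarith
    · rw [(inf_jet pf hz e _ 6 q (hj e) (by norm_num) (e7 ▸ hq)).2, h0]
  bd e j h := by
    obtain ⟨C, hC⟩ := h.bd
    refine ⟨|C| * 4, fun q hq => ?_⟩
    have h3 : 3 ≤ ⌊q.1 - zm⌋₊ := Nat.le_floor (by push_cast; linarith)
    have h4 : q.1 < TT zm ⌊q.1 - zm⌋₊ := by
      have := Nat.lt_floor_add_one (q.1 - zm)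
      rw [TT]
      linarith
    have h5 : TT zm ⌊q.1 - zm⌋₊ ≤ 2 * q.1 := by
      have := Nat.floor_le (a := q.1 - zm) (by linarith)
      rw [TT]
      linarith
    rw [(inf_jet pf hz e j _ q h h3 ⟨hq, h4⟩).2]
    refine (pi_norm_le_iff_of_nonneg (by positivity)).2 fun k => ?_
    refine (norm_ev_le _ _ _).trans ((pf.jw_le _ _ _ _ _).trans ((hC _ h3).trans ?_))
    calc C * TT zm ⌊q.1 - zm⌋₊ ^ 2 ≤ |C| * (2 * q.1) ^ 2 :=
          mul_le_mul (le_abs_self _) (pow_le_pow_left₀ (by linarith) h5 2) (sq_nonneg _)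
            (abs_nonneg _)
      _ = _ := by ring
  six ζ hζ := by
    have e7 : TT zm 6 = zm + 7 := by rw [TT]; push_cast; ring
    rcases le_total ζ (zm + 7) with h | h
    · rw [min_eq_left h]
      exact pf.zr_tt 3 6 ζ (by norm_num) ⟨by simpa using hζ, e7 ▸ h⟩
    · rw [min_eq_right h, ← e7]
      refine pf.hi 3 6 _ (by norm_num) ?_
      rw [← clp_tt pf 7 (⌈ζ⌉₊ + 7) ζ (Nat.le_add_left _ _) ⟨by simpa using h, (Nat.le_ceil _).trans (by
        rw [TT]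
        push_cast
        linarith)⟩]
      exact le_max_left _ _
  clp_tt := clp_tt pf

theorem jw_ext {k n : ℕ} {e : En D} {j j' : EJ} (h : ∀ i t θ,
    ev (jw (ctr (gam zm k n) e) j i) t θ = ev (jw (ctr (gam zm k n) e) j' i) t θ) : j = j' := by
  refine sub_eq_zero.1 (pf.jw_inj k n e _ fun i => ?_)
  rw [← jwL_apply, map_sub, jwL_apply, jwL_apply, Pi.sub_apply, sub_eq_zero]
  exact ext_ev (h i)

variable {e : En D} (B : EndBox zm e)

theorem base (k m n : ℕ) (h : k ≤ m) (hn : m ≤ n) : Res k m (B.jS n) = Res k m (B.jS m) := by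
  refine jw_ext pf (k := k) (n := m) (e := e) fun i t θ => ?_
  rw [pf.jw_res 0 k m n e _ i (Nat.zero_le _) h hn, pf.jw_res 0 k m m e _ i (Nat.zero_le _) h le_rfl,
    pf.ev_res, pf.ev_res, B.val, B.val, pf.zr_clp 0 k m n t (Nat.zero_le _) h hn,
    pf.zr_clp 0 k m m t (Nat.zero_le _) h le_rfl]

theorem real (n : ℕ) : (B.jS n).cj = B.jS n := by
  refine jw_ext pf (k := 0) (n := n) (e := e) fun i t θ => ?_
  rw [pf.jw_cj, ev_cj, B.val, conj_jy]

theorem dE_res {k n : ℕ} (hk : 3 ≤ k) (hn : k ≤ n) (f : WB) :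
    B.dE k (Res 3 k (B.G n (f, 0))) = resW 3 k f := by
  rw [EndBox.dE, ← base pf B 3 k n hk hn, ← pf.res_res 3 3 k n (B.jS n) le_rfl hk hn,
    pf.dEE_res 3 3 k n e _ _ le_rfl hk hn, B.Geq n _ (hk.trans hn)]

theorem dir_res {k n : ℕ} (hk : 3 ≤ k) (hn : k ≤ n) (x : WB × WD) :
    End.tr 0 (Res 3 k (B.G n x)).y2 = 0 := by
  change End.tr 0 (resW 3 k (B.G n x).y2) = 0
  rw [pf.tr_res, clp_zero, pf.start 3 n e _ (hk.trans hn) (B.Gjet n x (hk.trans hn)),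
    B.Gd n x (hk.trans hn)]

/-- the representation of solutions -/
theorem repr {k : ℕ} (hk : 3 ≤ k) {f : WB} {V : EJ} (hj : (ctr (gam zm 3 k) e).IsJet V)
    (he : B.dE k V = resW 3 k f) (hd : End.tr 0 V.y2 = 0) :
    V = Res 3 k (B.G k (f, 0)) + B.G k (0, piT (gam zm 3 k) e V) := by
  have j1 := pf.jet_res 3 3 k k e _ le_rfl hk le_rfl (B.Gjet k (f, 0) hk)
  have j2 := B.Gjet k (0, piT (gam zm 3 k) e V) hk
  refine sub_eq_zero.1 (B.uniq k _ hk
    ((JS _).sub_mem hj ((JS _).add_mem (x := Res 3 k (B.G k (f, 0))) j1 j2)) ?_ ?_ ?_)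
  · have h1 := dE_res pf B hk le_rfl f
    rw [EndBox.dE] at h1 he
    rw [map_sub, map_add, he, h1, B.Geq k _ hk]
    simp
  · change End.tr 0 (V.y2 - ((Res 3 k (B.G k (f, 0))).y2 +
      (B.G k (0, piT (gam zm 3 k) e V)).y2)) = 0
    rw [map_sub, map_add, hd, dir_res pf B hk le_rfl, B.Gd k _ hk]
    simp
  · rw [(pf.piT_lin 3 k e).map_sub, (pf.piT_lin 3 k e).map_add, B.Gw k _ hk,
      (pf.piT_res 3 3 k e _ le_rfl hk (B.Gjet k (f, 0) hk)).1, B.Gw k _ hk]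
    simp

end

variable {e : En D} (B : EndBox zm e)

/-- the restricted solution operators -/
def AA (m n : ℕ) : WB →L[ℂ] EJ := ((Res 3 m).comp (B.G n)).comp (ContinuousLinearMap.inl ℂ _ _)

theorem AA_apply (m n : ℕ) (f : WB) : AA B m n f = Res 3 m (B.G n (f, 0)) := rfl

theorem Gf' {m n : ℕ} (h : 3 ≤ m) (hn : m ≤ n) (f : WB) :
    ‖Res 3 m (B.G n (f, 0))‖ ≤ |B.C| * TT zm m ^ 2 * ‖f‖ :=
  (B.Gf m n f h hn).trans (by gcongr; exact le_abs_self _)

theorem Gom' {m n : ℕ} (h : 3 ≤ m) (hn : m ≤ n) (o : WD) :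
    ‖Res 3 m (B.G n (0, o))‖ ≤ |B.C| * Real.exp (-(B.κ * ((n : ℝ) - m))) * ‖o‖ :=
  (B.Gom m n o h hn).trans (by gcongr; exact le_abs_self _)

theorem AA_sub (pf : PathF D zm) {m k n : ℕ} (h : 3 ≤ m) (hk : m ≤ k) (hn : k ≤ n) :
    ‖AA B m k - AA B m n‖ ≤ |B.C| ^ 3 * (TT zm k ^ 4 * Real.exp (-(B.κ * ((k : ℝ) - m)))) := by
  refine ContinuousLinearMap.opNorm_le_bound _ (by positivity) fun f => ?_
  have h3 := h.trans hk
  have j1 := pf.jet_res 3 3 k n e _ le_rfl h3 hn (B.Gjet n (f, 0) (h3.trans hn))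
  have h1 := repr pf B h3 j1 (dE_res pf B h3 hn f) (dir_res pf B h3 hn _)
  have h2 := congrArg (Res 3 m) h1
  rw [map_add, pf.res_res 3 3 m k _ le_rfl h hk, pf.res_res 3 3 m k _ le_rfl h hk] at h2
  rw [sub_apply, AA_apply, AA_apply, h2, sub_add_cancel_left, norm_neg]
  have h4 : ‖piT (gam zm 3 k) e (Res 3 k (B.G n (f, 0)))‖ ≤
      |B.C| * TT zm k ^ 2 * (|B.C| * TT zm k ^ 2 * ‖f‖) :=
    (B.pi_le k _ h3 j1).trans (mul_le_mul (by gcongr; exact le_abs_self _) (Gf' B h3 hn f)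
      (norm_nonneg _) (by positivity))
  refine (Gom' B h hk _).trans ((mul_le_mul_of_nonneg_left h4 (by positivity)).trans
    (le_of_eq (by ring)))

theorem lim_aux {E F : Type} [NormedAddCommGroup E] [NormedSpace ℂ E] [NormedAddCommGroup F]
    [NormedSpace ℂ F] [CompleteSpace F] (s : ℕ → E →L[ℂ] F) {b : ℕ → ℝ} (m : ℕ)
    (h : ∀ k n, m ≤ k → k ≤ n → ‖s k - s n‖ ≤ b k) (hb : Tendsto b atTop (𝓝 0)) :
    ∃ L : E →L[ℂ] F, (∀ f, Tendsto (fun n => s n f) atTop (𝓝 (L f))) ∧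
      ∀ k, m ≤ k → ‖s k - L‖ ≤ b k := by
  have h1 : CauchySeq fun n => s (n + m) :=
    cauchySeq_of_le_tendsto_0' _ (fun n n' hn => by
      rw [dist_eq_norm]
      exact h _ _ (Nat.le_add_left _ _) (Nat.add_le_add_right hn _))
      ((tendsto_add_atTop_iff_nat m).2 hb)
  obtain ⟨L, hL⟩ := cauchySeq_tendsto_of_complete h1
  have h2 := (tendsto_add_atTop_iff_nat m).1 hL
  exact ⟨L, fun f => ((ContinuousLinearMap.apply ℂ F f).continuous.tendsto _).comp h2,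
    fun k hk => le_of_tendsto (tendsto_const_nhds.sub h2).norm
      ((eventually_ge_atTop k).mono fun n hn => h k n hk hn)⟩

theorem exists_lim (pf : PathF D zm) (m : ℕ) : ∃ L : WB →L[ℂ] EJ, 3 ≤ m →
    (∀ f, Tendsto (fun n => Res 3 m (B.G n (f, 0))) atTop (𝓝 (L f))) ∧ ∀ k, m ≤ k →
      ‖AA B m k - L‖ ≤ |B.C| ^ 3 * (TT zm k ^ 4 * Real.exp (-(B.κ * ((k : ℝ) - m)))) := by
  by_cases h : 3 ≤ m
  · obtain ⟨L, hL⟩ := lim_aux (AA B m) m (fun k n hk hn => AA_sub B pf h hk hn)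
      (tends zm 4 B.κ_pos m (|B.C| ^ 3))
    exact ⟨L, fun _ => hL⟩
  · exact ⟨0, fun h' => absurd h' h⟩

theorem limF (pf : PathF D zm) : ∃ Gi, LimF B Gi := by
  choose Gi hGi using exists_lim B pf
  have pt : ∀ m, 3 ≤ m → ∀ f, Tendsto (fun n => Res 3 m (B.G n (f, 0))) atTop (𝓝 (Gi m f)) :=
    fun m h => (hGi m h).1
  have jet : ∀ m, 3 ≤ m → ∀ f, (ctr (gam zm 3 m) e).IsJet (Gi m f) := fun m h f =>
    (pf.closed _).mem_of_tendsto (pt m h f) ((eventually_ge_atTop m).mono fun n hn =>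
      pf.jet_res 3 3 m n e _ le_rfl h hn (B.Gjet n _ (h.trans hn)))
  have eq : ∀ m f, 3 ≤ m → B.dE m (Gi m f) = resW 3 m f := fun m f h =>
    tendsto_nhds_unique (((B.dE m).continuous.tendsto _).comp (pt m h f))
      (tendsto_const_nhds.congr' ((eventually_ge_atTop m).mono fun n hn =>
        (dE_res pf B h hn f).symm))
  have dir : ∀ m f, 3 ≤ m → End.tr 0 (Gi m f).y2 = 0 := fun m f h =>
    tendsto_nhds_unique ((((End.tr 0).comp EJ.y2L).continuous.tendsto _).comp (pt m h f))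
      (tendsto_const_nhds.congr' ((eventually_ge_atTop m).mono fun n hn =>
        (dir_res pf B h hn _).symm))
  have tr1 : ∀ n, 3 ≤ n → ∀ x, ‖End.tr 1 (B.G n x).y2‖ ≤ ‖Res 3 n (B.G n x)‖ := fun n h x => by
    rw [← (pf.piT_res 3 3 n e _ le_rfl h (B.Gjet n x h)).2]
    exact (norm_tr_apply_le _ _).trans (EJ.norm_y2_le _)
  refine ⟨Gi, base pf B, real pf B, fun f => ⟨fun m h => jet m h f, fun m' m h hm => ?_,
    |B.C| * ‖f‖, fun m h => ?_⟩, eq, dir, ?_, ?_, |B.C|, abs_nonneg _, fun n h f o => ⟨?_, ?_, ?_⟩⟩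
  · refine tendsto_nhds_unique (((Res 3 m').continuous.tendsto _).comp (pt m (h.trans hm) f))
      ((pt m' h f).congr fun n => ?_)
    exact (pf.res_res 3 3 m' m _ le_rfl h hm).symm
  · exact le_of_tendsto (pt m h f).norm ((eventually_ge_atTop m).mono fun n hn =>
      (Gf' B h hn f).trans (le_of_eq (by ring)))
  · refine squeeze_zero' (Eventually.of_forall fun n => by positivity)
      ((eventually_ge_atTop 6).mono fun k hk => ?_) (tends zm 6 B.κ_pos (6 : ℕ) (|B.C| ^ 3))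
    exact (mul_le_mul_of_nonneg_left ((hGi 6 (by norm_num)).2 k hk) (sq_nonneg _)).trans
      (le_of_eq (by ring))
  · refine squeeze_zero' (Eventually.of_forall fun n => by positivity)
      ((eventually_ge_atTop 6).mono fun k hk => ?_) (tends zm 2 B.κ_pos (6 : ℕ) |B.C|)
    have h1 : ‖(B.G6 k).comp (ContinuousLinearMap.inr ℂ _ _)‖ ≤
        |B.C| * Real.exp (-(B.κ * ((k : ℝ) - (6 : ℕ)))) :=
      ContinuousLinearMap.opNorm_le_bound _ (by positivity) fun o => Gom' B (by norm_num) hk o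
    exact (mul_le_mul_of_nonneg_left h1 (sq_nonneg _)).trans (le_of_eq (by ring))
  · have e1 : (B.G n (f, o)).y2 = (B.G n (f, 0)).y2 + (B.G n (0, o)).y2 := by
      rw [show ((f, o) : WB × WD) = (f, 0) + (0, o) by simp, map_add]
      rfl
    have h1 := (tr1 n h _).trans (Gf' B h le_rfl f)
    have h2 := (tr1 n h _).trans (Gom' B h le_rfl o)
    rw [sub_self, mul_zero, neg_zero, Real.exp_zero, mul_one] at h2
    rw [e1, map_add]
    exact (norm_add_le _ _).trans ((add_le_add h1 h2).trans (le_of_eq (by ring)))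
  · rw [EJ.y, tr_mult symb_y]
    exact (norm_mult_apply_le symb_y _).trans ((one_mul _).le.trans
      ((tr1 n h _).trans (Gf' B h le_rfl f)))
  · have h1 := repr pf B h (jet n h f) (eq n f h) (dir n f h)
    set o := piT (gam zm 3 n) e (Gi n f)
    have e1 : (B.G n (f, o)).y2 = (B.G n (f, 0)).y2 + (B.G n (0, o)).y2 := by
      rw [show ((f, o) : WB × WD) = (f, 0) + (0, o) by simp, map_add]
      rfl
    rw [e1, map_add, ← (pf.piT_res 3 3 n e _ le_rfl h (B.Gjet n (f, 0) h)).2, ← map_add, h1]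
    rfl

end LimP

theorem limStmt : LimStmt := fun _ _ _ hz pf =>
  ⟨LimP.yjF pf hz, fun _ B => LimP.limF B pf⟩

end Vale.Agent.P218N.Core
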