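import Vale.Agent.P218N.Core.Spec

/-! Tools for the transfers: criteria for compactness, derivatives of one-jets, periodic functions
on a strip. -/

open Set Filter Topology Metric Function
open scoped ContDiff

noncomputable section

namespace Vale.Agent.P218N.Core.Tr

open Vale.Agent.P218N.End

section cpt
variable {E F G : Type*} [NormedAddCommGroup E] [NormedSpace ℂ E] [NormedAddCommGroup F]
  [NormedSpace ℂ F] [NormedAddCommGroup G] [NormedSpace ℂ G]

/-- an operator which is dominated by a compact operator up to small errors is compact -/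
theorem cpt_of_le [CompleteSpace F] (T : E →L[ℂ] F) (K : E →L[ℂ] G) (hK : IsCompactOperator K)
    (h : ∀ ε > 0, ∃ C : ℝ, 0 ≤ C ∧ ∀ v, ‖T v‖ ≤ ε * ‖v‖ + C * ‖K v‖) : IsCompactOperator T := by
  refine (isCompactOperator_iff_isCompact_closure_image_ball (T : E →ₗ[ℂ] F) one_pos).2 ?_
  refine TotallyBounded.isCompact_of_isClosed (TotallyBounded.closure ?_) isClosed_closure
  have hb : TotallyBounded ((K : E →ₗ[ℂ] G) '' ball 0 1) :=
    ((isCompactOperator_iff_isCompact_closure_image_ball (K : E →ₗ[ℂ] G) one_pos).1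
      hK).totallyBounded.subset subset_closure
  refine Metric.totallyBounded_iff.2 fun ε hε => ?_
  obtain ⟨C, hC, h⟩ := h (ε / 4) (by positivity)
  obtain ⟨t, ht, hf, hc⟩ := Metric.finite_approx_of_totallyBounded hb (ε / (4 * (C + 1)))
    (by positivity)
  choose! u hu hu' using fun y (hy : y ∈ t) => ht hy
  refine ⟨(fun y => T (u y)) '' t, hf.image _, ?_⟩
  rintro _ ⟨v, hv, rfl⟩
  obtain ⟨y, hy, hvy⟩ := mem_iUnion₂.1 (hc ⟨v, hv, rfl⟩)
  refine mem_iUnion₂.2 ⟨_, ⟨y, hy, rfl⟩, ?_⟩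
  have h1 := h (v - u y)
  have h2 : ‖v - u y‖ ≤ 2 := by
    have := norm_sub_le v (u y)
    have h3 := mem_ball_zero_iff.1 hv
    have h4 := mem_ball_zero_iff.1 (hu y hy)
    linarith
  have h3 : ‖K (v - u y)‖ ≤ ε / (4 * (C + 1)) := by
    rw [map_sub, ← dist_eq_norm]
    have : K (u y) = y := hu' y hy
    rw [this]
    exact le_of_lt hvy
  have h4 : C * ‖K (v - u y)‖ ≤ ε / 4 := by
    refine (mul_le_mul (le_add_of_nonneg_right zero_le_one : C ≤ C + 1) h3 (norm_nonneg _)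
      (by positivity)).trans_eq ?_
    field_simp
  rw [mem_ball, dist_eq_norm]
  show ‖T v - T (u y)‖ < ε
  rw [← map_sub]
  nlinarith

theorem cpt_pi {ι : Type*} [Fintype ι] (T : ι → E →L[ℂ] F) (h : ∀ i, IsCompactOperator (T i)) :
    IsCompactOperator (ContinuousLinearMap.pi T) := by
  classical
  have e : ContinuousLinearMap.pi T =
      ∑ i, (ContinuousLinearMap.single ℂ (fun _ : ι => F) i).comp (T i) := by
    ext v i
    simp [Finset.sum_apply, Pi.single_apply]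
  rw [e]
  exact (compactOperator (RingHom.id ℂ) E (ι → F)).sum_mem fun i _ =>
    (h i).clm_comp (ContinuousLinearMap.single ℂ (fun _ : ι => F) i)

/-- an operator into `WB` with uniformly summable modes, dominated by a compact operator -/
theorem cpt_W (T : E →L[ℂ] WB) (K : E →L[ℂ] G) (hK : IsCompactOperator K) {b : ℤ → ℝ}
    (hb : Summable b) {C : ℝ} (hC : 0 ≤ C) (h1 : ∀ v m, ‖(T v).c m‖ ≤ ‖K v‖)
    (h2 : ∀ v m, ‖(T v).c m‖ ≤ C * ‖v‖ * b m) : IsCompactOperator T := by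
  classical
  refine cpt_of_le T K hK fun ε hε => ?_
  obtain ⟨s, hs⟩ := summable_iff_vanishing_norm.1 hb (ε / (C + 1)) (by positivity)
  refine ⟨s.card, Nat.cast_nonneg _, fun v => W.norm_le_of_sum_le fun t => ?_⟩
  rw [← Finset.sum_sdiff (Finset.inter_subset_left (s₂ := s)), Finset.sdiff_inter_self_left]
  refine add_le_add ?_ ?_
  · refine (Finset.sum_le_sum fun m _ => h2 v m).trans ?_
    rw [← Finset.mul_sum]
    have h3 := ((le_abs_self _).trans_lt (hs (t \ s) Finset.sdiff_disjoint)).le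
    calc C * ‖v‖ * ∑ m ∈ t \ s, b m ≤ C * ‖v‖ * (ε / (C + 1)) := by gcongr
      _ ≤ (C + 1) * ‖v‖ * (ε / (C + 1)) := by gcongr; linarith
      _ = ε * ‖v‖ := by field_simp
  · refine (Finset.sum_le_sum fun m _ => h1 v m).trans ?_
    rw [Finset.sum_const, nsmul_eq_mul]
    gcongr
    exact Finset.inter_subset_right

/-- compact operators into `WB` -/
theorem exists_toW (F F1 : E → ℝ → ℝ → ℂ) (K : E →L[ℂ] G) (hK : IsCompactOperator K) {C : ℝ}
    (hC : 0 ≤ C) (ha : ∀ u v t θ, F (u + v) t θ = F u t θ + F v t θ)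
    (hs : ∀ (z : ℂ) v t θ, F (z • v) t θ = z * F v t θ)
    (hc : ∀ v, Continuous fun p : ℝ × ℝ => F v p.1 p.2)
    (hp : ∀ v t, Periodic (F v t) (2 * Real.pi)) (b0 : ∀ v t θ, ‖F v t θ‖ ≤ C * ‖v‖)
    (h1 : ∀ v t θ, HasDerivAt (F v t) (F1 v t θ) θ)
    (h2 : ∀ v t θ θ', ‖F1 v t θ - F1 v t θ'‖ ≤ C * ‖v‖ * |θ - θ'| ^ (1 / 2 : ℝ))
    (h3 : ∀ v t θ, ‖F v t θ‖ ≤ ‖K v‖) :
    ∃ T : E →L[ℂ] WB, IsCompactOperator T ∧ ∀ v t θ, ev (T v) t θ = F v t θ := by
  have hD : ∀ v, FDom (fun _ => C * ‖v‖) (bw (1 / 2)) (F v) := fun v =>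
    fdom_hol (by norm_num) (fun _ => le_rfl) (hc v) (hp v) (b0 v) (h1 v) (h2 v)
  let L : E →ₗ[ℂ] WB :=
    { toFun := fun v => toW (F v)
      map_add' := fun u v => by
        rw [← (hD u).toW_add (hD v)]
        congr 1
        funext t θ
        exact ha u v t θ
      map_smul' := fun z v => by
        rw [RingHom.id_apply, ← (hD v).toW_const_mul z]
        congr 1
        funext t θ
        exact hs z v t θ }
  refine ⟨L.mkContinuous (Cw (1 / 2) * C) fun v => ?_, ?_, fun v => (hD v).ev_toW⟩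
  · rw [mul_assoc]
    exact (hD v).norm_le fun _ => le_rfl
  · refine cpt_W _ K hK (summable_bw (α := 1 / 2) (by norm_num)) hC (fun v m => ?_) fun v m => ?_
    · exact norm_BC_le fun t =>
        (congrArg norm ((hD v).c_toW m t)).trans_le (norm_fd_le (h3 v t) m)
    · exact norm_BC_le fun t => (congrArg norm ((hD v).c_toW m t)).trans_le ((hD v).le m t)

end cpt

/-! ### Jets -/

section jets
variable {V : Type} [NormedAddCommGroup V]

/-- the derivative of the one-jet in the first direction -/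
def dz (a : J2 V) : J2 V := ![a 1, a 3, a 4, 0, 0, 0]
/-- the derivative of the one-jet in the second direction -/
def dt (a : J2 V) : J2 V := ![a 2, a 4, a 5, 0, 0, 0]

theorem T1_le (a : J2 V) (k : Fin 6) : ‖T1 a k‖ ≤ ‖a‖ := by
  fin_cases k <;> simp [T1, norm_le_pi_norm]

theorem dz_le (a : J2 V) (k : Fin 6) : ‖dz a k‖ ≤ ‖a‖ := by
  fin_cases k <;> simp [dz, norm_le_pi_norm]

theorem dt_le (a : J2 V) (k : Fin 6) : ‖dt a k‖ ≤ ‖a‖ := by
  fin_cases k <;> simp [dt, norm_le_pi_norm]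

theorem dt_sub (a b : J2 V) (k : Fin 6) : dt a k - dt b k = dt (a - b) k := by
  fin_cases k <;> simp [dt]

theorem T1_add (a b : J2 V) (k : Fin 6) : T1 (a + b) k = T1 a k + T1 b k := by
  fin_cases k <;> simp [T1]

theorem T1_smul (z : ℂ) (a : J2 ℂ) (k : Fin 6) : T1 (z • a) k = z * T1 a k := by
  fin_cases k <;> simp [T1]

variable [NormedSpace ℝ V]

theorem norm_le_two (L : R2 →L[ℝ] V) : ‖L‖ ≤ ‖L (1, 0)‖ + ‖L (0, 1)‖ := by
  refine ContinuousLinearMap.opNorm_le_bound _ (by positivity) fun y => ?_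
  have e : y = y.1 • ((1, 0) : R2) + y.2 • ((0, 1) : R2) := by ext <;> simp
  have h : L y = y.1 • L (1, 0) + y.2 • L (0, 1) := by
    conv_lhs => rw [e]
    rw [map_add, map_smul, map_smul]
  rw [h, add_mul]
  refine (norm_add_le _ _).trans (add_le_add ?_ ?_) <;> rw [norm_smul, mul_comm]
  · exact mul_le_mul_of_nonneg_left (norm_fst_le y) (norm_nonneg _)
  · exact mul_le_mul_of_nonneg_left (norm_snd_le y) (norm_nonneg _)

theorem hasFDerivAt_T1 {g : R2 → V} {q : R2} (hg : ContDiffAt ℝ 2 g q) (k : Fin 6) :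
    ∃ L : R2 →L[ℝ] V, HasFDerivAt (fun z => T1 (jet2 g z) k) L q ∧
      L (1, 0) = dz (jet2 g q) k ∧ L (0, 1) = dt (jet2 g q) k := by
  have h1 := (hg.differentiableAt (by simp)).hasFDerivAt
  have h2 : HasFDerivAt (fderiv ℝ g) (fderiv ℝ (fderiv ℝ g) q) q :=
    ((hg.fderiv_right (m := 1) (by norm_num)).differentiableAt (by simp)).hasFDerivAt
  have h3 := hg.isSymmSndFDerivAt (by simp)
  have h4 : ∀ v : R2, HasFDerivAt (fun z => fderiv ℝ g z v)
      ((ContinuousLinearMap.apply ℝ V v).comp (fderiv ℝ (fderiv ℝ g) q)) q := fun v =>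
    (ContinuousLinearMap.apply ℝ V v).hasFDerivAt.comp q h2
  fin_cases k
  · exact ⟨_, h1, rfl, rfl⟩
  · exact ⟨_, h4 (1, 0), rfl, h3 _ _⟩
  · exact ⟨_, h4 (0, 1), rfl, rfl⟩
  all_goals exact ⟨0, hasFDerivAt_const (0 : V) q, rfl, rfl⟩

theorem hasDerivAt_snd {f : R2 → V} {L : R2 →L[ℝ] V} {ζ θ : ℝ} (h : HasFDerivAt f L (ζ, θ)) :
    HasDerivAt (fun θ => f (ζ, θ)) (L (0, 1)) θ :=
  h.comp_hasDerivAt θ ((hasDerivAt_const θ ζ).prodMk (hasDerivAt_id θ))

theorem fderiv_per {g : R2 → V} {c : R2} (h : Periodic g c) : Periodic (fderiv ℝ g) c :=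
  fun q => by rw [← fderiv_comp_add_right, show (fun x => g (x + c)) = g from funext h]

theorem jet2_per {g : R2 → V} {c : R2} (h : Periodic g c) : Periodic (jet2 g) c := fun q => by
  unfold jet2
  rw [h q, fderiv_per h q, fderiv_per (fderiv_per h) q]

omit [NormedAddCommGroup V] [NormedSpace ℝ V] in
theorem per_of {g : R2 → V} (h : ∀ ζ θ, g (ζ, θ + 2 * Real.pi) = g (ζ, θ)) :
    Periodic g (0, 2 * Real.pi) := fun q => by
  rw [← h q.1 q.2]
  congr 1
  ext <;> simp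

omit [NormedAddCommGroup V] [NormedSpace ℝ V] in
theorem per_snd {g : R2 → V} (h : Periodic g (0, 2 * Real.pi)) (ζ : ℝ) :
    Periodic (fun θ => g (ζ, θ)) (2 * Real.pi) := fun θ => by
  simpa using h (ζ, θ)

omit [NormedSpace ℝ V] in
theorem strip_bdd {g : R2 → V} {a b : ℝ} (hc : ∀ q : R2, q.1 ∈ Icc a b → ContinuousAt g q)
    (hp : Periodic g (0, 2 * Real.pi)) : ∃ C, 0 ≤ C ∧ ∀ q : R2, q.1 ∈ Icc a b → ‖g q‖ ≤ C := by
  obtain ⟨C, hC⟩ := (isCompact_Icc.prod (isCompact_Icc (a := (0 : ℝ)) (b := 2 * Real.pi))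
    ).exists_bound_of_continuousOn (f := g) fun q hq => (hc q hq.1).continuousWithinAt
  refine ⟨|C|, abs_nonneg _, fun q hq => ?_⟩
  obtain ⟨θ, hθ, e⟩ := (per_snd hp q.1).exists_mem_Ico₀ Real.two_pi_pos q.2
  exact (congrArg norm e).trans_le ((hC (q.1, θ) ⟨hq, Ico_subset_Icc_self hθ⟩).trans
    (le_abs_self _))

theorem strip_lip {g : R2 → V} {a b : ℝ} (hc : ∀ q : R2, q.1 ∈ Icc a b → ContDiffAt ℝ 1 g q)
    (hp : Periodic g (0, 2 * Real.pi)) : ∃ C, 0 ≤ C ∧ ∀ q q' : R2, q.1 ∈ Icc a b →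
      q'.1 ∈ Icc a b → ‖g q - g q'‖ ≤ C * ‖q - q'‖ := by
  obtain ⟨C, h0, hC⟩ := strip_bdd (g := fderiv ℝ g) (a := a) (b := b)
    (fun q hq => ((hc q hq).fderiv_right (m := 0) (by simp)).continuousAt) (fderiv_per hp)
  refine ⟨C, h0, fun q q' hq hq' => ?_⟩
  exact ((convex_Icc a b).prod (convex_univ (E := ℝ))).norm_image_sub_le_of_norm_fderiv_le
    (𝕜 := ℝ) (fun z hz => (hc z hz.1).differentiableAt (by simp)) (fun z hz => hC z hz.1)
    ⟨hq', trivial⟩ ⟨hq, trivial⟩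

end jets

end Vale.Agent.P218N.Core.Tr
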