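import Vale.Agent.P218N.Core.Sys
import Vale.Agent.P218N.Core.TransA

/-! The core problem: the linear system on the infinite ends, its invertibility, the nonlinear
equation on the surface. -/

open Set Filter Topology Metric MeasureTheory
open scoped RealInnerProductSpace ContDiff Matrix NNReal

noncomputable section

namespace Vale.Agent.P218N.Core

open Vale.Agent.P218.H313 Vale.Agent.P218N.H Vale.Agent.P218N.End Vale.Agent.P272.K.LIN

set_option linter.unusedSectionVars false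

namespace LinP

theorem cont_jet2 {g : R2 → ℂ} {q : R2} (h : ContDiffAt ℝ 2 g q) : ContinuousAt (jet2 g) q := by
  have h1 : ContDiffAt ℝ 1 (fderiv ℝ g) q := h.fderiv_right (by norm_num)
  have h2 : ContinuousAt (fderiv ℝ (fderiv ℝ g)) q :=
    (h1.fderiv_right (m := 0) (by simp)).continuousAt
  refine continuousAt_pi.2 fun k => ?_
  fin_cases k
  · exact h.continuousAt
  · exact h1.continuousAt.clm_apply continuousAt_const
  · exact h1.continuousAt.clm_apply continuousAt_const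
  all_goals exact (h2.clm_apply continuousAt_const).clm_apply continuousAt_const

theorem norm_T1_le (a : J2 ℂ) : ‖T1 a‖ ≤ ‖a‖ := by
  refine (pi_norm_le_iff_of_nonneg (norm_nonneg _)).2 fun k => ?_
  fin_cases k
  · exact norm_le_pi_norm a 0
  · exact norm_le_pi_norm a 1
  · exact norm_le_pi_norm a 2
  all_goals simp [T1]

theorem exists_TT (zm ζ : ℝ) : ∃ m : ℕ, 6 ≤ m ∧ ζ < TT zm m := by
  obtain ⟨m, hm⟩ := exists_nat_ge (ζ - zm)
  refine ⟨m + 6, by omega, ?_⟩
  unfold TT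
  push_cast
  linarith

theorem cpt_prod {E F F' : Type} [NormedAddCommGroup E] [NormedSpace ℂ E] [NormedAddCommGroup F]
    [NormedSpace ℂ F] [NormedAddCommGroup F'] [NormedSpace ℂ F'] {S : E →L[ℂ] F} {T : E →L[ℂ] F'}
    (hS : IsCompactOperator S) (hT : IsCompactOperator T) : IsCompactOperator (S.prod T) := by
  have h := (hS.clm_comp (ContinuousLinearMap.inl ℂ F F')).add
    (hT.clm_comp (ContinuousLinearMap.inr ℂ F F'))
  have e : (S.prod T : E → F × F') = ContinuousLinearMap.inl ℂ F F' ∘ S +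
      ContinuousLinearMap.inr ℂ F F' ∘ T := funext fun x => by simp
  rw [e]
  exact h

variable {w : E3 → ℝ} {D : EndData w} {G : Geo D} {zm : ℝ}

theorem rotN_zero (G : Geo D) (zm : ℝ) (p : E3) : G.rotN zm 0 p = 0 := by
  refine Finset.sum_eq_zero fun b _ => ?_
  have : G.lift (.inr b) (phR b ((0 : Fin D.b → ℂ × ℂ) b)) p = 0 := by
    unfold Geo.lift
    split_ifs
    · simp [phR]
    · rfl
  rw [this, mul_zero]

end LinP

open LinP

variable {w : E3 → ℝ} {D : EndData w} {G : Geo D} {zm : ℝ} {X : Type} [TopologicalSpace X]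
  [ChartedSpace R2 X] [T2Space X] [CompactSpace X] [RSm R2 X] (C : Ctx2 G zm X)

theorem Ctx2.linS (h1 : C.OpS) (h2 : C.GamS) : C.LinS := by
  intro j v j0 f F hfam hj0 hrep hL hE
  have hY := fun T hT => C.yf.inf j j0 T hT hfam hj0
  have hz := C.hz
  have h1z := G.one_le
  have hce : C.CE (C.ML f) (v, j0) := fun x => by
    have a1 := h1.L0_eq (v, j0) x
    have a2 : ∑ i ∈ C.Z.A, (C.Z.pou.ρ i x : ℂ) * C.b1 x * f ((C.Z.P i).φ (C.Z.𝒞.e i x)) =
        C.b1 x * f (C.Z.pr x) := by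
      conv_rhs => rw [← h1.sum_b1 x, Finset.sum_mul]
      refine Finset.sum_congr rfl fun i hi => ?_
      by_cases hρ : C.Z.pou.ρ i x = 0
      · simp [hρ]
      · rw [(h1.pt_eq i hi x hρ).2]
    simp only [Ctx.ML, mul_sub, Finset.sum_sub_distrib]
    rw [a2]
    linear_combination hL x - a1
  have heq : ∀ T, C.EQ (C.ML f) v (fun e => Yinf zm (j e)) T := fun T e q hq => by
    obtain ⟨m, hm, hqm⟩ := exists_TT zm q.1
    have a1 := h2.lin m (fun e => j e m) v j0 f F hm (fun e => (hfam e).jet m (by omega))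
      (fun e => (hj0 e).trans ((hfam e).res 6 m (by norm_num) hm).symm) (hrep _)
      (fun e => hE e m hm) e q ⟨hq.1, hqm⟩
    have a2 : Yinf zm (j e) =ᶠ[𝓝 q] Yj zm (j e m) := by
      filter_upwards [continuous_fst.continuousAt.eventually (Ioo_mem_nhds hq.1 hqm)] with z hz
      exact C.yf.loc e (j e) m z (hfam e) (by omega) (Ioo_subset_Icc_self hz)
    simp only [jet2_congr a2, a2.self_of_nhds]
    exact a1
  have hc2 : C2S w (C.tot v fun e => Yinf zm (j e)) := fun P y hy =>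
    C.tot_c2 (hY (max (zm + 7) (G.σ (P.φ y) + 1)) (le_max_left _ _)) v P hy
      (lt_max_of_lt_right (lt_add_one _))
  have hm2 : C.Mod2 (C.tot v fun e => Yinf zm (j e)) := by
    choose B1 hB1 using fun e => C.yf.bd e (j e) (hfam e)
    have a1 : ∀ e : En D, ∃ B, 0 ≤ B ∧ ∀ q : R2, q.1 ∈ Icc (G.z0 + 1) (zm + 4) →
        ‖jet2 (fun z => C.tot v (fun e => Yinf zm (j e)) (pt e z)) q‖ ≤ B := fun e => by
      refine Tr.strip_bdd (fun q hq => cont_jet2 ?_)
        (Tr.jet2_per (Tr.per_of fun ζ θ => by rw [C.iv.per]))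
      have := hc2 (G.ep e q.2) q (G.mem_ep e (by linarith [hq.1]))
      rwa [G.ep_φ] at this
    choose B2 hB0 hB2 using a1
    refine ⟨∑ e, (|B1 e| + B2 e), fun e q hq => ?_⟩
    have a2 : |B1 e| + B2 e ≤ ∑ e, (|B1 e| + B2 e) :=
      Finset.single_le_sum (f := fun e => |B1 e| + B2 e)
        (fun e _ => add_nonneg (abs_nonneg _) (hB0 e)) (Finset.mem_univ e)
    have a3 : 1 ≤ q.1 ^ 2 := one_le_pow₀ (by linarith)
    refine le_trans ?_ (mul_le_mul_of_nonneg_right a2 (sq_nonneg _))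
    have a4 := abs_nonneg (B1 e)
    have a5 := hB0 e
    by_cases hq4 : q.1 ≤ zm + 4
    · refine (hB2 e q ⟨hq, hq4⟩).trans ?_
      nlinarith
    · have hT := hY (max (zm + 7) (q.1 + 1)) (le_max_left _ _)
      rw [jet2_congr (C.tot_hi hT v e (by linarith)), jet2_smul _
        (hT.c2 e q ⟨by linarith, lt_max_of_lt_right (lt_add_one _)⟩), norm_smul]
      have a6 : ‖(G.s e : ℂ)‖ = 1 := by rcases G.s_sq e with h | h <;> simp [h]
      rw [a6, one_mul]
      refine (hB1 e q (by linarith)).trans ?_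
      nlinarith [le_abs_self (B1 e)]
  refine ⟨hc2, hm2, ?_, hce, heq, fun p hp => ?_⟩
  · obtain ⟨B, hB⟩ := hm2
    exact ⟨B, fun e q hq => (norm_T1_le _).trans (hB e q hq)⟩
  · exact sub_eq_zero.1 (C.tot_eq (h1.opL f) (hY (max (zm + 7) (G.σ p + 1)) (le_max_left _ _))
      hce (heq _) hp (lt_max_of_lt_right (lt_add_one _)))

theorem Ctx2.invS : C.InvS := by
  intro hF Φ gb N ψ ψh l 𝓛 hΦ hψ ⟨K, hK, hKL⟩
  have := C.hf.complete
  set K' : C.EE3 (Fin N ⊕ Fin D.b) →L[ℂ] C.EE3 (Fin N ⊕ Fin D.b) :=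
    ((𝓛.symm : C.H →L[ℂ] C.U).comp (K.comp (C.zT C.Ti) - (C.sH ψh).comp
      ((ContinuousLinearMap.snd ℂ _ _).comp (ContinuousLinearMap.snd ℂ _ _)))).prod
    ((-C.GamL.comp (C.zT C.Ti)).prod
      ((ContinuousLinearMap.pi l).comp (ContinuousLinearMap.fst ℂ _ _) -
        (ContinuousLinearMap.snd ℂ _ _).comp (ContinuousLinearMap.snd ℂ _ _))) with hK'
  have e : ∀ a, C.Sys 𝓛 ψh l C.Ti a = a + K' a := fun a => by
    rw [Ctx.Sys_apply, hKL]
    refine Prod.ext ?_ (Prod.ext ?_ ?_)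
    · change _ = a.1 + 𝓛.symm (K (a.1, C.Ti a.2.1) - C.sH ψh a.2.2)
      rw [add_sub_assoc, map_add, ContinuousLinearEquiv.symm_apply_apply]
    · exact sub_eq_add_neg _ _
    · change _ = a.2.2 + ((fun k => l k a.1) - a.2.2)
      rw [add_sub_cancel]
  have hc : IsCompactOperator K' := by
    refine cpt_prod ?_ (cpt_prod ?_ (isCompactOperator_of_locallyCompactSpace_dom _))
    · exact ((hK.comp_clm (C.zT C.Ti)).sub
        ((isCompactOperator_of_locallyCompactSpace_dom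
          ((ContinuousLinearMap.snd ℂ _ _).comp (ContinuousLinearMap.snd ℂ _ _) :
            C.EE3 (Fin N ⊕ Fin D.b) →L[ℂ] _)).clm_comp (C.sH ψh))).clm_comp
        (𝓛.symm : C.H →L[ℂ] C.U)
    · exact (hF.gam.cpt.comp_clm (C.zT C.Ti)).neg
  obtain ⟨L, hL⟩ := (C.abs ℂ _).fred K' hc fun a ha => by
    obtain ⟨v, g, lm⟩ := a
    rw [← e, Ctx.Sys_apply] at ha
    have a1 : C.L0 (v, C.Ti g) = C.sH ψh lm :=
      sub_eq_zero.1 (𝓛.symm.injective ((congrArg Prod.fst ha).trans (map_zero _).symm))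
    have a2 : g = C.GamL (v, C.Ti g) := sub_eq_zero.1 (congrArg (fun a => a.2.1) ha)
    have a3 : ∀ k, l k v = 0 := fun k => congrFun (congrArg (fun a => a.2.2) ha) k
    obtain ⟨b1, b2, b3⟩ := hψ.ident v g lm 0 (by rw [map_zero, add_zero, a1]) a2 fun k => a3 _
    have b4 : lm = 0 := funext fun k => by
      rcases k with k | b
      · exact b1 k
      · have := b2 b
        rw [a3] at this
        exact (mul_eq_zero.1 this.symm).resolve_left (by exact_mod_cast hΦ.ne b)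
    subst b4
    rw [map_zero] at a1
    obtain ⟨-, -, -, c1, c2, -⟩ := hF.lin (fun e m => C.Gi e m (g e)) v (C.Ti g) 0 0
      (fun e => (C.lf e).fam _) (fun e => rfl) (fun T e q _ => by simp)
      (fun x => by rw [a1]; simp) fun e m hm => by
        rw [(C.lf e).eq m _ (by omega), ← a2]
        simp
    obtain ⟨d1, d2⟩ := hF.dmax v (C.Ti g) _ (zm + 7)
      (C.yf.inf _ _ _ le_rfl (fun e => (C.lf e).fam _) fun e => rfl)
      (fun e => ⟨((C.lf e).fam (g e)).res 6 6 (by norm_num) le_rfl,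
        (C.lf e).dir 6 _ (by norm_num)⟩) c1 (c2 _) fun p hp _ => by
        have := b3 p hp
        rw [rotN_zero] at this
        simpa [Ctx2.ti] using this
    rw [d1, d2] at a2
    rw [d1, a2]
    exact Prod.ext rfl (Prod.ext (map_zero _) rfl)
  exact ⟨L, hL.trans (ContinuousLinearMap.ext fun a => (e a).symm)⟩

theorem Ctx2.eqS : C.EqS := by
  intro hF Φ gb N ψ ψh l hψ n r B r0 z j lm hM hk hN
  have hY := fun x hx => C.yf.fin n (j x) (z x).2 hN.six (hN.jet x hx) (hN.res x hx)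
  have hnl := fun x hx => hF.gam.nl n (j x) (z x).1 (z x).2 x.2.1 (sumP ψ (lm x)) hN.six
    (hN.jet x hx) (hN.res x hx) (fun p hp h => Finset.sum_eq_zero fun k _ => by
      rw [hψ.spt k p hp (by linarith)]; simp) (hN.eq2 x hx)
  have hb := fun x hx => mem_ball_zero_iff.2 (hN.small x hx).1
  refine ⟨fun x hx e => (hnl x hx).2 e, fun x hx p hp hT => sub_eq_zero.1
    (C.tot_eq (hF.op.opN x.2.1 (sumP ψ (lm x))) (hY x hx) (fun y => ?_) (hnl x hx).1 hp hT),
    fun x hx p hp hT => ?_⟩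
  · have a1 := congrArg (fun f : C.H => f y) (hN.eq1 x hx)
    simp only [Hol.add_apply, Hol.mul_apply] at a1
    rw [hM.val _ (hb x hx), hk.val _ (hb x hx), Finset.sum_mul] at a1
    have a2 : ∀ i ∈ C.Z.A, (C.Z.pou.ρ i y : ℂ) * C.b1 y * kap (C.aX i (x.2.1, z x) y) *
        C.sH ψh (lm x) y = C.Z.pou.ρ i y * C.b1 y * (kap (C.aX i (x.2.1, z x) y) *
          sumP ψ (lm x) ((C.Z.P i).φ (C.Z.𝒞.e i y))) := fun i hi => by
      by_cases hρ : C.Z.pou.ρ i y = 0
      · simp [hρ]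
      by_cases h0 : C.b1 y = 0
      · simp [h0]
      rw [(hF.op.pt_eq i hi y hρ).2, mul_assoc, Ctx.sH_apply]
      simp only [hψ.up, Dbl.upF, if_pos (C.b1_ne h0).1]
      rfl
    rw [Finset.sum_congr rfl a2] at a1
    simp only [Ctx.MN, mul_sub, Finset.sum_sub_distrib]
    simp only [Ctx.aX] at a1
    linear_combination a1
  · obtain ⟨y, rfl, hy⟩ := C.tf.ex p hp (by linarith)
    obtain ⟨i, hi, hρ⟩ := Finset.exists_ne_zero_of_sum_ne_zero
      ((C.sum_act hy (by linarith)).trans_ne one_ne_zero)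
    have hρ' : C.Z.pou.ρ i y ≠ 0 := by exact_mod_cast hρ
    have a1 := hM.om _ (hb x hx) i hi y hρ' (by rw [C.b1_one hy hT.le]; exact one_ne_zero)
    obtain ⟨a2, a3⟩ := hF.op.pt_eq i hi y hρ'
    have a4 := (C.jf.low _ x.2.1 _ _ (hF.op.T1_mI _ _ _ (z x).1 (hY x hx) i hi y hρ'
      (by linarith))).2.2 a1
    have a5 := (hY x hx).le
    rw [← a3]
    exact (C.iv.inv _ _ a2 _ _ (C.tot_c2 (hY x hx) _ _ a2 (by rw [a3]; linarith)) _ rfl).1.2 a4

end Vale.Agent.P218N.Core
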