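import Vale.Agent.P218N.Core.MaxS
import Mathlib.Analysis.Calculus.DerivativeTest

/-! The maximum principle on the ends. -/

open Set Filter Topology
open scoped ContDiff

noncomputable section

namespace Vale.Agent.P218N.Core

open Vale.Agent.P218.H313 Vale.Agent.P218N.H Vale.Agent.P218N.End

namespace Mx

theorem hess_le {f : R2 → ℝ} {q : R2} (hf : ContDiffAt ℝ 2 f q) (hm : IsLocalMax f q) (v : R2) :
    fderiv ℝ (fderiv ℝ f) q v v ≤ 0 := by
  have l : ∀ t : ℝ, HasDerivAt (fun t : ℝ => q + t • v) v t := fun t => by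
    simpa using ((hasDerivAt_id t).smul_const v).const_add q
  have t0 : Tendsto (fun t : ℝ => q + t • v) (𝓝 0) (𝓝 q) := by simpa using (l 0).continuousAt.tendsto
  have h1 : deriv (fun t : ℝ => f (q + t • v)) =ᶠ[𝓝 0] fun t => fderiv ℝ f (q + t • v) v :=
    (t0.eventually (eventually_diff_two hf)).mono fun t ht =>
      (ht.hasFDerivAt.comp_hasDerivAt t (l t)).deriv
  have h2 : deriv (deriv fun t : ℝ => f (q + t • v)) 0 = fderiv ℝ (fderiv ℝ f) q v v := by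
    rw [h1.deriv_eq, ← JA.d2_apply hf]
    exact (HasFDerivAt.comp_hasDerivAt_of_eq 0 (JA.diffv hf v).hasFDerivAt (l 0) (by simp)).deriv
  have h3 : IsLocalMax (fun t : ℝ => f (q + t • v)) 0 := by
    simpa [IsLocalMax, IsMaxFilter] using t0.eventually hm
  by_contra h
  have h4 := isLocalMin_of_deriv_deriv_pos (h2 ▸ not_le.1 h) h3.deriv_eq_zero
    (ContinuousAt.comp_of_eq hf.continuousAt (l 0).continuousAt (by simp))
  have h5 : (fun t : ℝ => f (q + t • v)) =ᶠ[𝓝 0] fun _ => f (q + (0 : ℝ) • v) := by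
    filter_upwards [h3, h4] with t a b using le_antisymm a b
  rw [← h2, h5.deriv.deriv_eq] at h
  simp at h

variable {w : E3 → ℝ} {D : EndData w} (G : Geo D) (zm : ℝ)

theorem ep_mem (e : En D) {q : R2} (hq : G.z0 < q.1) : q ∈ (G.ep e q.2).O := by
  rw [G.ep_O]
  exact ⟨hq, by linarith [Real.pi_pos], by linarith [Real.pi_pos]⟩

/-- no positive interior maximum -/
theorem no_max (P : Patch (SS w)) {q : R2} (hq : q ∈ P.O) {f : R2 → ℝ} {m : J2 ℂ}
    (hf : ContDiffAt ℝ 2 f q) (hm : IsLocalMax f q) (h0 : 0 < f q) {r : ℝ} (hr : 0 < r)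
    (m0 : m 0 = r) (hs : (Lh (G.bJ zm P.φ q) m).re < 0) :
    Lh (G.bJ zm P.φ q) (jmul (jet2 (fun z => (f z : ℂ)) q) m) ≠ 0 := by
  have J := jetStmt w D
  obtain ⟨hb, hO, -, hp, -⟩ := (invStmt' w D G zm).base P q hq
  obtain ⟨a, b, c, ea, eb, ec, ha, hc, hd⟩ := (invStmt' w D G zm).pos P q hq
  have e : jet2 (fun z => (f z : ℂ)) q = fun k => ((jet2 f q k : ℝ) : ℂ) :=
    jet2_clm Complex.ofRealCLM hf
  have e1 : jet2 f q 1 = 0 := by simp [jet2, hm.fderiv_eq_zero]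
  have e2 : jet2 f q 2 = 0 := by simp [jet2, hm.fderiv_eq_zero]
  have e3 : T1 (fun k => ((jet2 f q k : ℝ) : ℂ)) = (f q : ℂ) • j1 := by
    ext k
    fin_cases k <;> simp [T1, j1, e1, e2]
    rfl
  have h1 := hess_le hf hm (c, -b)
  have h2 : jet2 f q 5 ≤ 0 := hess_le hf hm (0, 1)
  have h3 : fderiv ℝ (fderiv ℝ f) q (c, -b) (c, -b) =
      c * (c * jet2 f q 3 - 2 * b * jet2 f q 4) + b ^ 2 * jet2 f q 5 := by
    rw [Iv.clm_R2 (fderiv ℝ (fderiv ℝ f) q) (c, -b), add_apply, smul_apply, smul_apply,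
      Iv.clm_R2 (fderiv ℝ (fderiv ℝ f) q (1, 0)) (c, -b),
      Iv.clm_R2 (fderiv ℝ (fderiv ℝ f) q (0, 1)) (c, -b), (J2.self (1, 0) (0, 1) hf).e21]
    simp only [jet2, smul_eq_mul, Matrix.cons_val]
    ring
  have h4 : c * jet2 f q 3 - 2 * b * jet2 f q 4 + a * jet2 f q 5 ≤ 0 :=
    le_of_mul_le_mul_left (by nlinarith) hc
  have h5 := div_nonpos_of_nonpos_of_nonneg h4 (sub_pos.2 hd).le
  rw [J.Lh_mul _ hO hb, e, J.prin_eq _ hO hb (fun k => ((jet2 f q k : ℝ) : ℂ)), e3, map_smul, hp,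
    prin, ginv, dg, ea, eb, ec, m0]
  intro h
  have h6 : (f q : ℂ) * Lh (G.bJ zm P.φ q) m + ((r * ((c * jet2 f q 3 - 2 * b * jet2 f q 4 +
      a * jet2 f q 5) / (a * c - b ^ 2)) : ℝ) : ℂ) = 0 := by
    rw [← h, e1, e2]
    simp only [smul_eq_mul, show jet2 f q 0 = f q from rfl]
    push_cast
    ring
  have h7 := congrArg Complex.re h6
  rw [Complex.add_re, Complex.re_ofReal_mul, Complex.ofReal_re, Complex.zero_re] at h7
  nlinarith [mul_neg_of_pos_of_neg h0 hs, mul_nonneg hr.le (neg_nonneg.2 h5)]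

/-- a positive maximum is attained -/
theorem exists_max {f : R2 → ℝ} {a C : ℝ} (hc : ∀ q : R2, a ≤ q.1 → ContinuousAt f q)
    (hp : ∀ ζ θ, f (ζ, θ + 2 * Real.pi) = f (ζ, θ)) (ha : 0 < a)
    (hb : ∀ q : R2, a ≤ q.1 → f q * q.1 ≤ C) {q₀ : R2} (h0 : a ≤ q₀.1) (h1 : 0 < f q₀) :
    ∃ q : R2, a ≤ q.1 ∧ 0 < f q ∧ ∀ z : R2, a ≤ z.1 → f z ≤ f q := by
  have h2 : q₀.1 ≤ C / f q₀ := (le_div_iff₀' h1).2 (hb q₀ h0)
  obtain ⟨q, hq, h3⟩ := ((isCompact_Icc (a := a) (b := C / f q₀)).prod (isCompact_Icc (a := (0 : ℝ))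
    (b := 2 * Real.pi))).exists_isMaxOn ⟨(a, 0), ⟨le_rfl, h0.trans h2⟩, le_rfl, Real.two_pi_pos.le⟩
    fun z hz => (hc z hz.1.1).continuousWithinAt
  have h4 : ∀ z : R2, a ≤ z.1 → z.1 ≤ C / f q₀ → f z ≤ f q := fun z a1 a2 => by
    obtain ⟨θ, b1, b2⟩ := Function.Periodic.exists_mem_Ico₀ (f := fun θ => f (z.1, θ)) (hp z.1)
      Real.two_pi_pos z.2
    exact (le_of_eq b2).trans (h3 (a := (z.1, θ)) ⟨⟨a1, a2⟩, Ico_subset_Icc_self b1⟩)
  refine ⟨q, hq.1.1, h1.trans_le (h4 _ h0 h2), fun z hz => ?_⟩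
  rcases le_or_gt z.1 (C / f q₀) with h | h
  · exact h4 z hz h
  · refine le_trans (le_of_mul_le_mul_right ((hb z hz).trans ?_) (ha.trans_le hz)) (h4 _ h0 h2)
    exact ((div_lt_iff₀' h1).1 h).le

end Mx

open Mx in
theorem maxStmt : MaxStmt := by
  intro w D G
  obtain ⟨z1, hz1⟩ := MaxS.super G
  refine ⟨max z1 (G.z0 + 1), fun zm hzm u hu ⟨C, hC⟩ hL h0 p hp => ?_⟩
  have a1 : z1 ≤ zm := (le_max_left _ _).trans hzm
  have a2 : G.z0 + 1 ≤ zm := (le_max_right _ _).trans hzm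
  have a3 := G.one_le
  rcases le_or_gt (G.σ p) (zm + 1 / 3) with h | h
  · exact h0 p hp h
  obtain ⟨e, q₀, hq₀, rfl⟩ := G.cover p hp (by linarith)
  rw [G.σ_pt e _ hq₀] at h
  have hS : ∀ q : R2, G.z0 < q.1 → w (pt e q) = 0 := fun q hq =>
    G.ep_φ e q.2 ▸ ((G.ep e q.2).maps q (ep_mem G e hq)).1
  have hU : ∀ q : R2, G.z0 < q.1 → ContDiffAt ℝ 2 (fun z => u (pt e z)) q := fun q hq =>
    G.ep_φ e q.2 ▸ hu _ q (ep_mem G e hq)
  obtain ⟨κ, hκ⟩ : ∃ κ, κ = star (u (pt e q₀)) := ⟨_, rfl⟩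
  have hf : ∀ q : R2, G.z0 < q.1 → ContDiffAt ℝ 2 (fun z => (κ * u (pt e z)).re / z.1 ^ 3) q :=
    fun q hq => (Complex.reCLM.contDiff.contDiffAt.comp q (contDiffAt_const.mul (hU q hq))).div
      (contDiffAt_fst.pow 3) (pow_ne_zero 3 (by linarith))
  by_contra hne
  obtain ⟨q, h1, h2, h3⟩ := exists_max (f := fun z => (κ * u (pt e z)).re / z.1 ^ 3) (a := zm)
    (C := ‖κ‖ * C) (q₀ := q₀) (fun q hq => (hf q (by linarith)).continuousAt)
    (fun ζ θ => by simp only [Iv.per]) (by linarith) (fun q hq => by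
      have b1 : 0 < q.1 := by linarith
      have b2 : ‖u (pt e q)‖ ≤ C * q.1 ^ 2 := (norm_le_pi_norm _ 0).trans (hC e q (by linarith))
      rw [div_mul_eq_mul_div, div_le_iff₀ (pow_pos b1 3)]
      calc _ ≤ ‖κ‖ * (C * q.1 ^ 2) * q.1 := by
            gcongr
            exact (Complex.re_le_norm _).trans ((norm_mul_le _ _).trans (by gcongr))
        _ = _ := by ring) (by linarith) (div_pos (by
      rw [hκ, Complex.star_def, Complex.conj_mul', ← Complex.ofReal_pow, Complex.ofReal_re]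
      positivity) (pow_pos (by linarith) 3))
  have h4 : G.z0 < q.1 := by linarith
  have h5 : zm + 1 / 3 < q.1 := not_le.1 fun h => by
    simp [h0 _ (hS q h4) (by rwa [G.σ_pt e q h4])] at h2
  have h6 : IsLocalMax (fun z : R2 => (κ * u (pt e z)).re / z.1 ^ 3) q :=
    (continuous_fst.continuousAt.eventually (lt_mem_nhds h5)).mono fun z hz =>
      h3 z (by linarith)
  have J := jetStmt w D
  have hm := ep_mem G e h4
  obtain ⟨r, hr, er⟩ := (endFStmt w D G zm).pos e q h4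
  have h7 := (endFStmt w D G zm).lin e q (jz (fun x => x ^ 3) q.1) h4
  have h8 := hz1 e q (by linarith)
  rw [← h7, er, Complex.re_mul_ofReal] at h8
  have h9 := no_max G zm _ hm (hf q h4) h6 h2 (pow_pos (by linarith : 0 < q.1) 3)
    (m := jz (fun x => x ^ 3) q.1) rfl (by rw [G.ep_φ]; exact neg_of_mul_neg_left h8 hr.le)
  have c3 : ContDiffAt ℝ 2 (fun x : ℝ => x ^ 3) q.1 := contDiffAt_id.pow 3
  have l0 := (invStmt' w D G zm).LG_eq _ q hm u (hu _ q hm)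
  obtain ⟨-, hO, hs, -⟩ := (invStmt' w D G zm).base _ q hm
  rw [G.ep_φ] at h9 l0 hO hs
  rw [hL _ (hS q h4) (by rw [G.σ_pt e q h4]; exact h1)] at l0
  have k1 : ContDiffAt ℝ 2 (fun z => κ / 2 * u (pt e z)) q := contDiffAt_const.mul (hU q h4)
  have k2 := jet2_clm (Complex.conjCLE : ℂ →L[ℝ] ℂ) k1
  have k3 : ContDiffAt ℝ 2 (fun z => (Complex.conjCLE : ℂ →L[ℝ] ℂ) (κ / 2 * u (pt e z))) q :=
    (Complex.conjCLE : ℂ →L[ℝ] ℂ).contDiff.contDiffAt.comp q k1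
  refine h9 ?_
  have c1 : ∀ {f : R2 → ℝ}, ContDiffAt ℝ 2 f q → ContDiffAt ℝ 2 (fun z => (f z : ℂ)) q :=
    fun h => Complex.ofRealCLM.contDiff.contDiffAt.comp q h
  rw [← J.jz_eq _ q c3, ← J.leib _ _ q (c1 (hf q h4)) (c1 (contDiffAt_fst.pow 3)),
    (jet2_congr ?_).trans (jet2_add k1 k3), k2, map_add,
    show (fun k => (Complex.conjCLE : ℂ →L[ℝ] ℂ) (jet2 (fun z => κ / 2 * u (pt e z)) q k)) =
      star (jet2 (fun z => κ / 2 * u (pt e z)) q) from rfl, J.Lh_cj _ hO hs,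
    jet2_smul _ (hU q h4), map_smul, ← l0]
  · simp
  · filter_upwards [continuous_fst.continuousAt.eventually (lt_mem_nhds h4)] with z hz
    have : z.1 ≠ 0 := by linarith
    rw [← Complex.ofReal_mul, div_mul_cancel₀ _ (pow_ne_zero 3 this), Complex.re_eq_add_conj]
    simp [map_ofNat]
    ring

end Vale.Agent.P218N.Core
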