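import Vale.Agent.P218N.Core.MaxS
import Vale.Agent.P272.K.MP.Local

/-! The maximum principle on the ends. -/

open Set Filter Topology
open scoped Matrix RealInnerProductSpace ContDiff

noncomputable section

namespace Vale.Agent.P218N.Core.MaxP

open Vale.Agent.P218.H313 Vale.Agent.P218N.H Vale.Agent.P218N.End EF Vale.Agent.P272.K.MP

theorem prin_nonpos {h : R2 → ℝ} {q : R2} (hm : IsLocalMax h q) (hh : ContDiffAt ℝ 2 h q)
    {a b c : ℝ} (hc : 0 < c) (hd : b ^ 2 < a * c) :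
    c * jet2 h q 3 - 2 * b * jet2 h q 4 + a * jet2 h q 5 ≤ 0 := by
  have h1 := fderiv2_nonpos_of_max hm hh (c • (1, 0) - b • (0, 1))
  have h2 := mul_nonpos_of_nonneg_of_nonpos (sub_pos.2 hd).le (fderiv2_nonpos_of_max hm hh (0, 1))
  simp only [map_sub, map_smul, sub_apply, smul_apply,
    smul_eq_mul, fderiv2_symm hh (0, 1) (1, 0)] at h1
  refine le_of_mul_le_mul_left ?_ hc
  simp only [jet2, Matrix.cons_val]
  linarith

variable {w : E3 → ℝ} {D : EndData w} (G : Geo D)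

theorem mem_ep (e : En D) {q : R2} (hq : G.z0 < q.1) : q ∈ (G.ep e q.2).O := by
  rw [G.ep_O]
  exact ⟨hq, by linarith [Real.pi_pos], by linarith [Real.pi_pos]⟩

/-- no positive local maximum of `re U / ζ³` -/
theorem not_max (zm : ℝ) (e : En D) {q : R2} (hq : G.z0 < q.1)
    (hs : (fderiv ℂ (EP e q) (jy e q) (jz (fun x => x ^ 3) q.1)).re < 0) {U : R2 → ℂ}
    (hU : ContDiffAt ℝ 2 U q) (hL : Lh (G.bJ zm (pt e) q) (jet2 U q) = 0)
    (hm : IsLocalMax (fun z : R2 => (U z).re / z.1 ^ 3) q) : (U q).re / q.1 ^ 3 ≤ 0 := by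
  have J := jetStmt w D
  have I := invStmt' w D G zm
  have F := endFStmt w D G zm
  have h0 := pos_of G hq
  obtain ⟨hB, hO, hR, hp, -⟩ := I.base _ q (mem_ep G e hq)
  obtain ⟨a, b, c, ea, eb, ec, ha, hc, hd⟩ := I.pos _ q (mem_ep G e hq)
  obtain ⟨r, hr, er⟩ := F.pos e q hq
  have el := F.lin e q (jz (fun x => x ^ 3) q.1) hq
  rw [G.ep_φ] at hB hO hR hp ea eb ec
  have hh : ContDiffAt ℝ 2 (fun z : R2 => (U z).re / z.1 ^ 3) q :=
    (Complex.reCLM.contDiff.contDiffAt.comp q hU).div (by fun_prop) (pow_pos h0 3).ne'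
  have hn := prin_nonpos hm hh hc hd
  have d0 := hm.fderiv_eq_zero
  have e1 : jet2 (fun z => (((U z).re / z.1 ^ 3 : ℝ) : ℂ) * ((z.1 ^ 3 : ℝ) : ℂ)) q =
      (2⁻¹ : ℂ) • (jet2 U q + star (jet2 U q)) := by
    refine (jet2_congr ?_).trans ((jet2_clm (Complex.ofRealCLM.comp Complex.reCLM) hU).trans ?_)
    · filter_upwards [(continuous_fst.tendsto q).eventually (lt_mem_nhds h0)] with z hz
      rw [← Complex.ofReal_mul, div_mul_cancel₀ _ (pow_pos hz 3).ne']
      rfl
    · ext k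
      simp [Complex.add_conj]
  generalize hH : (fun z : R2 => (U z).re / z.1 ^ 3) = H at hh hn d0
  have hH' : ∀ z, (U z).re / z.1 ^ 3 = H z := congrFun hH
  simp only [hH'] at e1 ⊢
  have e2 : jet2 (fun z => (H z : ℂ)) q = _ := jet2_clm Complex.ofRealCLM hh
  rw [J.leib (fun z => (H z : ℂ)) (fun z => ((z.1 ^ 3 : ℝ) : ℂ)) q
    (Complex.ofRealCLM.contDiff.contDiffAt.comp q hh)
    (Complex.ofRealCLM.contDiff.contDiffAt.comp q (contDiffAt_fst.pow 3)),
    J.jz_eq (fun x => x ^ 3) q (by fun_prop), e2] at e1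
  have e3 := congrArg (Lh (G.bJ zm (pt e) q)) e1
  have e4 : T1 (fun k => Complex.ofRealCLM (jet2 H q k)) = (H q : ℂ) • j1 := by
    ext k
    fin_cases k <;> simp [T1, jet2, d0, j1]
  rw [map_smul, map_add, J.Lh_cj _ hO hR, hL, J.Lh_mul _ hO hB, J.prin_eq _ hO hB
    (fun k => Complex.ofRealCLM (jet2 H q k)), e4, map_smul, hp] at e3
  have e5 : (H q : ℂ) * Lh (G.bJ zm (pt e) q) (jz (fun x => x ^ 3) q.1) +
      ((q.1 ^ 3 * ((c * jet2 H q 3 - 2 * b * jet2 H q 4 + a * jet2 H q 5) / (a * c - b ^ 2)) : ℝ) :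
        ℂ) = 0 := by
    simp only [ginv, prin, dg, ea, eb, ec] at e3
    simp [jet2, d0, jz] at e3 ⊢
    linear_combination e3
  rw [← el, er, mul_comm, Complex.re_ofReal_mul] at hs
  have e6 := congrArg Complex.re e5
  rw [Complex.add_re, Complex.re_ofReal_mul, Complex.ofReal_re, Complex.zero_re] at e6
  have h7 := mul_nonpos_of_nonneg_of_nonpos (pow_pos h0 3).le
    (div_nonpos_of_nonpos_of_nonneg hn (sub_pos.2 hd).le)
  by_contra hc'
  have := mul_neg_of_pos_of_neg (not_le.1 hc') (neg_of_mul_neg_right hs hr.le)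
  linarith

/-- the maximum principle -/
theorem maxP : MaxStmt := by
  intro w D G
  obtain ⟨z1, hz1⟩ := MaxS.super G
  refine ⟨max z1 (G.z0 + 1), fun zm hzm u hu ⟨C, hC⟩ hL h0 p0 hp0 => ?_⟩
  have I := invStmt' w D G zm
  have m1 := (le_max_left _ _).trans hzm
  have m2 := (le_max_right _ _).trans hzm
  have m3 := G.one_le
  have hS : ∀ (e : En D) (q : R2), G.z0 < q.1 → w (pt e q) = 0 := fun e q hq => by
    have := ((G.ep e q.2).maps q (mem_ep G e hq)).1
    rwa [G.ep_φ] at this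
  obtain ⟨H, hH⟩ : ∃ H : E3 → ℝ, H = fun p => (star (u p0) * u p).re / G.σ p ^ 3 := ⟨_, rfl⟩
  have lo : ∀ p, w p = 0 → 0 < H p → zm + 1 / 3 < G.σ p := fun p hp h => by
    by_contra h'
    simp [hH, h0 p hp (not_lt.1 h')] at h
  have hi : ∀ p, w p = 0 → zm ≤ G.σ p → H p ≤ ‖u p0‖ * C / G.σ p := fun p hp h => by
    obtain ⟨e, q, hq, rfl⟩ := G.cover p hp (by linarith)
    rw [G.σ_pt e q hq] at h
    have h1 := (norm_le_pi_norm _ 0).trans (hC e q (by linarith))
    have h2 := pos_of G hq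
    simp only [hH, G.σ_pt e q hq]
    rw [div_le_div_iff₀ (pow_pos h2 3) h2]
    have h3 := (Complex.re_le_norm (star (u p0) * u (pt e q))).trans_eq (norm_mul _ _)
    rw [norm_star] at h3
    have h4 := mul_le_mul_of_nonneg_left (show ‖u (pt e q)‖ ≤ C * q.1 ^ 2 from h1)
      (norm_nonneg (u p0))
    nlinarith [mul_le_mul_of_nonneg_right (h3.trans h4) h2.le]
  by_contra hne
  have s0 : zm + 1 / 3 < G.σ p0 := not_le.1 fun h => hne (h0 p0 hp0 h)
  have H0 : 0 < H p0 := by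
    rw [hH]
    refine div_pos ?_ (pow_pos (by linarith) 3)
    rw [Complex.star_def, Complex.conj_mul', ← Complex.ofReal_pow, Complex.ofReal_re]
    exact pow_pos (norm_pos_iff.2 hne) 2
  obtain ⟨R, hR, hR0⟩ := ((eventually_forall_ge_atTop.2 (((tendsto_const_nhds
    (x := ‖u p0‖ * C)).div_atTop tendsto_id).eventually (gt_mem_nhds H0))).and
      (eventually_ge_atTop (G.σ p0))).exists
  have hK : IsCompact ({p | w p = 0 ∧ G.σ p ≤ R} ∩ {p | zm ≤ G.σ p}) :=
    (G.cpt R).inter_right (isClosed_le continuous_const G.σ_sm.continuous)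
  obtain ⟨p, ⟨⟨hp, -⟩, -⟩, hm⟩ := hK.exists_isMaxOn (f := H) ⟨p0, ⟨hp0, hR0⟩, by
    show zm ≤ _
    linarith⟩ (by
      rw [hH]
      refine (Complex.continuous_re.comp_continuousOn (continuousOn_const.mul
        ((I.cont u u hu hu).1.mono fun p hp => hp.1.1))).div
          (G.σ_sm.continuous.pow 3).continuousOn fun p hp => (pow_pos ?_ 3).ne'
      have : zm ≤ G.σ p := hp.2
      linarith)
  have H1 : H p0 ≤ H p := hm ⟨⟨hp0, hR0⟩, show zm ≤ _ by linarith⟩
  have s1 := lo p hp (H0.trans_le H1)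
  obtain ⟨e, q, hq, rfl⟩ := G.cover p hp (by linarith)
  have hU := hu _ q (mem_ep G e hq)
  have hE := I.LG_eq _ q (mem_ep G e hq) u hU
  rw [G.ep_φ] at hU hE
  rw [hL _ hp (by linarith)] at hE
  rw [G.σ_pt e q hq] at s1
  have ev : ∀ᶠ z in 𝓝 q, zm < z.1 :=
    (continuous_fst.tendsto q).eventually (lt_mem_nhds (by linarith))
  have e1 : ∀ z : R2, zm < z.1 → (star (u p0) * u (pt e z)).re / z.1 ^ 3 = H (pt e z) :=
    fun z hz => by simp only [hH, G.σ_pt e z (by linarith)]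
  have := not_max G zm e hq (hz1 e q (by linarith)) (U := fun z => star (u p0) * u (pt e z))
    (contDiffAt_const.mul hU) (by rw [jet2_smul _ hU, map_smul, ← hE, smul_zero]) (by
      filter_upwards [ev] with z hz
      have h1 : G.z0 < z.1 := by linarith
      have h2 : zm ≤ G.σ (pt e z) := by
        rw [G.σ_pt e z h1]
        exact hz.le
      rw [e1 z hz, e1 q ev.self_of_nhds]
      rcases le_total (G.σ (pt e z)) R with h | h
      · exact hm ⟨⟨hS e z h1, h⟩, h2⟩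
      · exact ((hi _ (hS e z h1) h2).trans (hR _ h).le).trans H1)
  rw [e1 q ev.self_of_nhds] at this
  linarith

end Vale.Agent.P218N.Core.MaxP
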