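import Vale.Agent.P218N.Core.Inv
import Vale.Agent.P218N.Core.EndF

/-! The function `ζ³` is a strict supersolution of the linearised equation far out on the ends. -/

open Filter Topology
open scoped Matrix RealInnerProductSpace ContDiff

noncomputable section

namespace Vale.Agent.P218N.Core.MaxS

open Vale.Agent.P218.H313 Vale.Agent.P218N.H Vale.Agent.P218N.End EF

/-- the filter at infinity -/
abbrev far : Filter R2 := comap Prod.fst atTop

theorem dec_tendsto {v : R2 → ℝ} (hv : Decays v) {φ : ℝ → ℝ} (hφ : Tendsto φ atTop atTop) :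
    Tendsto (fun q : R2 => (v (φ q.1, q.2) : ℂ)) far (𝓝 0) := by
  refine Metric.tendsto_nhds.2 fun ε hε => ?_
  obtain ⟨s, hs⟩ := (hv.abs_le (half_pos hε)).exists
  filter_upwards [(hφ.comp tendsto_comap).eventually (eventually_ge_atTop s)] with q hq
  rw [dist_zero_right, Complex.norm_real]
  exact (hs (φ q.1, q.2) hq).trans_lt (half_lt_self hε)

theorem inv_tendsto {φ : ℝ → ℝ} (hφ : Tendsto φ atTop atTop) :
    Tendsto (fun q : R2 => ((φ q.1 : ℝ) : ℂ)⁻¹) far (𝓝 0) := by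
  have := (Complex.continuous_ofReal.tendsto 0).comp
    ((tendsto_inv_atTop_zero.comp hφ).comp (tendsto_comap (f := (Prod.fst : R2 → ℝ))))
  simpa [Function.comp_def] using this

theorem jz_cube (ζ : ℝ) :
    jz (fun x => x ^ 3) ζ = ![(ζ : ℂ) ^ 3, 3 * ζ ^ 2, 0, 6 * ζ, 0, 0] := by
  have h : deriv (fun x : ℝ => x ^ 3) = fun x => 3 * x ^ 2 := by
    ext x
    simp
  have h2 : deriv (fun x : ℝ => 3 * x ^ 2) ζ = 6 * ζ := by
    simp
    ring
  rw [jz, h, h2]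
  push_cast
  rfl

variable {w : E3 → ℝ} {D : EndData w} (G : Geo D)

theorem EP_zero (e : En D) {q : R2} (hq : G.z0 < q.1) : EP e q (jy e q) = 0 := by
  have h := Iv.Mp_jS G.shr (G.ep e q.2) (y := q) (by
    rw [G.ep_O]
    exact ⟨hq, by linarith [Real.pi_pos], by linarith [Real.pi_pos]⟩)
  obtain ⟨κ, hκ, H⟩ := alg e (pos_of G hq)
  rw [G.ep_φ, jS_eq e (pos_of G hq), Mp_mv (AF_orth e q), (H _).1] at h
  exact (mul_eq_zero.1 ((mul_eq_zero.1 h).resolve_left (det_ne (AF_orth e q)))).resolve_left hκ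

/-! ### Cylinders -/

/-- the equation in scaled variables -/
def EC (x : J2 ℂ × ℂ) : ℂ :=
  cylE 0 x.2 (2⁻¹ * x.2) 0 0 (x.1 0) (x.1 2) (x.1 5) (x.1 1) (x.1 3) (x.1 4)

theorem EC_sm : ContDiff ℂ 1 EC := by
  unfold EC cylE cylD cylB
  fun_prop

/-- the scaled jet -/
def SC (ζ : ℂ) (M : J2 ℂ) : J2 ℂ := ![M 0, 2 * ζ * M 1, M 2, 2 * ζ * M 3, M 4, M 5]

include G in
theorem tendsto_SC (b : Fin D.b) :
    Tendsto (fun q : R2 => SC q.1 (jy (.inr b) q)) far (𝓝 0) := by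
  have hv := D.vdec b
  have t := fun {v : R2 → ℝ} (h : Decays v) => dec_tendsto h Real.tendsto_sqrt_atTop
  have r := inv_tendsto Real.tendsto_sqrt_atTop
  have t0 := t hv
  have t1 := t hv.ds
  have t2 := t hv.dt
  have t3 := t hv.ds.ds
  have t4 := t hv.ds.dt
  have t5 := t hv.dt.dt
  have ev : ∀ᶠ q in far, G.z0 < q.1 := tendsto_comap.eventually (eventually_gt_atTop _)
  have e : ∀ᶠ q in far, SC q.1 (jy (.inr b) q) = ![(D.v b (√q.1, q.2) : ℂ),
      (√q.1 : ℝ) * ds (D.v b) (√q.1, q.2), dt (D.v b) (√q.1, q.2),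
      2⁻¹ * (ds (ds (D.v b)) (√q.1, q.2) - ((√q.1 : ℝ) : ℂ)⁻¹ * ds (D.v b) (√q.1, q.2)),
      2⁻¹ * (((√q.1 : ℝ) : ℂ)⁻¹ * dt (ds (D.v b)) (√q.1, q.2)), dt (dt (D.v b)) (√q.1, q.2)] := by
    filter_upwards [ev] with q hq
    have h1 := pos_of G hq
    have h4 := jet2_of (JP.reparam (jp_sqrt h1)
      (JP.of_cd (p := (√q.1, q.2)) (hv.smooth.contDiffAt.of_le (by norm_cast))))
    have h3 : jet2 (yS (.inr b)) q = _ := h4
    have hz : ((√q.1 : ℝ) : ℂ) ≠ 0 := Complex.ofReal_ne_zero.2 (Real.sqrt_pos.2 h1).ne'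
    have h2 : (q.1 : ℂ) = ((√q.1 : ℝ) : ℂ) ^ 2 := by exact_mod_cast (Real.sq_sqrt h1.le).symm
    rw [jy_real _ h1, h3, h2]
    ext k
    fin_cases k <;> simp [SC] <;> field_simp
    ring
  have s3 := (t3.sub (r.mul t1)).const_mul 2⁻¹
  have s4 := (r.mul t4).const_mul 2⁻¹
  have c : ContinuousAt (fun x : Fin 7 → ℂ => (((1 + x 0) ^ 2 + x 2 ^ 2) * (1 + x 0) *
      (4 * x 3 + 2 * (x 6 * x 1)) - 4 * (1 + x 0) * x 2 * x 1 * x 4 + 4 * x 2 ^ 2 * x 1 ^ 2 +
      (1 + 2 * x 1 ^ 2) * ((1 + x 0) * x 5 - (1 + x 0) ^ 2 - 2 * x 2 ^ 2) +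
      ((1 + x 0) ^ 2 * (1 + 2 * x 1 ^ 2) + x 2 ^ 2) * (1 + x 0) ^ 2) *
      (((1 + x 0) ^ 2 * (1 + 2 * x 1 ^ 2) + x 2 ^ 2) * (1 + x 0))⁻¹) 0 :=
    ContinuousAt.mul (by fun_prop) (ContinuousAt.inv₀ (by fun_prop) (by simp))
  have c' : ContinuousAt (fun x : Fin 7 → ℂ =>
      ((1 + x 0) ^ 2 * (1 + 2 * x 1 ^ 2) + x 2 ^ 2) * (1 + x 0)) 0 := by fun_prop
  have T : Tendsto (fun q : R2 => (![(D.v b (√q.1, q.2) : ℂ), ds (D.v b) (√q.1, q.2),
      dt (D.v b) (√q.1, q.2),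
      2⁻¹ * (ds (ds (D.v b)) (√q.1, q.2) - ((√q.1 : ℝ) : ℂ)⁻¹ * ds (D.v b) (√q.1, q.2)),
      dt (ds (D.v b)) (√q.1, q.2), dt (dt (D.v b)) (√q.1, q.2), ((√q.1 : ℝ) : ℂ)⁻¹] : Fin 7 → ℂ))
      far (𝓝 0) := by
    refine tendsto_pi_nhds.2 fun k => ?_
    fin_cases k
    exacts [t0, t1, t2, by simpa using s3, t4, t5, r]
  have s1 : Tendsto (fun q : R2 => ((√q.1 : ℝ) : ℂ) * ds (D.v b) (√q.1, q.2)) far (𝓝 0) := by
    refine ((c.tendsto.comp T).congr' ?_).trans_eq (by simp)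
    filter_upwards [ev, e, (c'.tendsto.comp T).eventually_ne (by simp : _ ≠ (0 : ℂ))]
      with q hq h1 h2
    have h3 : EC (SC q.1 (jy (.inr b) q), (q.1 : ℂ)⁻¹) = 0 := EP_zero G (.inr b) hq
    have h4 := pos_of G hq
    have hz : ((√q.1 : ℝ) : ℂ) ≠ 0 := Complex.ofReal_ne_zero.2 (Real.sqrt_pos.2 h4).ne'
    have h5 : (q.1 : ℂ) = ((√q.1 : ℝ) : ℂ) ^ 2 := by exact_mod_cast (Real.sq_sqrt h4.le).symm
    rw [h1, h5] at h3
    simp only [Function.comp_apply, Matrix.cons_val, Matrix.cons_val_zero, Matrix.cons_val_one,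
      EC, cylE, cylD, cylB] at h2 h3 ⊢
    rw [mul_inv_eq_iff_eq_mul₀ h2]
    generalize ((√q.1 : ℝ) : ℂ) = z at *
    rw [← sub_eq_zero, ← h3]
    field_simp
    ring
  refine Tendsto.congr' (EventuallyEq.symm e) (tendsto_pi_nhds.2 fun k => ?_)
  fin_cases k
  exacts [t0, s1, t2, by simpa using s3, by simpa using s4, t5]

include G in
theorem super_cyl (b : Fin D.b) : ∀ᶠ q in far,
    (fderiv ℂ (EP (.inr b) q) (jy (.inr b) q) (jz (fun x => x ^ 3) q.1)).re < 0 := by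
  have d := EC_sm.differentiable (by simp)
  have c : Continuous fun x : J2 ℂ × ℂ => (fderiv ℂ EC x
      ((![1, 6, 0, 0, 0, 0], 0) + x.2 • (![0, 0, 0, 12, 0, 0], 0))).re :=
    Complex.continuous_re.comp ((EC_sm.continuous_fderiv (by simp)).clm_apply (by fun_prop))
  have c0 : fderiv ℂ EC 0 (![1, 6, 0, 0, 0, 0], 0) = -4 := by
    have h := (hasDerivAt_id (0 : ℂ)).const_add 1
    refine (JA.hasDerivAt_line (d 0) _).unique (((((h.pow 3).mul
      (((hasDerivAt_id (0 : ℂ)).const_mul 5).const_sub 1)).sub (h.pow 2)).congr_deriv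
        (by norm_num)).congr_of_eventuallyEq (Eventually.of_forall fun t => ?_))
    simp [EC, cylE, cylD, cylB]
    ring
  have T := (c.tendsto 0).comp ((tendsto_SC G b).prodMk_nhds (inv_tendsto tendsto_id))
  filter_upwards [T.eventually (gt_mem_nhds (by simp [c0] : _ < (0 : ℝ))),
    tendsto_comap.eventually (eventually_gt_atTop 0)] with q hq h0
  have hz : (q.1 : ℂ) ≠ 0 := Complex.ofReal_ne_zero.2 h0.ne'
  have e := (JA.hasDerivAt_line (diff_EP (.inr b) q (jy (.inr b) q))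
    (jz (fun x => x ^ 3) q.1)).unique ((JA.hasDerivAt_line (d (SC q.1 (jy (.inr b) q), (q.1 : ℂ)⁻¹))
      (((q.1 ^ 3 : ℝ) : ℂ) • ((![1, 6, 0, 0, 0, 0], 0) + (q.1 : ℂ)⁻¹ •
        (![0, 0, 0, 12, 0, 0], 0)))).congr_of_eventuallyEq (Eventually.of_forall fun t => by
      simp only [EP, Epol, if_true, EC, jz_cube, SC]
      congr 1 <;> simp <;> field_simp <;> ring))
  rw [e, map_smul, smul_eq_mul, Complex.re_ofReal_mul]
  exact mul_neg_of_pos_of_neg (pow_pos h0 3) hq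

/-! ### Cones -/

/-- the equation in scaled variables -/
def EK (c : ℂ) (x : (ℂ × ℂ) × J2 ℂ × ℂ) : ℂ :=
  x.2.2 * coneE c x.1.1 x.1.2 1 (x.2.1 0) (x.2.1 2) (x.2.1 5) (x.2.1 1) (x.2.1 3) (x.2.1 4) +
    (x.2.2 - 1) * (coneD x.1.1 (x.2.1 0) (x.2.1 0 + 2 * x.2.1 1) (c * x.2.1 2) *
      (1 - x.1.1 * x.2.1 0) * x.2.1 1)

theorem EK_sm (c : ℂ) : ContDiff ℂ 1 (EK c) := by
  unfold EK coneE coneD
  fun_prop

/-- the scaled jet -/
def SK (ζ : ℂ) (M : J2 ℂ) : J2 ℂ := ![M 0, ζ * M 1, M 2, ζ * ζ * M 3, ζ * M 4, M 5]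

theorem tendsto_SK (i : Fin D.a) :
    Tendsto (fun q : R2 => SK q.1 (jy (.inl i) q)) far (𝓝 0) := by
  have hv := D.hdec i
  have t := fun {v : R2 → ℝ} (h : Decays v) =>
    dec_tendsto h (Real.tendsto_log_atTop.atTop_div_const two_pos)
  have e : ∀ᶠ q in far, ![(D.h i (Real.log q.1 / 2, q.2) : ℂ),
      2⁻¹ * ds (D.h i) (Real.log q.1 / 2, q.2), dt (D.h i) (Real.log q.1 / 2, q.2),
      4⁻¹ * ds (ds (D.h i)) (Real.log q.1 / 2, q.2) - 2⁻¹ * ds (D.h i) (Real.log q.1 / 2, q.2),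
      2⁻¹ * dt (ds (D.h i)) (Real.log q.1 / 2, q.2), dt (dt (D.h i)) (Real.log q.1 / 2, q.2)] =
      SK q.1 (jy (.inl i) q) := by
    filter_upwards [tendsto_comap.eventually (eventually_gt_atTop 0)] with q h1
    have h2 := jet2_of (JP.reparam (JP.log h1)
      (JP.of_cd (p := (Real.log q.1 / 2, q.2)) (hv.smooth.contDiffAt.of_le (by norm_cast))))
    have h3 : jet2 (yS (.inl i)) q = _ := h2
    have hz : (q.1 : ℂ) ≠ 0 := Complex.ofReal_ne_zero.2 h1.ne'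
    rw [jy_real _ h1, h3]
    ext k
    fin_cases k <;> simp [SK] <;> field_simp
    ring
  refine Tendsto.congr' e (tendsto_pi_nhds.2 fun k => ?_)
  fin_cases k
  exacts [t hv, by simpa using (t hv.ds).const_mul 2⁻¹, t hv.dt,
    by simpa using ((t hv.ds.ds).const_mul 4⁻¹).sub ((t hv.ds).const_mul 2⁻¹),
    by simpa using (t hv.ds.dt).const_mul 2⁻¹, t hv.dt.dt]

theorem super_cone (i : Fin D.a) : ∀ᶠ q in far,
    (fderiv ℂ (EP (.inl i) q) (jy (.inl i) q) (jz (fun x => x ^ 3) q.1)).re < 0 := by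
  have d := (EK_sm (cc i : ℝ)).differentiable (by simp)
  have c : Continuous fun x => (fderiv ℂ (EK (cc i : ℝ)) x (0, ![1, 3, 0, 6, 0, 0], 0)).re :=
    Complex.continuous_re.comp
      (((EK_sm _).continuous_fderiv (by simp)).clm_apply continuous_const)
  have c0 : ∀ k, fderiv ℂ (EK (cc i : ℝ)) (k, 0) (0, ![1, 3, 0, 6, 0, 0], 0) = -3 := fun k => by
    have h0 := hasDerivAt_id (0 : ℂ)
    have h := (h0.const_mul k.1).const_sub 1
    refine (JA.hasDerivAt_line (d _) _).unique (((((h.pow 3).mul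
      (((h0.const_mul 7).pow 2).const_add 1)).mul (h0.const_mul (-3))).congr_deriv
        (by norm_num)).congr_of_eventuallyEq (Eventually.of_forall fun t => ?_))
    simp [EK, coneD]
    ring
  have L := D.link i
  have sk : ContDiff ℝ ∞ (kaf i) := kaf_eq i ▸ L.smooth_kaL
  have pk : Function.Periodic (kaf i) (2 * Real.pi) := kaf_eq i ▸ L.kaL_per
  have hK : IsCompact (Set.range fun θ => (((kaf i θ : ℝ) : ℂ), ((kdf i θ : ℝ) : ℂ))) := by
    refine Function.Periodic.compact_of_continuous (c := 2 * Real.pi) (fun θ => ?_) (by positivity) ?_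
    · simp only [kdf, pk θ, ← deriv_comp_add_const, funext pk]
    · exact (Complex.continuous_ofReal.comp sk.continuous).prodMk (Complex.continuous_ofReal.comp
        (continuous_const.mul (sk.continuous_deriv (by simp))))
  have h1 := hK.eventually_forall_of_forall_eventually (x₀ := (0 : J2 ℂ × ℂ))
    (P := fun x k => (fderiv ℂ (EK (cc i : ℝ)) (k, x) (0, ![1, 3, 0, 6, 0, 0], 0)).re < 0)
    fun k _ => ((c.comp continuous_swap).tendsto (0, k)).eventually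
      (gt_mem_nhds (by simp [c0] : _ < (0 : ℝ)))
  filter_upwards [((tendsto_SK i).prodMk_nhds (inv_tendsto tendsto_id)).eventually h1,
    tendsto_comap.eventually (eventually_gt_atTop 0)] with q hq h0
  have hz : (q.1 : ℂ) ≠ 0 := Complex.ofReal_ne_zero.2 h0.ne'
  have e := (JA.hasDerivAt_line (diff_EP (.inl i) q (jy (.inl i) q))
    (jz (fun x => x ^ 3) q.1)).unique (((JA.hasDerivAt_line
      (d ((kaf i q.2, kdf i q.2), SK q.1 (jy (.inl i) q), (q.1 : ℂ)⁻¹))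
      (((q.1 ^ 3 : ℝ) : ℂ) • (0, ![1, 3, 0, 6, 0, 0], 0))).const_mul
        (q.1 : ℂ)).congr_of_eventuallyEq (Eventually.of_forall fun t => by
      simp [EP, Epol, EK, jz_cube, SK, coneE, coneD]
      field_simp
      ring))
  rw [e, map_smul, smul_eq_mul, Complex.re_ofReal_mul, Complex.re_ofReal_mul]
  exact mul_neg_of_pos_of_neg h0 (mul_neg_of_pos_of_neg (pow_pos h0 3) (hq _ ⟨q.2, rfl⟩))

include G in
/-- the supersolution -/
theorem super : ∃ z1 : ℝ, ∀ (e : En D) (q : R2), z1 ≤ q.1 →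
    (fderiv ℂ (EP e q) (jy e q) (jz (fun x => x ^ 3) q.1)).re < 0 := by
  have h : ∀ᶠ q in far, ∀ e : En D, (fderiv ℂ (EP e q) (jy e q) (jz (fun x => x ^ 3) q.1)).re < 0 :=
    eventually_all.2 fun e => by
      rcases e with i | b
      exacts [super_cone i, super_cyl G b]
  obtain ⟨z, hz⟩ := eventually_atTop.1 (eventually_comap.1 h)
  exact ⟨z, fun e q hq => hz q.1 hq q rfl e⟩

end Vale.Agent.P218N.Core.MaxS
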