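import Vale.Agent.P218N.Core.Ctx

/-! Gluing of a function on the double and of functions on the ends. -/

open Set Filter Topology Metric MeasureTheory
open scoped RealInnerProductSpace ContDiff Matrix NNReal

noncomputable section

namespace Vale.Agent.P218N.Core

open Vale.Agent.P218.H313 Vale.Agent.P218N.H Vale.Agent.P218N.End Vale.Agent.P272.K.LIN

set_option linter.unusedSectionVars false

variable {w : E3 → ℝ} {D : EndData w} {G : Geo D} {zm : ℝ}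

variable (D zm) in
/-- jets on the overlap -/
abbrev JJ : Type := ∀ e : En D, JS (ctr (gam zm 3 6) e)

theorem Geo.mem_ep (G : Geo D) (e : En D) {q : R2} (h : G.z0 < q.1) : q ∈ (G.ep e q.2).O := by
  rw [G.ep_O]
  exact ⟨h, by constructor <;> linarith [Real.pi_pos]⟩

theorem Geo.pt_mem (G : Geo D) (e : En D) {q : R2} (h : G.z0 < q.1) : w (pt e q) = 0 := by
  have := ((G.ep e q.2).maps q (G.mem_ep e h)).1
  rwa [G.ep_φ] at this

theorem Geo.s_mul (G : Geo D) (e : En D) : (G.s e : ℂ) * G.s e = 1 := by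
  rcases G.s_sq e with h | h <;> simp [h]

theorem Geo.pa_O (G : Geo D) {p : E3} (hp : w p = 0) :
    (G.pa p).ι p ∈ (G.pa p).O ∧ (G.pa p).φ ((G.pa p).ι p) = p :=
  (G.pa p).inv p hp (G.pa_mem p hp)

theorem Patch.contDiffAt (P : Patch (SS w)) {y : R2} (hy : y ∈ P.O) : ContDiffAt ℝ ∞ P.φ y :=
  P.smooth.contDiffAt (P.isOpen_O.mem_nhds hy)

theorem Geo.σ_cont (G : Geo D) (P : Patch (SS w)) {y : R2} (hy : y ∈ P.O) :
    ContinuousAt (fun z => G.σ (P.φ z)) y :=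
  G.σ_sm.continuous.continuousAt.comp (P.contDiffAt hy).continuousAt

theorem jev_per (Γ : Ctr) (j : EJ) (ζ θ : ℝ) :
    jev zm Γ j (ζ, θ + 2 * Real.pi) = jev zm Γ j (ζ, θ) := funext fun _ => ev_add_two_pi _ _ _

theorem InvF.ck (h : InvF G zm) {V : Type} [NormedAddCommGroup V] [NormedSpace ℝ V]
    {k : WithTop ℕ∞} (hk : k ≤ ∞) {f : E3 → V} {P P' : Patch (SS w)} {y y' : R2} (hy : y ∈ P.O)
    (hy' : y' ∈ P'.O) (e : P.φ y = P'.φ y') (hf : ContDiffAt ℝ k (fun z => f (P.φ z)) y) :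
    ContDiffAt ℝ k (fun z => f (P'.φ z)) y' := by
  obtain ⟨h1, h2⟩ := h.trans P P' y y' hy hy' e
  have e2 : P.ι (P'.φ y') = y := by rw [← e, P.left y hy]
  refine ((e2 ▸ hf).comp y' (h1.of_le hk)).congr_of_eventuallyEq ?_
  filter_upwards [h2] with z hz
  simp only [Function.comp, hz]

/-- the function on the surface given on the ends -/
def Geo.YS (G : Geo D) (Yf : En D → R2 → ℂ) (p : E3) : ℂ := ∑ e, G.s e * G.lift e (Yf e) p

theorem InvF.YS_pt (h : InvF G zm) {Yf : En D → R2 → ℂ}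
    (hp : ∀ e ζ θ, Yf e (ζ, θ + 2 * Real.pi) = Yf e (ζ, θ)) (e : En D) {q : R2} (hq : G.z0 < q.1) :
    G.YS Yf (pt e q) = G.s e * Yf e q := by
  rw [Geo.YS, Finset.sum_eq_single e]
  · rw [h.lift_pt ℂ e e _ q hq (hp e _), if_pos rfl]
  · intro e' _ he
    rw [h.lift_pt ℂ e' e _ q hq (hp e' _), if_neg he, mul_zero]
  · simp

/-- operators on jets which are affine in the second derivatives and independent of the patch -/
structure OpF (w : E3 → ℝ) (M : (R2 → E3) → R2 → J2 ℂ → ℂ) (MG : (E3 → ℂ) → E3 → ℂ) : Prop where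
  aff : ∀ (P : Patch (SS w)), ∀ y ∈ P.O, ∀ m m' (t : ℂ), T1 m = T1 m' →
    M P.φ y (t • m + (1 - t) • m') = t * M P.φ y m + (1 - t) * M P.φ y m'
  inv : ∀ (P : Patch (SS w)), ∀ y ∈ P.O, ∀ u : E3 → ℂ, ContDiffAt ℝ 2 (fun z => u (P.φ z)) y →
    MG u (P.φ y) = M P.φ y (jet2 (fun z => u (P.φ z)) y)

theorem mix_eq (χ a y : J2 ℂ) : a - jmul χ (a - y) =
    χ 0 • (y + jmul (j1 - χ) (T1 (a - y))) + (1 - χ 0) • (a - jmul χ (T1 (a - y))) := by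
  ext k; fin_cases k <;> simp [jmul, T1, j1, Matrix.vecHead, Matrix.vecTail] <;> ring

theorem mix_T1 (χ a y : J2 ℂ) :
    T1 (y + jmul (j1 - χ) (T1 (a - y))) = T1 (a - jmul χ (T1 (a - y))) := by
  ext k; fin_cases k <;> simp [jmul, T1, j1] <;> ring

theorem T1_sub (a b : J2 ℂ) : T1 (a - b) = T1 a - T1 b := by simpa using (T1L ℂ).map_sub a b

theorem T1_smul (z : ℂ) (a : J2 ℂ) : T1 (z • a) = z • T1 a := by
  rw [← T1L_apply, map_smul, T1L_apply]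

theorem two_le : (2 : WithTop ℕ∞) ≤ ∞ := WithTop.coe_le_coe.2 (le_top : (2 : ℕ∞) ≤ ⊤)

/-- multiplication as a linear map -/
def mulA {A : Type} [NormedCommRing A] [NormedAlgebra ℂ A] (a : A) : A →L[ℂ] A :=
  ContinuousLinearMap.mul ℂ A a

@[simp] theorem mulA_apply {A : Type} [NormedCommRing A] [NormedAlgebra ℂ A] (a b : A) :
    mulA a b = a * b := rfl

variable {X : Type} [TopologicalSpace X] [ChartedSpace R2 X] [T2Space X] [CompactSpace X]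
  [RSm R2 X]

namespace Ctx
variable (C : Ctx G zm X)

abbrev H : Type := HH C.Z.𝒞 ℂ
abbrev U : Type := UU C.Z.𝒞

def TE (e : En D) : C.U →L[ℂ] J2 WB := (C.tf.toE e).choose
def TX (e : En D) : JS (ctr (gam zm 3 6) e) →L[ℂ] J2 C.H := (C.tf.toX e).choose
/-- a function of `σ` on the upper half -/
def cH (f : ℝ → ℂ) : C.H := mkH _ (C.Z.upF fun p => f (G.σ p))
def b1 : C.H := C.cH fun ζ => 1 - (cut zm 5 ζ : ℝ)
def jX : J2 C.H := fun k => C.cH fun ζ => (1 - (cut zm 6 ζ : ℝ)) * jz (cut zm 3) ζ k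
def rH (i : Fin C.Z.𝒞.N) : C.H := mkH _ fun x => (C.Z.pou.ρ i x : ℂ)
def YX : JJ D zm →L[ℂ] J2 C.H :=
  ∑ e, (G.s e : ℂ) • (C.TX e).comp (ContinuousLinearMap.proj e)
def UJ (i : Fin C.Z.𝒞.N) : C.U →L[ℂ] J2 C.H := ContinuousLinearMap.pi (Uj C.Z.𝒞 i)
def DX (i : Fin C.Z.𝒞.N) : C.U × JJ D zm →L[ℂ] J2 C.H :=
  (T1L _).comp ((C.UJ i).comp (ContinuousLinearMap.fst ℂ _ _)) -
    C.YX.comp (ContinuousLinearMap.snd ℂ _ _)
/-- the mixed jets -/
def mI (i : Fin C.Z.𝒞.N) : C.U × JJ D zm →L[ℂ] J2 C.H :=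
  (C.UJ i).comp (ContinuousLinearMap.fst ℂ _ _) - (jmulL C.jX).comp (C.DX i)
def D0 : C.U × JJ D zm →L[ℂ] C.H := (Uv _).comp (ContinuousLinearMap.fst ℂ _ _) -
  (ContinuousLinearMap.proj 0).comp (C.YX.comp (ContinuousLinearMap.snd ℂ _ _))
/-- the glued function on the double -/
def uX : C.U × JJ D zm →L[ℂ] C.H := (Uv _).comp (ContinuousLinearMap.fst ℂ _ _) -
  (mulA (C.jX 0)).comp C.D0
def lapX : C.U →L[ℂ] C.H := ∑ i, (mulA (C.rH i * (1 - C.b1))).comp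
  (Uj _ i 3 + Uj _ i 5)
/-- the linear part of the equation on the double -/
def rest : C.U × JJ D zm →L[ℂ] C.H := (C.lapX - Uv _).comp (ContinuousLinearMap.fst ℂ _ _) +
  (mulA C.b1).comp C.uX
/-- the function on the surface -/
def dv (v : C.U) : E3 → ℂ := C.Z.dn (Uv _ v)
/-- the glued function -/
def tot (v : C.U) (Yf : En D → R2 → ℂ) (p : E3) : ℂ :=
  (1 - (cut zm 3 (G.σ p) : ℝ)) * C.dv v p + (cut zm 3 (G.σ p) : ℝ) * G.YS Yf p

/-- the equation on the double -/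
def CE (M : (R2 → E3) → R2 → J2 ℂ → ℂ) (z : C.U × JJ D zm) : Prop := ∀ x,
  ∑ i ∈ C.Z.A, C.Z.pou.ρ i x * C.b1 x * M (C.Z.P i).φ (C.Z.𝒞.e i x) (fun k => C.mI i z k x) +
    C.rest z x = 0

/-- the equation on the ends -/
def EQ (M : (R2 → E3) → R2 → J2 ℂ → ℂ) (v : C.U) (Yf : En D → R2 → ℂ) (T : ℝ) : Prop :=
  ∀ (e : En D) (q : R2), q.1 ∈ Ioo (zm + 3) T →
    M (pt e) q ((G.s e : ℂ) • jet2 (Yf e) q + jmul (j1 - jz (cut zm 3) q.1)
      (T1 (jet2 (fun z => C.dv v (pt e z)) q - (G.s e : ℂ) • jet2 (Yf e) q))) +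
    (1 - (cut zm 3 q.1 : ℝ)) * (C.dv v (pt e q) - G.s e * Yf e q) = 0

end Ctx

variable (zm) in
/-- the functions `Yf` on the ends have the jets `j` on the overlap -/
structure YF (j : JJ D zm) (Yf : En D → R2 → ℂ) (T : ℝ) : Prop where
  le : zm + 7 ≤ T
  per : ∀ e ζ θ, Yf e (ζ, θ + 2 * Real.pi) = Yf e (ζ, θ)
  c2 : ∀ e (q : R2), q.1 ∈ Ioo (zm + 3) T → ContDiffAt ℝ 2 (Yf e) q
  jet : ∀ e (q : R2), q.1 ∈ Ioo (zm + 3) (zm + 7) →
    jet2 (Yf e) q = jev zm (ctr (gam zm 3 6) e) (j e).1 q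

namespace Ctx
variable (C : Ctx G zm X)

theorem TE_cpt (e : En D) : IsCompactOperator (C.TE e) := (C.tf.toE e).choose_spec.1
theorem ev_TE (e : En D) (v : C.U) (k : Fin 6) (t θ : ℝ) : ev (C.TE e v k) t θ =
    T1 (jet2 (fun q => C.dv v (pt e q)) (zr zm 3 6 t, θ)) k := (C.tf.toE e).choose_spec.2 v k t θ
theorem TX_cpt (e : En D) : IsCompactOperator (C.TX e) := (C.tf.toX e).choose_spec.1
theorem TX_apply (e : En D) (j : JS (ctr (gam zm 3 6) e)) (k : Fin 6) (x : X) : C.TX e j k x =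
    C.Z.upF (G.lift e fun q => (be2 zm q.1 : ℝ) * T1 (jev zm (ctr (gam zm 3 6) e) j.1 q) k) x :=
  (C.tf.toX e).choose_spec.2 j k x

theorem cH_ck {f : ℝ → ℂ} (hf : ContDiff ℝ ∞ f) (h0 : ∀ ζ, zm + 7 ≤ ζ → f ζ = 0) :
    CkFn R2 ∞ (C.Z.upF fun p => f (G.σ p)) :=
  C.tf.up_ck _ _ le_rfl (fun P _ hy _ => (hf.comp G.σ_sm).contDiffAt.comp _ (P.contDiffAt hy))
    fun _ _ h => h0 _ h

theorem cH_apply {f : ℝ → ℂ} (hf : ContDiff ℝ ∞ f) (h0 : ∀ ζ, zm + 7 ≤ ζ → f ζ = 0) (x : X) :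
    C.cH f x = if 0 < C.Z.τ x then f (G.σ (C.Z.pr x)) else 0 :=
  mkH_apply _ ((C.cH_ck hf h0).of_le (by simp)) x

theorem contDiff_cutC (k : ℕ) : ContDiff ℝ ∞ fun ζ => ((cut zm k ζ : ℝ) : ℂ) :=
  Complex.ofRealCLM.contDiff.comp (contDiff_cut zm k)

theorem b1_apply (x : X) :
    C.b1 x = if 0 < C.Z.τ x then 1 - ((cut zm 5 (G.σ (C.Z.pr x)) : ℝ) : ℂ) else 0 :=
  C.cH_apply (contDiff_const.sub (contDiff_cutC 5))
    (fun ζ h => by rw [cut_one (by push_cast; linarith)]; simp) x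

theorem jX_apply (k : Fin 6) (x : X) : C.jX k x = if 0 < C.Z.τ x then
    (1 - ((cut zm 6 (G.σ (C.Z.pr x)) : ℝ) : ℂ)) * jz (cut zm 3) (G.σ (C.Z.pr x)) k else 0 :=
  C.cH_apply ((contDiff_const.sub (contDiff_cutC 6)).mul (contDiff_jz (contDiff_cut zm 3) k))
    (fun ζ h => by rw [cut_one (by push_cast; linarith)]; simp) x

theorem jX_eq {x : X} (h : 0 < C.Z.τ x) (h6 : G.σ (C.Z.pr x) ≤ zm + 6) :
    (fun k => C.jX k x) = jz (cut zm 3) (G.σ (C.Z.pr x)) := funext fun k => by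
  rw [jX_apply, if_pos h, cut_zero (by push_cast; linarith)]; simp

theorem rH_apply (i : Fin C.Z.𝒞.N) (x : X) : C.rH i x = C.Z.pou.ρ i x :=
  mkH_apply _ (((C.Z.pou.sm i).comp Complex.ofRealCLM.contDiff).of_le (by simp)) x

theorem b1_ne {x : X} (h : C.b1 x ≠ 0) : 0 < C.Z.τ x ∧ G.σ (C.Z.pr x) < zm + 5 + 2 / 3 := by
  rw [b1_apply] at h
  split_ifs at h with h1
  · refine ⟨h1, ?_⟩
    have := lt_of_cut_ne_one (zm := zm) (k := 5) (ζ := G.σ (C.Z.pr x)) fun h2 => h (by simp [h2])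
    exact_mod_cast this
  · exact absurd rfl h

theorem b1_one {x : X} (h : 0 < C.Z.τ x) (h5 : G.σ (C.Z.pr x) ≤ zm + 5 + 1 / 3) : C.b1 x = 1 := by
  rw [b1_apply, if_pos h, cut_zero (by push_cast; linarith)]; simp

theorem act {i : Fin C.Z.𝒞.N} {x : X} (hρ : C.Z.pou.ρ i x ≠ 0) (h : 0 < C.Z.τ x)
    (h7 : G.σ (C.Z.pr x) ≤ zm + 7) : i ∈ C.Z.A :=
  C.Z.act i x (by rw [C.Z.pou.η_eq hρ]; simp) (by nlinarith [(C.Z.mem x).2])

theorem sum_act {x : X} (h : 0 < C.Z.τ x) (h7 : G.σ (C.Z.pr x) ≤ zm + 7) :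
    ∑ i ∈ C.Z.A, (C.Z.pou.ρ i x : ℂ) = 1 := by
  rw [Finset.sum_subset (Finset.subset_univ _) fun i _ hi => ?_]
  · exact_mod_cast C.Z.pou.sum x
  · by_contra h0
    exact hi (C.act (by exact_mod_cast h0) h h7)

theorem act_end {i : Fin C.Z.𝒞.N} {x : X} (hi : i ∈ C.Z.A) (hρ : C.Z.pou.ρ i x ≠ 0)
    (h0 : zm ≤ G.σ (C.Z.pr x)) : ∃ e : En D, (C.Z.P i).φ = pt e ∧ G.z0 < (C.Z.𝒞.e i x).1 ∧
      pt e (C.Z.𝒞.e i x) = C.Z.pr x ∧ (C.Z.𝒞.e i x).1 = G.σ (C.Z.pr x) := by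
  obtain ⟨h1, h2, -⟩ := C.tf.chart i hi x (C.Z.pou.spt i x hρ).1
  rcases C.Z.ends i hi with ⟨e, θ, h⟩ | h
  · rw [h, G.ep_O] at h1
    rw [h, G.ep_φ] at h2
    exact ⟨e, by rw [h, G.ep_φ], h1.1, h2, by rw [← h2, G.σ_pt e _ h1.1]⟩
  · exact absurd (h x (by rw [C.Z.pou.η_eq hρ]; simp)) (not_lt.2 h0)

theorem jc_eq {i : Fin C.Z.𝒞.N} {x : X} (hi : i ∈ C.Z.A) (hx : x ∈ (C.Z.𝒞.e i).source)
    (f : X → ℂ) : jc C.Z.𝒞 i f x = jet2 (fun y => C.Z.dn f ((C.Z.P i).φ y)) (C.Z.𝒞.e i x) := by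
  refine jet2_congr ?_
  filter_upwards [(C.tf.chart i hi x hx).2.2] with y hy
  rw [← hy.1, C.tf.dn_pr f _ hy.2]

theorem YX_apply (j : JJ D zm) {x : X} (h : 0 < C.Z.τ x) {e : En D} {q : R2} (hq : G.z0 < q.1)
    (hx : pt e q = C.Z.pr x) : (fun k => C.YX j k x) =
      ((be2 zm q.1 : ℝ) * G.s e : ℂ) • T1 (jev zm (ctr (gam zm 3 6) e) (j e).1 q) := by
  funext k
  have := C.iv.YS_pt (Yf := fun e q => (be2 zm q.1 : ℝ) *
    T1 (jev zm (ctr (gam zm 3 6) e) (j e).1 q) k) (fun e ζ θ => by simp only [jev_per]) e hq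
  rw [Pi.smul_apply, smul_eq_mul, mul_comm _ (G.s e : ℂ), mul_assoc, ← this, hx]
  simp only [YX, sum_apply, Finset.sum_apply, Hol.sum_apply, smul_apply,
    ContinuousLinearMap.comp_apply, Pi.smul_apply, Hol.smul_apply, TX_apply, Dbl.upF, if_pos h]
  rfl

theorem mI_apply {i : Fin C.Z.𝒞.N} {x : X} (hρ : C.Z.pou.ρ i x ≠ 0) (z : C.U × JJ D zm) :
    (fun k => C.mI i z k x) = jc C.Z.𝒞 i (Uv _ z.1) x - jmul (fun k => C.jX k x)
      (T1 (jc C.Z.𝒞 i (Uv _ z.1) x) - fun k => C.YX z.2 k x) := by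
  have e : (fun k => C.UJ i z.1 k x) = jc C.Z.𝒞 i (Uv _ z.1) x := funext fun k => by
    have := Uj_apply C.Z.𝒞 i k z.1 x
    rw [C.Z.pou.η_eq hρ, Complex.ofReal_one, one_mul] at this
    exact this
  have e1 := map_jmul (Hol.evalRingHom x) C.jX (C.DX i z)
  have e2 := map_T1 (fun f : C.H => f x) rfl (C.UJ i z.1)
  rw [← e, ← e2]
  funext k
  have e3 := congrFun e1 k
  simp only [Hol.evalRingHom_apply] at e3
  simp only [mI, sub_apply, ContinuousLinearMap.comp_apply, jmulL_apply, Pi.sub_apply,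
    Hol.sub_apply, e3]
  congr 2
  funext l
  simp [DX]

theorem rest_apply (z : C.U × JJ D zm) (x : X) : C.rest z x =
    ∑ i, C.Z.pou.ρ i x * (1 - C.b1 x) * (jc C.Z.𝒞 i (Uv _ z.1) x 3 + jc C.Z.𝒞 i (Uv _ z.1) x 5) -
      Uv _ z.1 x + C.b1 x * (Uv _ z.1 x - C.jX 0 x * (Uv _ z.1 x - C.YX z.2 0 x)) := by
  simp only [rest, lapX, uX, D0, add_apply, sub_apply, ContinuousLinearMap.comp_apply, sum_apply,
    mulA_apply, Hol.add_apply, Hol.sub_apply, Hol.mul_apply, Hol.sum_apply,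
    rH_apply, Hol.one_apply, Uj_apply, ContinuousLinearMap.coe_fst', ContinuousLinearMap.coe_snd',
    ContinuousLinearMap.proj_apply]
  congr 2
  refine Finset.sum_congr rfl fun i _ => ?_
  by_cases h : C.Z.pou.ρ i x = 0
  · simp [h]
  · simp [C.Z.pou.η_eq h]

theorem dv_pr (v : C.U) {x : X} (h : 0 < C.Z.τ x) : C.dv v (C.Z.pr x) = Uv _ v x :=
  C.tf.dn_pr _ x h

theorem dv_c2 (v : C.U) (P : Patch (SS w)) {y : R2} (hy : y ∈ P.O) (h : G.σ (P.φ y) < zm + 8) :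
    ContDiffAt ℝ 2 (fun z => C.dv v (P.φ z)) y := C.tf.dn_ck 2 _ (Uv_ck _ v) P y hy h

theorem dv_c2_end (v : C.U) (e : En D) {q : R2} (hq : G.z0 < q.1) (h : q.1 < zm + 8) :
    ContDiffAt ℝ 2 (fun z => C.dv v (pt e z)) q := by
  have := C.dv_c2 v (G.ep e q.2) (G.mem_ep e hq) (by rwa [G.ep_φ, G.σ_pt e q hq])
  rwa [G.ep_φ] at this

variable {j : JJ D zm} {Yf : En D → R2 → ℂ} {T : ℝ}

theorem tot_lo (v : C.U) (Yf : En D → R2 → ℂ) (P : Patch (SS w)) {y : R2} (hy : y ∈ P.O)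
    (h : G.σ (P.φ y) < zm + 3 + 1 / 3) :
    (fun z => C.tot v Yf (P.φ z)) =ᶠ[𝓝 y] fun z => C.dv v (P.φ z) := by
  filter_upwards [(G.σ_cont P hy).eventually (Iio_mem_nhds h)] with z hz
  rw [tot, cut_zero (by push_cast; exact le_of_lt hz)]; simp

theorem tot_end (hY : YF zm j Yf T) (v : C.U) (e : En D) {q : R2} (hq : G.z0 < q.1) :
    (fun z => C.tot v Yf (pt e z)) =ᶠ[𝓝 q] fun z => C.dv v (pt e z) +
      (-1) * ((cut zm 3 z.1 : ℝ) * (C.dv v (pt e z) + (-1) * (G.s e * Yf e z))) := by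
  filter_upwards [continuous_fst.continuousAt.eventually (Ioi_mem_nhds hq)] with z hz
  rw [tot, C.iv.YS_pt hY.per e hz, G.σ_pt e z hz]; ring

theorem tot_hi (hY : YF zm j Yf T) (v : C.U) (e : En D) {q : R2} (hq : zm + 3 + 2 / 3 < q.1) :
    (fun z => C.tot v Yf (pt e z)) =ᶠ[𝓝 q] fun z => G.s e * Yf e z := by
  filter_upwards [continuous_fst.continuousAt.eventually (Ioi_mem_nhds hq),
    C.tot_end hY v e (q := q) (by linarith [C.hz])] with z hz h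
  rw [h, cut_one (by push_cast; exact le_of_lt hz)]; simp

theorem cd_cut (k : ℕ) (q : R2) : ContDiffAt ℝ 2 (fun z : R2 => ((cut zm k z.1 : ℝ) : ℂ)) q :=
  (((contDiff_cutC k).comp contDiff_fst).of_le two_le).contDiffAt

theorem tot_jet (hY : YF zm j Yf T) (v : C.U) (e : En D) {q : R2}
    (hq : q.1 ∈ Ioo (zm + 3) (zm + 7)) :
    ContDiffAt ℝ 2 (fun z => C.tot v Yf (pt e z)) q ∧ jet2 (fun z => C.tot v Yf (pt e z)) q =
      jet2 (fun z => C.dv v (pt e z)) q - jmul (jz (cut zm 3) q.1)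
        (jet2 (fun z => C.dv v (pt e z)) q - (G.s e : ℂ) • jet2 (Yf e) q) := by
  have h0 : G.z0 < q.1 := by linarith [C.hz, hq.1]
  have h1 := C.dv_c2_end v e h0 (by linarith [hq.2])
  have h2 := hY.c2 e q ⟨hq.1, hq.2.trans_le hY.le⟩
  have h3 : ContDiffAt ℝ 2 (fun z => (G.s e : ℂ) * Yf e z) q := contDiffAt_const.mul h2
  have h4 := h1.add (contDiffAt_const (c := (-1 : ℂ)).mul h3)
  have h5 := (cd_cut (zm := zm) 3 q).mul h4
  have e1 := C.tot_end hY v e h0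
  refine ⟨(h1.add (contDiffAt_const.mul h5)).congr_of_eventuallyEq e1, ?_⟩
  rw [jet2_congr e1, jet2_add h1 (contDiffAt_const.mul h5), jet2_smul _ h5,
    C.jf.leib _ _ _ (cd_cut 3 q) h4, jet2_add h1 (contDiffAt_const.mul h3), jet2_smul _ h3,
    jet2_smul _ h2, C.jf.jz_eq _ _ ((contDiff_cut zm 3).of_le two_le).contDiffAt]
  simp only [neg_smul, one_smul, sub_eq_add_neg]

theorem tot_c2 (hY : YF zm j Yf T) (v : C.U) (P : Patch (SS w)) {y : R2} (hy : y ∈ P.O)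
    (h : G.σ (P.φ y) < T) : ContDiffAt ℝ 2 (fun z => C.tot v Yf (P.φ z)) y := by
  by_cases h1 : G.σ (P.φ y) < zm + 3 + 1 / 3
  · exact (C.dv_c2 v P hy (by linarith)).congr_of_eventuallyEq (C.tot_lo v Yf P hy h1)
  obtain ⟨e, q, hq, e1⟩ := G.cover _ (P.maps y hy).1 (by linarith [C.hz])
  rw [e1, G.σ_pt e q hq] at h h1
  refine C.iv.ck two_le (G.mem_ep e hq) hy (by rw [G.ep_φ, e1]) ?_
  rw [G.ep_φ]
  by_cases h2 : q.1 < zm + 7
  · exact (C.tot_jet hY v e ⟨by linarith, h2⟩).1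
  · exact (contDiffAt_const.mul (hY.c2 e q ⟨by linarith, h⟩)).congr_of_eventuallyEq
      (C.tot_hi hY v e (by linarith))

/-- the mixed jets on the overlap -/
theorem mI_end (hY : YF zm j Yf T) (v : C.U) {i : Fin C.Z.𝒞.N} {x : X} (hi : i ∈ C.Z.A)
    (hρ : C.Z.pou.ρ i x ≠ 0) (h : 0 < C.Z.τ x) {e : En D} (he : (C.Z.P i).φ = pt e)
    (hx : pt e (C.Z.𝒞.e i x) = C.Z.pr x) (hq : (C.Z.𝒞.e i x).1 ∈ Ioo (zm + 3) (zm + 6)) :
    (fun k => C.mI i (v, j) k x) = jet2 (fun z => C.dv v (pt e z)) (C.Z.𝒞.e i x) -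
      jmul (jz (cut zm 3) (C.Z.𝒞.e i x).1) (T1 (jet2 (fun z => C.dv v (pt e z)) (C.Z.𝒞.e i x) -
        (G.s e : ℂ) • jet2 (Yf e) (C.Z.𝒞.e i x))) := by
  have h0 : G.z0 < (C.Z.𝒞.e i x).1 := by linarith [C.hz, hq.1]
  have hσ : G.σ (C.Z.pr x) = (C.Z.𝒞.e i x).1 := by rw [← hx, G.σ_pt e _ h0]
  rw [C.mI_apply hρ, C.jc_eq hi (C.Z.pou.spt i x hρ).1, he, C.jX_eq h (by linarith [hq.2]), hσ,
    C.YX_apply _ h h0 hx]
  by_cases h1 : (C.Z.𝒞.e i x).1 < zm + 3 + 1 / 3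
  · rw [jz_cut_zero (by push_cast; exact h1), jmul_zero_left, jmul_zero_left]; rfl
  · rw [be2_one (by linarith) (by linarith [hq.2]), T1_sub, T1_smul,
      hY.jet e _ ⟨hq.1, by linarith [hq.2]⟩]
    simp only [Complex.ofReal_one, one_mul]
    rfl

theorem rest_end (hY : YF zm j Yf T) (v : C.U) {x : X} (h : 0 < C.Z.τ x) {e : En D} {q : R2}
    (hx : pt e q = C.Z.pr x) (hq : q.1 ∈ Ioo (zm + 3) (zm + 6)) :
    C.jX 0 x * (Uv _ v x - C.YX j 0 x) =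
      (cut zm 3 q.1 : ℝ) * (C.dv v (pt e q) - G.s e * Yf e q) := by
  have h0 : G.z0 < q.1 := by linarith [C.hz, hq.1]
  have hσ : G.σ (C.Z.pr x) = q.1 := by rw [← hx, G.σ_pt e _ h0]
  have e1 := congrFun (C.jX_eq h (by linarith [hq.2])) 0
  have e2 := congrFun (C.YX_apply j h h0 hx) 0
  rw [e1, e2, hσ, hx, C.dv_pr v h]
  by_cases h1 : q.1 < zm + 3 + 1 / 3
  · simp [jz, cut_zero (zm := zm) (k := 3) (ζ := q.1) (by push_cast; exact h1.le)]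
  · rw [be2_one (by linarith) (by linarith [hq.2]), ← hY.jet e _ ⟨hq.1, by linarith [hq.2]⟩]
    simp [jz, T1, jet2]

/-- the glued function solves the equation -/
theorem tot_eq {M : (R2 → E3) → R2 → J2 ℂ → ℂ} {MG : (E3 → ℂ) → E3 → ℂ} (hM : OpF w M MG)
    (hY : YF zm j Yf T) {v : C.U} (hc : C.CE M (v, j)) (he : C.EQ M v Yf T) {p : E3}
    (hp : w p = 0) (hT : G.σ p < T) : MG (C.tot v Yf) p = 0 := by
  by_cases h4 : zm + 4 ≤ G.σ p
  · obtain ⟨e, q, hq, rfl⟩ := G.cover _ hp (by linarith [C.hz])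
    rw [G.σ_pt e q hq] at hT h4
    have h1 := he e q ⟨by linarith, hT⟩
    have h2 := hM.inv (G.ep e q.2) q (G.mem_ep e hq) _
      (C.tot_c2 hY v _ (G.mem_ep e hq) (by rwa [G.ep_φ, G.σ_pt e q hq]))
    rw [G.ep_φ, jet2_congr (C.tot_hi hY v e (by linarith)),
      jet2_smul _ (hY.c2 e q ⟨by linarith, hT⟩)] at h2
    rw [jz_cut_one (by push_cast; linarith), cut_one (by push_cast; linarith), sub_self,
      jmul_zero_left] at h1
    simpa [h2] using h1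
  obtain ⟨x, rfl, hx⟩ := C.tf.ex p hp (by linarith)
  have hb := C.b1_one hx (by linarith)
  have h1 := hc x
  have hs := C.sum_act hx (by linarith)
  rw [rest_apply, hb] at h1
  simp only [mul_one, sub_self, mul_zero, zero_mul, Finset.sum_const_zero, one_mul] at h1
  have key : ∀ i ∈ C.Z.A, C.Z.pou.ρ i x ≠ 0 → MG (C.tot v Yf) (C.Z.pr x) =
      M (C.Z.P i).φ (C.Z.𝒞.e i x) (jet2 (fun z => C.tot v Yf ((C.Z.P i).φ z)) (C.Z.𝒞.e i x)) := by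
    intro i hi hρ
    obtain ⟨a1, a2, -⟩ := C.tf.chart i hi x (C.Z.pou.spt i x hρ).1
    rw [← a2]
    exact hM.inv _ _ a1 _ (C.tot_c2 hY v _ a1 (by rwa [a2]))
  by_cases h3 : G.σ (C.Z.pr x) < zm + 3 + 1 / 3
  · have e0 : (fun k => C.jX k x) = 0 := by
      rw [C.jX_eq hx (by linarith), jz_cut_zero (by push_cast; exact h3)]
    rw [congrFun e0 0] at h1
    rw [← one_mul (MG _ _), ← hs, Finset.sum_mul, ← (by simpa using h1 : ∑ i ∈ C.Z.A,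
      C.Z.pou.ρ i x * M (C.Z.P i).φ (C.Z.𝒞.e i x) (fun k => C.mI i (v, j) k x) = 0)]
    refine Finset.sum_congr rfl fun i hi => ?_
    by_cases hρ : C.Z.pou.ρ i x = 0
    · simp [hρ]
    obtain ⟨a1, a2, -⟩ := C.tf.chart i hi x (C.Z.pou.spt i x hρ).1
    rw [key i hi hρ, C.mI_apply hρ, e0, jmul_zero_left, sub_zero,
      C.jc_eq hi (C.Z.pou.spt i x hρ).1, jet2_congr (C.tot_lo v Yf _ a1 (by rwa [a2]))]
    rfl
  · set χ : ℂ := ((cut zm 3 (G.σ (C.Z.pr x)) : ℝ) : ℂ) with hχ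
    set d : ℂ := C.jX 0 x * (Uv _ v x - C.YX j 0 x) with hd
    have k2 : ∀ i ∈ C.Z.A, (C.Z.pou.ρ i x : ℂ) * MG (C.tot v Yf) (C.Z.pr x) = (1 - χ) *
        (C.Z.pou.ρ i x * M (C.Z.P i).φ (C.Z.𝒞.e i x) (fun k => C.mI i (v, j) k x) -
          C.Z.pou.ρ i x * d) := by
      intro i hi
      by_cases hρ : C.Z.pou.ρ i x = 0
      · simp [hρ]
      obtain ⟨e, a1, a2, a3, a4⟩ := C.act_end hi hρ (by linarith)
      have hq : (C.Z.𝒞.e i x).1 ∈ Ioo (zm + 3) (zm + 6) := ⟨by linarith, by linarith⟩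
      have b1 := he e _ ⟨hq.1, by linarith⟩
      have b2 := hM.aff _ _ (C.tf.chart i hi x (C.Z.pou.spt i x hρ).1).1 _ _
        (jz (cut zm 3) (C.Z.𝒞.e i x).1 0) (mix_T1 (jz (cut zm 3) (C.Z.𝒞.e i x).1)
          (jet2 (fun z => C.dv v (pt e z)) (C.Z.𝒞.e i x)) ((G.s e : ℂ) • jet2 (Yf e) (C.Z.𝒞.e i x)))
      rw [← mix_eq, ← (C.tot_jet hY v e ⟨hq.1, by linarith [hq.2]⟩).2,
        ← C.mI_end hY v hi hρ hx a1 a3 hq] at b2
      rw [key i hi hρ, hd, C.rest_end hY v hx a3 hq]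
      rw [a1] at b2 ⊢
      rw [b2, eq_neg_of_add_eq_zero_left b1, hχ, ← a4]
      simp only [jz, Matrix.cons_val_zero]
      ring
    rw [← one_mul (MG _ _), ← hs, Finset.sum_mul, Finset.sum_congr rfl k2, ← Finset.mul_sum,
      Finset.sum_sub_distrib, ← Finset.sum_mul, hs]
    linear_combination (1 - χ) * h1

end Ctx

end Vale.Agent.P218N.Core
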