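import Vale.Agent.P218N.Core.Spec

/-! Holomorphic Nemytskii operators on the weighted spaces. -/

open Set Filter Topology Metric MeasureTheory
open scoped RealInnerProductSpace ContDiff Matrix NNReal

noncomputable section

namespace Vale.Agent.P218N.Core

open Vale.Agent.P218.H313 Vale.Agent.P218N.H Vale.Agent.P218N.End Vale.Agent.P272.K.LIN

/-- complex evaluation -/
def nemEv {Y : Type} {ϖ : Y → Y → ℝ≥0} {A : Type} [NormedAddCommGroup A] [NormedSpace ℂ A] (x : Y) :
    Hol ϖ A →L[ℂ] A :=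
  LinearMap.mkContinuous
    { toFun := fun f => f x
      map_add' := fun _ _ => rfl
      map_smul' := fun _ _ => rfl } 1 fun f => by
    show ‖f x‖ ≤ 1 * ‖f‖
    simpa using Hol.norm_apply_le f x

/-- a bounded map into a Hölder space with holomorphic values is holomorphic -/
theorem hol_diffOn {Y : Type} {ϖ : Y → Y → ℝ≥0} {E V : Type} [NormedAddCommGroup E]
    [NormedSpace ℂ E] [NormedAddCommGroup V] [NormedSpace ℂ V] [CompleteSpace V]
    {f : E → Hol ϖ V} {U : Set E} (hU : IsOpen U) {M : ℝ} (hM : ∀ e ∈ U, ‖f e‖ ≤ M)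
    (hw : ∀ x, DifferentiableOn ℂ (fun e => f e x) U) : DifferentiableOn ℂ f U := by
  intro e he
  obtain ⟨r, hr, hrU⟩ := Metric.isOpen_iff.1 hU e he
  have hM0 : 0 ≤ M := (norm_nonneg _).trans (hM e he)
  have q0 := fun x => quad_of_bdd (M := M) ((hw x).mono hrU)
    (fun y hy => (Hol.norm_apply_le _ x).trans (hM y (hrU hy))) hr
  have q1 := fun x y => quad_of_bdd (M := M * ϖ x y) (((hw x).sub (hw y)).mono hrU)
    (fun u hu => (Hol.norm_sub_le' _ x y).trans
      (mul_le_mul_of_nonneg_right (hM u (hrU hu)) (NNReal.coe_nonneg _))) hr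
  set c := 4 * M / r ^ 2 + 2 * M / r with hc
  have hc0 : 0 ≤ c := by positivity
  have hcc : ∀ x y, 4 * (M * ϖ x y) / r ^ 2 + 2 * (M * ϖ x y) / r = c * ϖ x y := fun x y => by
    rw [hc]; ring
  refine (hasFDerivAt_of_quad (K := 2 * c) hr ?_ ?_).differentiableWithinAt
  · intro h k s t h1 h2 h3
    set Q := ‖s • h + t • k‖ ^ 2 + ‖s‖ * ‖h‖ ^ 2 + ‖t‖ * ‖k‖ ^ 2 with hQ
    have hQ0 : 0 ≤ Q := by positivity
    refine (Hol.norm_le_of (A := c * Q) (B := c * Q) (by positivity) (by positivity)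
      (fun x => (q0 x).1 h k s t h1 h2 h3) fun x y => ?_).trans (le_of_eq (by ring))
    have h4 := (q1 x y).1 h k s t h1 h2 h3
    rw [hcc] at h4
    refine le_trans (le_of_eq ?_) (h4.trans (le_of_eq (by ring)))
    congr 1
    simp only [Hol.sub_apply, Hol.smul_apply, Pi.sub_apply, smul_sub]
    abel
  · intro h hh
    refine (Hol.norm_le_of (A := c * ‖h‖) (B := c * ‖h‖) (by positivity) (by positivity)
      (fun x => (q0 x).2 h hh) fun x y => ?_).trans (le_of_eq (by ring))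
    have h4 := (q1 x y).2 h hh
    rw [hcc] at h4
    refine le_trans (le_of_eq ?_) (h4.trans (le_of_eq (by ring)))
    congr 1
    simp only [Hol.sub_apply, Pi.sub_apply]
    abel

theorem nemStmt : NemStmt := by
  intro Y ϖ A _ _ _ ρ f₀ K O F hK hO hKO hF hf₀
  have : ProperSpace A := FiniteDimensional.proper ℂ A
  obtain ⟨δ, hδ, hδO⟩ := hK.exists_cthickening_subset_open hO hKO
  obtain ⟨M, hM⟩ := hK.cthickening.exists_bound_of_continuousOn (hF.continuousOn.mono hδO)
  set M' := max M 0 with hM'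
  have hM0 : 0 ≤ M' := le_max_right _ _
  set r := δ / 2 with hr
  have hr0 : 0 < r := by positivity
  -- the points near `K`
  have hball : ∀ a, (∃ z ∈ K, dist a z < r) → ball a r ⊆ cthickening δ K := by
    rintro a ⟨z, hz, ha⟩ b hb
    refine mem_cthickening_of_dist_le b z δ K hz ?_
    rw [mem_ball] at hb
    linarith [dist_triangle b a z]
  have hbd : ∀ a, (∃ z ∈ K, dist a z < r) → ∀ b ∈ ball a r, ‖F b‖ ≤ M' := fun a ha b hb =>
    (hM b (hball a ha hb)).trans (le_max_left _ _)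
  have hlip : ∀ a b, (∃ z ∈ K, dist a z < r) → (∃ z ∈ K, dist b z < r) →
      ‖F a - F b‖ ≤ 2 * M' / r * ‖a - b‖ := by
    intro a b ha hb
    have h1 := hbd a ha a (mem_ball_self hr0)
    by_cases hab : dist a b < r
    · have h2 : MapsTo F (ball b r) (closedBall (F b) (2 * M')) := fun y hy => by
        rw [mem_closedBall, dist_eq_norm]
        linarith [norm_sub_le (F y) (F b), hbd b hb y hy, hbd b hb b (mem_ball_self hr0)]
      have h3 := Complex.dist_le_div_mul_dist_of_mapsTo_ball (z := a)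
        (hF.mono ((hball b hb).trans hδO)) h2 hab
      rwa [dist_eq_norm, dist_eq_norm] at h3
    · rw [not_lt, dist_eq_norm] at hab
      calc ‖F a - F b‖ ≤ 2 * M' := by
            linarith [norm_sub_le (F a) (F b), hbd b hb b (mem_ball_self hr0)]
        _ = 2 * M' / r * r := by field_simp
        _ ≤ _ := by gcongr
  have hnear : ∀ f ∈ ball f₀ r, ∀ x, ρ x ≠ 0 → ∃ z ∈ K, dist (f x) z < r := fun f hf x hx => by
    refine ⟨f₀ x, hf₀ x hx, ?_⟩
    rw [mem_ball, dist_eq_norm] at hf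
    rw [dist_eq_norm]
    exact (Hol.norm_apply_le (f - f₀) x).trans_lt hf
  have hinO : ∀ f ∈ ball f₀ r, ∀ x, ρ x ≠ 0 → f x ∈ O := fun f hf x hx =>
    hδO (hball _ (hnear f hf x hx) (mem_ball_self hr0))
  have hFb : ∀ f ∈ ball f₀ r, ∀ x, ρ x ≠ 0 → ‖F (f x)‖ ≤ M' := fun f hf x hx =>
    hbd _ (hnear f hf x hx) _ (mem_ball_self hr0)
  have hb0 : ∀ f ∈ ball f₀ r, ∀ x, ‖ρ x * F (f x)‖ ≤ ‖ρ‖ * M' := fun f hf x => by
    by_cases hx : ρ x = 0
    · rw [hx, zero_mul, norm_zero]; positivity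
    · rw [norm_mul]
      exact mul_le_mul (Hol.norm_apply_le ρ x) (hFb f hf x hx) (norm_nonneg _) (norm_nonneg _)
  have hb1 : ∀ f ∈ ball f₀ r, ∀ x y, ‖ρ x * F (f x) - ρ y * F (f y)‖ ≤
      (‖ρ‖ * M' + ‖ρ‖ * (2 * M' / r * (‖f₀‖ + r))) * ϖ x y := fun f hf x y => by
    have hw : (0 : ℝ) ≤ ϖ x y := NNReal.coe_nonneg _
    have hρ := Hol.norm_sub_le' ρ x y
    have hpos : 0 ≤ ‖ρ‖ * (2 * M' / r * (‖f₀‖ + r)) * ϖ x y := by positivity
    have key : ∀ u : ℂ, ‖u‖ ≤ M' → ‖(ρ x - ρ y) * u‖ ≤ ‖ρ‖ * M' * ϖ x y := fun u hu => by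
      rw [norm_mul]
      calc _ ≤ ‖ρ‖ * ϖ x y * M' := by gcongr
        _ = _ := by ring
    rw [add_mul]
    by_cases hx : ρ x = 0
    · by_cases hy : ρ y = 0
      · rw [hx, hy, zero_mul, zero_mul, sub_zero, norm_zero]; positivity
      · have h1 := key _ (hFb f hf y hy)
        have e : ρ x * F (f x) - ρ y * F (f y) = (ρ x - ρ y) * F (f y) := by rw [hx]; ring
        rw [e]
        linarith
    · by_cases hy : ρ y = 0
      · have h1 := key _ (hFb f hf x hx)
        have e : ρ x * F (f x) - ρ y * F (f y) = (ρ x - ρ y) * F (f x) := by rw [hy]; ring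
        rw [e]
        linarith
      · have h1 := key _ (hFb f hf y hy)
        have e : ρ x * F (f x) - ρ y * F (f y) =
            (ρ x - ρ y) * F (f y) + ρ x * (F (f x) - F (f y)) := by ring
        rw [e]
        refine (norm_add_le _ _).trans (add_le_add h1 ?_)
        have h2 := hlip _ _ (hnear f hf x hx) (hnear f hf y hy)
        have h3 : ‖f‖ ≤ ‖f₀‖ + r := by
          rw [mem_ball, dist_eq_norm] at hf
          linarith [norm_le_insert' f f₀]
        have h4 := Hol.norm_sub_le' f x y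
        rw [norm_mul]
        calc _ ≤ ‖ρ‖ * (2 * M' / r * ((‖f₀‖ + r) * ϖ x y)) := by
              refine mul_le_mul (Hol.norm_apply_le ρ x) (h2.trans ?_) (norm_nonneg _)
                (norm_nonneg _)
              gcongr
              exact h4.trans (by gcongr)
          _ = _ := by ring
  have hval : ∀ f ∈ ball f₀ r, ∀ x, nemH ρ F f x = ρ x * F (f x) := fun f hf x => by
    rw [nemH, dif_pos ⟨⟨_, hb0 f hf⟩, ⟨_, hb1 f hf⟩⟩]
  have hder : ∀ f ∈ ball f₀ r, ∀ x, HasFDerivAt (fun g : Hol ϖ A => nemH ρ F g x)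
      (ρ x • (fderiv ℂ F (f x) ∘L nemEv x)) f := fun f hf x => by
    have h1 : HasFDerivAt (fun g : Hol ϖ A => ρ x * F (g x))
        (ρ x • (fderiv ℂ F (f x) ∘L nemEv x)) f := by
      by_cases hx : ρ x = 0
      · have e : ρ x • (fderiv ℂ F (f x) ∘L (nemEv x : Hol ϖ A →L[ℂ] A)) = 0 := by
          ext g; simp [hx]
        rw [e]
        simp only [hx, zero_mul]
        exact hasFDerivAt_const (0 : ℂ) f
      · have h2 : HasFDerivAt F (fderiv ℂ F (f x)) (nemEv x f) :=
          (hF.differentiableAt (hO.mem_nhds (hinO f hf x hx))).hasFDerivAt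
        exact (h2.comp f (nemEv x).hasFDerivAt).const_mul (ρ x)
    refine h1.congr_of_eventuallyEq ?_
    filter_upwards [isOpen_ball.mem_nhds hf] with g hg
    exact hval g hg x
  have hdiff : DifferentiableOn ℂ (nemH ρ F : Hol ϖ A → Hol ϖ ℂ) (ball f₀ r) := by
    refine hol_diffOn isOpen_ball
      (M := ‖ρ‖ * M' + (‖ρ‖ * M' + ‖ρ‖ * (2 * M' / r * (‖f₀‖ + r)))) (fun f hf => ?_)
      fun x f hf => (hder f hf x).differentiableAt.differentiableWithinAt
    refine Hol.norm_le_of (by positivity) (by positivity) (fun x => ?_) fun x y => ?_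
    · rw [hval f hf]; exact hb0 f hf x
    · rw [hval f hf, hval f hf]; exact hb1 f hf x y
  refine ⟨r, hr0, hdiff, fun f hf x => ⟨hinO f hf x, hval f hf x, fun h => ?_⟩⟩
  have h1 := (nemEv (A := ℂ) (ϖ := ϖ) x).hasFDerivAt.comp f
    (hdiff.differentiableAt (isOpen_ball.mem_nhds hf)).hasFDerivAt
  exact DFunLike.congr_fun (h1.unique (hder f hf x)) h

end Vale.Agent.P218N.Core
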