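import Vale.Agent.P218N.Core.Mix

/-! The coefficients of the principal part of the linear operator on the double. -/

open Set Filter Topology Metric MeasureTheory
open scoped RealInnerProductSpace ContDiff Matrix NNReal

noncomputable section

namespace Vale.Agent.P218N.Core

open Vale.Agent.P218.H313 Vale.Agent.P218N.H Vale.Agent.P218N.End Vale.Agent.P272.K.LIN

set_option linter.unusedSectionVars false

variable {w : E3 → ℝ} {D : EndData w} {G : Geo D} {zm : ℝ} {X : Type} [TopologicalSpace X]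
  [ChartedSpace R2 X] [T2Space X] [CompactSpace X] [RSm R2 X]

namespace Ctx
variable (C : Ctx G zm X)

/-- the jet of the patch `i` at the point `x` -/
def jP (i : Fin C.Z.𝒞.N) (x : X) : J2 C3 := jS (C.Z.P i).φ (C.Z.𝒞.e i x)

/-- the coefficients of the principal part -/
def co (i : Fin C.Z.𝒞.N) (k : Fin 3) (x : X) : ℂ :=
  C.Z.pou.ρ i x * C.b1 x *
      (![g22 (C.jP i x), -g12 (C.jP i x), g11 (C.jP i x)] k / dg (C.jP i x)) +
    C.Z.pou.ρ i x * (1 - C.b1 x) * ![1, 0, 1] k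

theorem b1_real (x : X) : ∃ t : ℝ, 0 ≤ t ∧ t ≤ 1 ∧ C.b1 x = t := by
  rw [b1_apply]
  split_ifs
  · exact ⟨1 - cut zm 5 (G.σ (C.Z.pr x)), sub_nonneg.2 cut_le_one, sub_le_self _ cut_nonneg,
      by push_cast; rfl⟩
  · exact ⟨0, le_rfl, zero_le_one, rfl⟩

theorem act_b1 {i : Fin C.Z.𝒞.N} {x : X} (hρ : C.Z.pou.ρ i x ≠ 0) (h : C.b1 x ≠ 0) : i ∈ C.Z.A :=
  C.act hρ (C.b1_ne h).1 (by linarith [(C.b1_ne h).2])

theorem mem_O {i : Fin C.Z.𝒞.N} (hi : i ∈ C.Z.A) {x : X} (hρ : C.Z.pou.ρ i x ≠ 0) :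
    C.Z.𝒞.e i x ∈ (C.Z.P i).O := (C.tf.chart i hi x (C.Z.pou.spt i x hρ).1).1

/-- the principal part in terms of the coefficients -/
theorem co_eq (i : Fin C.Z.𝒞.N) (x : X) (m : J2 ℂ) :
    C.co i 0 x * m 3 + 2 * (C.co i 1 x * m 4) + C.co i 2 x * m 5 =
      C.Z.pou.ρ i x * C.b1 x * prin (C.jP i x) m + C.Z.pou.ρ i x * (1 - C.b1 x) * (m 3 + m 5) := by
  simp only [co, prin, Matrix.cons_val_zero, Matrix.cons_val_one, Matrix.cons_val]
  ring

/-- the linearised operator at the base point -/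
theorem Lh_split {i : Fin C.Z.𝒞.N} (hi : i ∈ C.Z.A) {x : X} (hρ : C.Z.pou.ρ i x ≠ 0) (m : J2 ℂ) :
    Lh (G.bJ zm (C.Z.P i).φ (C.Z.𝒞.e i x)) m =
      Lh (G.bJ zm (C.Z.P i).φ (C.Z.𝒞.e i x)) (T1 m) + prin (C.jP i x) m := by
  obtain ⟨h1, h2, -, h3, -⟩ := C.iv.base _ _ (C.mem_O hi hρ)
  rw [C.jf.prin_eq _ h2 h1, h3]
  rfl

theorem co_val {i : Fin C.Z.𝒞.N} {x : X} (hρ : C.Z.pou.ρ i x ≠ 0) : ∃ a b c : ℝ,
    C.co i 0 x = a ∧ C.co i 1 x = b ∧ C.co i 2 x = c ∧ 0 < a ∧ b ^ 2 < a * c := by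
  have h0 : 0 < C.Z.pou.ρ i x := lt_of_le_of_ne (C.Z.pou.nonneg i x) hρ.symm
  by_cases hb : C.b1 x = 0
  · refine ⟨C.Z.pou.ρ i x, 0, C.Z.pou.ρ i x, ?_, ?_, ?_, h0, by nlinarith⟩ <;> simp [co, hb]
  obtain ⟨a, b, c, ha, hb', hc, a0, c0, hd⟩ := C.iv.pos _ _ (C.mem_O (C.act_b1 hρ hb) hρ)
  obtain ⟨t, t0, t1, ht⟩ := C.b1_real x
  have t2 : 0 < t := lt_of_le_of_ne t0 fun h => hb (by rw [ht, ← h]; simp)
  have hd0 : 0 < a * c - b ^ 2 := sub_pos.2 hd
  have e : dg (C.jP i x) = ((a * c - b ^ 2 : ℝ) : ℂ) := by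
    rw [dg, jP, ha, hb', hc]
    push_cast
    rfl
  set d := a * c - b ^ 2 with hdd
  set ρ := C.Z.pou.ρ i x with hρ'
  refine ⟨ρ * (t * (c / d) + (1 - t)), ρ * (t * (-b / d)), ρ * (t * (a / d) + (1 - t)), ?_, ?_, ?_,
    ?_, ?_⟩
  · simp only [co, Matrix.cons_val_zero, e, ht]
    rw [jP, hc]
    push_cast
    ring
  · simp only [co, Matrix.cons_val_one, Matrix.cons_val_zero, e, ht]
    rw [jP, hb']
    push_cast
    ring
  · simp only [co, Matrix.cons_val, e, ht]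
    rw [jP, ha]
    push_cast
    ring
  · have : 0 ≤ 1 - t := by linarith
    positivity
  · have h1 : 0 ≤ 1 - t := by linarith
    have h2 : (t * (-b / d)) ^ 2 < t * (c / d) * (t * (a / d)) := by
      have h3 : t * (c / d) * (t * (a / d)) - (t * (-b / d)) ^ 2 = t ^ 2 / d := by
        field_simp
        rw [hdd]
        ring
      have : 0 < t ^ 2 / d := by positivity
      linarith
    have h4 : t * (c / d) * (t * (a / d)) ≤ (t * (c / d) + (1 - t)) * (t * (a / d) + (1 - t)) :=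
      mul_le_mul (by linarith) (by linarith) (by positivity) (by positivity)
    calc (ρ * (t * (-b / d))) ^ 2 = ρ ^ 2 * (t * (-b / d)) ^ 2 := by ring
      _ < ρ ^ 2 * ((t * (c / d) + (1 - t)) * (t * (a / d) + (1 - t))) :=
        mul_lt_mul_of_pos_left (h2.trans_le h4) (by positivity)
      _ = _ := by ring

/-- the coefficients are positive definite -/
theorem coef : Coef C.Z.pou C.co := by
  have hs : ∀ i k x, C.Z.pou.ρ i x = 0 → C.co i k x = 0 := fun i k x h => by simp [co, h]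
  refine ⟨fun i k x => ?_, hs, fun i x h => ?_⟩
  · by_cases h : C.Z.pou.ρ i x = 0
    · rw [hs i k x h, Complex.zero_im]
    · obtain ⟨a, b, c, ha, hb, hc, -⟩ := C.co_val h
      fin_cases k
      · exact (congrArg Complex.im ha).trans (Complex.ofReal_im a)
      · exact (congrArg Complex.im hb).trans (Complex.ofReal_im b)
      · exact (congrArg Complex.im hc).trans (Complex.ofReal_im c)
  · obtain ⟨a, b, c, ha, hb, hc, h1, h2⟩ := C.co_val h
    rw [ha, hb, hc]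
    exact ⟨h1, h2⟩

end Ctx

end Vale.Agent.P218N.Core
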