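import Vale.Agent.P218N.Core.Sys
import Vale.Agent.P218N.Core.OpCo
import Vale.Agent.P218N.Core.TransA

/-! The operators on the double. -/

open Set Filter Topology Metric MeasureTheory
open scoped RealInnerProductSpace ContDiff Matrix NNReal

noncomputable section

namespace Vale.Agent.P218N.Core

open Vale.Agent.P218.H313 Vale.Agent.P218N.H Vale.Agent.P218N.End Vale.Agent.P272.K.LIN

set_option linter.unusedSectionVars false

variable {w : E3 → ℝ} {D : EndData w} {G : Geo D} {zm : ℝ} {X : Type} [TopologicalSpace X]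
  [ChartedSpace R2 X] [T2Space X] [CompactSpace X] [RSm R2 X]

namespace OpP
variable (C : Ctx G zm X)

theorem bH_apply {i : Fin C.Z.𝒞.N} (hi : i ∈ C.Z.A) {x : X} (hρ : C.Z.pou.ρ i x ≠ 0) :
    C.bH i x = G.bJ zm (C.Z.P i).φ (C.Z.𝒞.e i x) := by
  rw [Ctx.bH, mkH_apply _ ((C.tf.base i hi).of_le (by simp)), C.Z.pou.η_eq hρ, one_smul]

theorem aL_apply (i : Fin C.Z.𝒞.N) (z : Cc D × (C.U × JJ D zm)) (x : X) :
    C.aL i z x = emb z.1 fun k => C.mI i z.2 k x := embH_apply z.1 (C.mI i z.2) x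

theorem aX_eq {i : Fin C.Z.𝒞.N} (hi : i ∈ C.Z.A) {x : X} (hρ : C.Z.pou.ρ i x ≠ 0)
    (z : Cc D × (C.U × JJ D zm)) : (C.bH i + C.aL i z) x = C.aX i z x := by
  rw [Hol.add_apply, bH_apply C hi hρ, aL_apply, Ctx.aX]

theorem rb_apply (i : Fin C.Z.𝒞.N) (x : X) : (C.rH i * C.b1) x = C.Z.pou.ρ i x * C.b1 x := by
  rw [Hol.mul_apply, C.rH_apply]

/-- the Nemytskii operator in one chart -/
theorem nem {F : J2 (WW D) → ℂ} (hF : DifferentiableOn ℂ F (Om D)) {i : Fin C.Z.𝒞.N}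
    (hi : i ∈ C.Z.A) : ∃ r > 0, DifferentiableOn ℂ
      (nemH (C.rH i * C.b1 : C.H) F : HH C.Z.𝒞 (J2 (WW D)) → C.H) (ball (C.bH i) r) ∧
      ∀ f ∈ ball (C.bH i) r, ∀ x, ((C.rH i * C.b1) x ≠ 0 → f x ∈ Om D) ∧
        nemH (C.rH i * C.b1 : C.H) F f x = (C.rH i * C.b1) x * F (f x) ∧
        ∀ h, fderiv ℂ (nemH (C.rH i * C.b1 : C.H) F : HH C.Z.𝒞 (J2 (WW D)) → C.H) f h x =
          (C.rH i * C.b1) x * fderiv ℂ F (f x) (h x) := by
  have hO : ∀ y ∈ closedBall (C.Z.𝒞.c i) (3 / 2 * C.Z.𝒞.r i), y ∈ (C.Z.P i).O := fun y hy => by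
    have h1 : y ∈ (C.Z.𝒞.e i).target :=
      C.Z.𝒞.sub i (closedBall_subset_closedBall (by linarith [C.Z.𝒞.r_pos i]) hy)
    have h2 := (C.tf.chart i hi _ ((C.Z.𝒞.e i).map_target h1)).1
    rwa [(C.Z.𝒞.e i).right_inv h1] at h2
  refine C.nem X _ _ (C.rH i * C.b1) (C.bH i)
    (G.bJ zm (C.Z.P i).φ '' closedBall (C.Z.𝒞.c i) (3 / 2 * C.Z.𝒞.r i)) (Om D) F
    ((isCompact_closedBall _ _).image_of_continuousOn fun y hy =>
      (C.iv.base _ y (hO y hy)).2.2.2.2.2.2.2.continuousAt.continuousWithinAt) C.jf.opn ?_ hF ?_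
  · rintro _ ⟨y, hy, rfl⟩
    exact (C.iv.base _ y (hO y hy)).2.1
  · intro x hx
    rw [rb_apply] at hx
    have hρ : C.Z.pou.ρ i x ≠ 0 := fun h => hx (by simp [h])
    exact ⟨_, (C.Z.pou.spt i x hρ).2, (bH_apply C hi hρ).symm⟩

theorem sm {F : J2 (WW D) → ℂ} (hF : DifferentiableOn ℂ F (Om D)) : ∃ r > 0, C.SMF F r := by
  choose! r hr hd hv using fun i (hi : i ∈ C.Z.A) => nem C hF hi
  have h1 : ∀ᶠ z in 𝓝 (0 : Cc D × (C.U × JJ D zm)), ∀ i ∈ C.Z.A,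
      C.bH i + C.aL i z ∈ ball (C.bH i) (r i) := by
    refine (eventually_all_finset _).2 fun i hi => ?_
    have h2 : ContinuousAt (fun z => C.bH i + C.aL i z) 0 := by fun_prop
    exact h2.eventually (isOpen_ball.mem_nhds (by simpa using hr i hi))
  obtain ⟨R, hR, h2⟩ := Metric.eventually_nhds_iff_ball.1 h1
  have h3 : ∀ z ∈ ball (0 : Cc D × (C.U × JJ D zm)) R, HasFDerivAt (C.SM F) (∑ i ∈ C.Z.A,
      (fderiv ℂ (nemH (C.rH i * C.b1 : C.H) F : HH C.Z.𝒞 (J2 (WW D)) → C.H)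
        (C.bH i + C.aL i z)).comp (C.aL i)) z := fun z hz =>
    HasFDerivAt.fun_sum fun i hi => by
      have h4 := ((hd i hi).differentiableAt (isOpen_ball.mem_nhds (h2 z hz i hi))).hasFDerivAt
      exact h4.comp (f := fun y => C.bH i + C.aL i y) z ((C.aL i).hasFDerivAt.const_add _)
  refine ⟨R, hR, fun z hz => (h3 z hz).differentiableAt.differentiableWithinAt,
    fun z hz i hi x hρ hb => ?_, fun z hz x => ?_, fun z hz h x => ?_⟩
  · rw [← aX_eq C hi hρ]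
    refine (hv i hi _ (h2 z hz i hi) x).1 ?_
    rw [rb_apply]
    exact mul_ne_zero (Complex.ofReal_ne_zero.2 hρ) hb
  · rw [Ctx.SM, Hol.sum_apply]
    refine Finset.sum_congr rfl fun i hi => ((hv i hi _ (h2 z hz i hi) x).2.1).trans ?_
    rw [rb_apply]
    by_cases hρ : C.Z.pou.ρ i x = 0
    · simp [hρ]
    · rw [aX_eq C hi hρ]
  · rw [(h3 z hz).fderiv, sum_apply, Hol.sum_apply]
    refine Finset.sum_congr rfl fun i hi => ((hv i hi _ (h2 z hz i hi) x).2.2 _).trans ?_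
    rw [rb_apply]
    by_cases hρ : C.Z.pou.ρ i x = 0
    · simp [hρ]
    · rw [aX_eq C hi hρ, ← aL_apply]
      rfl

theorem L0_eq (z : C.U × JJ D zm) (x : X) : C.L0 z x = ∑ i ∈ C.Z.A, C.Z.pou.ρ i x * C.b1 x *
    Lh (G.bJ zm (C.Z.P i).φ (C.Z.𝒞.e i x)) (fun k => C.mI i z k x) + C.rest z x := by
  obtain ⟨r, hr, h⟩ := sm C C.jf.dMh
  change fderiv ℂ (C.SM Mh) 0 (0, z) x + C.rest z x = _
  rw [h.der 0 (mem_ball_self hr)]
  congr 1
  refine Finset.sum_congr rfl fun i hi => ?_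
  by_cases hρ : C.Z.pou.ρ i x = 0
  · simp [hρ]
  have e : C.aX i 0 x = G.bJ zm (C.Z.P i).φ (C.Z.𝒞.e i x) := by
    rw [← aX_eq C hi hρ, map_zero, add_zero, bH_apply C hi hρ]
  rw [e, C.jf.Lh_eq _ (C.iv.base _ _ (C.mem_O hi hρ)).2.1]

/-- the linearised operator in one chart -/
theorem exists_N (i : Fin C.Z.𝒞.N) : ∃ N : J2 C.H →L[ℂ] C.H, ∀ m x, N m x =
    C.Z.pou.ρ i x * C.b1 x * Lh (G.bJ zm (C.Z.P i).φ (C.Z.𝒞.e i x)) fun k => m k x := by
  by_cases hi : i ∈ C.Z.A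
  · obtain ⟨r, hr, -, h⟩ := nem C C.jf.dMh hi
    refine ⟨(fderiv ℂ (nemH (C.rH i * C.b1 : C.H) Mh : HH C.Z.𝒞 (J2 (WW D)) → C.H) (C.bH i)).comp
      ((embH D _).comp (ContinuousLinearMap.inr ℂ _ _)), fun m x => ?_⟩
    refine ((h _ (mem_ball_self hr) x).2.2 _).trans ?_
    rw [rb_apply]
    by_cases hρ : C.Z.pou.ρ i x = 0
    · simp [hρ]
    rw [bH_apply C hi hρ, C.jf.Lh_eq _ (C.iv.base _ _ (C.mem_O hi hρ)).2.1]
    congr 2
    exact embH_apply 0 m x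
  · refine ⟨0, fun m x => ?_⟩
    by_cases hρ : C.Z.pou.ρ i x = 0
    · simp [hρ]
    by_cases hb : C.b1 x = 0
    · simp [hb]
    exact absurd (C.act_b1 hρ hb) hi

theorem sum_A {f : Fin C.Z.𝒞.N → ℂ} (x : X) :
    ∑ i ∈ C.Z.A, C.Z.pou.ρ i x * C.b1 x * f i = ∑ i, C.Z.pou.ρ i x * C.b1 x * f i := by
  refine Finset.sum_subset (Finset.subset_univ _) fun i _ hi => ?_
  by_cases hρ : C.Z.pou.ρ i x = 0
  · simp [hρ]
  by_cases hb : C.b1 x = 0
  · simp [hb]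
  exact absurd (C.act_b1 hρ hb) hi

theorem Lh_prin (i : Fin C.Z.𝒞.N) (x : X) (m : J2 ℂ) :
    C.Z.pou.ρ i x * C.b1 x * Lh (G.bJ zm (C.Z.P i).φ (C.Z.𝒞.e i x)) m =
      C.Z.pou.ρ i x * C.b1 x * Lh (G.bJ zm (C.Z.P i).φ (C.Z.𝒞.e i x)) (T1 m) +
        C.Z.pou.ρ i x * C.b1 x * prin (C.jP i x) m := by
  by_cases hρ : C.Z.pou.ρ i x = 0
  · simp [hρ]
  by_cases hb : C.b1 x = 0
  · simp [hb]
  rw [C.Lh_split (C.act_b1 hρ hb) hρ m, mul_add]

/-- the coefficients are Hölder functions -/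
theorem exists_co : ∃ a : Fin C.Z.𝒞.N → Fin 3 → C.H, ∀ i k x, a i k x = C.co i k x := by
  choose N hN using exists_N C
  have h1 : ∀ i (k : Fin 6) x, 3 ≤ k.1 → N i (Pi.single k 1) x =
      C.Z.pou.ρ i x * C.b1 x * prin (C.jP i x) (Pi.single k 1) := fun i k x hk => by
    have e : (fun l => (Pi.single k 1 : J2 C.H) l x) = Pi.single k 1 := funext fun l => by
      by_cases h : l = k
      · subst h; simp
      · simp [h]
    have e2 : T1 (Pi.single k 1 : J2 ℂ) = 0 := by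
      ext l
      fin_cases k <;> simp at hk <;> fin_cases l <;> simp [T1]
    rw [hN, e, Lh_prin, e2, map_zero, mul_zero, zero_add]
  refine ⟨fun i => ![N i (Pi.single 3 1) + C.rH i * (1 - C.b1), (2⁻¹ : ℂ) • N i (Pi.single 4 1),
    N i (Pi.single 5 1) + C.rH i * (1 - C.b1)], fun i k x => ?_⟩
  fin_cases k
  · change N i (Pi.single 3 1) x + C.rH i x * (1 - C.b1 x) = C.co i 0 x
    rw [h1 i 3 x (by simp), C.rH_apply]
    simp [Ctx.co, prin]
  · change (2⁻¹ : ℂ) * N i (Pi.single 4 1) x = C.co i 1 x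
    rw [h1 i 4 x (by simp)]
    simp [Ctx.co, prin]
    ring
  · change N i (Pi.single 5 1) x + C.rH i x * (1 - C.b1 x) = C.co i 2 x
    rw [h1 i 5 x (by simp), C.rH_apply]
    simp [Ctx.co, prin]

theorem cpt_T1 (i : Fin C.Z.𝒞.N) : IsCompactOperator ((T1L _).comp (C.UJ i)) := by
  have e : (T1L _).comp (C.UJ i) =
      ContinuousLinearMap.pi ![Uj _ i 0, Uj _ i 1, Uj _ i 2, 0, 0, 0] := by
    ext1 v
    funext k
    fin_cases k <;> rfl
  rw [e]
  refine Tr.cpt_pi _ fun k => ?_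
  fin_cases k
  · exact C.hf.cpt1 i 0 (by simp)
  · exact C.hf.cpt1 i 1 (by simp)
  · exact C.hf.cpt1 i 2 (by simp)
  all_goals exact isCompactOperator_zero

theorem cpt_YX : IsCompactOperator C.YX :=
  (compactOperator (RingHom.id ℂ) (JJ D zm) (J2 C.H)).sum_mem fun e _ =>
    (compactOperator (RingHom.id ℂ) (JJ D zm) (J2 C.H)).smul_mem _
      ((C.TX_cpt e).comp_clm (ContinuousLinearMap.proj (R := ℂ)
        (φ := fun e : En D => JS (ctr (gam zm 3 6) e)) e))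

theorem cpt_DX (i : Fin C.Z.𝒞.N) : IsCompactOperator (C.DX i) :=
  ((cpt_T1 C i).comp_clm (ContinuousLinearMap.fst ℂ C.U (JJ D zm))).sub
    ((cpt_YX C).comp_clm (ContinuousLinearMap.snd ℂ C.U (JJ D zm)))

theorem cpt_uX : IsCompactOperator C.uX := by
  have h0 := C.hf.cpt0.comp_clm (ContinuousLinearMap.fst ℂ C.U (JJ D zm))
  have h1 : IsCompactOperator C.D0 :=
    h0.sub (((cpt_YX C).comp_clm (ContinuousLinearMap.snd ℂ C.U (JJ D zm))).clm_comp
      (ContinuousLinearMap.proj (R := ℂ) (φ := fun _ : Fin 6 => C.H) 0))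
  exact h0.sub (h1.clm_comp (mulA (C.jX 0)))

theorem ell : ∃ (𝓛 : C.U ≃L[ℂ] C.H) (K : C.U × JJ D zm →L[ℂ] C.H), IsCompactOperator K ∧
    ∀ z, C.L0 z = 𝓛 z.1 + K z := by
  obtain ⟨a, ha⟩ := exists_co C
  choose N hN using exists_N C
  have hb := C.hf.ell a (by
    rw [show (fun i k => (a i k : X → ℂ)) = C.co from
      funext fun i => funext fun k => funext (ha i k)]
    exact C.coef)
  let L : C.U →L[ℂ] C.H := ∑ i, ((mulA (a i 0)).comp (Uj _ i 3) +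
    (mulA (2 * a i 1)).comp (Uj _ i 4) + (mulA (a i 2)).comp (Uj _ i 5)) - Uv _
  have hL : ∀ v, L v = ∑ i, (a i 0 * Uj _ i 3 v + 2 * (a i 1 * Uj _ i 4 v) + a i 2 * Uj _ i 5 v) -
      Uv _ v := fun v => by
    simp only [L, sub_apply, sum_apply, add_apply, ContinuousLinearMap.comp_apply, mulA_apply,
      mul_assoc]
  have hb' : Function.Bijective L := by
    rw [show (L : C.U → C.H) = _ from funext hL]
    exact hb
  have := C.hf.complete
  refine ⟨ContinuousLinearEquiv.ofBijective L (LinearMap.ker_eq_bot.2 hb'.1)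
    (LinearMap.range_eq_top.2 hb'.2), ∑ i, ((N i).comp (((T1L _).comp (C.UJ i)).comp
      (ContinuousLinearMap.fst ℂ _ _)) - ((N i).comp (jmulL C.jX)).comp (C.DX i)) +
      (mulA C.b1).comp C.uX, ?_, fun z => Hol.ext fun x => ?_⟩
  · refine IsCompactOperator.add ((compactOperator (RingHom.id ℂ) (C.U × JJ D zm) C.H).sum_mem
      fun i _ => ?_) ((cpt_uX C).clm_comp (mulA C.b1))
    exact (((cpt_T1 C i).comp_clm (ContinuousLinearMap.fst ℂ C.U (JJ D zm))).clm_comp (N i)).sub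
      ((cpt_DX C i).clm_comp ((N i).comp (jmulL C.jX)))
  have h1 : ∀ i, C.Z.pou.ρ i x * C.b1 x * Lh (G.bJ zm (C.Z.P i).φ (C.Z.𝒞.e i x))
      (fun k => C.mI i z k x) + C.rH i x * (1 - C.b1 x) * (Uj _ i 3 z.1 x + Uj _ i 5 z.1 x) =
      (a i 0 x * Uj _ i 3 z.1 x + 2 * (a i 1 x * Uj _ i 4 z.1 x) + a i 2 x * Uj _ i 5 z.1 x) +
      (N i (T1 (C.UJ i z.1)) x - N i (jmul C.jX (C.DX i z)) x) := fun i => by
    have e1 : C.mI i z = C.UJ i z.1 - jmul C.jX (C.DX i z) := by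
      rw [← jmulL_apply]; rfl
    have e2 := C.co_eq i x fun k => C.UJ i z.1 k x
    rw [← hN, e1, map_sub, Hol.sub_apply, hN i (C.UJ i z.1), Lh_prin, hN i (T1 _),
      map_T1 (fun f : C.H => f x) rfl, ha, ha, ha, C.rH_apply]
    change _ = (C.co i 0 x * C.UJ i z.1 3 x + 2 * (C.co i 1 x * C.UJ i z.1 4 x) +
      C.co i 2 x * C.UJ i z.1 5 x) + _
    rw [e2]
    change _ + _ * (C.UJ i z.1 3 x + C.UJ i z.1 5 x) = _
    ring
  rw [L0_eq, sum_A, Hol.add_apply, ContinuousLinearEquiv.coeFn_ofBijective, hL]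
  simp only [Ctx.rest, Ctx.lapX, add_apply, sub_apply, sum_apply, ContinuousLinearMap.comp_apply,
    mulA_apply, Hol.add_apply, Hol.sub_apply, Hol.mul_apply, Hol.sum_apply, Hol.one_apply,
    ContinuousLinearMap.coe_fst', T1L_apply, jmulL_apply]
  have h2 := Finset.sum_congr (rfl : Finset.univ = Finset.univ) fun i _ => h1 i
  rw [Finset.sum_add_distrib, Finset.sum_add_distrib (g := fun i => _ - _)] at h2
  have h3 : (2 : C.H) x = 2 := map_ofNat (Hol.evalRingHom x : C.H →+* ℂ) 2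
  rw [h3]
  linear_combination h2

theorem T1_comb {m m' : J2 ℂ} (h : T1 m = T1 m') (t : ℂ) : T1 (t • m + (1 - t) • m') = T1 m := by
  have := (T1L ℂ).map_add (t • m) ((1 - t) • m')
  simp only [T1L_apply] at this
  rw [this, T1_smul, T1_smul, ← h, ← add_smul, add_sub_cancel, one_smul]

theorem opL (f : E3 → ℂ) : OpF w (C.ML f) fun u p => G.LG zm u p - f p := by
  refine ⟨fun P y _ m m' t _ => ?_, fun P y hy u hu => ?_⟩
  · simp only [Ctx.ML, map_add, map_smul, smul_eq_mul]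
    ring
  · rw [C.iv.LG_eq P y hy u hu, Ctx.ML]

theorem opN (c : Cc D) (f : E3 → ℂ) :
    OpF w (C.MN c f) fun u p => Mh (G.aG zm c u p) - kap (G.aG zm c u p) * f p := by
  refine ⟨fun P y _ m m' t h => ?_, fun P y hy u hu => ?_⟩
  · simp only [Ctx.MN]
    rw [C.jf.aff _ c m m' t h, (C.jf.low _ c _ _ (T1_comb h t)).1, ← (C.jf.low _ c _ _ h).1]
    ring
  · obtain ⟨-, h1, h2, -⟩ := C.iv.inv P y hy c u hu _ rfl
    rw [h1, h2, Ctx.MN]

theorem sum_b1 (x : X) : ∑ i ∈ C.Z.A, C.Z.pou.ρ i x * C.b1 x = C.b1 x := by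
  by_cases hb : C.b1 x = 0
  · simp [hb]
  rw [← Finset.sum_mul, C.sum_act (C.b1_ne hb).1 (by linarith [(C.b1_ne hb).2]), one_mul]

theorem T1_jmul (a b : J2 ℂ) : T1 (jmul a (T1 b)) = T1 (jmul a b) := by
  ext k; fin_cases k <;> simp [jmul, T1]

theorem T1_mI (j : JJ D zm) (Yf : En D → R2 → ℂ) (T : ℝ) (v : C.U) (hY : YF zm j Yf T)
    {i : Fin C.Z.𝒞.N} (hi : i ∈ C.Z.A) {x : X} (hρ : C.Z.pou.ρ i x ≠ 0)
    (h6 : G.σ (C.Z.pr x) < zm + 6) : T1 (fun k => C.mI i (v, j) k x) =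
      T1 (jet2 (fun z => C.tot v Yf ((C.Z.P i).φ z)) (C.Z.𝒞.e i x)) := by
  have hs := (C.Z.pou.spt i x hρ).1
  have hx : 0 < C.Z.τ x := by
    have := hs
    rw [C.Z.src i hi] at this
    exact this.1
  obtain ⟨a1, a2, -⟩ := C.tf.chart i hi x hs
  by_cases h3 : G.σ (C.Z.pr x) < zm + 3 + 1 / 3
  · rw [C.mI_apply hρ, C.jX_eq hx h6.le, jz_cut_zero (by push_cast; exact h3), jmul_zero_left,
      sub_zero, C.jc_eq hi hs, jet2_congr (C.tot_lo v Yf _ a1 (by rwa [a2]))]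
    rfl
  · obtain ⟨e, b1, b2, b3, b4⟩ := C.act_end hi hρ (by linarith)
    have hq : (C.Z.𝒞.e i x).1 ∈ Ioo (zm + 3) (zm + 6) := ⟨by linarith, by linarith⟩
    rw [C.mI_end hY v hi hρ hx b1 b3 hq, b1, (C.tot_jet hY v e ⟨hq.1, by linarith [hq.2]⟩).2,
      T1_sub (jet2 _ _) (jmul _ _), T1_sub (jet2 _ _) (jmul _ _), T1_jmul]

theorem star_jc {v v' : C.U} (h : ∀ x, Uv _ v' x = star (Uv _ v x)) {i : Fin C.Z.𝒞.N} {x : X}
    (hx : x ∈ (C.Z.𝒞.e i).source) : jc C.Z.𝒞 i (Uv _ v') x = star (jc C.Z.𝒞 i (Uv _ v) x) := by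
  have := jet2_clm (Complex.conjCLE : ℂ →L[ℝ] ℂ) (Uv_ck _ v _ (C.Z.𝒞.mem i) x hx)
  unfold jc
  simp only [h]
  exact this

theorem star_Uj {v v' : C.U} (h : ∀ x, Uv _ v' x = star (Uv _ v x)) (i : Fin C.Z.𝒞.N) (k : Fin 6)
    (x : X) : Uj _ i k v' x = star (Uj _ i k v x) := by
  rw [Uj_apply, Uj_apply]
  by_cases h0 : C.Z.𝒞.η i x = 0
  · simp [h0]
  · rw [star_jc C h (C.Z.𝒞.η_ne_zero h0).1]
    simp

theorem star_jX (k : Fin 6) (x : X) : star (C.jX k x) = C.jX k x := by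
  rw [C.jX_apply]
  split_ifs
  · rw [star_mul', ← Pi.star_apply (jz _ _), star_jz]
    simp
  · exact star_zero _

theorem star_YX {j j' : JJ D zm} (h : ∀ e, (j' e).1 = (j e).1.cj) (k : Fin 6) (x : X) :
    C.YX j' k x = star (C.YX j k x) := by
  have h1 : ∀ e q, jev zm (ctr (gam zm 3 6) e) (j' e).1 q =
      star (jev zm (ctr (gam zm 3 6) e) (j e).1 q) := fun e q => funext fun l => by
    rw [jev, h, C.pf.jw_cj, ev_cj]
    rfl
  have h2 : ∀ e, C.TX e (j' e) k x = star (C.TX e (j e) k x) := fun e => by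
    rw [C.TX_apply, C.TX_apply, Dbl.upF, Dbl.upF]
    split_ifs
    · rw [Geo.lift, Geo.lift]
      split_ifs
      · rw [h1, ← star_T1]
        simp
      · exact (star_zero _).symm
    · exact (star_zero _).symm
  simp only [Ctx.YX, sum_apply, Finset.sum_apply, Hol.sum_apply, smul_apply,
    ContinuousLinearMap.comp_apply, Pi.smul_apply, Hol.smul_apply, ContinuousLinearMap.proj_apply,
    h2, star_sum, smul_eq_mul, star_mul', Complex.star_def, Complex.conj_ofReal]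

theorem mI_eq (i : Fin C.Z.𝒞.N) (z : C.U × JJ D zm) (x : X) : (fun k => C.mI i z k x) =
    (fun k => Uj _ i k z.1 x) - jmul (fun k => C.jX k x)
      (T1 (fun k => Uj _ i k z.1 x) - fun k => C.YX z.2 k x) := by
  have e1 := map_jmul (Hol.evalRingHom x) C.jX (C.DX i z)
  have e2 := map_T1 (fun f : C.H => f x) rfl (C.UJ i z.1)
  have e3 : (fun k => C.DX i z k x) = T1 (fun k => Uj _ i k z.1 x) - fun k => C.YX z.2 k x := by
    rw [← show (fun k => T1 (C.UJ i z.1) k x) = T1 fun k => Uj _ i k z.1 x from e2, ← T1L_apply]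
    rfl
  rw [← e3]
  refine Eq.trans ?_ (congrArg (fun a => (fun k => Uj _ i k z.1 x) - a) e1)
  rw [← jmulL_apply]
  rfl

theorem cj_mI {z z' : C.U × JJ D zm} (h : C.Cj z z') (i : Fin C.Z.𝒞.N) (x : X) :
    (fun k => C.mI i z' k x) = star fun k => C.mI i z k x := by
  have h1 : (fun k => Uj _ i k z'.1 x) = star fun k => Uj _ i k z.1 x :=
    funext fun k => star_Uj C h.1 i k x
  have h2 : (fun k => C.YX z'.2 k x) = star fun k => C.YX z.2 k x :=
    funext fun k => star_YX C h.2 k x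
  have h3 : star (fun k => C.jX k x) = fun k => C.jX k x := funext fun k => star_jX C k x
  rw [mI_eq, mI_eq, star_sub, star_jmul, star_sub, star_T1, h1, h2, h3]

theorem cj_rest {z z' : C.U × JJ D zm} (h : C.Cj z z') (x : X) :
    C.rest z' x = star (C.rest z x) := by
  obtain ⟨t, -, -, ht⟩ := C.b1_real x
  rw [C.rest_apply, C.rest_apply, h.1, star_YX C h.2, ht]
  simp only [star_add, star_sub, star_mul', star_sum, star_jX, star_one, Complex.star_def,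
    Complex.conj_ofReal]
  congr 2
  refine Finset.sum_congr rfl fun i _ => ?_
  by_cases hρ : C.Z.pou.ρ i x = 0
  · simp [hρ]
  · rw [star_jc C h.1 (C.Z.pou.spt i x hρ).1]
    rfl

end OpP

open OpP in
/-- the facts about the operators on the double -/
theorem Ctx.opS (C : Ctx G zm X) : C.OpS :=
  ⟨fun _ hF => OpP.sm C hF, L0_eq C, ell C, opL C, opN C, sum_b1 C,
    fun i hi x hρ => ⟨C.mem_O hi hρ, (C.tf.chart i hi x (C.Z.pou.spt i x hρ).1).2.1⟩,
    fun j Yf T v hY _ hi _ hρ h6 => T1_mI C j Yf T v hY hi hρ h6,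
    fun _ _ h => cj_mI C h, fun _ _ h => cj_rest C h⟩

end Vale.Agent.P218N.Core
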