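import Vale.Agent.P218N.Core.Sys

/-! The cut off slow solutions on the cylindrical ends. -/

open Set Filter Topology Metric MeasureTheory
open scoped RealInnerProductSpace ContDiff Matrix NNReal

noncomputable section

namespace Vale.Agent.P218N.Core

open Vale.Agent.P218.H313 Vale.Agent.P218N.H Vale.Agent.P218N.End Vale.Agent.P272.K.LIN

set_option linter.unusedSectionVars false

variable {w : E3 → ℝ} {D : EndData w} {G : Geo D} {zm : ℝ}

namespace PhiA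

/-! ### Jets -/

theorem norm_jmul_le (a b : J2 ℂ) : ‖jmul a b‖ ≤ 4 * (‖a‖ * ‖b‖) := by
  have h : ∀ k l, ‖a k * b l‖ ≤ ‖a‖ * ‖b‖ := fun k l => (norm_mul_le _ _).trans
    (mul_le_mul (norm_le_pi_norm a k) (norm_le_pi_norm b l) (norm_nonneg _) (norm_nonneg _))
  have h0 : 0 ≤ ‖a‖ * ‖b‖ := by positivity
  have h2 : ∀ k l, ‖2 * (a k * b l)‖ ≤ 2 * (‖a‖ * ‖b‖) := fun k l => by
    rw [norm_mul, Complex.norm_two]; linarith [h k l]
  refine (pi_norm_le_iff_of_nonneg (by positivity)).2 fun k => ?_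
  fin_cases k
  · exact (h 0 0).trans (by linarith)
  · exact (norm_add_le_of_le (h 1 0) (h 0 1)).trans (by linarith)
  · exact (norm_add_le_of_le (h 2 0) (h 0 2)).trans (by linarith)
  · exact (norm_add_le_of_le (norm_add_le_of_le (h 3 0) (h2 1 1)) (h 0 3)).trans (by linarith)
  · exact (norm_add_le_of_le (norm_add_le_of_le (norm_add_le_of_le (h 4 0) (h 1 2)) (h 2 1))
      (h 0 4)).trans (by linarith)
  · exact (norm_add_le_of_le (norm_add_le_of_le (h 5 0) (h2 2 2)) (h 0 5)).trans (by linarith)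

theorem norm_T1_le (a : J2 ℂ) : ‖T1 a‖ ≤ ‖a‖ := by
  refine (pi_norm_le_iff_of_nonneg (norm_nonneg _)).2 fun k => ?_
  fin_cases k
  · exact norm_le_pi_norm a 0
  · exact norm_le_pi_norm a 1
  · exact norm_le_pi_norm a 2
  all_goals simp [T1]

theorem jz_bdd (zm : ℝ) : ∃ K, 0 ≤ K ∧ ∀ ζ, zm ≤ ζ → ‖jz (cut zm 0) ζ‖ ≤ K := by
  have hc : Continuous (jz (cut zm 0)) :=
    continuous_pi fun k => (contDiff_jz (contDiff_cut zm 0) k).continuous
  obtain ⟨K, hK⟩ := (isCompact_Icc (a := zm) (b := zm + 1)).exists_bound_of_continuousOn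
    hc.continuousOn
  refine ⟨K, (norm_nonneg _).trans (hK zm ⟨le_rfl, by linarith⟩), fun ζ h => ?_⟩
  by_cases h1 : ζ ≤ zm + 1
  · exact hK ζ ⟨h, h1⟩
  · have := hK (zm + 1) ⟨by linarith, le_rfl⟩
    rw [jz_cut_one (by push_cast; linarith)] at this ⊢
    exact this

theorem exists_deriv_cut (zm : ℝ) : ∃ ζ, zm + 1 < ζ ∧ deriv (cut zm 1) ζ ≠ 0 := by
  obtain ⟨ζ, h1, h2⟩ := exists_deriv_eq_slope (cut zm 1) (a := zm + 1) (b := zm + 2) (by linarith)
    (contDiff_cut zm 1).continuous.continuousOn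
    ((contDiff_cut zm 1).differentiable (by simp)).differentiableOn
  refine ⟨ζ, h1.1, ?_⟩
  rw [h2, cut_one (by push_cast; linarith), cut_zero (by push_cast; linarith)]
  have : zm + 2 - (zm + 1) = 1 := by ring
  rw [this]; norm_num

theorem jet2_const (c : ℂ) (y : R2) : jet2 (fun _ : R2 => c) y = c • j1 := by
  ext k; fin_cases k <;> simp [jet2, j1]

theorem star_jet2 {f : R2 → ℂ} {y : R2} (hf : ContDiffAt ℝ 2 f y)
    (h : ∀ᶠ z in 𝓝 y, star (f z) = f z) : star (jet2 f y) = jet2 f y :=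
  (jet2_clm (Complex.conjCLE : ℂ →L[ℝ] ℂ) hf).symm.trans (jet2_congr h)

theorem cd_jet2 {f : R2 → ℂ} {y : R2} (hf : ContDiffAt ℝ 2 f y) :
    ContDiffAt ℝ 1 (fun z => jet2 f z 1) y ∧ ContDiffAt ℝ 1 (fun z => jet2 f z 2) y := by
  have h1 : ContDiffAt ℝ 1 (fderiv ℝ f) y := hf.fderiv_right (by norm_num)
  exact ⟨h1.clm_apply contDiffAt_const, h1.clm_apply contDiffAt_const⟩

theorem ginv_real {j : J2 C3} {a b c : ℝ} (h1 : g11 j = a) (h2 : g12 j = b) (h3 : g22 j = c)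
    (ha : 0 < a) (hb : b ^ 2 < a * c) {m : J2 ℂ} (hm : star m = m) :
    ∃ x : ℝ, ginv j m m = x ∧ 0 ≤ x ∧ (x = 0 → m 1 = 0) := by
  obtain ⟨r, hr⟩ := Complex.conj_eq_iff_real.1 (congrFun hm 1)
  obtain ⟨s, hs⟩ := Complex.conj_eq_iff_real.1 (congrFun hm 2)
  have hd : 0 < a * c - b ^ 2 := by linarith
  have e : a * (c * (r * r) - b * (r * s + s * r) + a * (s * s)) =
      (a * s - b * r) ^ 2 + (a * c - b ^ 2) * r ^ 2 := by ring
  have hn : 0 ≤ c * (r * r) - b * (r * s + s * r) + a * (s * s) :=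
    nonneg_of_mul_nonneg_right (a := a) (by rw [e]; positivity) ha
  refine ⟨(c * (r * r) - b * (r * s + s * r) + a * (s * s)) / (a * c - b ^ 2), ?_,
    div_nonneg hn hd.le, fun h => ?_⟩
  · rw [ginv, dg, h1, h2, h3, hr, hs]; push_cast; rfl
  · rw [div_eq_zero_iff, or_iff_left hd.ne'] at h
    rw [h, mul_zero] at e
    have : (a * c - b ^ 2) * r ^ 2 = 0 := by
      have := mul_nonneg hd.le (sq_nonneg r)
      nlinarith [sq_nonneg (a * s - b * r)]
    rw [hr, pow_eq_zero_iff two_ne_zero |>.1 ((mul_eq_zero.1 this).resolve_left hd.ne')]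
    rfl

theorem cd_dot {f g : R2 → C3} {y : R2} (hf : ContDiffAt ℝ 1 f y) (hg : ContDiffAt ℝ 1 g y) :
    ContDiffAt ℝ 1 (fun z => f z ⬝ᵥ g z) y := by
  unfold dotProduct
  exact ContDiffAt.sum fun i _ => (contDiffAt_pi.1 hf i).mul (contDiffAt_pi.1 hg i)

theorem cd_ginv {j : R2 → J2 C3} {m m' : R2 → J2 ℂ} {y : R2} (hj : ContDiffAt ℝ 1 j y)
    (hd : dg (j y) ≠ 0) (h1 : ContDiffAt ℝ 1 (fun z => m z 1) y)
    (h2 : ContDiffAt ℝ 1 (fun z => m z 2) y) (h1' : ContDiffAt ℝ 1 (fun z => m' z 1) y)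
    (h2' : ContDiffAt ℝ 1 (fun z => m' z 2) y) :
    ContDiffAt ℝ 1 (fun z => ginv (j z) (m z) (m' z)) y := by
  have a1 := contDiffAt_pi.1 hj 1
  have a2 := contDiffAt_pi.1 hj 2
  have b11 : ContDiffAt ℝ 1 (fun z => g11 (j z)) y := cd_dot a1 a1
  have b12 : ContDiffAt ℝ 1 (fun z => g12 (j z)) y := cd_dot a1 a2
  have b22 : ContDiffAt ℝ 1 (fun z => g22 (j z)) y := cd_dot a2 a2
  have bd : ContDiffAt ℝ 1 (fun z => dg (j z)) y := (b11.mul b22).sub (b12.pow 2)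
  have bi : ContDiffAt ℝ 1 (fun z => (dg (j z))⁻¹) y :=
    ((contDiffAt_inv ℂ hd).restrict_scalars ℝ).comp y bd
  simp only [ginv, div_eq_mul_inv]
  exact (((b22.mul (h1.mul h1')).sub (b12.mul ((h1.mul h2').add (h2.mul h1')))).add
    (b11.mul (h2.mul h2'))).mul bi

/-! ### Functions on the surface -/

theorem LG_congr {u v : E3 → ℂ} {p : E3} (hp : w p = 0) {A : Set ℝ} (hA : IsOpen A)
    (h : G.σ p ∈ A) (e : ∀ x, w x = 0 → G.σ x ∈ A → u x = v x) : G.jG u p = G.jG v p := by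
  obtain ⟨h1, h2⟩ := G.pa_O hp
  refine jet2_congr ?_
  filter_upwards [(G.σ_cont _ h1).eventually (hA.mem_nhds (by simpa only [h2] using h)),
    (G.pa p).isOpen_O.mem_nhds h1] with z hz hz'
  exact e _ ((G.pa p).maps z hz').1 hz

theorem bdd_of {V : Type} [Zero V] {u : E3 → V} (R : ℝ) (h : ∀ p, w p = 0 → R < G.σ p → u p = 0) :
    Bdd w u := by
  obtain ⟨r, hr⟩ := (G.cpt R).isBounded.exists_norm_le
  refine ⟨r + 1, fun p hp h1 => h p hp (not_le.1 fun h2 => ?_)⟩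
  linarith [hr p ⟨hp, h2⟩]

theorem c2s_cut (G : Geo D) (zm : ℝ) (k : ℕ) :
    C2S w fun p => ((cut zm k (G.σ p) : ℝ) : ℂ) := fun P _ hy =>
  ((((Ctx.contDiff_cutC k).comp G.σ_sm).contDiffAt.comp _ (P.contDiffAt hy)).of_le two_le :)

variable {X : Type} [TopologicalSpace X] [ChartedSpace R2 X] [T2Space X] [CompactSpace X]
  [RSm R2 X] (C : Ctx2 G zm X) (b : Fin D.b)

/-- the slow solution -/
def Y (q : R2) : ℂ := Yj zm ((C.cy b).ph ⌈q.1⌉₊) q

theorem Yj_res {m n : ℕ} (h : m ≤ n) {q : R2} (hq : q.1 ∈ Icc zm (TT zm m)) :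
    Yj zm ((C.cy b).ph m) q = Yj zm ((C.cy b).ph n) q := by
  have e : (Res 0 m ((C.cy b).ph n)).y = resW 0 m ((C.cy b).ph n).y :=
    C.pf.jw_res 0 0 m n (.inr b) ((C.cy b).ph n) 0 le_rfl (Nat.zero_le _) h
  rw [← (C.cy b).res m n h, Yj, Yj, e, C.pf.ev_res,
    C.yf.clp_tt 0 m _ (Nat.zero_le _) (by simpa using hq)]

include C in
theorem lt_TT (ζ : ℝ) : ζ < TT zm ⌈ζ⌉₊ := by
  have := Nat.le_ceil ζ
  have := C.big
  unfold TT; linarith

theorem Y_eq {n : ℕ} {q : R2} (hq : q.1 ∈ Icc zm (TT zm n)) :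
    Y C b q = Yj zm ((C.cy b).ph n) q :=
  (Yj_res C b (le_max_left _ n) ⟨hq.1, (lt_TT C _).le⟩).trans
    (Yj_res C b (le_max_right _ n) hq).symm

theorem Y_per (ζ θ : ℝ) : Y C b (ζ, θ + 2 * Real.pi) = Y C b (ζ, θ) := ev_add_two_pi _ _ _

theorem Y_real (q : R2) : star (Y C b q) = Y C b q := by
  have e : ((C.cy b).ph ⌈q.1⌉₊).cj.y = W.cj ((C.cy b).ph ⌈q.1⌉₊).y :=
    C.pf.jw_cj 0 0 (.inr b) _ 0
  rw [(C.cy b).real] at e
  have := ev_cj ((C.cy b).ph ⌈q.1⌉₊).y (tt zm q.1) q.2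
  rw [← e] at this
  exact this.symm

theorem Y_ne (q : R2) : Y C b q ≠ 0 := (C.cy b).ne _ _ _

theorem Y_c2 {q : R2} (hq : zm < q.1) : ContDiffAt ℝ 2 (Y C b) q ∧ jet2 (Y C b) q =
    jev zm (ctr (gam zm 0 ⌈q.1⌉₊) (.inr b : En D)) ((C.cy b).ph ⌈q.1⌉₊) q := by
  have h := C.pf.c2 0 ⌈q.1⌉₊ (.inr b) _ q ((C.cy b).jet _) ⟨by simpa using hq, lt_TT C _⟩
  have e : Y C b =ᶠ[𝓝 q] fun z : R2 => ev ((C.cy b).ph ⌈q.1⌉₊).y (tt zm z.1) z.2 := by
    filter_upwards [continuous_fst.continuousAt.eventually (Ioo_mem_nhds hq (lt_TT C q.1))]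
      with z hz using Y_eq C b (Ioo_subset_Icc_self hz)
  exact ⟨h.1.congr_of_eventuallyEq e, (jet2_congr e).trans h.2⟩

theorem Y_bd : ∃ K, 0 ≤ K ∧ ∀ q : R2, zm < q.1 → ‖jet2 (Y C b) q‖ ≤ K * q.1 ^ 2 := by
  refine ⟨9 * |(C.cy b).C|, by positivity, fun q hq => ?_⟩
  have h0 := C.big
  have h1 : TT zm ⌈q.1⌉₊ ≤ 3 * q.1 := by
    have := Nat.ceil_lt_add_one (a := q.1) (by linarith)
    unfold TT; linarith
  have h2 := lt_TT C q.1
  rw [(Y_c2 C b hq).2]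
  refine (pi_norm_le_iff_of_nonneg (by positivity)).2 fun k => ?_
  refine (norm_ev_le _ _ _).trans ((C.pf.jw_le _ _ _ _ _).trans (((C.cy b).bd _).trans ?_))
  calc (C.cy b).C * TT zm ⌈q.1⌉₊ ^ 2 ≤ |(C.cy b).C| * (3 * q.1) ^ 2 :=
        mul_le_mul (le_abs_self _) (pow_le_pow_left₀ (by linarith) h1 2) (by positivity)
          (abs_nonneg _)
    _ = _ := by ring

theorem Y_sol {q : R2} (hq : zm < q.1) :
    Lh (G.bJ zm (pt (.inr b : En D)) q) (jet2 (Y C b) q) = 0 := by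
  have h0 : G.z0 < q.1 := by linarith [C.hz]
  obtain ⟨r, hr, e⟩ := C.ef.pos (.inr b) q h0
  have h1 := C.ef.lin (.inr b) q (jet2 (Y C b) q) h0
  set n := ⌈q.1⌉₊ with hn
  set Γ := ctr (gam zm 0 n) (.inr b : En D) with hΓ
  have hz : zr zm 0 n (tt zm q.1) = q.1 :=
    C.pf.zr_tt 0 n _ (Nat.zero_le _) ⟨by simpa using hq.le, (lt_TT C _).le⟩
  have h2 := C.pf.ev_dEW 0 n (.inr b) (jw Γ ((C.B (.inr b)).jS n)) (jw Γ ((C.cy b).ph n))
    (tt zm q.1) q.2
  have h3 : EE (gam zm 0 n) (.inr b : En D) = EW (gam zm 0 n) (.inr b : En D) ∘ jwL Γ :=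
    funext fun j => by rw [Function.comp, jwL_apply]; exact C.pf.EE_eq 0 n _ j
  have h4 : fderiv ℂ (EE (gam zm 0 n) (.inr b : En D)) ((C.B (.inr b)).jS n) ((C.cy b).ph n) = 0 :=
    (C.cy b).eq n
  rw [h3, fderiv_comp _ (C.pf.dEW 0 n _ _) (jwL Γ).differentiableAt, ContinuousLinearMap.fderiv,
    ContinuousLinearMap.comp_apply, jwL_apply, jwL_apply] at h4
  have h5 : (fun i => ev (jw Γ ((C.B (.inr b)).jS n) i) (tt zm q.1) q.2) = jy (.inr b) q :=
    funext fun i => by rw [(C.B (.inr b)).val, hz]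
  rw [h4, ev_zero, h5, hz] at h2
  have h6 : fderiv ℂ (EP (.inr b : En D) q) (jy (.inr b) q) (jet2 (Y C b) q) = 0 := by
    rw [(Y_c2 C b hq).2]; exact h2.symm
  rw [h6, e] at h1
  exact (mul_eq_zero.1 h1).resolve_right (Complex.ofReal_ne_zero.2 hr.ne')

/-- the slow solution, cut off in the segment `0` -/
def F (q : R2) : ℂ := (cut zm 0 q.1 : ℝ) * Y C b q

theorem F_per (ζ θ : ℝ) : F C b (ζ, θ + 2 * Real.pi) = F C b (ζ, θ) := by
  simp only [F, Y_per]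

theorem F_lo {q : R2} (h : q.1 ≤ zm + 1 / 3) : F C b q = 0 := by
  rw [F, cut_zero (by simpa using h)]; simp

theorem F_hi {q : R2} (h : zm + 2 / 3 ≤ q.1) : F C b q = Y C b q := by
  rw [F, cut_one (by simpa using h)]; simp

theorem F_lo' {q : R2} (h : q.1 < zm + 1 / 3) : F C b =ᶠ[𝓝 q] fun _ => 0 := by
  filter_upwards [continuous_fst.continuousAt.eventually (Iio_mem_nhds h)] with z hz
    using F_lo C b (le_of_lt hz)

theorem F_c2 (q : R2) : ContDiffAt ℝ 2 (F C b) q := by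
  by_cases h : q.1 < zm + 1 / 3
  · exact contDiffAt_const.congr_of_eventuallyEq (F_lo' C b h)
  · exact (Ctx.cd_cut 0 q).mul (Y_c2 C b (by linarith)).1

theorem F_bd : ∃ K, 0 ≤ K ∧ ∀ q : R2, ‖jet2 (F C b) q‖ ≤ K * q.1 ^ 2 := by
  obtain ⟨K, hK, h1⟩ := jz_bdd zm
  obtain ⟨K', hK', h2⟩ := Y_bd C b
  refine ⟨4 * (K * K'), by positivity, fun q => ?_⟩
  by_cases h : q.1 < zm + 1 / 3
  · rw [jet2_congr (F_lo' C b h), jet2_zero, norm_zero]; positivity
  · have e := C.jf.leib _ _ q (Ctx.cd_cut (zm := zm) 0 q) (Y_c2 C b (q := q) (by linarith)).1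
    rw [C.jf.jz_eq _ _ ((contDiff_cut zm 0).of_le two_le).contDiffAt] at e
    refine (congrArg norm e).trans_le ((norm_jmul_le _ _).trans ?_)
    have := mul_le_mul (h1 q.1 (by linarith)) (h2 q (by linarith)) (norm_nonneg _) hK
    linarith

/-- the slow solution on the surface -/
def u (p : E3) : ℂ := G.s (.inr b) * G.lift (.inr b) (F C b) p

theorem u_pt (e : En D) {q : R2} (hq : G.z0 < q.1) :
    u C b (pt e q) = if e = .inr b then G.s e * F C b q else 0 := by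
  rw [u, C.iv.lift_pt ℂ _ e _ q hq (F_per C b _)]
  by_cases h : e = .inr b
  · subst h; simp
  · rw [if_neg h, if_neg (Ne.symm h), mul_zero]

theorem u_ev (e : En D) {q : R2} (hq : G.z0 < q.1) : (fun z => u C b (pt e z)) =ᶠ[𝓝 q]
    fun z => (if e = .inr b then (G.s e : ℂ) else 0) * F C b z := by
  filter_upwards [continuous_fst.continuousAt.eventually (Ioi_mem_nhds hq)] with z hz
  rw [u_pt C b e hz]; split_ifs <;> simp

theorem u_jet (e : En D) {q : R2} (hq : G.z0 < q.1) : jet2 (fun z => u C b (pt e z)) q =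
    (if e = .inr b then (G.s e : ℂ) else 0) • jet2 (F C b) q :=
  (jet2_congr (u_ev C b e hq)).trans (jet2_smul _ (F_c2 C b q))

theorem u_c2 : C2S w (u C b) := fun P y hy => contDiffAt_const.mul
  (C.iv.lift_ck 2 _ _ (G.σ (P.φ y) + 1) two_le (F_per C b)
    (fun _ h => F_lo C b (by linarith [C.hz])) (fun q _ _ => F_c2 C b q) P y hy (by linarith))

theorem u_real (p : E3) : star (u C b p) = u C b p := by
  have e : ∀ q, star (F C b q) = F C b q := fun q => by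
    rw [F, star_mul', Y_real]; simp
  rw [u, star_mul', Geo.lift]
  split_ifs
  · rw [e]; simp
  · simp

theorem u_mod : G.Mod (u C b) := by
  obtain ⟨K, hK, h⟩ := F_bd C b
  refine ⟨K, fun e q hq => (norm_T1_le _).trans ?_⟩
  rw [u_jet C b e (by linarith), norm_smul]
  refine (mul_le_of_le_one_left (norm_nonneg _) ?_).trans (h q)
  split_ifs
  · rcases G.s_sq e with h | h <;> simp [h]
  · simp

include C in
theorem LG_pt {v : E3 → ℂ} (hv : C2S w v) (e : En D) {q : R2} (hq : G.z0 < q.1) :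
    G.LG zm v (pt e q) = Lh (G.bJ zm (pt e) q) (jet2 (fun z => v (pt e z)) q) := by
  have := C.iv.LG_eq (G.ep e q.2) q (G.mem_ep e hq) v (hv _ _ (G.mem_ep e hq))
  rwa [G.ep_φ] at this

theorem jet_F {q : R2} (hq : zm + 2 / 3 < q.1) : jet2 (F C b) q = jet2 (Y C b) q := by
  refine jet2_congr ?_
  filter_upwards [continuous_fst.continuousAt.eventually (Ioi_mem_nhds hq)] with z hz
    using F_hi C b (le_of_lt hz)

theorem u_sol {p : E3} (hp : w p = 0) (h : zm + 2 / 3 < G.σ p) : G.LG zm (u C b) p = 0 := by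
  obtain ⟨e, q, hq, rfl⟩ := G.cover p hp (by linarith [C.hz])
  rw [G.σ_pt e q hq] at h
  rw [LG_pt C (u_c2 C b) e hq, u_jet C b e hq, map_smul, jet_F C b h]
  split_ifs with he
  · rw [he, Y_sol C b (by linarith), smul_zero]
  · exact zero_smul _ _

variable (G zm) in
/-- the cutoff function -/
def f (p : E3) : ℂ := ((cut zm 1 (G.σ p) : ℝ) : ℂ)

/-- the cut off slow solution -/
def Φ : E3 → ℂ := f G zm * u C b

theorem Φ_neg : C2S w (Φ C b) ∧ G.Mod (Φ C b) ∧ Bdd w (G.LG zm (Φ C b)) ∧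
    G.ip (Φ C b) (G.LG zm (Φ C b)) = -G.ip (u C b * u C b) (G.gG (f G zm) (f G zm)) := by
  refine C.gf.neg (u C b) 1 (u_c2 C b) (u_mod C b)
    (bdd_of (G := G) (zm + 2 / 3) fun _ hp h => u_sol C b hp h) (fun p hp => ?_) _ rfl
  by_cases h : zm + 2 / 3 < G.σ p
  · rw [u_sol C b hp h, mul_zero]
  · rw [cut_zero (by push_cast; linarith)]; simp

theorem Φ_lo {p : E3} (h : G.σ p ≤ zm + 1 + 1 / 3) : Φ C b p = 0 := by
  rw [Φ, Pi.mul_apply, f, cut_zero (by push_cast; linarith)]; simp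

theorem Φ_hi {p : E3} (h : zm + 1 + 2 / 3 ≤ G.σ p) : Φ C b p = u C b p := by
  rw [Φ, Pi.mul_apply, f, cut_one (by push_cast; linarith)]; simp

theorem LΦ_lo {p : E3} (hp : w p = 0) (h : G.σ p < zm + 1 + 1 / 3) : G.LG zm (Φ C b) p = 0 := by
  rw [Geo.LG, LG_congr (v := fun _ => 0) hp isOpen_Iio h fun _ _ hx => Φ_lo C b (le_of_lt hx),
    Geo.jG, jet2_zero, map_zero]

theorem LΦ_hi {p : E3} (hp : w p = 0) (h : zm + 1 + 2 / 3 < G.σ p) : G.LG zm (Φ C b) p = 0 := by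
  rw [Geo.LG, LG_congr hp isOpen_Ioi h fun _ _ hx => Φ_hi C b (le_of_lt hx)]
  exact u_sol C b hp (by linarith)

theorem Φ_real (p : E3) : star (Φ C b p) = Φ C b p := by
  rw [Φ, Pi.mul_apply, star_mul', u_real]; simp [f]

theorem LΦ_real {p : E3} (hp : w p = 0) : (G.LG zm (Φ C b) p).im = 0 := by
  obtain ⟨h1, -⟩ := G.pa_O hp
  obtain ⟨-, h2, h3, -⟩ := C.iv.base _ _ h1
  have h4 := C.jf.Lh_cj _ h2 h3 (G.jG (Φ C b) p)
  rw [Geo.jG, star_jet2 ((Φ_neg C b).1 _ _ h1) (Eventually.of_forall fun _ => Φ_real C b _)] at h4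
  exact Complex.conj_eq_iff_im.1 h4.symm

include C in
theorem f_jet (e : En D) {q : R2} (hq : G.z0 < q.1) :
    jet2 (fun z => f G zm (pt e z)) q = jz (cut zm 1) q.1 := by
  rw [← C.jf.jz_eq _ _ ((contDiff_cut zm 1).of_le two_le).contDiffAt]
  refine jet2_congr ?_
  filter_upwards [continuous_fst.continuousAt.eventually (Ioi_mem_nhds hq)] with z hz
  rw [f, G.σ_pt e z hz]

theorem c2_pt {v : E3 → ℂ} (hv : C2S w v) (e : En D) {q : R2} (hq : G.z0 < q.1) :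
    ContDiffAt ℝ 2 (fun z => v (pt e z)) q := by
  have := hv (G.ep e q.2) q (G.mem_ep e hq)
  rwa [G.ep_φ] at this

theorem LΦ_pt (e : En D) {q : R2} (hq : zm + 2 / 3 < q.1) : G.LG zm (Φ C b) (pt e q) =
    (if e = .inr b then (G.s e : ℂ) else 0) *
      (2 * ginv (pJ (G.bJ zm (pt e) q)) (jz (cut zm 1) q.1) (jet2 (Y C b) q) + Y C b q *
        Lh (G.bJ zm (pt e) q) (jz (cut zm 1) q.1 - ((cut zm 1 q.1 : ℝ) : ℂ) • j1)) := by
  have h0 : G.z0 < q.1 := by linarith [C.hz]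
  have e1 := C.jf.leib _ _ q (c2_pt (c2s_cut G zm 1) e h0) (c2_pt (u_c2 C b) e h0)
  have e2 := f_jet C e h0
  obtain ⟨h1, h2, -⟩ := C.iv.base _ _ (G.mem_ep e h0)
  rw [G.ep_φ] at h1 h2
  have e3 : jet2 (fun z => Φ C b (pt e z)) q =
      jmul (jz (cut zm 1) q.1) (jet2 (fun z => u C b (pt e z)) q) := by rw [← e2]; exact e1
  rw [LG_pt C (Φ_neg C b).1 e h0, e3, u_jet C b e h0, jet_F C b hq, ← jmulL_apply, map_smul,
    map_smul, jmulL_apply, smul_eq_mul]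
  split_ifs with he
  · subst he
    rw [C.jf.Lh_mul _ h2 h1, Y_sol C b (by linarith), map_sub, map_smul]
    simp [jz, jet2]
  · simp

theorem LΦ_c1 (e : En D) {q : R2} (hq : zm + 2 / 3 < q.1) :
    ContDiffAt ℝ 1 (fun z => G.LG zm (Φ C b) (pt e z)) q := by
  have h0 : G.z0 < q.1 := by linarith [C.hz]
  obtain ⟨-, h2, -, -, -, -, -, h3⟩ := C.iv.base _ _ (G.mem_ep e h0)
  rw [G.ep_φ] at h2 h3
  have h4 : ContDiffAt ℝ 1 (G.bJ zm (pt e)) q := h3.of_le (by simp)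
  have hY := (Y_c2 C b (q := q) (by linarith)).1
  have hz : ∀ k, ContDiffAt ℝ 1 (fun z : R2 => jz (cut zm 1) z.1 k) q := fun k =>
    (((contDiff_jz (contDiff_cut zm 1) k).comp contDiff_fst).of_le (by simp)).contDiffAt
  have hp : ContDiffAt ℝ 1 (fun z => pJ (G.bJ zm (pt e) z)) q :=
    contDiffAt_pi.2 fun k => (contDiffAt_pi.1 h4 k).snd.snd.fst
  have a1 := cd_ginv hp h2.1 (hz 1) (hz 2) (cd_jet2 hY).1 (cd_jet2 hY).2
  have a2 : ContDiffAt ℝ 1
      (fun z : R2 => jz (cut zm 1) z.1 - ((cut zm 1 z.1 : ℝ) : ℂ) • j1) q :=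
    (contDiffAt_pi.2 hz).sub (contDiffAt_pi.2 fun k =>
      ((Ctx.cd_cut 1 q).of_le (by norm_num)).mul contDiffAt_const)
  have a3 : ContDiffAt ℂ 1 (fun x : J2 (WW D) × J2 ℂ => Lh x.1 x.2)
      (G.bJ zm (pt e) q, jz (cut zm 1) q.1 - ((cut zm 1 q.1 : ℝ) : ℂ) • j1) :=
    ContDiffAt.clm_apply (f := fun x : J2 (WW D) × J2 ℂ => Lh x.1) (ContDiffAt.comp (g := Lh) _
      ((C.jf.smL.contDiffAt (C.jf.opn.mem_nhds h2)).of_le (by simp)) contDiffAt_fst) contDiffAt_snd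
  have a4 := (a3.restrict_scalars ℝ).comp q (h4.prodMk a2)
  refine ((contDiffAt_const (c := if e = .inr b then (G.s e : ℂ) else 0)).mul
    (((contDiffAt_const (c := (2 : ℂ))).mul a1).add
      ((hY.of_le (by norm_num)).mul a4))).congr_of_eventuallyEq ?_
  filter_upwards [continuous_fst.continuousAt.eventually (Ioi_mem_nhds hq)] with z hz
    using LΦ_pt C b e hz

theorem c1 : CkFn R2 1 (C.Z.upF (G.LG zm (Φ C b))) := by
  refine C.tf.up_ck 1 _ (by simp) (fun P y hy _ => ?_) fun p hp h => LΦ_hi C b hp (by linarith)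
  by_cases h : G.σ (P.φ y) < zm + 1
  · refine (contDiffAt_const (c := (0 : ℂ))).congr_of_eventuallyEq ?_
    filter_upwards [(G.σ_cont P hy).eventually (Iio_mem_nhds h), P.isOpen_O.mem_nhds hy]
      with z hz hz'
    exact LΦ_lo C b (P.maps z hz').1 (by linarith)
  · obtain ⟨e, q, hq, e1⟩ := G.cover _ (P.maps y hy).1 (by linarith [C.hz])
    rw [e1, G.σ_pt e q hq] at h
    refine C.iv.ck (by simp) (G.mem_ep e hq) hy (by rw [G.ep_φ, e1]) ?_
    rw [G.ep_φ]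
    exact LΦ_c1 C b e (by linarith)

theorem ip_ne {b' : Fin D.b} (h : b' ≠ b) : G.ip (Φ C b') (G.LG zm (Φ C b)) = 0 := by
  refine setIntegral_eq_zero_of_forall_eq_zero fun p hp => ?_
  by_cases h1 : G.σ p ≤ zm + 1
  · rw [Φ_lo C b' (by linarith), zero_mul, zero_mul]
  obtain ⟨e, q, hq, rfl⟩ := G.cover p hp (by linarith [C.hz])
  rw [G.σ_pt e q hq] at h1
  by_cases he : e = .inr b
  · rw [Φ, Pi.mul_apply, u_pt C b' e hq, if_neg (fun h2 => h (Sum.inr.inj (h2.symm.trans he)))]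
    simp
  · rw [LΦ_pt C b e (by linarith), if_neg he]; simp

/-- the density of the energy -/
def h (p : E3) : ℝ := ((u C b * u C b) p * G.gG (f G zm) (f G zm) p * (G.om p : ℝ)).re

theorem f_real (P : Patch (SS w)) {y : R2} (hy : y ∈ P.O) :
    star (jet2 (fun z => f G zm (P.φ z)) y) = jet2 (fun z => f G zm (P.φ z)) y :=
  star_jet2 (c2s_cut G zm 1 P y hy) (Eventually.of_forall fun _ => by simp [f])

theorem h_eq (P : Patch (SS w)) {y : R2} (hy : y ∈ P.O) :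
    (u C b * u C b) (P.φ y) * G.gG (f G zm) (f G zm) (P.φ y) * (G.om (P.φ y) : ℝ) =
      h C b (P.φ y) ∧ 0 ≤ h C b (P.φ y) ∧
      (h C b (P.φ y) = 0 → u C b (P.φ y) = 0 ∨ jet2 (fun z => f G zm (P.φ z)) y 1 = 0) := by
  obtain ⟨a, b', c, h1, h2, h3, ha, -, hb⟩ := C.iv.pos P y hy
  obtain ⟨x, e1, hx, hx0⟩ := ginv_real h1 h2 h3 ha hb (f_real (G := G) (zm := zm) P hy)
  obtain ⟨r, hr⟩ := Complex.conj_eq_iff_real.1 (u_real C b (P.φ y))
  have e2 := C.iv.gG_eq P y hy (f G zm) (f G zm) (c2s_cut G zm 1 P y hy) (c2s_cut G zm 1 P y hy)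
  have ho := C.iv.om_pos _ (P.maps y hy).1
  have e3 : (u C b * u C b) (P.φ y) * G.gG (f G zm) (f G zm) (P.φ y) * (G.om (P.φ y) : ℝ) =
      (r * r * x * G.om (P.φ y) : ℝ) := by
    rw [e2, e1, Pi.mul_apply, hr]; push_cast; rfl
  have e4 : h C b (P.φ y) = r * r * x * G.om (P.φ y) := by rw [h, e3, Complex.ofReal_re]
  rw [e3, e4]
  refine ⟨rfl, mul_nonneg (mul_nonneg (mul_self_nonneg r) hx) ho.le, fun h0 => ?_⟩
  rcases mul_eq_zero.1 ((mul_eq_zero.1 h0).resolve_right ho.ne') with h4 | h4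
  · left; rw [hr, mul_self_eq_zero.1 h4]; rfl
  · exact Or.inr (hx0 h4)

theorem h_eq' {p : E3} (hp : w p = 0) :
    (u C b * u C b) p * G.gG (f G zm) (f G zm) p * (G.om p : ℝ) = h C b p ∧ 0 ≤ h C b p := by
  obtain ⟨h1, h2⟩ := G.pa_O hp
  have := h_eq C b _ h1
  rw [h2] at this
  exact ⟨this.1, this.2.1⟩

theorem ip_eq : G.ip (Φ C b) (G.LG zm (Φ C b)) = (-∫ p, h C b p ∂(muS w) : ℝ) := by
  rw [(Φ_neg C b).2.2.2, Complex.ofReal_neg, ← integral_complex_ofReal]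
  congr 1
  exact setIntegral_congr_fun (isClosed_eq G.shr.smooth.continuous continuous_const).measurableSet
    fun p hp => (h_eq' C b hp).1

theorem int_ne : ∫ p, h C b p ∂(muS w) ≠ 0 := fun h0 => by
  have c1 := (C.iv.cont _ _ (u_c2 C b) (u_c2 C b)).1
  have c2 := (C.iv.cont _ _ (c2s_cut G zm 1) (c2s_cut G zm 1)).2.2
  have c3 : ContinuousOn (h C b) (SS w) := Complex.continuous_re.comp_continuousOn
    (((c1.mul c1).mul c2).mul (Complex.continuous_ofReal.comp_continuousOn C.iv.om_cont))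
  have hb : Bdd w (h C b) := bdd_of (G := G) (zm + 1 + 2 / 3) fun p hp h1 => by
    have e : G.jG (f G zm) p = G.jG (fun _ => (1 : ℂ)) p :=
      LG_congr hp isOpen_Ioi h1 fun x _ hx => by
        rw [f, cut_one (by push_cast; exact le_of_lt hx)]; simp
    rw [h, Geo.gG, e, Geo.jG, Geo.jG, jet2_const]
    simp [ginv, j1]
  have hz := C.vf.pos _ c3 hb (fun p hp => (h_eq' C b hp).2) h0
  obtain ⟨ζ, h1, h2⟩ := exists_deriv_cut zm
  have hq : G.z0 < (ζ, (0 : ℝ)).1 := by linarith [C.hz]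
  have h3 := (h_eq C b _ (G.mem_ep (.inr b) hq)).2.2
  rw [G.ep_φ, f_jet C _ hq, u_pt C b _ hq, if_pos rfl, F_hi C b (by linarith)] at h3
  rcases h3 (hz _ (G.pt_mem _ hq)) with h4 | h4
  · rcases mul_eq_zero.1 h4 with h5 | h5
    · have := G.s_mul (.inr b)
      rw [h5, zero_mul] at this
      exact zero_ne_one this
    · exact Y_ne C b _ h5
  · exact h2 (Complex.ofReal_eq_zero.1 h4)

end PhiA

variable {X : Type} [TopologicalSpace X] [ChartedSpace R2 X] [T2Space X] [CompactSpace X]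
  [RSm R2 X] (C : Ctx2 G zm X)

open PhiA in
theorem Ctx2.phiS : C.PhiS := by
  refine ⟨Φ C, fun b => -∫ p, h C b p ∂(muS w), fun b => (Φ_neg C b).1, fun b => (Φ_neg C b).2.1,
    fun b p _ hp => Φ_lo C b (by linarith), fun b p hp h1 => ?_, fun b _ hp => LΦ_real C b hp,
    c1 C, fun b' b => ?_, fun b => neg_ne_zero.2 (int_ne C b), fun b e n q hq => ?_⟩
  · by_cases h2 : G.σ p ≤ zm + 1
    · exact LΦ_lo C b hp (by linarith)
    · exact LΦ_hi C b hp (by linarith [not_lt.1 fun h3 => h1 ⟨not_le.1 h2, h3⟩])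
  · split_ifs with hb
    · rw [hb]; exact ip_eq C b
    · exact ip_ne C b hb
  · have h0 : G.z0 < q.1 := by linarith [C.hz, hq.1]
    rw [Φ_hi C b (by rw [G.σ_pt e q h0]; linarith [hq.1]), u_pt C b e h0,
      F_hi C b (by linarith [hq.1]), Y_eq C b ⟨by linarith [hq.1], hq.2⟩]

end Vale.Agent.P218N.Core
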