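import Vale.Agent.P218N.Core.RotA

/-! The infinitesimal rotations. -/

open Filter Topology
open scoped Matrix RealInnerProductSpace ContDiff

noncomputable section

namespace Vale.Agent.P218N.Core.RotP

open Vale.Agent.P218.H313 Vale.Agent.P218N.H Vale.Agent.P218N.End EF

variable {w : E3 → ℝ} {D : EndData w}

/-- the normal part of the rotation -/
def ph : En D → (Fin D.b → ℂ × ℂ) → R2 → ℂ
  | .inl _, _, _ => 0
  | .inr b, c, q => phR b (c b) q

/-- the first tangential part of the rotation -/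
def ta : En D → (Fin D.b → ℂ × ℂ) → R2 → ℂ
  | .inl _, _, _ => 0
  | .inr b, c, q => -((-((c b).2 * Real.sin q.2) - (c b).1 * Real.cos q.2) *
      ((√2 : ℝ) * (1 + (yS (.inr b) q : ℝ))) * (2 * (√q.1 : ℝ)))

/-- the second tangential part of the rotation -/
def tb : En D → (Fin D.b → ℂ × ℂ) → R2 → ℂ
  | .inl _, _, _ => 0
  | .inr b, c, q => -(((c b).2 * Real.cos q.2 - (c b).1 * Real.sin q.2) * (√q.1 : ℝ) /
      ((√2 : ℝ) * (1 + (yS (.inr b) q : ℝ))))

variable (G : Geo D) (zm : ℝ)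

theorem half_le (e : En D) {q : R2} (hq : G.z0 < q.1) : 1 / 2 ≤ ‖1 + ((yS e q : ℝ) : ℂ)‖ := by
  have := abs_le.1 (G.y_le e q hq)
  rw [← Complex.ofReal_one, ← Complex.ofReal_add, Complex.norm_real]
  exact le_trans (by linarith [this.1]) (le_abs_self _)

theorem one_add_ne (e : En D) {q : R2} (hq : G.z0 < q.1) : 1 + ((yS e q : ℝ) : ℂ) ≠ 0 :=
  norm_pos_iff.1 (by linarith [half_le G e hq])

/-- the decomposition of the rotation field -/
theorem decomp (e : En D) {q : R2} (hq : G.z0 < q.1) (c : Fin D.b → ℂ × ℂ) (t : ℂ) :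
    -(t * ph e c q) • nc e q + tv e q (fun b => al ((0 : Fin D.b → ℂ × ℂ) b) ((t • c) b)) ⨯₃
      cJ e q (jy e q) 0 = (t * ta e c q) • cJ e q (jy e q) 1 + (t * tb e c q) • cJ e q (jy e q) 2 := by
  rcases e with i | b
  · simp [ph, ta, tb, tv]
  have h1 := one_add_ne G (.inr b) hq
  have h2 : ((√q.1 : ℝ) : ℂ) ≠ 0 := Complex.ofReal_ne_zero.2 (Real.sqrt_pos.2 (pos_of G hq)).ne'
  have h3 : ((√2 : ℝ) : ℂ) ≠ 0 := Complex.ofReal_ne_zero.2 (by positivity)
  have h4 : ((√2 : ℝ) : ℂ) ^ 2 = 2 := by exact_mod_cast Real.sq_sqrt zero_le_two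
  have h5 : ((yS (.inr b) q : ℝ) : ℂ) = jy (.inr b) q 0 := rfl
  simp only [ph, ta, tb, tv, nc, cJ, phR, h5] at h1 ⊢
  generalize jy (.inr b) q = M at *
  generalize ((√q.1 : ℝ) : ℂ) = z at *
  generalize ((√2 : ℝ) : ℂ) = σ at *
  ext r
  fin_cases r <;> simp [al, cylJ, cross_apply] <;> field_simp
  · linear_combination (-2 * t * (1 + M 0) ^ 2 * M 1 *
      ((c b).2 * Complex.sin q.2 + (c b).1 * Complex.cos q.2)) * h4
  · ring
  · ring

theorem Gm_eq' (e : En D) {z : R2} (hz : G.z0 < z.1) (c : Fin D.b → ℂ × ℂ) (u : ℂ) :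
    Gm (G.bW zm (pt e z) + (c, 0, 0, 0, G.s e * u)) =
      Rm e (((cut zm 2 z.1 : ℝ) : ℂ) • c) *ᵥ (cx (pt e z) + u • cx (dir e z)) := by
  have h1 : (G.s e * u) • cx (G.nn (pt e z)) = u • cx (dir e z) := by
    rw [G.nn_pt e z hz, cx_smul, smul_smul, mul_right_comm, s_mul, one_mul]
  simp only [Gm, Geo.bW, Prod.mk_add_mk, add_zero, zero_add, h1]
  generalize cx (pt e z) + u • cx (dir e z) = v
  have h2 : ∀ b, G.chi zm b (pt e z) = if Sum.inr b = e then cut zm 2 z.1 else 0 := fun b => by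
    rw [Geo.chi, G.σ_pt e z hz, G.ind_pt _ e z hz, mul_ite, mul_one, mul_zero]
  simp only [h2]
  rcases e with i | b
  · simp [RQ_zero, Rm]
  · rw [Finset.sum_eq_single b (fun b' _ hb => by simp [hb, RQ_zero]) (by simp)]
    simp [Rm]

/-- the variation by a rotation, minus its normal part, is tangential -/
theorem dGm (e : En D) {z : R2} (hz : G.z0 < z.1) (c : Fin D.b → ℂ × ℂ) :
    fderiv ℂ Gm (G.bW zm (pt e z)) (c, 0, 0, 0, G.s e * -((cut zm 2 z.1 : ℝ) * ph e c z)) =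
      ((cut zm 2 z.1 : ℝ) * ta e c z) • jS (pt e) z 1 +
        ((cut zm 2 z.1 : ℝ) * tb e c z) • jS (pt e) z 2 := by
  have h0 := jS_eq e (pos_of G hz)
  have d1 := hasDerivAt_Rm e z 0 (((cut zm 2 z.1 : ℝ) : ℂ) • c) (cJ e z (jy e z) 0)
    (-((cut zm 2 z.1 : ℝ) * ph e c z) • nc e z)
  rw [decomp G e hz, Rm_zero, Matrix.one_mul, Matrix.mulVec_add, Matrix.mulVec_smul,
    Matrix.mulVec_smul, Matrix.mulVec_smul, ← cx_dir, ← mv_apply, ← mv_apply, ← mv_apply,
    ← h0] at d1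
  refine (JA.hasDerivAt_line (JA.smG.differentiable (by simp) _) _).unique
    (d1.congr_of_eventuallyEq (Eventually.of_forall fun t => ?_))
  have h1 := Gm_eq' G zm e hz (t • c) (t * -((cut zm 2 z.1 : ℝ) * ph e c z))
  rw [smul_comm, ← smul_smul t] at h1
  simp only [zero_add]
  refine Eq.trans ?_ h1
  simp only [Prod.smul_mk, smul_zero, smul_eq_mul, mul_left_comm t]

theorem cd_yS' (b : Fin D.b) {q : R2} (hq : 0 < q.1) :
    ContDiffAt ℝ ∞ (fun z => ((yS (.inr b) z : ℝ) : ℂ)) q :=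
  Complex.ofRealCLM.contDiff.contDiffAt.comp q ((D.vdec b).smooth.contDiffAt.comp q
    ((contDiffAt_fst.sqrt hq.ne').prodMk contDiffAt_snd))

theorem cd_all (e : En D) {q : R2} (hq : G.z0 < q.1) (c : Fin D.b → ℂ × ℂ) :
    ContDiffAt ℝ 2 (ph e c) q ∧ ContDiffAt ℝ 2 (ta e c) q ∧ ContDiffAt ℝ 2 (tb e c) q := by
  rcases e with i | b
  · exact ⟨contDiffAt_const, contDiffAt_const, contDiffAt_const⟩
  have h := pos_of G hq
  have h1 := contDiffAt_pi.1 (Iv.contDiffAt_jet2 (n := 2) (cd_yS' b h) (by norm_cast))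
  have h2 := cd_ySc (.inr b) h
  have h3 := one_add_ne G (.inr b) hq
  have h4 : ((√2 : ℝ) : ℂ) ≠ 0 := Complex.ofReal_ne_zero.2 (by positivity)
  have k : ∀ f : R2 → ℝ, ContDiffAt ℝ 2 f q → ContDiffAt ℝ 2 (fun z => (f z : ℂ)) q :=
    fun f hf => Complex.ofRealCLM.contDiff.contDiffAt.comp q hf
  have hc := k _ (JP.cos q).cd
  have hs := k _ (JP.sin q).cd
  have hz := k _ (JP.sqrt h).cd
  have c1 : ∀ x : ℂ, ContDiffAt ℝ 2 (fun _ : R2 => x) q := fun _ => contDiffAt_const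
  have A := (((c1 (c b).2).mul hs).neg.sub ((c1 (c b).1).mul hc))
  have B := (((c1 (c b).2).mul hc).sub ((c1 (c b).1).mul hs))
  have Y := (c1 1).add h2
  exact ⟨(hz.div_const _).mul ((((c1 1).add (((c1 4).mul Y).mul (h1 1))).mul A).add
      (((h1 2).mul (Y.inv h3)).mul B)),
    ((A.mul ((c1 _).mul Y)).mul ((c1 2).mul hz)).neg,
    ((B.mul hz).mul (((c1 _).mul Y).inv (mul_ne_zero h4 h3))).neg⟩

theorem ph_per (e : En D) (c : Fin D.b → ℂ × ℂ) (ζ θ : ℝ) :
    ph e c (ζ, θ + 2 * Real.pi) = ph e c (ζ, θ) := by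
  rcases e with i | b
  · rfl
  have h : jy (.inr b) (ζ, θ + 2 * Real.pi) = jy (.inr b) (ζ, θ) := by
    have := jet2_per (X := fun z => ((yS (D := D) (.inr b) z : ℝ) : ℂ)) (a := (0, 2 * Real.pi))
      (fun z => by simp [yS, (D.vdec b).per]) (ζ, θ)
    rwa [Prod.mk_add_mk, add_zero] at this
  simp only [ph, phR, h, Real.cos_add_two_pi, Real.sin_add_two_pi]

theorem rotN_pt (e : En D) {q : R2} (hq : G.z0 < q.1) (c : Fin D.b → ℂ × ℂ) :
    G.rotN zm c (pt e q) = G.s e * ((cut zm 2 q.1 : ℝ) * ph e c q) := by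
  have h : ∀ b, G.lift (.inr b) (phR b (c b)) (pt e q) =
      if Sum.inr b = e then phR b (c b) q else 0 :=
    fun b => Iv.lift_pt G _ e _ q hq (ph_per (.inr b) c q.1)
  simp only [Geo.rotN, h, G.σ_pt e q hq]
  rcases e with i | b
  · simp [ph]
  · rw [Finset.sum_eq_single b (fun b' _ hb => by simp [hb]) (by simp), if_pos rfl, ph]
    ring

theorem cd_cut (q : R2) : ContDiffAt ℝ 2 (fun z : R2 => ((cut zm 2 z.1 : ℝ) : ℂ)) q :=
  Complex.ofRealCLM.contDiff.contDiffAt.comp q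
    (((contDiff_cut zm 2).of_le JA.two_le).contDiffAt.comp q contDiffAt_fst)

theorem c2s (hz : G.z0 + 1 ≤ zm) (c : Fin D.b → ℂ × ℂ) : C2S w (G.rotN zm c) := by
  intro P y hy
  have h : ∀ p, G.rotN zm c p = ∑ b, G.lift (.inr b)
      (fun q => (cut zm 2 q.1 : ℝ) * (G.s (.inr b) : ℝ) * ph (.inr b) c q) p := fun p => by
    refine Finset.sum_congr rfl fun b _ => ?_
    unfold Geo.lift
    split_ifs with h1
    · rw [(congrArg G.σ h1.choose_spec.2).trans (G.σ_pt _ _ h1.choose_spec.1)]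
      rfl
    · simp
  simp only [h]
  refine ContDiffAt.sum fun b _ => Iv.lift_ck G P (R := G.σ (P.φ y) + 1) _ JA.two_le
    (fun ζ θ => by rw [ph_per]) (fun q hq => ?_) (fun q hq _ => ?_) hy (lt_add_one _)
  · rw [cut_zero (by push_cast; linarith)]
    simp
  · exact ((cd_cut zm q).mul contDiffAt_const).mul (cd_all G _ hq c).1

theorem bd_ph (e : En D) (c : Fin D.b → ℂ × ℂ) : Bd G.z0 1 (ph e c) := by
  have h := G.one_le
  rcases e with i | b
  · exact ((Bd.sqrt h).mul h (Bd.const 0)).congr fun q _ => by simp [ph]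
  have v0 := Bd.dec h (D.vdec b)
  have Y := (Bd.const 1).add h v0
  have A := ((Bd.const (-(c b).2)).mul h Bd.sin).add h ((Bd.const (-(c b).1)).mul h Bd.cos)
  have B := ((Bd.const (c b).2).mul h Bd.cos).add h ((Bd.const (-(c b).1)).mul h Bd.sin)
  have S : Bd G.z0 0 fun q => (((√q.1)⁻¹ : ℝ) : ℂ) :=
    Bd.fst (φ := fun x => (√x)⁻¹) zero_le_one fun x hx => by
      have h1 : 1 ≤ x := by linarith
      have h2 := Real.one_le_sqrt.2 h1
      refine ⟨?_, (Real.hasDerivAt_sqrt (by linarith)).inv (by linarith), ?_⟩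
      · rw [abs_of_pos (by positivity), pow_zero, mul_one]
        exact inv_le_one_of_one_le₀ h2
      · rw [abs_div, abs_neg, pow_zero, mul_one]
        refine div_le_one_of_le₀ ((Bd.inv_sqrt_le h1).trans ?_) (abs_nonneg _)
        exact (one_le_pow₀ h2).trans (le_abs_self _)
  have H := ((Bd.sqrt h).mul h ((((Bd.const 1).add h ((((Bd.const 2).mul h Y).mul h S).mul h
    (Bd.dec h (D.vdec b).ds))).mul h A).add h (((Bd.dec h (D.vdec b).dt).mul h
      (Y.inv fun q hq => half_le G (.inr b) hq)).mul h B))).mul h (Bd.const ((√2 : ℝ) : ℂ)⁻¹)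
  refine H.congr fun q hq => ?_
  have h1 := pos_of G hq
  have h2 := jet2_of (JP.reparam (JP.sqrt h1) (JP.of_cd (p := (√q.1, q.2))
    ((D.vdec b).smooth.contDiffAt.of_le (by norm_cast))))
  have h3 : jet2 (yS (.inr b)) q = _ := h2
  simp only [ph, phR, jy_real _ h1, h3]
  simp
  ring

theorem mod (c : Fin D.b → ℂ × ℂ) : G.Mod (G.rotN zm c) := by
  have h := G.one_le
  have h1 : ∀ e : En D, ∃ C : ℝ, 0 ≤ C ∧ ∀ q : R2, G.z0 < q.1 →
      ‖T1 (jet2 (fun z => G.rotN zm c (pt e z)) q)‖ ≤ C * q.1 ^ 2 := fun e =>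
    Bd.norm_le h (((Bd.const (G.s e)).mul h ((Bd.cut zm 2).mul h (bd_ph G e c))).congr
      fun q hq => rotN_pt G zm e hq c)
  choose C h0 hC using h1
  refine ⟨∑ e, C e, fun e q hq => (hC e q (by linarith)).trans ?_⟩
  exact mul_le_mul_of_nonneg_right
    (Finset.single_le_sum (fun e _ => h0 e) (Finset.mem_univ e)) (sq_nonneg _)

theorem jet_c (c : Fin D.b → ℂ × ℂ) (y : R2) :
    jet2 (fun _ => ((c, 0, 0, 0, 0) : WW D)) y = emb c 0 := by
  rw [Iv.jet2_const]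
  ext1 k
  fin_cases k <;> rfl

/-- the equation on an end -/
theorem on_end (e : En D) {q : R2} (hq : G.z0 < q.1) (c : Fin D.b → ℂ × ℂ) :
    fderiv ℂ Mh (G.bJ zm (pt e) q) (emb c 0) =
      Lh (G.bJ zm (pt e) q) (jet2 (fun z => G.rotN zm c (pt e z)) q) := by
  have J := jetStmt w D
  have h := pos_of G hq
  have hO : q ∈ (G.ep e q.2).O := by
    rw [G.ep_O]
    exact ⟨hq, by linarith [Real.pi_pos], by linarith [Real.pi_pos]⟩
  have ev := continuous_fst.continuousAt.eventually (lt_mem_nhds hq)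
  have hb := Iv.bJ_mem G zm _ J hO
  have hx := Iv.xJ_bJ G zm _ J hO
  have h0 := ((G.ep e q.2).ev_mem hO).mono fun z hz => Iv.Mp_jS G.shr _ hz
  have hX := Iv.contDiff_cx.contDiffAt.comp q (((G.ep e q.2).cdAt hO).of_le (m := 3)
    (by norm_cast))
  rw [G.ep_φ] at hb hx h0 hX
  obtain ⟨c1, c2, c3⟩ := cd_all G e hq c
  have hu := ((cd_cut zm q).mul c1).neg
  obtain ⟨h1, h2⟩ := emb_eq c (G.s e : ℂ) hu
  have h3 : fderiv ℂ Mh (G.bJ zm (pt e) q) (emb c ((G.s e : ℂ) •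
      jet2 (fun z => -((cut zm 2 z.1 : ℝ) * ph e c z)) q)) = 0 := by
    rw [dMh hb, hx, ← h2, Geo.bJ, J.dchain _ _ _ (cd_bW G zm e h) h1,
      jet2_congr (ev.mono fun z hz => dGm G zm e hz c)]
    exact div_eq_zero_iff.2 (Or.inl (tan hX h0 ((cd_cut zm q).mul c2) ((cd_cut zm q).mul c3)))
  have h4 : jet2 (fun z => G.rotN zm c (pt e z)) q =
      -((G.s e : ℂ) • jet2 (fun z => -((cut zm 2 z.1 : ℝ) * ph e c z)) q) := by
    rw [← neg_smul, ← jet2_smul _ hu]
    exact jet2_congr (ev.mono fun z hz => by simp only [rotN_pt G zm e hz c]; ring)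
  rw [h4, map_neg, J.Lh_eq _ hb, eq_neg_iff_add_eq_zero, ← map_add, ← emb_add, add_zero, zero_add,
    h3]

theorem main (hz : G.z0 + 1 ≤ zm) (c : Fin D.b → ℂ × ℂ) (P : Patch (SS w)) {y : R2}
    (hy : y ∈ P.O) :
    fderiv ℂ Mh (G.bJ zm P.φ y) (emb c 0) = G.LG zm (G.rotN zm c) (P.φ y) := by
  have J := jetStmt w D
  have I := invStmt' w D G zm
  rcases lt_or_ge (G.σ (P.φ y)) (G.z0 + 1) with h | h
  · have ev : ∀ᶠ z in 𝓝 y, cut zm 2 (G.σ (P.φ z)) = 0 :=
      ((G.σ_sm.continuous.continuousAt.comp (P.cdAt hy).continuousAt).eventually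
        (gt_mem_nhds h)).mono fun z hz => cut_zero (by
          push_cast
          linarith [show G.σ (P.φ z) < G.z0 + 1 from hz])
    have h1 : jet2 (fun z => G.rotN zm c (P.φ z)) y = 0 :=
      (jet2_congr (ev.mono fun z hz => by simp [Geo.rotN, hz])).trans jet2_zero
    have h2 : fderiv ℂ xJ (G.bJ zm P.φ y) (emb c 0) = 0 := by
      rw [← jet_c c y, Geo.bJ, J.dchain _ _ _ (Iv.cd_bW2 G zm P hy) contDiffAt_const]
      refine (jet2_congr (ev.mono fun z hz => ?_)).trans jet2_zero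
      exact (J.dG0 _ c 0 (by ext b; simp [Geo.bW, Geo.chi, hz])).trans (zero_smul _ _)
    rw [I.LG_eq P y hy _ (c2s G zm hz c P y hy), h1, map_zero, dMh (I.base P y hy).2.1, h2,
      map_zero, zero_div]
  obtain ⟨e, q, hq, hp⟩ := G.cover _ (P.maps y hy).1 (by linarith)
  have hO : q ∈ (G.ep e q.2).O := by
    rw [G.ep_O]
    exact ⟨hq, by linarith [Real.pi_pos], by linarith [Real.pi_pos]⟩
  have h1 := I.LG_eq _ q hO _ (c2s G zm hz c _ q hO)
  have hb := (I.base _ q hO).2.1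
  have h2 := fun t : ℂ => (I.inv _ q hO (t • c) (fun _ => 0) contDiffAt_const _ rfl).2.1
  have h3 := fun t : ℂ => (I.inv _ y hy (t • c) (fun _ => 0) contDiffAt_const _ rfl).2.1
  rw [G.ep_φ] at h1 hb h2
  rw [hp, h1, ← on_end G zm e hq c]
  refine (JA.hasDerivAt_line ((JA.sm_Mh (I.base P y hy).2.1).differentiableAt (by simp)) _).unique
    ((JA.hasDerivAt_line ((JA.sm_Mh hb).differentiableAt (by simp)) _).congr_of_eventuallyEq
      (Eventually.of_forall fun t => ?_))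
  have h4 := (h3 t).symm.trans (hp ▸ h2 t)
  simpa only [smul_emb, smul_zero, jet2_zero] using h4

end Vale.Agent.P218N.Core.RotP

namespace Vale.Agent.P218N.Core

theorem rotStmt : RotStmt := fun _ _ G zm hz c =>
  ⟨RotP.c2s G zm hz c, RotP.mod G zm c, fun P _ hy => RotP.main G zm hz c P hy⟩

end Vale.Agent.P218N.Core
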