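import Vale.Agent.P218N.Core.Inv
import Vale.Agent.P218N.Core.EndF

/-! Tangential variations of the shrinker operator. -/

open Filter Topology
open scoped Matrix RealInnerProductSpace ContDiff

noncomputable section

namespace Vale.Agent.P218N.Core.RotP

open Vale.Agent.P218.H313 Vale.Agent.P218N.H Vale.Agent.P218N.End

section fd
variable {V : Type} [NormedAddCommGroup V] [NormedSpace ℝ V] {X : R2 → V} {y : R2}

theorem fderiv_ap {U : Type} [NormedAddCommGroup U] [NormedSpace ℝ U] {f : R2 → U →L[ℝ] V}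
    (hf : DifferentiableAt ℝ f y) (a : U) (v : R2) :
    fderiv ℝ (fun z => f z a) y v = fderiv ℝ f y v a := by
  rw [fderiv_clm_apply hf (differentiableAt_const a)]
  simp

/-- the jet of a directional derivative -/
theorem jet2_fderiv (hX : ContDiffAt ℝ 3 X y) (v : R2) :
    jet2 (fun z => fderiv ℝ X z v) y = fderiv ℝ (jet2 X) y v := by
  have h1 : ContDiffAt ℝ 2 (fderiv ℝ X) y := hX.fderiv_right (by norm_num)
  have h2 : ContDiffAt ℝ 1 (fderiv ℝ (fderiv ℝ X)) y := h1.fderiv_right (by norm_num)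
  have d1 := h1.differentiableAt (by simp)
  have d2 := h2.differentiableAt (by simp)
  have s2 : ∀ᶠ z in 𝓝 y, ∀ a b, fderiv ℝ (fderiv ℝ X) z a b = fderiv ℝ (fderiv ℝ X) z b a :=
    ((hX.of_le (m := 2) (by norm_num)).eventually (by simp)).mono fun z hz a b =>
      (hz.isSymmSndFDerivAt (by simp)).eq a b
  have e3 : ∀ a b c, fderiv ℝ (fun z => fderiv ℝ (fderiv ℝ X) z b c) y a =
      fderiv ℝ (fderiv ℝ (fderiv ℝ X)) y a b c := fun a b c => by
    rw [fderiv_ap (d2.clm_apply (differentiableAt_const b)), fderiv_ap d2]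
  have s3 : ∀ a b, fderiv ℝ (fderiv ℝ (fderiv ℝ X)) y a b v =
      fderiv ℝ (fderiv ℝ (fderiv ℝ X)) y v a b := fun a b => by
    rw [(h1.isSymmSndFDerivAt (by simp)).eq v a, ← e3, ← e3,
      EventuallyEq.fderiv_eq (s2.mono fun z hz => hz b v)]
  have e1 : jet2 (fun z => fderiv ℝ X z v) y = fun k => jet2 (fderiv ℝ X) y k v :=
    jet2_clm (ContinuousLinearMap.apply ℝ V v) h1
  have dj := (Iv.contDiffAt_jet2 (n := 1) hX (by norm_num)).differentiableAt (by simp)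
  rw [e1]
  ext k
  rw [fderiv_pi (differentiableAt_pi.1 dj)]
  fin_cases k
  · rfl
  · exact (s2.self_of_nhds _ _).trans (fderiv_ap d1 _ _).symm
  · exact (s2.self_of_nhds _ _).trans (fderiv_ap d1 _ _).symm
  · exact (s3 _ _).trans (e3 _ _ _).symm
  · exact (s3 _ _).trans (e3 _ _ _).symm
  · exact (s3 _ _).trans (e3 _ _ _).symm

theorem jet2_per {a : R2} (h : ∀ z, X (z + a) = X z) (q : R2) : jet2 X (q + a) = jet2 X q := by
  have h1 : ∀ z, fderiv ℝ X (z + a) = fderiv ℝ X z := fun z => by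
    rw [← fderiv_comp_add_right, funext h]
  have h2 : fderiv ℝ (fderiv ℝ X) (q + a) = fderiv ℝ (fderiv ℝ X) q := by
    rw [← fderiv_comp_add_right, funext h1]
  rw [jet2, jet2, h, h1, h2]

end fd

/-- complex reparametrisation of a jet -/
def crep (a b : J2 ℂ) (j : J2 C3) : J2 C3 :=
  ![j 0, a 1 • j 1 + b 1 • j 2, a 2 • j 1 + b 2 • j 2,
    (a 1 * a 1) • j 3 + (2 * a 1 * b 1) • j 4 + (b 1 * b 1) • j 5 + (a 3 • j 1 + b 3 • j 2),
    (a 1 * a 2) • j 3 + (a 1 * b 2 + b 1 * a 2) • j 4 + (b 1 * b 2) • j 5 +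
      (a 4 • j 1 + b 4 • j 2),
    (a 2 * a 2) • j 3 + (2 * a 2 * b 2) • j 4 + (b 2 * b 2) • j 5 + (a 5 • j 1 + b 5 • j 2)]

theorem Mp_crep (a b : J2 ℂ) (j : J2 C3) :
    Mp (crep a b j) = (a 1 * b 2 - b 1 * a 2) ^ 3 * Mp j := by
  have h : ∀ Y, det3 (a 1 • j 1 + b 1 • j 2) (a 2 • j 1 + b 2 • j 2) Y =
      (a 1 * b 2 - b 1 * a 2) * det3 (j 1) (j 2) Y := fun Y => by
    simp only [JA.det3_eq, Pi.add_apply, Pi.smul_apply, smul_eq_mul]
    ring
  rw [Iv.Mp_eq, Iv.Mp_eq]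
  simp only [crep, dg, g11, g12, g22, Matrix.cons_val, Matrix.cons_val_zero, Matrix.cons_val_one, h,
    Iv.det3_add, Iv.det3_smul, Iv.det3_left, Iv.det3_right, add_dotProduct, dotProduct_add,
    smul_dotProduct, dotProduct_smul, smul_eq_mul, dotProduct_comm (j 2) (j 1)]
  ring

/-- the infinitesimal reparametrisation -/
def lie (a b : J2 ℂ) (j : J2 C3) : J2 C3 :=
  ![0, a 1 • j 1 + b 1 • j 2, a 2 • j 1 + b 2 • j 2,
    (2 * a 1) • j 3 + (2 * b 1) • j 4 + (a 3 • j 1 + b 3 • j 2),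
    a 2 • j 3 + (a 1 + b 2) • j 4 + b 1 • j 5 + (a 4 • j 1 + b 4 • j 2),
    (2 * a 2) • j 4 + (2 * b 2) • j 5 + (a 5 • j 1 + b 5 • j 2)]

theorem dMp_lie (a b : J2 ℂ) {j : J2 C3} (hj : Mp j = 0) : fderiv ℂ Mp j (lie a b j) = 0 := by
  set L : J2 C3 := ![0, 0, 0, (a 1 * a 1) • j 3 + (2 * a 1 * b 1) • j 4 + (b 1 * b 1) • j 5,
    (a 1 * a 2) • j 3 + (a 1 * b 2 + b 1 * a 2) • j 4 + (b 1 * b 2) • j 5,
    (a 2 * a 2) • j 3 + (2 * a 2 * b 2) • j 4 + (b 2 * b 2) • j 5] with hL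
  have h1 : HasDerivAt (fun t : ℂ => j + t • lie a b j + (t * t) • L) (lie a b j) 0 :=
    ((((hasDerivAt_id (0 : ℂ)).smul_const (lie a b j)).const_add j).add
      (((hasDerivAt_id (0 : ℂ)).mul (hasDerivAt_id (0 : ℂ))).smul_const L)).congr_deriv (by simp)
  have h2 := (JA.sm_Mp.differentiable (by simp) j).hasFDerivAt.comp_hasDerivAt_of_eq 0 h1 (by simp)
  refine h2.unique ((hasDerivAt_const (0 : ℂ) (0 : ℂ)).congr_of_eventuallyEq
    (Eventually.of_forall fun t => ?_))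
  have h3 : j + t • lie a b j + (t * t) • L =
      crep ![0, 1 + t * a 1, t * a 2, t * a 3, t * a 4, t * a 5]
        ![0, t * b 1, 1 + t * b 2, t * b 3, t * b 4, t * b 5] j := by
    ext1 k
    rw [Pi.add_apply, Pi.add_apply, Pi.smul_apply, Pi.smul_apply]
    fin_cases k <;> simp [hL, lie, crep] <;> module
  simp only [Function.comp_apply, h3, Mp_crep, hj, mul_zero]

/-- tangential variations do not change the equation to first order -/
theorem tan {X : R2 → C3} {y : R2} (hX : ContDiffAt ℝ 3 X y) (h0 : ∀ᶠ z in 𝓝 y, Mp (jet2 X z) = 0)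
    {a b : R2 → ℂ} (ha : ContDiffAt ℝ 2 a y) (hb : ContDiffAt ℝ 2 b y) :
    fderiv ℂ Mp (jet2 X y) (jet2 (fun z => a z • jet2 X z 1 + b z • jet2 X z 2) y) = 0 := by
  have h1 : ContDiffAt ℝ 2 (fderiv ℝ X) y := hX.fderiv_right (by norm_num)
  have h2 : ∀ v, ContDiffAt ℝ 2 (fun z => fderiv ℝ X z v) y := fun v =>
    h1.clm_apply contDiffAt_const
  have dj := (Iv.contDiffAt_jet2 (n := 1) hX (by norm_num)).differentiableAt (by simp)
  have h3 : ∀ v, fderiv ℂ Mp (jet2 X y) (jet2 (fun z => fderiv ℝ X z v) y) = 0 := fun v => by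
    have k := ((JA.sm_Mp.differentiable (by simp) (jet2 X y)).hasFDerivAt.restrictScalars ℝ).comp y
      dj.hasFDerivAt
    have k2 := k.unique ((hasFDerivAt_const (0 : ℂ) y).congr_of_eventuallyEq h0)
    rw [jet2_fderiv hX]
    exact congrArg (fun L : R2 →L[ℝ] ℂ => L v) k2
  have J := (EF.csmul (EF.jp_of ha) (EF.jp_of (h2 (1, 0)))).add
    (EF.csmul (EF.jp_of hb) (EF.jp_of (h2 (0, 1))))
  have s := (End.J2.self (1, 0) (0, 1) (hX.of_le (m := 2) (by norm_num))).e21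
  have d := h1.differentiableAt (by simp)
  have e10 : jet2 (fun z => fderiv ℝ X z (1, 0)) y 0 = jet2 X y 1 := rfl
  have e11 : jet2 (fun z => fderiv ℝ X z (1, 0)) y 1 = jet2 X y 3 := fderiv_ap d _ _
  have e12 : jet2 (fun z => fderiv ℝ X z (1, 0)) y 2 = jet2 X y 4 := (fderiv_ap d _ _).trans s
  have e20 : jet2 (fun z => fderiv ℝ X z (0, 1)) y 0 = jet2 X y 2 := rfl
  have e21 : jet2 (fun z => fderiv ℝ X z (0, 1)) y 1 = jet2 X y 4 := fderiv_ap d _ _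
  have e22 : jet2 (fun z => fderiv ℝ X z (0, 1)) y 2 = jet2 X y 5 := fderiv_ap d _ _
  have e : jet2 (fun z => a z • jet2 X z 1 + b z • jet2 X z 2) y =
      jet2 a y 0 • jet2 (fun z => fderiv ℝ X z (1, 0)) y +
        jet2 b y 0 • jet2 (fun z => fderiv ℝ X z (0, 1)) y +
          lie (jet2 a y) (jet2 b y) (jet2 X y) := by
    refine (EF.jet2_of J).trans ?_
    generalize jet2 (fun z => fderiv ℝ X z (1, 0)) y = d1 at *
    generalize jet2 (fun z => fderiv ℝ X z (0, 1)) y = d2 at *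
    ext1 k
    fin_cases k <;> simp [lie, e10, e11, e12, e20, e21, e22] <;> module
  rw [e, map_add, map_add, map_smul, map_smul, h3, h3, dMp_lie _ _ h0.self_of_nhds]
  simp

variable {w : E3 → ℝ} {D : EndData w}

theorem smul_emb (t : ℂ) (c : Fin D.b → ℂ × ℂ) (m : J2 ℂ) : t • emb c m = emb (t • c) (t • m) := by
  simpa using ((embL D).map_smul t (c, m)).symm

/-- the derivative of the normalised operator -/
theorem dMh {b : J2 (WW D)} (hb : b ∈ Om D) (c : Fin D.b → ℂ × ℂ) (m : J2 ℂ) :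
    fderiv ℂ Mh b (emb c m) = fderiv ℂ Mp (xJ b) (fderiv ℂ xJ b (emb c m)) /
      (det3 (pJ b 1) (pJ b 2) (nV b) * dg (pJ b)) := by
  have h1 := JA.hasDerivAt_line ((JA.sm_Mh hb).differentiableAt (by simp)) (emb c m)
  have h2 := (JA.sm_Mp.differentiable (by simp) (xJ b)).hasFDerivAt.comp_hasDerivAt_of_eq 0
    (JA.hasDerivAt_line (JA.smX.differentiable (by simp) b) (emb c m)) (by simp)
  refine h1.unique ((h2.div_const _).congr_of_eventuallyEq (Eventually.of_forall fun t => ?_))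
  simp only [Mh, smul_emb, pJ_add_emb, nV_add_emb, Function.comp_apply]

/-! ### Bounds for functions on the ends -/

/-- `f` and its derivative are bounded by `C ζ ^ k` -/
def Bd (z0 : ℝ) (k : ℕ) (f : R2 → ℂ) : Prop := ∃ C : ℝ, 0 ≤ C ∧ ∀ q : R2, z0 < q.1 →
  ‖f q‖ ≤ C * q.1 ^ k ∧ ∃ L, HasFDerivAt f L q ∧ ‖(L : R2 →L[ℝ] ℂ)‖ ≤ C * q.1 ^ k

namespace Bd
variable {z0 : ℝ} {k l : ℕ} {f g : R2 → ℂ}

theorem congr (hf : Bd z0 k f) (h : ∀ q : R2, z0 < q.1 → g q = f q) : Bd z0 k g := by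
  obtain ⟨C, h0, hC⟩ := hf
  refine ⟨C, h0, fun q hq => ?_⟩
  obtain ⟨h1, L, h2, h3⟩ := hC q hq
  exact ⟨h q hq ▸ h1, L, h2.congr_of_eventuallyEq
    ((continuous_fst.continuousAt.eventually (lt_mem_nhds hq)).mono h), h3⟩

theorem const (c : ℂ) : Bd z0 0 fun _ => c :=
  ⟨‖c‖, norm_nonneg _, fun q _ => ⟨by simp, _, hasFDerivAt_const c q, by simp⟩⟩

theorem add (hz : 1 ≤ z0) (hf : Bd z0 k f) (hg : Bd z0 k g) : Bd z0 k fun q => f q + g q := by
  obtain ⟨C, h0, hC⟩ := hf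
  obtain ⟨C', h0', hC'⟩ := hg
  refine ⟨C + C', by positivity, fun q hq => ?_⟩
  obtain ⟨h1, L, h2, h3⟩ := hC q hq
  obtain ⟨h1', L', h2', h3'⟩ := hC' q hq
  have := hz
  exact ⟨(norm_add_le _ _).trans (by linarith), _, h2.add h2', (norm_add_le _ _).trans (by linarith)⟩

theorem mul (hz : 1 ≤ z0) (hf : Bd z0 k f) (hg : Bd z0 l g) :
    Bd z0 (k + l) fun q => f q * g q := by
  obtain ⟨C, h0, hC⟩ := hf
  obtain ⟨C', h0', hC'⟩ := hg
  refine ⟨2 * (C * C'), by positivity, fun q hq => ?_⟩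
  obtain ⟨h1, L, h2, h3⟩ := hC q hq
  obtain ⟨h1', L', h2', h3'⟩ := hC' q hq
  have hq0 : 0 ≤ q.1 := by linarith
  have a1 := mul_le_mul h1 h1' (norm_nonneg _) (by positivity)
  have a2 := mul_le_mul h1 h3' (norm_nonneg _) (by positivity)
  have a3 := mul_le_mul h1' h3 (norm_nonneg _) (by positivity)
  have a4 : 0 ≤ C * q.1 ^ k * (C' * q.1 ^ l) := by positivity
  refine ⟨?_, _, h2.mul h2', (norm_add_le _ _).trans ?_⟩
  · rw [norm_mul, pow_add]
    linarith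
  · rw [norm_smul, norm_smul, pow_add]
    linarith

theorem inv (hf : Bd z0 0 f) (h : ∀ q : R2, z0 < q.1 → 1 / 2 ≤ ‖f q‖) :
    Bd z0 0 fun q => (f q)⁻¹ := by
  obtain ⟨C, h0, hC⟩ := hf
  refine ⟨2 + 4 * C, by positivity, fun q hq => ?_⟩
  obtain ⟨-, L, h2, h3⟩ := hC q hq
  have h4 := h q hq
  have h5 : f q ≠ 0 := norm_pos_iff.1 (by linarith)
  have h6 : ‖f q‖⁻¹ ≤ 2 := by
    rw [inv_le_comm₀ (by linarith) two_pos]
    linarith
  rw [pow_zero, mul_one] at h3 ⊢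
  refine ⟨by rw [norm_inv]; linarith, _, (hasDerivAt_inv h5).comp_hasFDerivAt q h2, ?_⟩
  rw [norm_smul, norm_neg, norm_inv, norm_pow, ← inv_pow]
  have h7 : ‖f q‖⁻¹ ^ 2 ≤ 2 ^ 2 := pow_le_pow_left₀ (by positivity) h6 2
  nlinarith [norm_nonneg L]

theorem real {φ : R2 → ℝ} {C : ℝ} (h0 : 0 ≤ C) (h : ∀ q : R2, z0 < q.1 →
    |φ q| ≤ C * q.1 ^ k ∧ ∃ L, HasFDerivAt φ L q ∧ |(L : R2 →L[ℝ] ℝ) (1, 0)| + |L (0, 1)| ≤
      C * q.1 ^ k) : Bd z0 k fun q => (φ q : ℂ) := by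
  refine ⟨C, h0, fun q hq => ?_⟩
  obtain ⟨h1, L, h2, h3⟩ := h q hq
  refine ⟨by simpa using h1, _, Complex.ofRealCLM.hasFDerivAt.comp q h2,
    ContinuousLinearMap.opNorm_le_bound _ (le_trans (by positivity) h3) fun v => ?_⟩
  rw [ContinuousLinearMap.comp_apply, Complex.ofRealCLM_apply, Complex.norm_real, Iv.clm_R2 L v]
  have a1 : |v.1| ≤ ‖v‖ := norm_fst_le v
  have a2 : |v.2| ≤ ‖v‖ := norm_snd_le v
  refine (norm_add_le _ _).trans ?_
  simp only [smul_eq_mul, norm_mul, Real.norm_eq_abs]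
  nlinarith [abs_nonneg (L (1, 0)), abs_nonneg (L (0, 1)), norm_nonneg v]

theorem fst {φ φ' : ℝ → ℝ} {C : ℝ} (h0 : 0 ≤ C) (h : ∀ x, z0 < x →
    |φ x| ≤ C * x ^ k ∧ HasDerivAt φ (φ' x) x ∧ |φ' x| ≤ C * x ^ k) :
    Bd z0 k fun q => (φ q.1 : ℂ) :=
  real h0 fun q hq => ⟨(h _ hq).1, _, (h _ hq).2.1.comp_hasFDerivAt q hasFDerivAt_fst,
    by simpa using (h _ hq).2.2⟩

theorem snd {φ φ' : ℝ → ℝ} (h : ∀ x, |φ x| ≤ 1 ∧ HasDerivAt φ (φ' x) x ∧ |φ' x| ≤ 1) :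
    Bd z0 0 fun q => (φ q.2 : ℂ) :=
  real zero_le_one fun q _ => ⟨by simpa using (h _).1, _,
    (h _).2.1.comp_hasFDerivAt q hasFDerivAt_snd, by simpa using (h _).2.2⟩

theorem cos : Bd z0 0 fun q => (Real.cos q.2 : ℂ) := snd (φ' := fun x => -Real.sin x) fun x =>
  ⟨Real.abs_cos_le_one x, Real.hasDerivAt_cos x, by simpa using Real.abs_sin_le_one x⟩

theorem sin : Bd z0 0 fun q => (Real.sin q.2 : ℂ) :=
  snd fun x => ⟨Real.abs_sin_le_one x, Real.hasDerivAt_sin x, Real.abs_cos_le_one x⟩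

theorem inv_sqrt_le {x : ℝ} (hx : 1 ≤ x) : |1 / (2 * √x)| ≤ 1 := by
  have := Real.one_le_sqrt.2 hx
  rw [abs_of_pos (by positivity), div_le_one (by positivity)]
  linarith

theorem sqrt (hz : 1 ≤ z0) : Bd z0 1 fun q => (√q.1 : ℝ) :=
  fst (φ := fun x => √x) zero_le_one fun x hx => by
    have h1 : 1 ≤ x := by linarith
    refine ⟨?_, Real.hasDerivAt_sqrt (by linarith), (inv_sqrt_le h1).trans (by simpa using h1)⟩
    rw [abs_of_nonneg (Real.sqrt_nonneg x), one_mul, pow_one, Real.sqrt_le_left (by linarith)]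
    nlinarith

theorem cut (zm : ℝ) (n : ℕ) : Bd z0 0 fun q => (cut zm n q.1 : ℝ) := by
  have h := contDiff_cut zm n
  obtain ⟨C, hC⟩ := (isCompact_Icc (a := zm + n) (b := zm + n + 1)).exists_bound_of_continuousOn
    (h.continuous_deriv (by simp)).continuousOn
  refine fst (C := max C 1) (by positivity) fun x _ => ⟨?_, (h.differentiable (by simp) x).hasDerivAt, ?_⟩
  · rw [abs_of_nonneg cut_nonneg, pow_zero, mul_one]
    exact cut_le_one.trans (le_max_right _ _)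
  rw [pow_zero, mul_one]
  by_cases hx : x ∈ Set.Icc (zm + n) (zm + n + 1)
  · exact (hC x hx).trans (le_max_left _ _)
  have h1 : deriv (Core.cut zm n) x = 0 := by
    rcases not_and_or.1 hx with h1 | h1
    · have := congrFun (jz_cut_zero (zm := zm) (k := n) (ζ := x) (by linarith [not_le.1 h1])) 1
      simpa [jz] using this
    · have := congrFun (jz_cut_one (zm := zm) (k := n) (ζ := x) (by linarith [not_le.1 h1])) 1
      simpa [jz, j1] using this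
  rw [h1, abs_zero]
  positivity

theorem dec_bd {v : R2 → ℝ} (hv : Decays v) : ∃ C, 0 ≤ C ∧ ∀ p : R2, 1 ≤ p.1 → |v p| ≤ C := by
  obtain ⟨s, hs⟩ := (hv.abs_le one_pos).exists
  obtain ⟨K, hK⟩ := hv.toPer.exists_bound 1 s
  refine ⟨max K 1, by positivity, fun p hp => ?_⟩
  rcases le_total p.1 s with h | h
  · exact (hK p.1 ⟨hp, h⟩ p.2).trans (le_max_left _ _)
  · exact (hs p h).trans (le_max_right _ _)

theorem dec (hz : 1 ≤ z0) {v : R2 → ℝ} (hv : Decays v) : Bd z0 0 fun q => (v (√q.1, q.2) : ℝ) := by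
  obtain ⟨C0, h0, b0⟩ := dec_bd hv
  obtain ⟨C1, h1, b1⟩ := dec_bd hv.ds
  obtain ⟨C2, h2, b2⟩ := dec_bd hv.dt
  refine real (C := C0 + C1 + C2) (by positivity) fun q hq => ?_
  have hq1 : 1 ≤ q.1 := by linarith
  have hs := Real.one_le_sqrt.2 hq1
  have J := JP.reparam (JP.sqrt (p := q) (by linarith))
    (JP.of_cd (p := (√q.1, q.2)) (hv.smooth.contDiffAt.of_le (by norm_cast)))
  refine ⟨by linarith [b0 (√q.1, q.2) hs], _, (J.cd.differentiableAt (by simp)).hasFDerivAt, ?_⟩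
  rw [J.e1, J.e2, smul_eq_mul, abs_mul]
  have := mul_le_mul (inv_sqrt_le hq1) (b1 (√q.1, q.2) hs) (abs_nonneg _) zero_le_one
  linarith [b2 (√q.1, q.2) hs]

theorem norm_le (hz : 1 ≤ z0) (hf : Bd z0 1 f) :
    ∃ C : ℝ, 0 ≤ C ∧ ∀ q : R2, z0 < q.1 → ‖T1 (jet2 f q)‖ ≤ C * q.1 ^ 2 := by
  obtain ⟨C, h0, hC⟩ := hf
  refine ⟨C, h0, fun q hq => ?_⟩
  obtain ⟨h1, L, h2, h3⟩ := hC q hq
  have h4 : C * q.1 ^ 1 ≤ C * q.1 ^ 2 :=
    mul_le_mul_of_nonneg_left (pow_le_pow_right₀ (by linarith) one_le_two) h0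
  have h5 : 0 ≤ C * q.1 ^ 2 := by positivity
  have h6 : ∀ v : R2, ‖v‖ = 1 → ‖fderiv ℝ f q v‖ ≤ C * q.1 ^ 2 := fun v hv => by
    rw [h2.fderiv]
    exact (L.le_of_opNorm_le (h3.trans h4) v).trans_eq (by rw [hv, mul_one])
  refine (pi_norm_le_iff_of_nonneg h5).2 fun i => ?_
  fin_cases i
  · exact h1.trans h4
  · exact h6 _ (by simp)
  · exact h6 _ (by simp)
  all_goals simpa [T1] using h5

end Bd

end Vale.Agent.P218N.Core.RotP
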