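import Vale.Agent.P218N.Core.Sys

/-! Solvability of the linear problem on the infinite surface. -/

open Set Filter Topology Metric MeasureTheory
open scoped RealInnerProductSpace ContDiff Matrix NNReal

noncomputable section

namespace Vale.Agent.P218N.Core

open Vale.Agent.P218.H313 Vale.Agent.P218N.H Vale.Agent.P218N.End Vale.Agent.P272.K.LIN

set_option linter.unusedSectionVars false

variable {w : E3 → ℝ} {D : EndData w} {G : Geo D} {zm : ℝ}

namespace Solv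

/-- a function with bounded support vanishes for large `σ` -/
theorem bdd_σ {V : Type} [Zero V] {f : E3 → V} (hf : Bdd w f) :
    ∃ M : ℝ, ∀ p, w p = 0 → M ≤ G.σ p → f p = 0 := by
  obtain ⟨R, hR⟩ := hf
  obtain ⟨M, hM⟩ := (isCompact_closedBall (0 : E3) R).bddAbove_image G.σ_sm.continuous.continuousOn
  refine ⟨M + 1, fun p hp h => hR p hp ?_⟩
  by_contra h1
  have := hM (mem_image_of_mem G.σ (mem_closedBall_zero_iff.2 (not_le.1 h1).le))
  linarith

theorem bdd_of_cpt {f : E3 → ℝ} (hf : HasCompactSupport f) :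
    ∃ R : ℝ, ∀ p, R ≤ ‖p‖ → f p = 0 := by
  obtain ⟨R, hR⟩ := hf.isCompact.isBounded.subset_ball 0
  refine ⟨R, fun p h => ?_⟩
  by_contra h1
  have := mem_ball_zero_iff.1 (hR (subset_tsupport _ h1))
  linarith

theorem c2_cF {f : E3 → ℝ} (hf : C2S w f) : C2S w (cF f) := fun P y hy =>
  Complex.ofRealCLM.contDiff.contDiffAt.comp y (hf P y hy)

theorem c2_re {u : E3 → ℂ} (hu : C2S w u) : C2S w fun p => (u p).re := fun P y hy =>
  Complex.reCLM.contDiff.contDiffAt.comp y (hu P y hy)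

theorem c2_end {V : Type} [NormedAddCommGroup V] [NormedSpace ℝ V] {u : E3 → V} (hu : C2S w u)
    (G : Geo D) (e : En D) {q : R2} (hq : G.z0 < q.1) :
    ContDiffAt ℝ 2 (fun z => u (pt e z)) q := by
  have := hu (G.ep e q.2) q (G.mem_ep e hq)
  rwa [G.ep_φ] at this

variable {X : Type} [TopologicalSpace X] [ChartedSpace R2 X] [T2Space X] [CompactSpace X]
  [RSm R2 X] (C : Ctx2 G zm X)

include C in
theorem zr_hi {n : ℕ} (hn : 3 ≤ n) {ζ : ℝ} (h : TT zm n < ζ) :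
    zr zm 3 n (tt zm ζ) = TT zm n := by
  obtain ⟨m, hm⟩ := exists_nat_ge (ζ - zm)
  have hT : TT zm n = zm + n + 1 := rfl
  have hnm : n ≤ m := by
    have : (n : ℝ) ≤ m := by linarith
    exact_mod_cast this
  have hn' : (3 : ℝ) ≤ n := by exact_mod_cast hn
  have hζ : ζ ∈ Icc (zm + (3 : ℕ)) (TT zm m) :=
    ⟨by push_cast; linarith, by simp only [TT]; linarith⟩
  by_cases h1 : tau (n + 1) ≤ tt zm ζ
  · exact C.pf.hi 3 n _ hn h1
  exfalso
  have h2 : tau 3 ≤ tt zm ζ := by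
    rw [← C.yf.clp_tt 3 m ζ (hn.trans hnm) hζ]
    exact le_max_left _ _
  have h3 : clp 3 n (tt zm ζ) = tt zm ζ := by
    show max (tau 3) (min (tt zm ζ) (tau (n + 1))) = _
    rw [min_eq_left (not_le.1 h1).le, max_eq_right h2]
  have h4 := C.pf.zr_clp 3 3 n m (tt zm ζ) le_rfl hn hnm
  rw [h3, C.pf.zr_tt 3 m ζ (hn.trans hnm) hζ] at h4
  have h5 := (C.pf.mem 3 n (tt zm ζ) hn).2
  linarith

/-- representation of a function with bounded support on the ends -/
theorem exists_rep {f : E3 → ℂ} (hf : C2S w f) (hb : Bdd w f) :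
    ∃ F : WE D, ∀ T, C.Rep f F T := by
  obtain ⟨M, hM⟩ := bdd_σ (G := G) hb
  obtain ⟨n0, hn0⟩ := exists_nat_ge (M - zm)
  have hn : 3 ≤ n0 + 3 := by omega
  have hT : M ≤ TT zm (n0 + 3) := by simp only [TT]; push_cast; linarith
  have hz := C.hz
  have key : ∀ e : En D, ∃ a : WB, ∀ t θ, ev a t θ = f (pt e (zr zm 3 (n0 + 3) t, θ)) := fun e =>
    C.pf.toW 3 (n0 + 3) (fun q => f (pt e q)) hn
      (fun q hq => c2_end hf G e (by push_cast at hq; linarith)) fun ζ θ => by rw [C.iv.per]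
  choose a ha using key
  refine ⟨fun e => (G.s e : ℂ) • (FW (gam zm 3 (n0 + 3)) e (jw (ctr (gam zm 3 (n0 + 3)) e)
    (Res 3 (n0 + 3) ((C.B e).jS (n0 + 3)))) * a e), fun T e q hq => ?_⟩
  have e1 : ∀ t θ, (fun i => ev (jw (ctr (gam zm 3 (n0 + 3)) e)
      (Res 3 (n0 + 3) ((C.B e).jS (n0 + 3))) i) t θ) = jy e (zr zm 3 (n0 + 3) t, θ) := by
    intro t θ
    funext i
    rw [C.pf.jw_res 0 3 (n0 + 3) (n0 + 3) e _ i (by omega) hn le_rfl, C.pf.ev_res, (C.B e).val,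
      C.pf.zr_clp 0 3 (n0 + 3) (n0 + 3) t (by omega) hn le_rfl]
  rw [ev_smul, ev_mul, C.pf.ev_FW, e1, ha]
  by_cases h : q.1 ≤ TT zm (n0 + 3)
  · rw [C.pf.zr_tt 3 (n0 + 3) q.1 hn ⟨by push_cast; exact hq.1.le, h⟩, mul_assoc]
  · have h0 : G.z0 < q.1 := by linarith [hq.1]
    have h1 : G.z0 < TT zm (n0 + 3) := by
      have : (0 : ℝ) ≤ n0 := Nat.cast_nonneg _
      simp only [TT]; push_cast; linarith
    rw [zr_hi C hn (not_le.1 h), hM _ (G.pt_mem e (q := (TT zm (n0 + 3), q.2)) h1)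
      (by rw [G.σ_pt e (TT zm (n0 + 3), q.2) h1]; exact hT),
      hM _ (G.pt_mem e h0) (by rw [G.σ_pt e q h0]; linarith [not_le.1 h])]
    simp

/-- the cut off function on the double -/
theorem exists_h {f : E3 → ℂ} (hf : C2S w f) : ∃ h : C.H, ∀ x, h x = C.b1 x * f (C.Z.pr x) := by
  have hk : CkFn R2 2 (C.Z.upF fun p => (1 - ((cut zm 5 (G.σ p) : ℝ) : ℂ)) * f p) := by
    refine C.tf.up_ck 2 _ two_le (fun P y hy _ => ContDiffAt.mul ?_ (hf P y hy)) fun p _ h => ?_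
    · exact (((contDiff_const.sub (Ctx.contDiff_cutC 5)).comp G.σ_sm).contDiffAt.comp y
        (P.contDiffAt hy)).of_le two_le
    · rw [cut_one (by push_cast; linarith)]; simp
  refine ⟨mkH _ (C.Z.upF fun p => (1 - ((cut zm 5 (G.σ p) : ℝ) : ℂ)) * f p), fun x => ?_⟩
  rw [mkH_apply _ (hk.of_le (by norm_num)), C.b1_apply, Dbl.upF]
  split_ifs <;> simp

theorem upF_eq {ψ : E3 → ℂ} (h : ∀ p, w p = 0 → zm + 2 ≤ G.σ p → ψ p = 0) (x : X) :
    C.Z.upF ψ x = C.b1 x * ψ (C.Z.pr x) := by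
  by_cases h0 : 0 < C.Z.τ x
  · rw [Dbl.upF, if_pos h0]
    by_cases h1 : G.σ (C.Z.pr x) ≤ zm + 2
    · rw [C.b1_one h0 (by linarith), one_mul]
    · rw [h _ (C.Z.mem x).1 (not_le.1 h1).le, mul_zero]
  · rw [Dbl.upF, if_neg h0, C.b1_apply, if_neg h0, zero_mul]

include C in
theorem LG_re {u : E3 → ℂ} (hu : C2S w u) {p : E3} (hp : w p = 0) :
    G.LG zm (cF fun x => (u x).re) p = ((G.LG zm u p).re : ℝ) := by
  obtain ⟨h1, -⟩ := G.pa_O hp
  obtain ⟨-, b2, b3, -⟩ := C.iv.base _ _ h1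
  have e1 : G.jG (cF fun x => (u x).re) p = (2⁻¹ : ℂ) • (G.jG u p + star (G.jG u p)) := by
    have := jet2_clm (Complex.ofRealCLM.comp Complex.reCLM) (hu _ _ h1)
    refine this.trans (funext fun k => ?_)
    show (((G.jG u p k).re : ℝ) : ℂ) = 2⁻¹ * (G.jG u p k + (starRingEnd ℂ) (G.jG u p k))
    rw [Complex.re_eq_add_conj]
    ring
  rw [Geo.LG, e1, map_smul, map_add, C.jf.Lh_cj _ b2 b3, Complex.re_eq_add_conj, Geo.LG]
  show 2⁻¹ * (_ + (starRingEnd ℂ) _) = _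
  ring

include C in
theorem ip_re {u : E3 → ℂ} (hu : C2S w u) {ψ : E3 → ℝ} (h1 : Continuous ψ)
    (h2 : HasCompactSupport ψ) :
    G.ip (cF fun x => (u x).re) (cF ψ) = ((G.ip u (cF ψ)).re : ℝ) := by
  have hi : Integrable (fun p => u p * cF ψ p * (G.om p : ℝ)) (muS w) := by
    refine C.vf.int _ (((C.iv.cont u u hu hu).1.mul ?_).mul ?_) ?_
    · exact (Complex.continuous_ofReal.comp h1).continuousOn
    · exact Complex.continuous_ofReal.comp_continuousOn C.iv.om_cont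
    · obtain ⟨R, hR⟩ := bdd_of_cpt h2
      exact ⟨R, fun p _ h => by simp [cF, hR p h]⟩
  have e := integral_re hi
  simp only [RCLike.re_to_complex] at e
  rw [Geo.ip, Geo.ip, ← e, ← integral_complex_ofReal]
  congr 1
  funext p
  simp [cF]

end Solv

variable {X : Type} [TopologicalSpace X] [ChartedSpace R2 X] [T2Space X] [CompactSpace X]
  [RSm R2 X] (C : Ctx2 G zm X)

theorem Ctx2.solvS : C.SolvS := by
  intro hF Φ gb N ψ ψh l 𝓛 hP hs
  refine ⟨hP.cont, hP.cpt, hP.spt, hP.indep, fun f hf hb => ?_⟩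
  have hf' := Solv.c2_cF hf
  obtain ⟨F, hR⟩ := Solv.exists_rep C hf' (by
    obtain ⟨R, hR⟩ := hb
    exact ⟨R, fun p hp h => by simp [cF, hR p hp h]⟩)
  obtain ⟨h, hh⟩ := Solv.exists_h C hf'
  obtain ⟨⟨v, g, lm⟩, hx⟩ := hs (𝓛.symm (h - C.L0 (0, C.Ti F)), C.GamL (0, C.Ti F), 0)
  rw [Ctx.Sys_apply] at hx
  simp only [Prod.mk.injEq, EmbeddingLike.apply_eq_iff_eq] at hx
  obtain ⟨x1, x2, x3⟩ := hx
  have e0 : ((v, C.Ti (g + F)) : C.U × JJ D zm) = (v, C.Ti g) + (0, C.Ti F) := by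
    rw [map_add]; simp
  have e1 : C.L0 (v, C.Ti (g + F)) = h + C.sH ψh lm := by
    rw [e0, map_add]
    linear_combination x1
  have e2 : C.GamL (v, C.Ti (g + F)) = g := by
    rw [e0, map_add, ← x2]
    abel
  have hψ : ∀ k p, w p = 0 → zm + 2 ≤ G.σ p → cF (ψ k) p = 0 := fun k p hp h => by
    simp [cF, hP.spt k p hp h]
  have hz := C.hz
  obtain ⟨u1, ⟨B, u2⟩, -, -, -, u3⟩ := hF.lin (fun e m => C.Gi e m ((g + F) e)) v (C.Ti (g + F))
    (fun p => cF f p + sumP ψ lm p) F (fun e => (C.lf e).fam _) (fun _ => rfl)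
    (fun T e q hq => by
      have h0 : G.z0 < q.1 := by linarith [hq.1]
      have : sumP ψ lm (pt e q) = 0 := Finset.sum_eq_zero fun k _ => by
        rw [hP.spt k _ (G.pt_mem e h0) (by rw [G.σ_pt e q h0]; linarith [hq.1])]; simp
      rw [hR T e q hq]
      simp only [this, add_zero])
    (fun x => by
      rw [e1, Hol.add_apply, hh, C.sH_apply, mul_add, sumP, Finset.mul_sum]
      congr 1
      refine Finset.sum_congr rfl fun k _ => ?_
      rw [hP.up, Solv.upF_eq C (hψ k)]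
      simp only [cF]
      ring)
    (fun e m hm => by
      rw [(C.lf e).eq m _ (by omega), e2]
      rfl)
  refine ⟨fun p => (C.tot v (fun e => Yinf zm fun m => C.Gi e m ((g + F) e)) p).re,
    fun k => (lm k).re, B, Solv.c2_re u1, fun e q hq => ?_, fun p hp => ?_, fun k => ?_⟩
  · refine le_trans ?_ (u2 e q hq)
    have := jet2_clm Complex.reCLM (Solv.c2_end u1 G e (q := q) (by linarith))
    refine (congrArg norm this).trans_le ((pi_norm_le_iff_of_nonneg (norm_nonneg _)).2 fun k => ?_)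
    exact (Complex.abs_re_le_norm _).trans (norm_le_pi_norm _ k)
  · rw [Solv.LG_re C u1 hp, u3 p hp]
    simp [cF, sumP]
  · rw [Solv.ip_re C u1 (hP.cont k) (hP.cpt k), hP.l_tot, congrFun x3 k]
    simp

end Vale.Agent.P218N.Core
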