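import Vale.Agent.P218N.Core.Defs
import Vale.Agent.P218N.End.Api
import Vale.Agent.P218N.G.Tube

/-! The statements of the independent parts of the core problem. -/

open Set Filter Topology Metric MeasureTheory
open scoped RealInnerProductSpace ContDiff Matrix NNReal

noncomputable section

namespace Vale.Agent.P218N.Core

open Vale.Agent.P218.H313 Vale.Agent.P218N.H Vale.Agent.P218N.End Vale.Agent.P272.K.LIN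

variable {w : E3 → ℝ}

/-! ### Paths -/

/-- facts about the paths and the restriction operators -/
structure PathF (D : EndData w) (zm : ℝ) : Prop where
  real : ∀ k n : ℕ, (gam zm k n).RealP (zm + k)
  ze : ∀ k n t, (gam zm k n).ze t = (zr zm k n t : ℝ)
  g : ∀ k n t, (gam zm k n).g t = (gr k n t : ℝ)
  cok : ∀ k n (e : En D), (ctr (gam zm k n) e).Ok
  mem : ∀ (k n : ℕ) t, k ≤ n → zr zm k n t ∈ Icc (zm + k) (TT zm n)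
  lo : ∀ (k n : ℕ) t, t ≤ tau k → zr zm k n t = zm + k
  hi : ∀ k n t, k ≤ n → tau (n + 1) ≤ t → zr zm k n t = TT zm n
  zr_clp : ∀ k' k n n' t, k' ≤ k → k ≤ n → n ≤ n' → zr zm k' n' (clp k n t) = zr zm k n t
  zr_tt : ∀ (k n : ℕ) ζ, k ≤ n → ζ ∈ Icc (zm + k) (TT zm n) → zr zm k n (tt zm ζ) = ζ
  tt_zr : ∀ k n t, k ≤ n → tt zm (zr zm k n t) = clp k n t
  tt_cont : Continuous (tt zm)
  ev_res : ∀ k n f t θ, ev (resW k n f) t θ = ev f (clp k n t) θ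
  tr_res : ∀ k n f t, End.tr t (resW k n f) = End.tr (clp k n t) f
  resW_le : ∀ k n f, ‖resW k n f‖ ≤ ‖f‖
  res_le : ∀ k n j, ‖Res k n j‖ ≤ ‖j‖
  res_res : ∀ k' k n n' j, k' ≤ k → k ≤ n → n ≤ n' → Res k n (Res k' n' j) = Res k n j
  res_cj : ∀ k n (j : EJ), Res k n j.cj = (Res k n j).cj
  jet_res : ∀ k' k n n' (e : En D) j, k' ≤ k → k ≤ n → n ≤ n' →
    (ctr (gam zm k' n') e).IsJet j → (ctr (gam zm k n) e).IsJet (Res k n j)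
  jw_res : ∀ k' k n n' (e : En D) j i, k' ≤ k → k ≤ n → n ≤ n' →
    jw (ctr (gam zm k n) e) (Res k n j) i = resW k n (jw (ctr (gam zm k' n') e) j i)
  jw_inj : ∀ k n (e : En D) j, (∀ i, jw (ctr (gam zm k n) e) j i = 0) → j = 0
  jw_le : ∀ k n (e : En D) j i, ‖jw (ctr (gam zm k n) e) j i‖ ≤ ‖j‖
  jw_cj : ∀ k n (e : En D) (j : EJ) i,
    jw (ctr (gam zm k n) e) j.cj i = W.cj (jw (ctr (gam zm k n) e) j i)
  EE_eq : ∀ k n (e : En D) j, EE (gam zm k n) e j = EW (gam zm k n) e (jw (ctr (gam zm k n) e) j)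
  ev_EW : ∀ k n (e : En D) m t θ,
    ev (EW (gam zm k n) e m) t θ = EP e (zr zm k n t, θ) fun i => ev (m i) t θ
  ev_FW : ∀ k n (e : En D) m t θ,
    ev (FW (gam zm k n) e m) t θ = FP e (zr zm k n t, θ) fun i => ev (m i) t θ
  dEW : ∀ k n (e : En D), Differentiable ℂ (EW (gam zm k n) e)
  dEE : ∀ k n (e : En D), Differentiable ℂ (EE (gam zm k n) e)
  dEP : ∀ (e : En D) q, Differentiable ℂ (EP e q)
  ev_dEW : ∀ k n (e : En D) m v t θ, ev (fderiv ℂ (EW (gam zm k n) e) m v) t θ =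
    fderiv ℂ (EP e (zr zm k n t, θ)) (fun i => ev (m i) t θ) fun i => ev (v i) t θ
  EE_res : ∀ k' k n n' (e : En D) j, k' ≤ k → k ≤ n → n ≤ n' →
    EE (gam zm k n) e (Res k n j) = resW k n (EE (gam zm k' n') e j)
  dEE_res : ∀ k' k n n' (e : En D) j v, k' ≤ k → k ≤ n → n ≤ n' →
    fderiv ℂ (EE (gam zm k n) e) (Res k n j) (Res k n v) =
      resW k n (fderiv ℂ (EE (gam zm k' n') e) j v)
  EP_cj : ∀ (e : En D) q m, EP e q (star m) = star (EP e q m)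
  jet_cj : ∀ k n (e : En D) (j : EJ), (ctr (gam zm k n) e).IsJet j → (ctr (gam zm k n) e).IsJet j.cj
  piT_cj : ∀ k n (e : En D) (j : EJ), piT (gam zm k n) e j.cj = W.cj (piT (gam zm k n) e j)
  piT_lin : ∀ k n (e : En D), IsLinearMap ℂ (piT (gam zm k n) e)
  piT_res : ∀ k' k n (e : En D) j, k' ≤ k → k ≤ n → (ctr (gam zm k' n) e).IsJet j →
    piT (gam zm k n) e (Res k n j) = piT (gam zm k' n) e j ∧
      End.tr 1 (Res k n j).y2 = End.tr 1 j.y2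
  loc : ∀ k n (e : En D) j, k ≤ n → (ctr (gam zm k n) e).IsJet j →
    (∀ ζ ∈ Icc (zm + n) (TT zm n), ∀ θ, ev j.y (tt zm ζ) θ = 0) →
    End.tr 1 j.y2 = 0 ∧ piT (gam zm k n) e j = 0
  start : ∀ k n (e : En D) j, k ≤ n → (ctr (gam zm k n) e).IsJet j →
    End.tr (tau k) j.y2 = End.tr 0 j.y2
  c2 : ∀ (k n : ℕ) (e : En D) j (q : R2), (ctr (gam zm k n) e).IsJet j →
    q.1 ∈ Ioo (zm + k) (TT zm n) →
    ContDiffAt ℝ 2 (fun z : R2 => ev j.y (tt zm z.1) z.2) q ∧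
      jet2 (fun z : R2 => ev j.y (tt zm z.1) z.2) q = jev zm (ctr (gam zm k n) e) j q
  closed : ∀ Γ : Ctr, IsClosed (JS Γ : Set EJ)
  cpt : ∀ k n (e : En D) (T : JS (ctr (gam zm k n) e) →L[ℂ] J2 WB),
    (∀ j, T j = T1 (jw (ctr (gam zm k n) e) j.1)) → IsCompactOperator T
  int : ∀ (k n : ℕ) (h : ℝ → ℂ), k ≤ n → ContinuousOn h (Icc (zm + k) (TT zm n)) →
    ∫ t in (0 : ℝ)..1, (gr k n t : ℝ) * h (zr zm k n t) = ∫ ζ in (zm + k)..TT zm n, h ζ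
  toW : ∀ (k n : ℕ) (F : R2 → ℂ), k ≤ n → (∀ q : R2, zm + k ≤ q.1 → ContDiffAt ℝ 2 F q) →
    (∀ ζ θ, F (ζ, θ + 2 * Real.pi) = F (ζ, θ)) →
    ∃ f : WB, ∀ t θ, ev f t θ = F (zr zm k n t, θ)

def PathStmt : Prop := ∀ (w : E3 → ℝ) (D : EndData w) (zm : ℝ), 1000 ≤ zm → PathF D zm

/-! ### Jets -/

/-- jets of base data -/
def IsBase {D : EndData w} (b : J2 (WW D)) : Prop := ∀ k, (b k).1 = 0 ∧ (b k).2.2.2.2 = 0

/-- the jet of the function one -/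
def j1 : J2 ℂ := ![1, 0, 0, 0, 0, 0]

/-- algebraic facts about the operators on jets -/
structure JetF (D : EndData w) : Prop where
  leib : ∀ (f g : R2 → ℂ) y, ContDiffAt ℝ 2 f y → ContDiffAt ℝ 2 g y →
    jet2 (fun z => f z * g z) y = jmul (jet2 f y) (jet2 g y)
  jz_eq : ∀ (f : ℝ → ℝ) (q : R2), ContDiffAt ℝ 2 f q.1 → jet2 (fun z : R2 => (f z.1 : ℂ)) q = jz f q.1
  smG : ContDiff ℂ ∞ (Gm (D := D))
  smX : ContDiff ℂ ∞ (xJ (D := D))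
  chain : ∀ (F : R2 → WW D) y, ContDiffAt ℝ 2 F y → xJ (jet2 F y) = jet2 (fun z => Gm (F z)) y
  dchain : ∀ (F H : R2 → WW D) y, ContDiffAt ℝ 2 F y → ContDiffAt ℝ 2 H y →
    fderiv ℂ xJ (jet2 F y) (jet2 H y) = jet2 (fun z => fderiv ℂ Gm (F z) (H z)) y
  opn : IsOpen (Om D)
  dMh : DifferentiableOn ℂ Mh (Om D)
  dkap : DifferentiableOn ℂ kap (Om D)
  dlam : DifferentiableOn ℂ lam (Om D)
  smL : ContDiffOn ℂ ∞ Lh (Om D)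
  Lh_eq : ∀ b ∈ Om D, ∀ m, Lh b m = fderiv ℂ Mh b (emb 0 m)
  xJ_base : ∀ b : J2 (WW D), IsBase b → xJ b = pJ b
  aff : ∀ (b : J2 (WW D)) c m m' (t : ℂ), T1 m = T1 m' → Mh (b + emb c (t • m + (1 - t) • m')) =
    t * Mh (b + emb c m) + (1 - t) * Mh (b + emb c m')
  low : ∀ (b : J2 (WW D)) c m m', T1 m = T1 m' → kap (b + emb c m) = kap (b + emb c m') ∧
    lam (b + emb c m) = lam (b + emb c m') ∧ (b + emb c m ∈ Om D → b + emb c m' ∈ Om D)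
  prin_eq : ∀ b ∈ Om D, IsBase b → ∀ m, Lh b m = Lh b (T1 m) + prin (pJ b) m
  Lh_mul : ∀ b ∈ Om D, IsBase b → ∀ f m, Lh b (jmul f m) =
    f 0 * Lh b m + 2 * ginv (pJ b) f m + m 0 * (Lh b f - f 0 * Lh b j1)
  cj : ∀ a : J2 (WW D), Mh (star a) = star (Mh a) ∧
    (a ∈ Om D → star a ∈ Om D ∧ kap (star a) = star (kap a) ∧ lam (star a) = star (lam a))
  Lh_cj : ∀ b ∈ Om D, star b = b → ∀ m, Lh b (star m) = star (Lh b m)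
  dlam_eq : ∀ a ∈ Om D, ∀ c m,
    fderiv ℂ lam a (emb c m) = dlag (pJ a) (xJ a) (fderiv ℂ xJ a (emb c m))
  dlag_smul : ∀ (b j : J2 C3) (f : R2 → ℂ) (Y : R2 → C3) y, ContDiffAt ℝ 2 f y →
    ContDiffAt ℝ 2 Y y → dlag b j (jet2 (fun z => f z • Y z) y) =
      f y * dlag b j (jet2 Y y) + flx b j (jet2 f y 1) (jet2 f y 2) ⬝ᵥ Y y
  dG0 : ∀ (a : WW D) c (u : ℂ), a.2.1 = 0 → fderiv ℂ Gm a (c, 0, 0, 0, u) = u • a.2.2.2.1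
  eul_eq : ∀ a ∈ Om D, ∀ u : ℂ, eul (pJ a) (xJ a) (u • nV a) * kap a =
    Mh a * u * (eG (pJ a) * det3 (pJ a 1) (pJ a 2) (nV a) ^ 2 / dg (pJ a))
  kap_ne : ∀ a ∈ Om D, kap a ≠ 0
  eul_zero : ∀ a ∈ Om D, Mh a = 0 → ∀ Y, eul (pJ a) (xJ a) Y = 0

def JetStmt : Prop := ∀ (w : E3 → ℝ) (D : EndData w), JetF D

/-! ### Invariance -/

variable {D : EndData w}

/-- independence of the patch, the base point, rotations -/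
structure InvF (G : Geo D) (zm : ℝ) : Prop where
  trans : ∀ (P P' : Patch (SS w)) y y', y ∈ P.O → y' ∈ P'.O → P.φ y = P'.φ y' →
    ContDiffAt ℝ ∞ (fun z => P.ι (P'.φ z)) y' ∧ ∀ᶠ z in 𝓝 y', P.φ (P.ι (P'.φ z)) = P'.φ z
  nhds : ∀ (P : Patch (SS w)), ∀ y ∈ P.O, map P.φ (𝓝 y) = 𝓝[SS w] (P.φ y)
  base : ∀ (P : Patch (SS w)), ∀ y ∈ P.O, IsBase (G.bJ zm P.φ y) ∧ G.bJ zm P.φ y ∈ Om D ∧
    star (G.bJ zm P.φ y) = G.bJ zm P.φ y ∧ pJ (G.bJ zm P.φ y) = jS P.φ y ∧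
    nV (G.bJ zm P.φ y) = cx (G.nn (P.φ y)) ∧ Mh (G.bJ zm P.φ y) = 0 ∧ kap (G.bJ zm P.φ y) = 1 ∧
    ContDiffAt ℝ ∞ (G.bJ zm P.φ) y
  pos : ∀ (P : Patch (SS w)), ∀ y ∈ P.O, ∃ a b c : ℝ, g11 (jS P.φ y) = a ∧ g12 (jS P.φ y) = b ∧
    g22 (jS P.φ y) = c ∧ 0 < a ∧ 0 < c ∧ b ^ 2 < a * c
  jet_eq : ∀ (P : Patch (SS w)), ∀ y ∈ P.O, ∀ c (u : E3 → ℂ),
    ContDiffAt ℝ 2 (fun z => u (P.φ z)) y → G.bJ zm P.φ y + emb c (jet2 (fun z => u (P.φ z)) y) =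
      jet2 (fun z => G.bW zm (P.φ z) + (c, 0, 0, 0, u (P.φ z))) y
  inv : ∀ (P : Patch (SS w)), ∀ y ∈ P.O, ∀ c (u : E3 → ℂ), ContDiffAt ℝ 2 (fun z => u (P.φ z)) y →
    ∀ a, a = G.bJ zm P.φ y + emb c (jet2 (fun z => u (P.φ z)) y) →
    (G.aG zm c u (P.φ y) ∈ Om D ↔ a ∈ Om D) ∧ Mh (G.aG zm c u (P.φ y)) = Mh a ∧
      kap (G.aG zm c u (P.φ y)) = kap a ∧ lam (G.aG zm c u (P.φ y)) = lam a
  LG_eq : ∀ (P : Patch (SS w)), ∀ y ∈ P.O, ∀ u : E3 → ℂ, ContDiffAt ℝ 2 (fun z => u (P.φ z)) y →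
    G.LG zm u (P.φ y) = Lh (G.bJ zm P.φ y) (jet2 (fun z => u (P.φ z)) y)
  gG_eq : ∀ (P : Patch (SS w)), ∀ y ∈ P.O, ∀ u v : E3 → ℂ, ContDiffAt ℝ 2 (fun z => u (P.φ z)) y →
    ContDiffAt ℝ 2 (fun z => v (P.φ z)) y → G.gG u v (P.φ y) =
      ginv (jS P.φ y) (jet2 (fun z => u (P.φ z)) y) (jet2 (fun z => v (P.φ z)) y)
  var_eq : ∀ (P : Patch (SS w)), ∀ y ∈ P.O, ∀ X Y : E3 → C3,
    ContDiffAt ℝ 2 (fun z => X (P.φ z)) y → ContDiffAt ℝ 2 (fun z => Y (P.φ z)) y →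
    dg (G.jG X (P.φ y)) / dg (G.jG cx (P.φ y)) =
      dg (jet2 (fun z => X (P.φ z)) y) / dg (jS P.φ y) ∧
    G.dlagG X Y (P.φ y) =
      dlag (jS P.φ y) (jet2 (fun z => X (P.φ z)) y) (jet2 (fun z => Y (P.φ z)) y) ∧
    G.eulG X Y (P.φ y) = eul (jS P.φ y) (jet2 (fun z => X (P.φ z)) y) (Y (P.φ y)) ∧
    G.flxG X Y (P.φ y) = flx (jS P.φ y) (jet2 (fun z => X (P.φ z)) y)
      (jet2 (fun z => (G.σ (P.φ z) : ℂ)) y 1) (jet2 (fun z => (G.σ (P.φ z) : ℂ)) y 2) ⬝ᵥ Y (P.φ y)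
  om_eq : ∀ (P : Patch (SS w)), ∀ y ∈ P.O, ((G.om (P.φ y) : ℝ) : ℂ) = eG (jS P.φ y) *
    det3 (jS P.φ y 1) (jS P.φ y 2) (cx (G.nn (P.φ y))) ^ 2 / dg (jS P.φ y)
  om_pos : ∀ p, w p = 0 → 0 < G.om p
  om_cont : ContinuousOn G.om (SS w)
  cont : ∀ u v : E3 → ℂ, C2S w u → C2S w v → ContinuousOn u (SS w) ∧
    ContinuousOn (G.LG zm u) (SS w) ∧ ContinuousOn (G.gG u v) (SS w)
  per : ∀ (e : En D) ζ θ, pt e (ζ, θ + 2 * Real.pi) = pt e (ζ, θ)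
  lift_pt : ∀ (V : Type) [Zero V] (e e' : En D) (F : R2 → V) (q : R2), G.z0 < q.1 →
    (∀ θ, F (q.1, θ + 2 * Real.pi) = F (q.1, θ)) → G.lift e F (pt e' q) = if e = e' then F q else 0
  lift_lo : ∀ (V : Type) [Zero V] (e : En D) (F : R2 → V) p, G.σ p ≤ G.z0 → G.lift e F p = 0
  lift_ck : ∀ (k : WithTop ℕ∞) (e : En D) (F : R2 → ℂ) (R : ℝ), k ≤ ∞ →
    (∀ ζ θ, F (ζ, θ + 2 * Real.pi) = F (ζ, θ)) → (∀ q : R2, q.1 < G.z0 + 1 → F q = 0) →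
    (∀ q : R2, G.z0 < q.1 → q.1 < R → ContDiffAt ℝ k F q) → ∀ (P : Patch (SS w)), ∀ y ∈ P.O,
      G.σ (P.φ y) < R → ContDiffAt ℝ k (fun z => G.lift e F (P.φ z)) y

def InvStmt : Prop := ∀ (w : E3 → ℝ) (D : EndData w) (G : Geo D) (zm : ℝ), InvF G zm

/-- the infinitesimal rotations -/
def RotStmt : Prop := ∀ (w : E3 → ℝ) (D : EndData w) (G : Geo D) (zm : ℝ), G.z0 + 1 ≤ zm →
  ∀ c, C2S w (G.rotN zm c) ∧ G.Mod (G.rotN zm c) ∧ ∀ (P : Patch (SS w)), ∀ y ∈ P.O,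
    fderiv ℂ Mh (G.bJ zm P.φ y) (emb c 0) = G.LG zm (G.rotN zm c) (P.φ y)

/-- the linearised operator is the Jacobi operator -/
def JacStmt : Prop := ∀ (w : E3 → ℝ) (D : EndData w) (G : Geo D) (zm : ℝ) (W : E3 → ℝ) (c K : ℝ),
  Vale.Agent.P218N.G.Tube0 W c K → (∀ p, W p = 0 ↔ w p = 0) → (∀ p, w p = 0 → grad W p = nuW w p) →
  ∀ u ζ : E3 → ℝ, ContDiff ℝ 2 ζ → (∀ p, w p = 0 → ζ p = ⟪G.nn p, nuW w p⟫ * u p) →
    ∀ p, w p = 0 → ((jac W ζ p : ℝ) : ℂ) =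
      (⟪G.nn p, nuW w p⟫ : ℝ) * G.LG zm (fun x => (u x : ℂ)) p

/-! ### The ends -/

/-- the operators in the coordinates of the ends -/
structure EndF (G : Geo D) (zm : ℝ) : Prop where
  pos : ∀ (e : En D) (q : R2), G.z0 < q.1 → ∃ r : ℝ, 0 < r ∧ FP e q (jy e q) = r
  eq : ∀ (e : En D) (q : R2) c m, G.z0 < q.1 → (c = 0 ∨ zm + 3 ≤ q.1) →
    Mh (G.bJ zm (pt e) q + emb c ((G.s e : ℂ) • m)) * FP e q (jy e q) =
      G.s e * EP e q (jy e q + m)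
  lin : ∀ (e : En D) (q : R2) m, G.z0 < q.1 →
    Lh (G.bJ zm (pt e) q) m * FP e q (jy e q) = fderiv ℂ (EP e q) (jy e q) m
  lag : ∀ (e : En D) (q : R2) c m, G.z0 < q.1 → zm + 3 ≤ q.1 →
    lam (G.bJ zm (pt e) q + emb c ((G.s e : ℂ) • m)) * Complex.sqrt (dg (jS (pt e) q)) =
      lagE e q (jy e q + m)
  flux : ∀ (e : En D) (q : R2) c dc m (dy : ℂ), G.z0 < q.1 → zm + 3 ≤ q.1 →
    ∀ a, a = G.bJ zm (pt e) q + emb c ((G.s e : ℂ) • m) → a ∈ Om D →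
    flx (pJ a) (xJ a) 1 0 ⬝ᵥ fderiv ℂ Gm (a 0) (dc, 0, 0, 0, G.s e * dy) *
      Complex.sqrt (dg (jS (pt e) q)) =
      fluxE e q (jy e q + m) dy + tqE e q (jy e q + m) fun b => al (c b) (dc b)

def EndFStmt : Prop := ∀ (w : E3 → ℝ) (D : EndData w) (G : Geo D) (zm : ℝ), EndF G zm

/-! ### Integration -/

/-- the area measure, the first variation formula -/
structure VarF (G : Geo D) : Prop where
  fin : IsFiniteMeasureOnCompacts (muS w)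
  int : ∀ f : E3 → ℂ, ContinuousOn f (SS w) → Bdd w f → Integrable f (muS w)
  pos : ∀ f : E3 → ℝ, ContinuousOn f (SS w) → Bdd w f → (∀ p, w p = 0 → 0 ≤ f p) →
    ∫ p, f p ∂(muS w) = 0 → ∀ p, w p = 0 → f p = 0
  chart : ∀ (P : Patch (SS w)) (K : Set R2) (f : E3 → ℂ), K ⊆ P.O → MeasurableSet K →
    ContinuousOn f (SS w) → ∫ p in P.φ '' K, f p ∂(muS w) = ∫ y in K, f (P.φ y) * Complex.sqrt (dg (jS P.φ y))
  ends : ∀ (f : E3 → ℂ) (a b : ℝ), ContinuousOn f (SS w) → G.z0 < a → a ≤ b →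
    (∀ p, w p = 0 → G.σ p ∉ Icc a b → f p = 0) → ∫ p, f p ∂(muS w) =
      ∑ e : En D, ∫ ζ in a..b, ∫ θ in (0 : ℝ)..2 * Real.pi,
        f (pt e (ζ, θ)) * Complex.sqrt (dg (jS (pt e) (ζ, θ)))
  fv : ∀ (X Y : E3 → C3) (R : ℝ), C2S w X → C2S w Y → (∀ p, w p = 0 → R < G.σ p → Y p = 0) →
    (∀ p, w p = 0 → G.σ p ≤ R + 1 / 10 → dg (G.jG X p) / dg (G.jG cx p) ∈ Complex.slitPlane) →
    ∫ p, G.dlagG X Y p ∂(muS w) = -∫ p, G.eulG X Y p ∂(muS w)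
  cont : ∀ (X Y : E3 → C3) (f : E3 → ℂ) (R : ℝ), C2S w X → C2S w Y → ContinuousOn f (SS w) →
    (∀ p, w p = 0 → R < G.σ p → f p = 0) →
    (∀ p, w p = 0 → G.σ p ≤ R + 1 / 10 → dg (G.jG X p) / dg (G.jG cx p) ∈ Complex.slitPlane) →
    ContinuousOn (fun p => f p * G.dlagG X Y p) (SS w) ∧
      ContinuousOn (fun p => f p * G.flxG X Y p) (SS w)

def VarStmt : Prop := ∀ (w : E3 → ℝ) (D : EndData w) (G : Geo D), VarF G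

/-- Green's formulas -/
structure GreenF (G : Geo D) (zm : ℝ) : Prop where
  sym : ∀ u v : E3 → ℂ, C2S w u → C2S w v → Bdd w v → G.ip (G.LG zm u) v = G.ip u (G.LG zm v)
  inf : ∀ u v : E3 → ℂ, C2S w u → C2S w v → G.Mod u → G.Mod v → Bdd w (G.LG zm u) →
    Bdd w (G.LG zm v) → G.ip (G.LG zm u) v = G.ip u (G.LG zm v)
  neg : ∀ (u : E3 → ℂ) (k : ℕ), C2S w u → G.Mod u → Bdd w (G.LG zm u) →
    (∀ p, w p = 0 → (cut zm k (G.σ p) : ℝ) * G.LG zm u p = 0) →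
    ∀ f : E3 → ℂ, (f = fun p => ((cut zm k (G.σ p) : ℝ) : ℂ)) →
    C2S w (f * u) ∧ G.Mod (f * u) ∧ Bdd w (G.LG zm (f * u)) ∧
      G.ip (f * u) (G.LG zm (f * u)) = -G.ip (u * u) (G.gG f f)

def GreenStmt : Prop := ∀ (w : E3 → ℝ) (D : EndData w) (G : Geo D) (zm : ℝ), GreenF G zm

/-- the maximum principle on the ends -/
def MaxStmt : Prop := ∀ (w : E3 → ℝ) (D : EndData w) (G : Geo D), ∃ z1 : ℝ, ∀ zm, z1 ≤ zm →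
  ∀ u : E3 → ℂ, C2S w u → G.Mod u → (∀ p, w p = 0 → zm ≤ G.σ p → G.LG zm u p = 0) →
    (∀ p, w p = 0 → G.σ p ≤ zm + 1 / 3 → u p = 0) → ∀ p, w p = 0 → u p = 0

/-! ### Hölder spaces -/

section hol
variable {Y : Type} {ϖ : Y → Y → ℝ≥0} {A B : Type} [NormedAddCommGroup A] [NormedSpace ℂ A]
  [NormedAddCommGroup B] [NormedSpace ℂ B]

/-- composition with a linear map -/
def mapC (T : A →L[ℂ] B) : Hol ϖ A →L[ℂ] Hol ϖ B :=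
  LinearMap.mkContinuous ⟨⟨Hol.map (T.restrictScalars ℝ), map_add _⟩,
    fun z f => Hol.ext fun x => T.map_smul z (f x)⟩ ‖T‖
    fun f => Hol.norm_map_le (T.restrictScalars ℝ) f

@[simp] theorem mapC_apply (T : A →L[ℂ] B) (f : Hol ϖ A) (x : Y) : mapC T f x = T (f x) := rfl

end hol

section X
variable {X : Type} [TopologicalSpace X] [ChartedSpace R2 X]

/-- the function -/
def Uv (𝒞 : Cov R2 X) : UU 𝒞 →L[ℂ] HH 𝒞 ℂ :=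
  (ContinuousLinearMap.fst ℂ _ _).comp (UU 𝒞).subtypeL
/-- the components of the cut off jets -/
def Uj (𝒞 : Cov R2 X) (i : Fin 𝒞.N) (k : Fin 6) : UU 𝒞 →L[ℂ] HH 𝒞 ℂ :=
  (mapC (ContinuousLinearMap.proj k)).comp ((ContinuousLinearMap.proj i).comp
    ((ContinuousLinearMap.snd ℂ _ _).comp (UU 𝒞).subtypeL))

/-- positive definite coefficients -/
structure Coef {𝒞 : Cov R2 X} (ρ : Pou 𝒞) (a : Fin 𝒞.N → Fin 3 → X → ℂ) : Prop where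
  real : ∀ i k x, (a i k x).im = 0
  spt : ∀ i k x, ρ.ρ i x = 0 → a i k x = 0
  pos : ∀ i x, ρ.ρ i x ≠ 0 → 0 < (a i 0 x).re ∧ (a i 1 x).re ^ 2 < (a i 0 x).re * (a i 2 x).re

/-- the linear theory on a compact surface -/
structure HolF (𝒞 : Cov R2 X) (ρ : Pou 𝒞) : Prop where
  complete : CompleteSpace (UU 𝒞)
  cj : ∀ v : UU 𝒞, ∃ v' : UU 𝒞, ‖v'‖ = ‖v‖ ∧ ∀ x, Uv 𝒞 v' x = star (Uv 𝒞 v x)
  lip : ∀ (E : Type) [NormedAddCommGroup E] [NormedSpace ℂ E] (T : E → X → ℂ) (C : ℝ),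
    (∀ x, IsLinearMap ℂ fun v => T v x) → (∀ v x, ‖T v x‖ ≤ C * ‖v‖) →
    (∀ v x y, ‖T v x - T v y‖ ≤ C * ‖v‖ * 𝒞.d x y) →
    ∃ T' : E →L[ℂ] HH 𝒞 ℂ, IsCompactOperator T' ∧ ∀ v x, T' v x = T v x
  cpt0 : IsCompactOperator (Uv 𝒞)
  cpt1 : ∀ i (k : Fin 6), k.1 < 3 → IsCompactOperator (Uj 𝒞 i k)
  ell : ∀ a : Fin 𝒞.N → Fin 3 → HH 𝒞 ℂ, Coef ρ (fun i k => a i k) → Function.Bijective
    fun v : UU 𝒞 => ∑ i, (a i 0 * Uj 𝒞 i 3 v + 2 * (a i 1 * Uj 𝒞 i 4 v) + a i 2 * Uj 𝒞 i 5 v) -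
      Uv 𝒞 v
  max : ∀ a : Fin 𝒞.N → Fin 3 → X → ℂ, Coef ρ a → ∀ (d : X → ℂ) (Ω : Set X), Continuous d →
    (∀ x ∉ Ω, d x = 0) → (∀ x ∈ Ω, ∀ i, ρ.ρ i x ≠ 0 →
      ContDiffAt ℝ 2 (fun y => d ((𝒞.e i).symm y)) (𝒞.e i x)) →
    (∀ x ∈ Ω, ∑ i, (a i 0 x * jc 𝒞 i d x 3 + 2 * (a i 1 x * jc 𝒞 i d x 4) +
      a i 2 x * jc 𝒞 i d x 5) = d x) → ∀ x, d x = 0

end X

def HolStmt : Prop := ∀ (X : Type) [TopologicalSpace X] [ChartedSpace R2 X] [T2Space X]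
  [CompactSpace X] [RSm R2 X] (𝒞 : Cov R2 X) (ρ : Pou 𝒞), HolF 𝒞 ρ

/-- holomorphic Nemytskii operators -/
def NemStmt : Prop := ∀ (Y : Type) (ϖ : Y → Y → ℝ≥0) (A : Type) [NormedAddCommGroup A]
  [NormedSpace ℂ A] [FiniteDimensional ℂ A] (ρ : Hol ϖ ℂ) (f₀ : Hol ϖ A) (K O : Set A) (F : A → ℂ),
  IsCompact K → IsOpen O → K ⊆ O → DifferentiableOn ℂ F O → (∀ x, ρ x ≠ 0 → f₀ x ∈ K) →
  ∃ r > 0, DifferentiableOn ℂ (nemH ρ F : Hol ϖ A → Hol ϖ ℂ) (ball f₀ r) ∧ ∀ f ∈ ball f₀ r, ∀ x,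
    (ρ x ≠ 0 → f x ∈ O) ∧ nemH ρ F f x = ρ x * F (f x) ∧
      ∀ h, fderiv ℂ (nemH ρ F : Hol ϖ A → Hol ϖ ℂ) f h x = ρ x * fderiv ℂ F (f x) (h x)

/-- abstract functional analysis -/
structure AbsF (P E : Type) [NormedAddCommGroup P] [NormedSpace ℂ P] [NormedAddCommGroup E]
    [NormedSpace ℂ E] : Prop where
  fin : ∀ K : E →L[ℂ] E, IsCompactOperator K →
    FiniteDimensional ℂ (LinearMap.ker ((1 + K : E →L[ℂ] E) : E →ₗ[ℂ] E))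
  fred : ∀ K : E →L[ℂ] E, IsCompactOperator K → (∀ x, x + K x = 0 → x = 0) →
    ∃ L : E ≃L[ℂ] E, (L : E →L[ℂ] E) = 1 + K
  pert : ∀ (L : E ≃L[ℂ] E) (T : ℕ → E →L[ℂ] E), Tendsto T atTop (𝓝 (L : E →L[ℂ] E)) →
    ∃ C : ℝ, 0 ≤ C ∧ ∀ᶠ n in atTop, ∃ L' : E ≃L[ℂ] E, (L' : E →L[ℂ] E) = T n ∧
      ∀ x, ‖L'.symm x‖ ≤ C * ‖x‖ ∧ ‖L'.symm x - L.symm x‖ ≤ C * ‖T n - L‖ * ‖x‖
  ift : ∀ (Φ : P × E → E) (r : ℝ) (L : E ≃L[ℂ] E), 0 < r → DifferentiableOn ℂ Φ (ball 0 r) →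
    Φ 0 = 0 → (∀ v, fderiv ℂ Φ 0 (0, v) = L v) → ∃ r₁ > 0, ∃ r₂ > 0, ∃ x : P → E,
      r₁ ≤ r ∧ r₂ ≤ r ∧ DifferentiableOn ℂ x (ball 0 r₁) ∧ x 0 = 0 ∧
      (∀ p ∈ ball (0 : P) r₁, ‖x p‖ < r₂ ∧ Φ (p, x p) = 0 ∧
        ∀ y, ‖y‖ < r₂ → Φ (p, y) = 0 → y = x p) ∧
      ∀ p, fderiv ℂ x 0 p = -L.symm (fderiv ℂ Φ 0 (p, 0))
  basis : ∀ (K : Submodule ℂ E) (J : E → E), FiniteDimensional ℂ K →
    (∀ u v, J (u + v) = J u + J v) → (∀ (r : ℝ) u, J ((r : ℂ) • u) = (r : ℂ) • J u) →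
    ∃ (n : ℕ) (k : Fin n → E), (∀ i, k i ∈ K ∧ J (k i) = k i) ∧
      (∀ r : Fin n → ℝ, ∑ i, (r i : ℂ) • k i = 0 → r = 0) ∧
      ∀ v ∈ K, J v = v → ∃ r : Fin n → ℝ, v = ∑ i, (r i : ℂ) • k i

def AbsStmt : Prop := ∀ (P E : Type) [NormedAddCommGroup P] [NormedSpace ℂ P]
  [NormedAddCommGroup E] [NormedSpace ℂ E] [CompleteSpace E], AbsF P E

/-! ### Existence of the data, transfers -/

def GeoStmt : Prop := ∀ (w : E3 → ℝ) (D : EndData w), Shr w → Nonempty (Geo D)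

def DblStmt : Prop := ∀ (w : E3 → ℝ) (D : EndData w) (G : Geo D) (zm : ℝ), G.z0 + 1 ≤ zm →
  (∃ p, w p = 0) → ∃ (X : Type) (_ : TopologicalSpace X) (_ : ChartedSpace R2 X),
    T2Space X ∧ CompactSpace X ∧ RSm R2 X ∧ Nonempty (Dbl G zm X)

/-- transfers between the double, the surface and the ends -/
structure TransF {G : Geo D} {zm : ℝ} {X : Type} [TopologicalSpace X] [ChartedSpace R2 X]
    (Z : Dbl G zm X) : Prop where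
  dn_pr : ∀ (f : X → ℂ) x, 0 < Z.τ x → Z.dn f (Z.pr x) = f x
  ex : ∀ p, w p = 0 → G.σ p < zm + 8 → ∃ x, Z.pr x = p ∧ 0 < Z.τ x
  dn_ck : ∀ (k : WithTop ℕ∞) (f : X → ℂ), CkFn R2 k f → ∀ (P : Patch (SS w)), ∀ y ∈ P.O,
    G.σ (P.φ y) < zm + 8 → ContDiffAt ℝ k (fun z => Z.dn f (P.φ z)) y
  chart : ∀ i ∈ Z.A, ∀ x ∈ (Z.𝒞.e i).source, Z.𝒞.e i x ∈ (Z.P i).O ∧
    (Z.P i).φ (Z.𝒞.e i x) = Z.pr x ∧ ∀ᶠ y in 𝓝 (Z.𝒞.e i x),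
      Z.pr ((Z.𝒞.e i).symm y) = (Z.P i).φ y ∧ 0 < Z.τ ((Z.𝒞.e i).symm y)
  up_ck : ∀ (k : WithTop ℕ∞) (f : E3 → ℂ), k ≤ ∞ → (∀ (P : Patch (SS w)), ∀ y ∈ P.O,
    G.σ (P.φ y) < zm + 8 → ContDiffAt ℝ k (fun z => f (P.φ z)) y) →
    (∀ p, w p = 0 → zm + 7 ≤ G.σ p → f p = 0) → CkFn R2 k (Z.upF f)
  base : ∀ i ∈ Z.A, CkFn R2 ∞ fun x => Z.𝒞.η i x • G.bJ zm (Z.P i).φ (Z.𝒞.e i x)
  int : ∀ ψ : E3 → ℂ, ContinuousOn ψ (SS w) → (∀ p, w p = 0 → zm + 7 ≤ G.σ p → ψ p = 0) →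
    ∃ l : HH Z.𝒞 ℂ →L[ℂ] ℂ, ∀ f, l f = ∫ p, Z.dn f p * ψ p ∂(muS w)
  toE : ∀ e : En D, ∃ T : UU Z.𝒞 →L[ℂ] J2 WB, IsCompactOperator T ∧ ∀ v k t θ,
    ev (T v k) t θ = T1 (jet2 (fun q => Z.dn (Uv Z.𝒞 v) (pt e q)) (zr zm 3 6 t, θ)) k
  toX : ∀ e : En D, ∃ T : JS (ctr (gam zm 3 6) e) →L[ℂ] J2 (HH Z.𝒞 ℂ), IsCompactOperator T ∧
    ∀ j k x, T j k x = Z.upF (G.lift e fun q =>
      (be2 zm q.1 : ℝ) * T1 (jev zm (ctr (gam zm 3 6) e) j.1 q) k) x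

def TransStmt : Prop := ∀ (w : E3 → ℝ) (D : EndData w) (G : Geo D) (zm : ℝ), G.z0 + 1 ≤ zm →
  1000 ≤ zm → ∀ (X : Type) [TopologicalSpace X] [ChartedSpace R2 X] [T2Space X] [CompactSpace X] [RSm R2 X]
    (Z : Dbl G zm X), TransF Z

/-- the jets of all ends of the surface -/
structure RealEnds (D : EndData w) (jE : En D → Path → EJ) (dS πS : En D → ℝ → WD) (Z C : ℝ) :
    Prop where
  cyl : ∀ b, CylEnd (D.v b) (jE (.inr b)) (dS (.inr b)) (πS (.inr b)) Z C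
  cone : ∀ i, ConeEnd (D.h i) (cc i) (ka i) (kd i) (jE (.inl i)) (dS (.inl i)) (πS (.inl i)) Z C

/-- the linear theory on the ends -/
def BoxStmt : Prop := ∀ (w : E3 → ℝ) (D : EndData w) (jE : En D → Path → EJ)
  (dS πS : En D → ℝ → WD) (Z C : ℝ), RealEnds D jE dS πS Z C → ∃ z1 : ℝ, ∀ zm, z1 ≤ zm →
    ∀ e : En D, ∃ B : EndBox zm e, ∀ n, B.jS n = jE e (gam zm 0 n)

/-- the slow solutions on cylindrical ends -/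
def CylStmt : Prop := ∀ (w : E3 → ℝ) (D : EndData w) (jE : En D → Path → EJ)
  (dS πS : En D → ℝ → WD) (Z C : ℝ), Shr w → RealEnds D jE dS πS Z C → ∃ z1 : ℝ, ∀ zm, z1 ≤ zm →
    ∀ (b : Fin D.b) (B : EndBox (D := D) zm (.inr b)), (∀ n, B.jS n = jE (.inr b) (gam zm 0 n)) →
      Nonempty (CylBox zm b B)

/-- the Gaussian area of an end, cut off in the segment `4` -/
def FE (zm : ℝ) (n : ℕ) (e : En D) (j : EJ) : ℂ := ∫ t in (0 : ℝ)..1,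
  (cut zm 4 (zr zm 4 n t) * gr 4 n t : ℝ) * ∫ θ in (0 : ℝ)..2 * Real.pi,
    lagE e (zr zm 4 n t, θ) fun k => ev (jw (ctr (gam zm 4 n) e) j k) t θ

/-- the torque on an end -/
def TqE (γ : Path) : En D → EJ → ℝ → (Fin D.b → C3) → ℂ
  | .inl _, _, _, _ => 0
  | .inr b, j, t, α => TqCyl γ 0 j t (α b)

/-- the first variation on the ends, the conservation of the torque -/
def LagStmt : Prop := ∀ (w : E3 → ℝ) (D : EndData w), ∃ z1 : ℝ, ∀ zm, z1 ≤ zm →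
  ∀ (e : En D) (B : EndBox zm e) (n : ℕ), 4 ≤ n → ∃ r > 0,
    DifferentiableOn ℂ (FE zm n e) (ball (Res 4 n (B.jS n)) r) ∧
    ∀ j ∈ ball (Res 4 n (B.jS n)) r, (ctr (gam zm 4 n) e).IsJet j → EE (gam zm 4 n) e j = 0 →
      (∀ t α, TqE (gam zm 4 n) e j t α = TqE (gam zm 4 n) e j 1 α) ∧
      ∀ v, (ctr (gam zm 4 n) e).IsJet v → fderiv ℂ (FE zm n e) j v =
        FluxE (gam zm 4 n) e j 1 v.y - ∫ t in (0 : ℝ)..1,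
          (deriv (cut zm 4) (zr zm 4 n t) * gr 4 n t : ℝ) * FluxE (gam zm 4 n) e j t v.y

end Vale.Agent.P218N.Core
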