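import Vale.Agent.P218N.Core.Inv

/-! The derivative of the shrinker operator; tangential variations do not change it. -/

open Set Filter Topology
open scoped RealInnerProductSpace ContDiff Matrix

noncomputable section

namespace Vale.Agent.P218N.Core.Tn

open Vale.Agent.P218.H313 Vale.Agent.P218N.H Vale.Agent.P218N.End

/-! ### algebra -/

/-- the vector `adj(g)^{ab} X_ab + det g X / 2` -/
def Tv (j : J2 C3) : C3 := g22 j • j 3 - (2 * g12 j) • j 4 + g11 j • j 5 + (dg j / 2) • j 0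

/-- its derivative -/
def dTv (j k : J2 C3) : C3 :=
  (g22 j • k 3 - (2 * g12 j) • k 4 + g11 j • k 5 + (dg j / 2) • k 0) +
  ((2 * (j 2 ⬝ᵥ k 2)) • j 3 - (2 * (j 1 ⬝ᵥ k 2 + j 2 ⬝ᵥ k 1)) • j 4 + (2 * (j 1 ⬝ᵥ k 1)) • j 5 +
    (j 1 ⬝ᵥ k 1 * g22 j + g11 j * (j 2 ⬝ᵥ k 2) - g12 j * (j 1 ⬝ᵥ k 2 + j 2 ⬝ᵥ k 1)) • j 0)

/-- the derivative of `Mp` -/
def dMp (j k : J2 C3) : ℂ :=
  det3 (k 1) (j 2) (Tv j) + det3 (j 1) (k 2) (Tv j) + det3 (j 1) (j 2) (dTv j k)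

theorem hasDerivAt_det3 {X Y Z : ℂ → C3} {X' Y' Z' : C3} {t : ℂ} (hX : HasDerivAt X X' t)
    (hY : HasDerivAt Y Y' t) (hZ : HasDerivAt Z Z' t) :
    HasDerivAt (fun t => det3 (X t) (Y t) (Z t))
      (det3 X' (Y t) (Z t) + det3 (X t) Y' (Z t) + det3 (X t) (Y t) Z') t := by
  have x := hasDerivAt_pi.1 hX
  have y := hasDerivAt_pi.1 hY
  have z := hasDerivAt_pi.1 hZ
  simp only [JA.det3_eq]
  exact (((((x 1).mul (y 2)).sub ((x 2).mul (y 1))).mul (z 0)).add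
    ((((x 2).mul (y 0)).sub ((x 0).mul (y 2))).mul (z 1))).add
    ((((x 0).mul (y 1)).sub ((x 1).mul (y 0))).mul (z 2)) |>.congr_deriv (by
      simp only [Pi.sub_apply, Pi.mul_apply]; ring)

theorem hasDerivAt_Mp {X : ℂ → J2 C3} {k : J2 C3} {t : ℂ} (hX : HasDerivAt X k t) :
    HasDerivAt (fun t => Mp (X t)) (dMp (X t) k) t := by
  have x := hasDerivAt_pi.1 hX
  have a := JA.hasDerivAt_dot (x 1) (x 1)
  have b := JA.hasDerivAt_dot (x 1) (x 2)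
  have c := JA.hasDerivAt_dot (x 2) (x 2)
  have d := (((c.smul (x 3)).sub ((b.const_mul 2).smul (x 4))).add (a.smul (x 5))).add
    ((((a.mul c).sub (b.pow 2)).div_const 2).smul (x 0))
  refine (hasDerivAt_det3 (x 1) (x 2) d).congr_deriv ?_
  rw [dMp]
  congr 2
  simp only [dTv, dg, g11, g12, g22, dotProduct_comm (k _), Pi.sub_apply, Pi.mul_apply,
    Pi.pow_apply]
  module

theorem fderiv_Mp (j k : J2 C3) : fderiv ℂ Mp j k = dMp j k := by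
  have d : HasDerivAt (fun t : ℂ => j + t • k) k 0 := by
    simpa using ((hasDerivAt_id (0 : ℂ)).smul_const k).const_add j
  have h := hasDerivAt_Mp d
  rw [zero_smul, add_zero] at h
  exact (JA.hasDerivAt_line (JA.sm_Mp.differentiable (by simp) j) k).unique h

theorem dMp_add (j k k' : J2 C3) : dMp j (k + k') = dMp j k + dMp j k' := by
  simp only [← fderiv_Mp, map_add]

theorem dMp_smul (j k : J2 C3) (s : ℂ) : dMp j (s • k) = s * dMp j k := by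
  simp only [← fderiv_Mp, map_smul, smul_eq_mul]

/-- the Leibniz rule for a scalar and a vector -/
def jsm (a : J2 ℂ) (b : J2 C3) : J2 C3 :=
  ![a 0 • b 0, a 1 • b 0 + a 0 • b 1, a 2 • b 0 + a 0 • b 2,
    a 3 • b 0 + (2 * a 1) • b 1 + a 0 • b 3, a 4 • b 0 + a 1 • b 2 + a 2 • b 1 + a 0 • b 4,
    a 5 • b 0 + (2 * a 2) • b 2 + a 0 • b 5]

theorem jet2_smul {f : R2 → ℂ} {Y : R2 → C3} {y : R2} (hf : ContDiffAt ℝ 2 f y)
    (hY : ContDiffAt ℝ 2 Y y) : jet2 (fun z => f z • Y z) y = jsm (jet2 f y) (jet2 Y y) := by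
  refine (JA.jet2_bil (ContinuousLinearMap.lsmul ℝ ℂ) hf hY).trans ?_
  ext1 k
  fin_cases k <;> simp [JA.jbil, jsm] <;> module

/-- variations by reparametrisation -/
theorem dMp_rep (j p q : J2 C3) (a b : J2 ℂ) (p0 : p 0 = j 1) (p1 : p 1 = j 3) (p2 : p 2 = j 4)
    (q0 : q 0 = j 2) (q1 : q 1 = j 4) (q2 : q 2 = j 5) :
    dMp j (jsm a p + jsm b q) = a 0 * dMp j p + b 0 * dMp j q + 3 * (a 1 + b 2) * Mp j := by
  have e : jsm a p + jsm b q = a 0 • p + b 0 • q + ![0, a 1 • j 1 + b 1 • j 2, a 2 • j 1 + b 2 • j 2,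
      a 3 • j 1 + b 3 • j 2 + (2 * a 1) • j 3 + (2 * b 1) • j 4,
      a 4 • j 1 + b 4 • j 2 + a 2 • j 3 + (a 1 + b 2) • j 4 + b 1 • j 5,
      a 5 • j 1 + b 5 • j 2 + (2 * a 2) • j 4 + (2 * b 2) • j 5] := by
    ext1 k
    fin_cases k <;> simp [jsm, p0, p1, p2, q0, q1, q2] <;> module
  rw [e, dMp_add, dMp_add, dMp_smul, dMp_smul]
  congr 1
  simp only [dMp, dTv, Mp, Tv, dg, g11, g12, g22, JA.det3_eq, JA.dot3, Matrix.cons_val,
    Pi.add_apply, Pi.sub_apply, Pi.smul_apply, Pi.zero_apply, smul_eq_mul]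
  ring

theorem cramer (a b c n : C3) : det3 a b c * (n ⬝ᵥ n) =
    n ⬝ᵥ a * det3 b c n + n ⬝ᵥ b * det3 c a n + n ⬝ᵥ c * det3 a b n := by
  simp only [JA.det3_eq, JA.dot3]; ring

theorem det3_normal {a b n : C3} (hn : n ⬝ᵥ n = 1) (ha : n ⬝ᵥ a = 0) (hb : n ⬝ᵥ b = 0) (c : C3) :
    det3 a b c = det3 a b n * (n ⬝ᵥ c) := by
  have := cramer a b c n
  rw [hn, ha, hb] at this
  linear_combination this

/-- expansion in the frame `X₁, X₂, X₁ × X₂` -/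
theorem frame (j : J2 C3) (Y : C3) : dg j • Y =
    (g22 j * (j 1 ⬝ᵥ Y) - g12 j * (j 2 ⬝ᵥ Y)) • j 1 + (g11 j * (j 2 ⬝ᵥ Y) - g12 j * (j 1 ⬝ᵥ Y)) • j 2 +
      det3 (j 1) (j 2) Y • (j 1 ⨯₃ j 2) := by
  ext i
  fin_cases i <;> simp [dg, g11, g12, g22, JA.det3_eq, JA.dot3, cross_apply] <;> ring

/-! ### derivatives of jets -/

section
variable {V : Type} [NormedAddCommGroup V] [NormedSpace ℝ V] {X : R2 → V} {y : R2}

theorem cd_fderiv (hX : ContDiffAt ℝ ∞ X y) : ContDiffAt ℝ ∞ (fderiv ℝ X) y :=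
  hX.fderiv_right le_rfl

theorem cd_pd (hX : ContDiffAt ℝ ∞ X y) (e : R2) : ContDiffAt ℝ ∞ (fun z => fderiv ℝ X z e) y :=
  (cd_fderiv hX).clm_apply contDiffAt_const

theorem sym2 (hX : ContDiffAt ℝ 2 X y) (u v : R2) :
    fderiv ℝ (fderiv ℝ X) y u v = fderiv ℝ (fderiv ℝ X) y v u :=
  (hX.isSymmSndFDerivAt (by simp)).eq u v

theorem d3_apply (hX : ContDiffAt ℝ ∞ X y) (e u v : R2) :
    fderiv ℝ (fun z => fderiv ℝ (fderiv ℝ X) z u v) y e =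
      fderiv ℝ (fderiv ℝ (fderiv ℝ X)) y e u v := by
  have h := (cd_fderiv (cd_fderiv hX)).differentiableAt (by simp)
  rw [fderiv_clm_apply (h.clm_apply (differentiableAt_const u)) (differentiableAt_const v),
    fderiv_clm_apply h (differentiableAt_const u)]
  simp

theorem sym3 (hX : ContDiffAt ℝ ∞ X y) (e u v : R2) :
    fderiv ℝ (fderiv ℝ (fderiv ℝ X)) y e u v = fderiv ℝ (fderiv ℝ (fderiv ℝ X)) y u v e := by
  rw [sym2 ((cd_fderiv hX).of_le JA.two_le) e u, ← d3_apply hX, ← d3_apply hX]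
  congr 1
  refine Filter.EventuallyEq.fderiv_eq ?_
  filter_upwards [(hX.of_le JA.two_le).eventually (by simp)] with z hz
  exact sym2 hz e v

theorem jet2_pd (hX : ContDiffAt ℝ ∞ X y) (e : R2) :
    jet2 (fun z => fderiv ℝ X z e) y = fderiv ℝ (jet2 X) y e := by
  have h2 := hX.of_le JA.two_le
  have hd := (Iv.contDiffAt_jet2 (n := ∞) hX (le_of_eq rfl)).differentiableAt (by simp)
  refine (jet2_clm (ContinuousLinearMap.apply ℝ V e) ((cd_fderiv hX).of_le JA.two_le)).trans ?_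
  ext1 k
  have h : fderiv ℝ (jet2 X) y e k = fderiv ℝ (fun z => jet2 X z k) y e := by
    rw [fderiv_apply hd]; rfl
  rw [h]
  fin_cases k
  · rfl
  · exact ((JA.d2_apply h2 e (1, 0)).trans (sym2 h2 _ _)).symm
  · exact ((JA.d2_apply h2 e (0, 1)).trans (sym2 h2 _ _)).symm
  · exact ((d3_apply hX e (1, 0) (1, 0)).trans (sym3 hX _ _ _)).symm
  · exact ((d3_apply hX e (1, 0) (0, 1)).trans (sym3 hX _ _ _)).symm
  · exact ((d3_apply hX e (0, 1) (0, 1)).trans (sym3 hX _ _ _)).symm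

theorem jet2_pd1 (hX : ContDiffAt ℝ 2 X y) (e : R2) :
    jet2 (fun z => fderiv ℝ X z e) y 1 = fderiv ℝ (fderiv ℝ X) y (1, 0) e := JA.d2_apply hX _ _

theorem jet2_pd2 (hX : ContDiffAt ℝ 2 X y) (e : R2) :
    jet2 (fun z => fderiv ℝ X z e) y 2 = fderiv ℝ (fderiv ℝ X) y (0, 1) e := JA.d2_apply hX _ _

end

theorem cd_dot {n : WithTop ℕ∞} {f g : R2 → C3} {y : R2} (hf : ContDiffAt ℝ n f y)
    (hg : ContDiffAt ℝ n g y) : ContDiffAt ℝ n (fun z => f z ⬝ᵥ g z) y := by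
  simp only [JA.dot3]
  fun_prop

/-- tangential variations of a solution -/
theorem tan {X Y : R2 → C3} {y : R2} (hX : ContDiffAt ℝ ∞ X y) (hY : ContDiffAt ℝ 2 Y y)
    (h0 : ∀ᶠ z in 𝓝 y, Mp (jet2 X z) = 0) (hg : dg (jet2 X y) ≠ 0)
    (ht : ∀ᶠ z in 𝓝 y, det3 (jet2 X z 1) (jet2 X z 2) (Y z) = 0) :
    dMp (jet2 X y) (jet2 Y y) = 0 := by
  have h2 := hX.of_le JA.two_le
  have hj : ContDiffAt ℝ ∞ (jet2 X) y := Iv.contDiffAt_jet2 hX (le_of_eq rfl)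
  have hj2 : ContDiffAt ℝ 2 (jet2 X) y := hj.of_le JA.two_le
  have c : ∀ {f : J2 C3 → ℂ}, ContDiff ℂ ∞ f → ContDiffAt ℝ 2 (fun z => f (jet2 X z)) y :=
    fun hf => ((hf.of_le JA.two_le).restrict_scalars ℝ).contDiffAt.comp y hj2
  have p1 := (cd_pd hX (1, 0)).of_le JA.two_le
  have p2 := (cd_pd hX (0, 1)).of_le JA.two_le
  have d1 := cd_dot p1 hY
  have d2 := cd_dot p2 hY
  have a1 := ((c JA.sm_dg).inv hg).mul (((c JA.sm_g22).mul d1).sub ((c JA.sm_g12).mul d2))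
  have a2 := ((c JA.sm_dg).inv hg).mul (((c JA.sm_g11).mul d2).sub ((c JA.sm_g12).mul d1))
  have z0 : ∀ e, dMp (jet2 X y) (jet2 (fun z => fderiv ℝ X z e) y) = 0 := fun e => by
    rw [jet2_pd hX, ← fderiv_Mp, ← JA.d1_comp (JA.sm_Mp.differentiable (by simp) _)
      (hj.differentiableAt (by simp)), Filter.EventuallyEq.fderiv_eq (f := fun _ => 0) h0]
    simp
  refine (congrArg (dMp _) ((jet2_congr ?_).trans (jet2_add (a1.smul p1) (a2.smul p2)))).trans ?_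
  · filter_upwards [ht, (c JA.sm_dg).continuousAt.eventually_ne hg] with z h3 h4
    have h5 := frame (jet2 X z) (Y z)
    rw [h3, zero_smul, add_zero] at h5
    rw [← inv_smul_smul₀ h4 (Y z), h5, smul_add, smul_smul, smul_smul]
    rfl
  · refine (congrArg₂ (fun a b => dMp _ (a + b)) (jet2_smul a1 p1) (jet2_smul a2 p2)).trans ?_
    rw [dMp_rep _ _ _ _ _ rfl (jet2_pd1 h2 _) ((jet2_pd2 h2 _).trans (sym2 h2 _ _)) rfl
      (jet2_pd1 h2 _) (jet2_pd2 h2 _), z0, z0, h0.self_of_nhds]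
    simp

/-! ### on the surface -/

variable {w : E3 → ℝ} {D : EndData w}

theorem cd_cx (P : Patch (SS w)) {y : R2} (hy : y ∈ P.O) :
    ContDiffAt ℝ ∞ (fun z => cx (P.φ z)) y := Iv.contDiff_cx.contDiffAt.comp y (P.cdAt hy)

theorem nu_nu (hw : Shr w) {p : E3} (hp : w p = 0) : cx (nuW w p) ⬝ᵥ cx (nuW w p) = 1 := by
  rw [Iv.cx_dot, real_inner_self_eq_norm_sq, norm_nuW (hw.ne _ hp)]
  simp

theorem nu_X (hw : Shr w) (P : Patch (SS w)) {y : R2} (hy : y ∈ P.O) :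
    cx (nuW w (P.φ y)) ⬝ᵥ jS P.φ y 1 = 0 ∧ cx (nuW w (P.φ y)) ⬝ᵥ jS P.φ y 2 = 0 := by
  rw [Iv.jS_eq (P.cdAt2 hy), Iv.cx_dot, Iv.cx_dot]
  exact ⟨Complex.ofReal_eq_zero.2 (inner_nuW_d1 hw.smooth (P.cdAt2 hy) (Iv.ev_zero P hy) _),
    Complex.ofReal_eq_zero.2 (inner_nuW_d1 hw.smooth (P.cdAt2 hy) (Iv.ev_zero P hy) _)⟩

theorem tanS (hw : Shr w) (P : Patch (SS w)) {y : R2} (hy : y ∈ P.O) {Y : R2 → C3}
    (hY : ContDiffAt ℝ 2 Y y) (ht : ∀ z ∈ P.O, cx (nuW w (P.φ z)) ⬝ᵥ Y z = 0) :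
    dMp (jS P.φ y) (jet2 Y y) = 0 := by
  refine tan (cd_cx P hy) hY ((P.ev_mem hy).mono fun z hz => Iv.Mp_jS hw P hz) (Iv.dg_ne P hy)
    ((P.ev_mem hy).mono fun z hz => ?_)
  refine (det3_normal (nu_nu hw (P.maps z hz).1) (nu_X hw P hz).1 (nu_X hw P hz).2 _).trans ?_
  rw [ht z hz, mul_zero]

/-- the infinitesimal rotation -/
def Kc (c : ℂ × ℂ) (v : C3) : C3 := ![-(c.1 * v 2), -(c.2 * v 2), c.1 * v 0 + c.2 * v 1]

theorem hasDerivAt_Rot (c : ℂ × ℂ) {v : ℂ → C3} {v' : C3} (hv : HasDerivAt v v' 0) :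
    HasDerivAt (fun t : ℂ => Rot (t • c) *ᵥ v t) (Kc c (v 0) + v') 0 := by
  have x := hasDerivAt_pi.1 hv
  have a : HasDerivAt (fun t : ℂ => t * c.1) c.1 0 := by simpa using (hasDerivAt_id (0 : ℂ)).mul_const c.1
  have b : HasDerivAt (fun t : ℂ => t * c.2) c.2 0 := by simpa using (hasDerivAt_id (0 : ℂ)).mul_const c.2
  refine hasDerivAt_pi.2 fun i => ?_
  fin_cases i
  · refine (((a.ccos.mul (x 0)).sub (a.csin.mul (x 2))).congr_deriv ?_).congr_of_eventuallyEq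
      (.of_forall fun t => ?_)
    · simp [Kc]; ring
    · simp [Rot, rotX, rotY, Matrix.vecHead, Matrix.vecTail]; ring
  · refine ((((b.ccos.mul (x 1)).sub ((b.csin.mul a.csin).mul (x 0))).sub
      ((b.csin.mul a.ccos).mul (x 2))).congr_deriv ?_).congr_of_eventuallyEq (.of_forall fun t => ?_)
    · simp [Kc]; ring
    · simp [Rot, rotX, rotY, Matrix.vecHead, Matrix.vecTail]; ring
  · refine ((((b.csin.mul (x 1)).add ((b.ccos.mul a.csin).mul (x 0))).add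
      ((b.ccos.mul a.ccos).mul (x 2))).congr_deriv ?_).congr_of_eventuallyEq (.of_forall fun t => ?_)
    · simp [Kc]; ring
    · simp [Rot, rotX, rotY, Matrix.vecHead, Matrix.vecTail]; ring

theorem hasDerivAt_mulVec (M : Matrix (Fin 3) (Fin 3) ℂ) {v : ℂ → C3} {v' : C3} {t : ℂ}
    (hv : HasDerivAt v v' t) : HasDerivAt (fun t => M *ᵥ v t) (M *ᵥ v') t :=
  (LinearMap.toContinuousLinearMap (Matrix.mulVecLin M)).hasFDerivAt.comp_hasDerivAt t hv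

/-- the infinitesimal rotation in the frame `Q` -/
def KQ (Q : E3 ≃ₗᵢ[ℝ] E3) (c : ℂ × ℂ) (v : C3) : C3 := QM Q *ᵥ Kc c ((QM Q)ᵀ *ᵥ v)

theorem dGm (χ : Fin D.b → ℂ) (p n : C3) (c : Fin D.b → ℂ × ℂ) (u : ℂ) :
    fderiv ℂ Gm ((0, χ, p, n, 0) : WW D) (c, 0, 0, 0, u) =
      u • n + ∑ b, KQ (D.Q b) (χ b • c b) p := by
  refine (JA.hasDerivAt_line ((JA.smG.differentiable (by simp)) _) _).unique ?_
  have d : HasDerivAt (fun t : ℂ => p + (t * u) • n) (u • n) 0 := by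
    simpa using (((hasDerivAt_id (0 : ℂ)).mul_const u).smul_const n).const_add p
  have e := d.add (HasDerivAt.fun_sum (u := Finset.univ) fun b _ => (hasDerivAt_mulVec (QM (D.Q b))
    (hasDerivAt_Rot (χ b • c b) (hasDerivAt_mulVec (QM (D.Q b))ᵀ d))).sub d)
  refine (e.congr_deriv ?_).congr_of_eventuallyEq (.of_forall fun t => ?_)
  · simp [KQ, Matrix.mulVec_add, Matrix.mulVec_mulVec, JA.QM_mul]
  · simp [Gm, RQ, Matrix.mulVec_mulVec, smul_comm t, mul_assoc]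

variable (G : Geo D) (zm : ℝ) (P : Patch (SS w)) {y : R2}

/-- the variation field -/
def YV (c : Fin D.b → ℂ × ℂ) (u : ℂ) (p : E3) : C3 :=
  u • cx (G.nn p) + ∑ b, KQ (D.Q b) ((G.chi zm b p : ℂ) • c b) (cx p)

theorem dMh (hy : y ∈ P.O) (c : Fin D.b → ℂ × ℂ) {u : R2 → ℂ} (hu : ContDiffAt ℝ 2 u y) :
    fderiv ℂ Mh (G.bJ zm P.φ y) (emb c (jet2 u y)) =
      dMp (jS P.φ y) (jet2 (fun z => YV G zm c (u z) (P.φ z)) y) /
        (det3 (jS P.φ y 1) (jS P.φ y 2) (cx (G.nn (P.φ y))) * dg (jS P.φ y)) := by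
  have J := jetStmt w D
  have hH : ContDiffAt ℝ 2 (fun z => ((c, 0, 0, 0, u z) : WW D)) y := by fun_prop
  have e1 : emb c (jet2 u y) = jet2 (fun z => ((c, 0, 0, 0, u z) : WW D)) y := by
    have := Iv.jet_eq G zm P hy c hu
    rw [jet2_add (Iv.cd_bW2 G zm P hy) hH] at this
    exact add_left_cancel this
  have e2 : fderiv ℂ xJ (G.bJ zm P.φ y) (emb c (jet2 u y)) =
      jet2 (fun z => YV G zm c (u z) (P.φ z)) y := by
    rw [e1]
    refine (J.dchain _ _ y (Iv.cd_bW2 G zm P hy) hH).trans (congrArg (jet2 · y) ?_)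
    exact funext fun z => dGm _ _ _ _ _
  have d := hasDerivAt_Mp (JA.hasDerivAt_line (JA.smX.differentiable (by simp) (G.bJ zm P.φ y))
    (emb c (jet2 u y)))
  rw [zero_smul, add_zero, Iv.xJ_bJ G zm P J hy, e2] at d
  refine (JA.hasDerivAt_line ((JA.sm_Mh (Iv.bJ_mem G zm P J hy)).differentiableAt (by simp))
    _).unique ((d.div_const _).congr_of_eventuallyEq (.of_forall fun t => ?_))
  have e3 : t • emb (D := D) c (jet2 u y) = emb (t • c) (t • jet2 u y) := by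
    rw [← embL_apply, ← embL_apply, ← map_smul]; rfl
  simp only [Mh, e3, JA.pJ_emb, JA.nV_emb, Iv.pJ_bJ G zm P hy, Iv.nV_bJ]

end Vale.Agent.P218N.Core.Tn
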