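import Vale.Agent.P218N.Core.TopB
import Vale.Agent.P218N.Core.MaxP

/-!
# The core block: the existence of the perturbed compact core
-/

namespace Vale.Agent.P218N.Core

/-- The core statement, unconditionally. -/
theorem coreStmt : CoreStmt := coreStmt_of MaxP.maxP

end Vale.Agent.P218N.Core
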