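import Vale.Agent.P218N.Core.TransB

/-! Transfers between the double and the ends. -/

open Set Filter Topology Metric Function MeasureTheory
open scoped ContDiff

noncomputable section

namespace Vale.Agent.P218N.Core

open Vale.Agent.P218.H313 Vale.Agent.P218N.H Vale.Agent.P218N.End Vale.Agent.P272.K.LIN

variable {w : E3 → ℝ} {D : EndData w} {G : Geo D} {zm : ℝ} {X : Type} [TopologicalSpace X]
  [ChartedSpace R2 X] (Z : Dbl G zm X)

namespace Tr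

theorem pt_mem (e : En D) {q : R2} (hq : G.z0 < q.1) : q ∈ (G.ep e q.2).O ∧ w (pt e q) = 0 := by
  have h : q ∈ (G.ep e q.2).O := by
    rw [G.ep_O]
    exact ⟨hq, by linarith [Real.pi_pos], by linarith [Real.pi_pos]⟩
  exact ⟨h, G.ep_φ e q.2 ▸ ((G.ep e q.2).maps q h).1⟩

theorem dn_end {V : Type} [NormedAddCommGroup V] [NormedSpace ℝ V] {k : WithTop ℕ∞} {f : X → V}
    (hf : CkFn R2 k f) (e : En D) {q : R2} (h0 : G.z0 < q.1) (h1 : q.1 < zm + 8) :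
    ContDiffAt ℝ k (fun z => Z.dn f (pt e z)) q := by
  have := dn_ck Z hf (G.ep e q.2) (pt_mem e h0).1 (by rw [G.ep_φ, G.σ_pt e q h0]; exact h1)
  rwa [G.ep_φ] at this

theorem per_end (hI : InvF G zm) {V : Type} (f : E3 → V) (e : En D) :
    Periodic (fun z : R2 => f (pt e z)) (0, 2 * Real.pi) :=
  per_of fun ζ θ => by rw [hI.per]

/-- the point of the double over a point of the end -/
def Ov (e : En D) (q : R2) (x : X) : Prop := Z.pr x = pt e q ∧ 0 < Z.τ x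

theorem ex_ov (e : En D) {q : R2} (h0 : G.z0 < q.1) (h1 : q.1 < zm + 8) : ∃ x, Ov Z e q x :=
  ex Z (pt_mem e h0).2 (by rwa [G.σ_pt e q h0])

/-- the jets in the charts are the jets in the coordinates of the end -/
theorem jc_eq (hI : InvF G zm) {V : Type} [NormedAddCommGroup V] [NormedSpace ℝ V] (v : X → V)
    {e : En D} {q : R2} {x : X} (hx : Ov Z e q x) (h0 : G.z0 < q.1) (hq : q.1 ∈ Icc zm (zm + 7))
    {i : Fin Z.𝒞.N} (hη : Z.𝒞.η i x ≠ 0) :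
    jc Z.𝒞 i v x = jet2 (fun z => Z.dn v (pt e z)) q := by
  have hσ : G.σ (Z.pr x) = q.1 := by rw [hx.1, G.σ_pt e q h0]
  have h1 : 1 ≤ Z.τ x := by
    have := (Z.mem x).2
    have := hx.2
    have := hq.2
    nlinarith
  obtain ⟨e', h2, h3, h4⟩ := end_chart Z hη h1 (hσ ▸ hq.1)
  have he : e = e' := by
    have h5 := G.ind_pt e e' _ h2
    rw [h3, hx.1, G.ind_pt e e q h0, if_pos rfl] at h5
    by_contra h6
    rw [if_neg h6] at h5
    exact one_ne_zero h5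
  subst he
  obtain ⟨k, hk⟩ := G.inj e q _ h0 h2 (by rw [h3, hx.1])
  have h5 := (jet2_per (per_end hI (Z.dn v) e)).zsmul k q
  have h6 : q + k • ((0, 2 * Real.pi) : R2) = Z.𝒞.e i x := by
    rw [hk]
    ext <;> simp
  rw [← h5, h6]
  refine jet2_congr ?_
  filter_upwards [h4] with y hy
  rw [← hy.2.1, dn_pr Z v hy.2.2]

variable [T2Space X] [RSm R2 X]

theorem d_le (hI : InvF G zm) (hz : G.z0 + 1 ≤ zm) (e : En D) : ∃ L : ℝ, 0 ≤ L ∧
    ∀ (q q' : R2) x x', q.1 ∈ Icc zm (zm + 7) → q'.1 ∈ Icc zm (zm + 7) → Ov Z e q x →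
      Ov Z e q' x' → Z.𝒞.d x x' ≤ L * ‖q - q'‖ := by
  have h1 := fun i => strip_lip (a := zm) (b := zm + 7)
    (fun q hq => dn_end Z ((Z.𝒞.η_smul_ck i le_rfl (g := fun y => y)
      fun _ _ => contDiffAt_id).of_le (by simp)) e (by linarith [hq.1]) (by linarith [hq.2]))
    (per_end hI _ e)
  have h2 := fun i => strip_lip (a := zm) (b := zm + 7)
    (fun q hq => dn_end Z ((Z.𝒞.η_ck i).of_le (by simp)) e (by linarith [hq.1])
      (by linarith [hq.2])) (per_end hI _ e)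
  choose A hA0 hA using h1
  choose B hB0 hB using h2
  refine ⟨∑ i, (A i + B i), Finset.sum_nonneg fun i _ => add_nonneg (hA0 i) (hB0 i),
    fun q q' x x' hq hq' hx hx' => ?_⟩
  rw [Cov.d, Finset.sum_mul]
  refine Finset.sum_le_sum fun i _ => ?_
  have h3 := hA i q q' hq hq'
  have h4 := hB i q q' hq hq'
  rw [← hx.1, ← hx'.1, dn_pr Z _ hx.2, dn_pr Z _ hx'.2] at h3 h4
  rw [add_mul]
  exact add_le_add h3 h4

/-- the jet on the end -/
def jE (e : En D) (v : UU Z.𝒞) (q : R2) : J2 ℂ := jet2 (fun z => Z.dn (Uv Z.𝒞 v) (pt e z)) q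

omit [T2Space X] [RSm R2 X] in
theorem jE_eq (hI : InvF G zm) (hz : G.z0 + 1 ≤ zm) (v : UU Z.𝒞) {e : En D} {q : R2} {x : X}
    (hx : Ov Z e q x) (hq : q.1 ∈ Icc zm (zm + 7)) {i : Fin Z.𝒞.N} (h1 : x ∈ (Z.𝒞.e i).source)
    (h2 : Z.𝒞.e i x ∈ ball (Z.𝒞.c i) (2 * Z.𝒞.r i)) : jE Z e v q = v.1.2 i x := by
  have h3 := Z.𝒞.η_eq_one h1 (ball_subset_closedBall h2)
  rw [v.2.2 i x, h3, one_smul]
  exact (jc_eq Z hI _ hx (by linarith [hq.1]) hq (by rw [h3]; exact one_ne_zero)).symm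

omit [T2Space X] [RSm R2 X] in
theorem jE_ex (hI : InvF G zm) (hz : G.z0 + 1 ≤ zm) (e : En D) {q : R2}
    (hq : q.1 ∈ Icc zm (zm + 7)) : ∃ i x, ∀ v : UU Z.𝒞, jE Z e v q = v.1.2 i x := by
  obtain ⟨x, hx⟩ := ex_ov Z e (q := q) (by linarith [hq.1]) (by linarith [hq.2])
  obtain ⟨i, h1, h2⟩ := Z.𝒞.cover x
  exact ⟨i, x, fun v => jE_eq Z hI hz v hx hq h1 (Z.𝒞.ball_sub h2)⟩

omit [T2Space X] [RSm R2 X] in
theorem snd_le (v : UU Z.𝒞) (i : Fin Z.𝒞.N) : ‖v.1.2 i‖ ≤ ‖v‖ :=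
  (norm_le_pi_norm v.1.2 i).trans (norm_snd_le v.1)

omit [T2Space X] [RSm R2 X] in
theorem jE_le (hI : InvF G zm) (hz : G.z0 + 1 ≤ zm) (e : En D) (v : UU Z.𝒞) {q : R2}
    (hq : q.1 ∈ Icc zm (zm + 7)) : ‖jE Z e v q‖ ≤ ‖v‖ := by
  obtain ⟨i, x, h⟩ := jE_ex Z hI hz e hq
  rw [h]
  exact ((v.1.2 i).norm_apply_le x).trans (snd_le Z v i)

theorem jE_hol (hI : InvF G zm) (hz : G.z0 + 1 ≤ zm) (e : En D) : ∃ C : ℝ, 1 ≤ C ∧
    ∀ (v : UU Z.𝒞) (q q' : R2), q.1 ∈ Icc zm (zm + 7) → q'.1 ∈ Icc zm (zm + 7) →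
      ‖jE Z e v q - jE Z e v q'‖ ≤ C * ‖v‖ * ‖q - q'‖ ^ (1 / 2 : ℝ) := by
  obtain ⟨L, hL, h⟩ := d_le Z hI hz e
  obtain ⟨δ, hδ, hn⟩ := Z.𝒞.exists_near
  have hδ' : 0 < δ ^ (1 / 2 : ℝ) := Real.rpow_pos_of_pos hδ _
  refine ⟨1 + (1 + 2 / δ ^ (1 / 2 : ℝ)) * L ^ (1 / 2 : ℝ), le_add_of_nonneg_right (by positivity),
    fun v q q' hq hq' => ?_⟩
  obtain ⟨x, hx⟩ := ex_ov Z e (q := q) (by linarith [hq.1]) (by linarith [hq.2])
  obtain ⟨x', hx'⟩ := ex_ov Z e (q := q') (by linarith [hq'.1]) (by linarith [hq'.2])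
  have hd := Z.𝒞.d_nonneg x x'
  have h1 : ‖jE Z e v q - jE Z e v q'‖ ≤
      (1 + 2 / δ ^ (1 / 2 : ℝ)) * ‖v‖ * Z.𝒞.d x x' ^ (1 / 2 : ℝ) := by
    rcases lt_or_ge (Z.𝒞.d x x') δ with h2 | h2
    · obtain ⟨i, h3, h4, h5, h6, -⟩ := hn x x' h2
      rw [jE_eq Z hI hz v hx hq h3 h5, jE_eq Z hI hz v hx' hq' h4 h6, ← Z.𝒞.coe_w]
      refine ((v.1.2 i).norm_sub_le' x x').trans ?_
      refine mul_le_mul_of_nonneg_right ((snd_le Z v i).trans ?_) (NNReal.coe_nonneg _)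
      exact le_mul_of_one_le_left (norm_nonneg _) (le_add_of_nonneg_right (by positivity))
    · calc _ ≤ ‖v‖ + ‖v‖ :=
            (norm_sub_le _ _).trans (add_le_add (jE_le Z hI hz e v hq) (jE_le Z hI hz e v hq'))
        _ = 2 / δ ^ (1 / 2 : ℝ) * ‖v‖ * δ ^ (1 / 2 : ℝ) := by field_simp; ring
        _ ≤ _ := by gcongr; linarith
  refine h1.trans ?_
  calc _ ≤ (1 + 2 / δ ^ (1 / 2 : ℝ)) * ‖v‖ * (L * ‖q - q'‖) ^ (1 / 2 : ℝ) := by
        gcongr
        exact h q q' x x' hq hq' hx hx'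
    _ = (1 + 2 / δ ^ (1 / 2 : ℝ)) * L ^ (1 / 2 : ℝ) * ‖v‖ * ‖q - q'‖ ^ (1 / 2 : ℝ) := by
        rw [Real.mul_rpow hL (norm_nonneg _)]; ring
    _ ≤ _ := by gcongr; linarith

theorem toE (hP : PathF D zm) (hI : InvF G zm) (hz : G.z0 + 1 ≤ zm) (hH : HolF Z.𝒞 Z.pou)
    (e : En D) : ∃ T : UU Z.𝒞 →L[ℂ] J2 WB, IsCompactOperator T ∧ ∀ v k t θ,
      ev (T v k) t θ = T1 (jE Z e v (zr zm 3 6 t, θ)) k := by
  obtain ⟨C, hC, hh⟩ := jE_hol Z hI hz e
  have hm : ∀ t, zr zm 3 6 t ∈ Icc zm (zm + 7) := fun t => by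
    have := hP.mem 3 6 t (by norm_num)
    simp only [TT, Nat.cast_ofNat] at this
    exact ⟨by linarith [this.1], by linarith [this.2]⟩
  have hzr : Continuous (zr zm 3 6) := by
    have : zr zm 3 6 = fun t => ((gam zm 3 6).ze t).re := funext fun t => by rw [hP.ze]; rfl
    rw [this]
    fun_prop
  have hd : ∀ (v : UU Z.𝒞) (k : Fin 6) t θ, ∃ L : R2 →L[ℝ] ℂ,
      HasFDerivAt (fun z => T1 (jE Z e v z) k) L (zr zm 3 6 t, θ) ∧
        L (0, 1) = dt (jE Z e v (zr zm 3 6 t, θ)) k := fun v k t θ => by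
    obtain ⟨L, h1, -, h2⟩ := hasFDerivAt_T1 (dn_end Z v.2.1 e (q := (zr zm 3 6 t, θ))
      (by linarith [(hm t).1]) (by linarith [(hm t).2])) k
    exact ⟨L, h1, h2⟩
  have hK : ∀ k : Fin 6, ∃ K : UU Z.𝒞 →L[ℂ] (Fin Z.𝒞.N → HH Z.𝒞 ℂ), IsCompactOperator K ∧
      ∀ v t θ, ‖T1 (jE Z e v (zr zm 3 6 t, θ)) k‖ ≤ ‖K v‖ := fun k => by
    by_cases hk : k.1 < 3
    · refine ⟨_, cpt_pi _ fun i => hH.cpt1 i k hk, fun v t θ => ?_⟩
      obtain ⟨i, x, h⟩ := jE_ex Z hI hz e (q := (zr zm 3 6 t, θ)) (hm t)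
      have h1 : T1 (v.1.2 i x) k = Uj Z.𝒞 i k v x := by
        fin_cases k <;> first | rfl | simp at hk
      rw [h, h1]
      exact ((Uj Z.𝒞 i k v).norm_apply_le x).trans
        (norm_le_pi_norm (ContinuousLinearMap.pi (fun i => Uj Z.𝒞 i k) v) i)
    · refine ⟨0, isCompactOperator_zero, fun v t θ => ?_⟩
      fin_cases k <;> simp [T1] at hk ⊢
  have key : ∀ k : Fin 6, ∃ T : UU Z.𝒞 →L[ℂ] WB, IsCompactOperator T ∧ ∀ v t θ,
      ev (T v) t θ = T1 (jE Z e v (zr zm 3 6 t, θ)) k := fun k => by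
    obtain ⟨K, hK, hK'⟩ := hK k
    refine exists_toW _ (fun v t θ => dt (jE Z e v (zr zm 3 6 t, θ)) k) K hK (C := C) (by linarith)
      (fun u v t θ => ?_) (fun z v t θ => ?_) (fun v => ?_) (fun v t θ => ?_) (fun v t θ => ?_)
      (fun v t θ => ?_) (fun v t θ θ' => ?_) hK'
    · obtain ⟨i, x, h⟩ := jE_ex Z hI hz e (q := (zr zm 3 6 t, θ)) (hm t)
      rw [h, h, h, ← T1_add]
      rfl
    · obtain ⟨i, x, h⟩ := jE_ex Z hI hz e (q := (zr zm 3 6 t, θ)) (hm t)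
      rw [h, h, ← T1_smul]
      rfl
    · refine continuous_iff_continuousAt.2 fun p => ?_
      obtain ⟨L, h, -⟩ := hd v k p.1 p.2
      exact ContinuousAt.comp (f := fun p : ℝ × ℝ => (zr zm 3 6 p.1, p.2)) h.continuousAt
        (by fun_prop)
    · exact congrArg (fun a => T1 a k) (per_snd (jet2_per (per_end hI _ e)) _ θ)
    · exact ((T1_le _ k).trans (jE_le Z hI hz e v (hm t))).trans
        (le_mul_of_one_le_left (norm_nonneg _) hC)
    · obtain ⟨L, h, h'⟩ := hd v k t θ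
      exact h' ▸ hasDerivAt_snd h
    · rw [dt_sub]
      refine (dt_le _ k).trans ((hh v _ _ (hm t) (hm t)).trans_eq ?_)
      simp [Prod.norm_def]
  choose T h1 h2 using key
  exact ⟨_, cpt_pi T h1, fun v k => h2 k v⟩

/-! ### From the ends to the double -/

omit [T2Space X] [RSm R2 X] in
theorem lift_zero {e : En D} {F : R2 → ℂ} {p : E3} (h : ∀ q : R2, q.1 = G.σ p → F q = 0) :
    G.lift e F p = 0 := by
  unfold Geo.lift
  split_ifs with h1
  · exact h _ (by rw [← G.σ_pt e _ h1.choose_spec.1, ← h1.choose_spec.2])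
  · rfl

omit [T2Space X] [RSm R2 X] in
theorem up_lift_le {e : En D} {F : R2 → ℂ} {A : ℝ} (hA : 0 ≤ A) (h : ∀ q, ‖F q‖ ≤ A) (x : X) :
    ‖Z.upF (G.lift e F) x‖ ≤ A := by
  unfold Dbl.upF Geo.lift
  split_ifs
  · exact h _
  all_goals simpa using hA

omit [T2Space X] [RSm R2 X] in
/-- in the charts the lifted function is given by `F` or by zero -/
theorem up_lift_ev (hI : InvF G zm) {e : En D} {F : R2 → ℂ}
    (hp : ∀ ζ θ, F (ζ, θ + 2 * Real.pi) = F (ζ, θ))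
    (h0 : ∀ q : R2, q.1 ≤ zm + 3 ∨ zm + 7 ≤ q.1 → F q = 0) {i : Fin Z.𝒞.N} {y : R2}
    (hy : y ∈ ball (Z.𝒞.c i) (2 * Z.𝒞.r i)) :
    (fun y => Z.upF (G.lift e F) ((Z.𝒞.e i).symm y)) =ᶠ[𝓝 y] F ∨
      (fun y => Z.upF (G.lift e F) ((Z.𝒞.e i).symm y)) =ᶠ[𝓝 y] fun _ => 0 := by
  obtain ⟨h1, h2, h3⟩ := Z.𝒞.η_symm hy
  have ht := tendsto_symm h1
  rw [h2] at ht
  rcases lt_or_ge (Z.τ ((Z.𝒞.e i).symm y)) 1 with h4 | h4
  · exact Or.inr (ht.eventually (upF_zero Z (fun p _ hp => lift_zero fun q hq =>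
      h0 q (Or.inr (hq ▸ hp))) h4))
  rcases lt_or_ge (G.σ (Z.pr ((Z.𝒞.e i).symm y))) (zm + 3) with h5 | h5
  · refine Or.inr (ht.eventually (p := fun x => Z.upF (G.lift e F) x = 0) ?_)
    filter_upwards [(G.σ_sm.continuous.comp (ckFn_continuous Z.pr_sm)).continuousAt.eventually
      (gt_mem_nhds h5)] with x hx
    unfold Dbl.upF
    split_ifs
    · exact lift_zero fun q hq => h0 q (Or.inl (hq ▸ le_of_lt hx))
    · rfl
  obtain ⟨e', -, -, h6⟩ := end_chart Z (i := i) (by rw [h3]; exact one_ne_zero) h4 (by linarith)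
  rw [h2] at h6
  by_cases he : e = e'
  · refine Or.inl ?_
    filter_upwards [h6] with z hz
    rw [Dbl.upF, if_pos hz.2.2, hz.2.1, hI.lift_pt ℂ e e' F z hz.1 (hp _), if_pos he]
  · refine Or.inr ?_
    filter_upwards [h6] with z hz
    rw [Dbl.upF, if_pos hz.2.2, hz.2.1, hI.lift_pt ℂ e e' F z hz.1 (hp _), if_neg he]

theorem be2_sm (zm : ℝ) : ContDiff ℝ 1 (be2 zm) := by
  unfold be2 cut st
  have := Real.smoothTransition.contDiff (n := 1)
  fun_prop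

theorem be2_zero {ζ : ℝ} (h : ζ ≤ zm + 3 + 1 / 9 ∨ zm + 6 + 2 / 3 ≤ ζ) : be2 zm ζ = 0 := by
  unfold be2 cut st
  rcases h with h | h
  · rw [Real.smoothTransition.zero_of_nonpos (by linarith), zero_mul]
  · rw [Real.smoothTransition.one_of_one_le (x := 3 * (ζ - zm - (6 : ℕ)) - 1)
      (by push_cast; linarith), sub_self, mul_zero]

theorem be2_le (ζ : ℝ) : |be2 zm ζ| ≤ 1 := by
  unfold be2 cut st
  rw [abs_mul]
  refine mul_le_one₀ ?_ (abs_nonneg _) ?_ <;> rw [abs_le] <;> constructor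
  · linarith [Real.smoothTransition.nonneg (3 * (3 * (ζ - zm - 3)) - 1)]
  · exact Real.smoothTransition.le_one _
  · linarith [Real.smoothTransition.le_one (3 * (ζ - zm - (6 : ℕ)) - 1)]
  · linarith [Real.smoothTransition.nonneg (3 * (ζ - zm - (6 : ℕ)) - 1)]

/-- the cut off one-jet -/
def FX (zm : ℝ) (Γ : Ctr) (j : EJ) (k : Fin 6) (q : R2) : ℂ :=
  (be2 zm q.1 : ℝ) * T1 (jev zm Γ j q) k

theorem jev_le (hP : PathF D zm) (e : En D) (j : EJ) (q : R2) :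
    ‖jev zm (ctr (gam zm 3 6) e) j q‖ ≤ ‖j‖ :=
  (pi_norm_le_iff_of_nonneg (norm_nonneg _)).2 fun k =>
    (norm_ev_le _ _ _).trans (hP.jw_le 3 6 e j k)

theorem FX_le (hP : PathF D zm) (e : En D) (j : EJ) (k : Fin 6) (q : R2) :
    ‖FX zm (ctr (gam zm 3 6) e) j k q‖ ≤ ‖j‖ := by
  rw [FX, norm_mul, Complex.norm_real]
  exact (mul_le_of_le_one_left (norm_nonneg _) (be2_le _)).trans
    ((T1_le _ k).trans (jev_le hP e j q))

theorem FX_der (hP : PathF D zm) (e : En D) : ∃ C : ℝ, 0 ≤ C ∧ ∀ j, (ctr (gam zm 3 6) e).IsJet j →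
    ∀ k q, DifferentiableAt ℝ (FX zm (ctr (gam zm 3 6) e) j k) q ∧
      ‖fderiv ℝ (FX zm (ctr (gam zm 3 6) e) j k) q‖ ≤ C * ‖j‖ := by
  have hb : ContDiff ℝ 1 fun q : R2 => ((be2 zm q.1 : ℝ) : ℂ) :=
    Complex.ofRealCLM.contDiff.comp ((be2_sm zm).comp contDiff_fst)
  obtain ⟨C, hC, h⟩ := strip_bdd (g := fderiv ℝ fun q : R2 => ((be2 zm q.1 : ℝ) : ℂ))
    (a := zm + 3) (b := zm + 7) (fun q _ => (hb.continuous_fderiv (by simp)).continuousAt)
    (fderiv_per fun q => by simp)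
  refine ⟨2 + C, by positivity, fun j hj k q => ?_⟩
  by_cases hq : q.1 ∈ Ioo (zm + 3) (zm + 7)
  · have hc : ∀ z : R2, z.1 ∈ Ioo (zm + 3) (zm + 7) → _ := fun z hz => hP.c2 3 6 e j z hj
      (by simp only [TT, Nat.cast_ofNat]; exact ⟨hz.1, by linarith [hz.2]⟩)
    obtain ⟨L, h1, h2, h3⟩ := hasFDerivAt_T1 (hc q hq).1 k
    have h4 : HasFDerivAt (fun z => T1 (jev zm (ctr (gam zm 3 6) e) j z) k) L q := by
      refine h1.congr_of_eventuallyEq ?_
      filter_upwards [continuous_fst.continuousAt.eventually (isOpen_Ioo.mem_nhds hq)] with z hz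
      rw [(hc z hz).2]
    have h5 := ((hb.differentiable (by simp)) q).hasFDerivAt.mul h4
    refine ⟨h5.differentiableAt, (congrArg norm h5.fderiv).trans_le ?_⟩
    have h6 := jev_le hP e j q
    have h7 : ‖L‖ ≤ 2 * ‖j‖ := by
      have := norm_le_two L
      rw [h2, h3, (hc q hq).2] at this
      linarith [dz_le (jev zm (ctr (gam zm 3 6) e) j q) k,
        dt_le (jev zm (ctr (gam zm 3 6) e) j q) k]
    rw [add_mul]
    refine (norm_add_le _ _).trans (add_le_add ?_ ?_) <;> rw [norm_smul]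
    · rw [Complex.norm_real]
      exact (mul_le_of_le_one_left (norm_nonneg _) (be2_le _)).trans h7
    · rw [mul_comm]
      exact mul_le_mul (h q (Ioo_subset_Icc_self hq)) ((T1_le _ k).trans h6) (norm_nonneg _) hC
  · have h1 : FX zm (ctr (gam zm 3 6) e) j k =ᶠ[𝓝 q] fun _ => 0 := by
      have h2 : q.1 ∈ Iio (zm + 3 + 1 / 9) ∪ Ioi (zm + 6 + 2 / 3) := by
        by_contra h3
        simp only [mem_union, mem_Iio, mem_Ioi, not_or, not_lt] at h3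
        exact hq ⟨by linarith [h3.1], by linarith [h3.2]⟩
      filter_upwards [continuous_fst.continuousAt.eventually
        ((isOpen_Iio.union isOpen_Ioi).mem_nhds h2)] with z hz
      rw [FX, be2_zero (hz.imp le_of_lt le_of_lt), Complex.ofReal_zero, zero_mul]
    refine ⟨(differentiableAt_const _).congr_of_eventuallyEq h1, ?_⟩
    rw [h1.fderiv_eq, fderiv_fun_const]
    simp only [Pi.zero_apply, norm_zero]
    positivity

theorem FX_add (Γ : Ctr) (j j' : EJ) (k : Fin 6) (q : R2) :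
    FX zm Γ (j + j') k q = FX zm Γ j k q + FX zm Γ j' k q := by
  unfold FX
  rw [← mul_add]
  congr 1
  fin_cases k <;> simp [T1, jev, jw, mul_add]

theorem FX_smul (Γ : Ctr) (z : ℂ) (j : EJ) (k : Fin 6) (q : R2) :
    FX zm Γ (z • j) k q = z * FX zm Γ j k q := by
  unfold FX
  rw [mul_left_comm]
  congr 1
  fin_cases k <;> simp [T1, jev, jw, mul_left_comm]

omit [T2Space X] [RSm R2 X] in
theorem toX (hP : PathF D zm) (hI : InvF G zm) (hH : HolF Z.𝒞 Z.pou) (e : En D) :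
    ∃ T : JS (ctr (gam zm 3 6) e) →L[ℂ] J2 (HH Z.𝒞 ℂ), IsCompactOperator T ∧
      ∀ j k x, T j k x = Z.upF (G.lift e (FX zm (ctr (gam zm 3 6) e) j.1 k)) x := by
  obtain ⟨C, hC, hd⟩ := FX_der hP e
  obtain ⟨C', hC', hl⟩ := Z.𝒞.exists_lip_const (V := ℂ)
  have key := fun k : Fin 6 => hH.lip (JS (ctr (gam zm 3 6) e))
    (fun j => Z.upF (G.lift e (FX zm (ctr (gam zm 3 6) e) j.1 k))) (1 + C + C')
    (fun x => ⟨fun j j' => ?_, fun z j => ?_⟩) (fun j x => ?_) fun j x y => ?_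
  · choose T h1 h2 using key
    exact ⟨_, cpt_pi T h1, fun j k => h2 k j⟩
  · unfold Dbl.upF Geo.lift
    split_ifs
    · exact FX_add _ _ _ _ _
    all_goals simp
  · unfold Dbl.upF Geo.lift
    split_ifs
    · exact FX_smul _ _ _ _ _
    all_goals simp
  · exact (up_lift_le Z (norm_nonneg _) (FX_le hP e j.1 k) x).trans
      (le_mul_of_one_le_left (norm_nonneg _) (by linarith))
  · refine (hl _ ‖j.1‖ (C * ‖j.1‖) (norm_nonneg _) (by positivity)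
      (up_lift_le Z (norm_nonneg _) (FX_le hP e j.1 k)) (fun i y hy => ?_) x y).trans ?_
    · rcases up_lift_ev Z hI (e := e) (F := FX zm (ctr (gam zm 3 6) e) j.1 k)
        (fun ζ θ => by unfold FX jev; simp only [ev_add_two_pi])
        (fun q hq => by
          rw [FX, be2_zero (hq.imp (fun h => by linarith) fun h => by linarith),
            Complex.ofReal_zero, zero_mul]) hy with h | h
      · rw [h.fderiv_eq]
        exact ⟨(hd _ j.2 k y).1.congr_of_eventuallyEq h, (hd _ j.2 k y).2⟩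
      · refine ⟨(differentiableAt_const _).congr_of_eventuallyEq h, ?_⟩
        rw [h.fderiv_eq, fderiv_fun_const]
        simp only [Pi.zero_apply, norm_zero]
        positivity
    · refine mul_le_mul_of_nonneg_right ?_ (Z.𝒞.d_nonneg x y)
      have : ‖j‖ = ‖j.1‖ := rfl
      rw [this]
      nlinarith [norm_nonneg j.1]

end Tr

/-- the transfers -/
theorem transF [T2Space X] [RSm R2 X] (hP : PathF D zm) (hI : InvF G zm) (hV : VarF G)
    (hz : G.z0 + 1 ≤ zm) (hH : HolF Z.𝒞 Z.pou) : TransF Z where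
  dn_pr f _ hx := Tr.dn_pr Z f hx
  ex _ := Tr.ex Z
  dn_ck _ _ hf P _ hy := Tr.dn_ck Z hf P hy
  chart _ hi _ hx := Tr.chart Z hi hx
  up_ck _ _ := Tr.up_ck Z
  base _ := Tr.base Z hI
  int _ := Tr.int Z hI hV
  toE := Tr.toE Z hP hI hz hH
  toX := Tr.toX Z hP hI hH

/-- the statement of the transfers for large `zm` -/
def TransStmt2 : Prop := ∀ (w : E3 → ℝ) (D : EndData w) (G : Geo D) (zm : ℝ), G.z0 + 1 ≤ zm →
  1000 ≤ zm → ∀ (X : Type) [TopologicalSpace X] [ChartedSpace R2 X] [T2Space X] [CompactSpace X]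
    [RSm R2 X] (Z : Dbl G zm X), TransF Z

theorem transStmt2 (hP : PathStmt) (hI : InvStmt) (hV : VarStmt) (hH : HolStmt) : TransStmt2 :=
  fun w D G zm hz h X _ _ _ _ _ Z =>
    transF Z (hP w D zm h) (hI w D G zm) (hV w D G) hz (hH X Z.𝒞 Z.pou)

end Vale.Agent.P218N.Core
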