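import Vale.Agent.P218N.Core.VarM
import Vale.Agent.P218N.H.Div

/-! The first variation formula on the surface. -/

open Set Filter Topology Metric MeasureTheory
open scoped Matrix RealInnerProductSpace ContDiff

noncomputable section

namespace Vale.Agent.P218N.Core

open Vale.Agent.P218.H313 Vale.Agent.P218N.H

namespace Var

variable {w : E3 → ℝ} {D : EndData w}

section cont

variable {T : Type} [TopologicalSpace T] {b j k : T → J2 C3} {t : T}

theorem continuousAt_dg (hj : ContinuousAt j t) : ContinuousAt (fun s => dg (j s)) t := by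
  have h := fun i => continuousAt_pi.1 hj i
  unfold dg g11 g12 g22
  fun_prop

theorem dg_ne {b j : J2 C3} (h : dg j / dg b ∈ Complex.slitPlane) : dg b ≠ 0 := fun h0 =>
  Complex.slitPlane_ne_zero h (by rw [h0, div_zero])

theorem sq_ne {b j : J2 C3} (h : dg j / dg b ∈ Complex.slitPlane) : sq b j ≠ 0 := fun h0 =>
  Complex.slitPlane_ne_zero h (by rw [← sq_sqrt (dg j / dg b), ← sq, h0]; simp)

theorem continuousAt_sq (hb : ContinuousAt b t) (hj : ContinuousAt j t)
    (h : dg (j t) / dg (b t) ∈ Complex.slitPlane) : ContinuousAt (fun s => sq (b s) (j s)) t :=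
  ContinuousAt.comp (g := Complex.sqrt) (Complex.differentiableAt_sqrt h).continuousAt
    ((continuousAt_dg hj).div₀ (continuousAt_dg hb) (dg_ne h))

theorem continuousAt_eG (hj : ContinuousAt j t) : ContinuousAt (fun s => eG (j s)) t := by
  have h := fun i => continuousAt_pi.1 hj i
  unfold eG
  fun_prop

theorem continuousAt_flx {x y : T → ℂ} (hb : ContinuousAt b t) (hj : ContinuousAt j t)
    (hx : ContinuousAt x t) (hy : ContinuousAt y t) (h : dg (j t) / dg (b t) ∈ Complex.slitPlane) :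
    ContinuousAt (fun s => flx (b s) (j s) (x s) (y s)) t := by
  have h1 := fun i => continuousAt_pi.1 hj i
  refine ((continuousAt_eG hj).div₀ ((continuousAt_sq hb hj h).mul (continuousAt_dg hb))
    (mul_ne_zero (sq_ne h) (dg_ne h))).smul ?_
  unfold g11 g12 g22
  fun_prop

theorem continuousAt_dlag (hb : ContinuousAt b t) (hj : ContinuousAt j t) (hk : ContinuousAt k t)
    (h : dg (j t) / dg (b t) ∈ Complex.slitPlane) :
    ContinuousAt (fun s => dlag (b s) (j s) (k s)) t := by
  have h1 := fun i => continuousAt_pi.1 hj i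
  have h2 := fun i => continuousAt_pi.1 hk i
  exact (((((continuousAt_eG hj).mul (continuousAt_sq hb hj h)).mul
    (continuousAt_dot (h1 0) (h2 0))).neg.div_const 2).add (continuousAt_dot
      (continuousAt_flx hb hj continuousAt_const continuousAt_const h) (h2 1))).add
    (continuousAt_dot (continuousAt_flx hb hj continuousAt_const continuousAt_const h) (h2 2))

theorem continuousAt_det3 {x y z : T → C3} (hx : ContinuousAt x t) (hy : ContinuousAt y t)
    (hz : ContinuousAt z t) : ContinuousAt (fun s => det3 (x s) (y s) (z s)) t := by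
  have h1 := fun i => continuousAt_pi.1 hx i
  have h2 := fun i => continuousAt_pi.1 hy i
  have h3 := fun i => continuousAt_pi.1 hz i
  simp only [det3, cross_apply, dotProduct, Fin.sum_univ_three, Matrix.cons_val_zero,
    Matrix.cons_val_one, Matrix.cons_val]
  fun_prop

theorem continuousAt_Mp (hj : ContinuousAt j t) : ContinuousAt (fun s => Mp (j s)) t := by
  have h1 := fun i => continuousAt_pi.1 hj i
  have h2 := continuousAt_dg hj
  refine continuousAt_det3 (h1 1) (h1 2) ?_
  unfold g11 g12 g22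
  fun_prop

theorem continuousAt_eul {Y : T → C3} (hb : ContinuousAt b t) (hj : ContinuousAt j t)
    (hY : ContinuousAt Y t) (h : dg (j t) / dg (b t) ∈ Complex.slitPlane) :
    ContinuousAt (fun s => eul (b s) (j s) (Y s)) t :=
  (((continuousAt_eG hj).mul (continuousAt_Mp hj)).mul (continuousAt_det3
    (continuousAt_pi.1 hj 1) (continuousAt_pi.1 hj 2) hY)).div₀
    (((continuousAt_sq hb hj h).pow 3).mul ((continuousAt_dg hb).pow 2))
    (mul_ne_zero (pow_ne_zero _ (sq_ne h)) (pow_ne_zero _ (dg_ne h)))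

end cont

theorem dlag_add (b j k k' : J2 C3) : dlag b j (k + k') = dlag b j k + dlag b j k' := by
  simp only [dlag, Pi.add_apply, dotProduct_add]
  ring

theorem eul_add (b j : J2 C3) (Y Y' : C3) : eul b j (Y + Y') = eul b j Y + eul b j Y' := by
  simp only [eul, det3, dotProduct_add]
  ring

theorem dlag_zero (b j : J2 C3) : dlag b j 0 = 0 := by simp [dlag]

theorem eul_zero (b j : J2 C3) : eul b j 0 = 0 := by simp [eul, det3]

/-- continuity on the surface from continuity in a patch -/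
theorem cwa_of_chart {F : Type} [TopologicalSpace F] (P : Patch (SS w)) {y : R2} (hy : y ∈ P.O)
    {g : E3 → F} {h : R2 → F} (e : ∀ z ∈ P.O, g (P.φ z) = h z) (hh : ContinuousAt h y) :
    ContinuousWithinAt g (SS w) (P.φ y) := by
  rw [ContinuousWithinAt, ← map_nhds P hy, tendsto_map'_iff, e y hy]
  exact hh.congr' (mem_of_superset (P.isOpen_O.mem_nhds hy) fun z hz => (e z hz).symm)

theorem cwa_of_zero {F : Type} [TopologicalSpace F] [Zero F] {g : E3 → F} {K : Set E3}
    (hK : IsClosed K) (h0 : ∀ p, w p = 0 → p ∉ K → g p = 0) {p : E3} (hp : w p = 0) (hpK : p ∉ K) :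
    ContinuousWithinAt g (SS w) p := by
  refine (continuousWithinAt_const (b := (0 : F))).congr_of_eventuallyEq ?_ (h0 p hp hpK)
  filter_upwards [self_mem_nhdsWithin, nhdsWithin_le_nhds (hK.isOpen_compl.mem_nhds hpK)]
    with q h1 h2 using h0 q h1 h2

theorem C2S.smul {χ : E3 → ℝ} (hχ : ContDiff ℝ ∞ χ) {Y : E3 → C3} (hY : C2S w Y) :
    C2S w fun p => χ p • Y p := fun P y hy =>
  (((hχ.of_le (by norm_cast)).contDiffAt).comp y (cd P hy)).smul (hY P y hy)

variable {G : Geo D} {zm : ℝ} {X Y Y' : E3 → C3} {p : E3}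

theorem jG_congr {V : Type} [NormedAddCommGroup V] [NormedSpace ℝ V] {u v : E3 → V} (hp : w p = 0)
    (h : u =ᶠ[𝓝[SS w] p] v) : G.jG u p = G.jG v p := by
  obtain ⟨h1, h2⟩ := exists_chart G hp
  refine jet2_congr ?_
  rw [← h2, ← map_nhds _ h1] at h
  exact h

theorem jG_zero {V : Type} [NormedAddCommGroup V] [NormedSpace ℝ V] {u : E3 → V} {K : Set E3}
    (hK : IsClosed K) (h0 : ∀ p, w p = 0 → p ∉ K → u p = 0) (hp : w p = 0) (hpK : p ∉ K) :
    G.jG u p = 0 := by
  refine (jG_congr (v := fun _ => 0) hp ?_).trans jet2_zero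
  filter_upwards [self_mem_nhdsWithin, nhdsWithin_le_nhds (hK.isOpen_compl.mem_nhds hpK)]
    with q h1 h2 using h0 q h1 h2

theorem cwa_var (hI : InvF G zm) (hX : C2S w X) (hY : C2S w Y) (hp : w p = 0)
    (hs : dg (G.jG X p) / dg (G.jG cx p) ∈ Complex.slitPlane) :
    ContinuousWithinAt (G.dlagG X Y) (SS w) p ∧ ContinuousWithinAt (G.eulG X Y) (SS w) p ∧
      ContinuousWithinAt (G.flxG X Y) (SS w) p := by
  obtain ⟨h1, h2⟩ := exists_chart G hp
  set P := G.pa p
  have v := fun z hz => hI.var_eq P z hz X Y (hX P z hz) (hY P z hz)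
  have cb := continuousAt_jet2 (contDiffAt_cx (cd P h1))
  have cX := continuousAt_jet2 (hX P _ h1)
  have cσ := continuousAt_jet2 (F := fun z => (G.σ (P.φ z) : ℂ))
    (Complex.ofRealCLM.contDiff.contDiffAt.comp _
      ((G.σ_sm.of_le (by norm_cast)).contDiffAt.comp _ (cd P h1)))
  rw [← h2]
  exact ⟨cwa_of_chart P h1 (fun z hz => (v z hz).2.1)
      (continuousAt_dlag cb cX (continuousAt_jet2 (hY P _ h1)) hs),
    cwa_of_chart P h1 (fun z hz => (v z hz).2.2.1)
      (continuousAt_eul cb cX (hY P _ h1).continuousAt hs),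
    cwa_of_chart P h1 (fun z hz => (v z hz).2.2.2) (continuousAt_dot (continuousAt_flx cb cX
      (continuousAt_pi.1 cσ 1) (continuousAt_pi.1 cσ 2) hs) (hY P _ h1).continuousAt)⟩

theorem int_var (hI : InvF G zm) {K : Set E3} (hK : IsCompact K) (hKS : K ⊆ SS w) (hX : C2S w X)
    (hY : C2S w Y) (h0 : ∀ p, w p = 0 → p ∉ K → Y p = 0)
    (hs : ∀ p ∈ K, dg (G.jG X p) / dg (G.jG cx p) ∈ Complex.slitPlane) :
    Integrable (G.dlagG X Y) (muS w) ∧ Integrable (G.eulG X Y) (muS w) :=
  ⟨integrable_of_compact G hK (fun p hp => (cwa_var hI hX hY (hKS hp) (hs p hp)).1.mono hKS)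
    fun p hp h => by rw [Geo.dlagG, jG_zero hK.isClosed h0 hp h, dlag_zero],
  integrable_of_compact G hK (fun p hp => (cwa_var hI hX hY (hKS hp) (hs p hp)).2.1.mono hKS)
    fun p hp h => by rw [Geo.eulG, h0 p hp h, eul_zero]⟩

theorem fv_loc (hI : InvF G zm) (P : Patch (SS w)) {K : Set E3} (hK : IsCompact K)
    (hKS : K ⊆ SS w ∩ P.V) (hX : C2S w X) (hY : C2S w Y) (h0 : ∀ p, w p = 0 → p ∉ K → Y p = 0)
    (hs : ∀ p ∈ K, dg (G.jG X p) / dg (G.jG cx p) ∈ Complex.slitPlane) :
    ∫ p, G.dlagG X Y p + G.eulG X Y p ∂(muS w) = 0 := by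
  have hK' := hK.image_of_continuousOn (P.cont.mono hKS)
  have hi := fun p hp => P.inv p (hKS hp).1 (hKS hp).2
  have hKO : P.ι '' K ⊆ P.O := image_subset_iff.2 fun p hp => (hi p hp).1
  have him : P.φ '' (P.ι '' K) = K := by
    rw [image_image, image_congr fun p hp => (hi p hp).2, image_id']
  have v := fun z hz => hI.var_eq P z hz X Y (hX P z hz) (hY P z hz)
  rw [← setIntegral_eq_integral_of_ae_compl_eq_zero (s := K) ((ae_mem G).mono fun p hp h => by
    rw [Geo.dlagG, jG_zero hK.isClosed h0 hp h, dlag_zero, Geo.eulG, h0 p hp h, eul_zero,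
      add_zero]), ← him, chartC P hKO hK'.measurableSet,
    setIntegral_congr_fun hK'.measurableSet fun y hy => by
      rw [(v y (hKO hy)).2.1, (v y (hKO hy)).2.2.1]]
  refine planar hK' (fun y hy => contDiffAt_cx (cd P (hKO hy))) (fun y hy => hX P y (hKO hy))
    (fun y hy => hY P y (hKO hy)) (fun y hy => ?_) (fun y hy => ?_) fun y hy => ?_
  · filter_upwards [P.isOpen_O.mem_nhds (hKO hy)] with z hz hz'
    exact h0 _ (P.maps z hz).1 fun h => hz' ⟨_, h, P.left z hz⟩
  · exact (dg_jS (cd P (hKO hy))).symm ▸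
      Complex.ofReal_mem_slitPlane.2 (pow_pos (ar_pos (P.imm y (hKO hy))) 2)
  · exact (v y (hKO hy)).1 ▸ hs _ (him ▸ mem_image_of_mem _ hy)

theorem fv (hI : InvF G zm) {K : Set E3} (hK : IsCompact K) (hKS : K ⊆ SS w) (hX : C2S w X)
    (hY : C2S w Y) (h0 : ∀ p, w p = 0 → p ∉ K → Y p = 0)
    (hs : ∀ p ∈ K, dg (G.jG X p) / dg (G.jG cx p) ∈ Complex.slitPlane) :
    ∫ p, G.dlagG X Y p ∂(muS w) = -∫ p, G.eulG X Y p ∂(muS w) := by
  classical
  obtain ⟨t, ht⟩ := hK.elim_finite_subcover (fun p : K => (G.pa p).V)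
    (fun p => (G.pa p).isOpen_V) fun p hp => mem_iUnion.2 ⟨⟨p, hp⟩, G.pa_mem p (hKS hp)⟩
  obtain ⟨χ, c1, -, c3, -, -, c6⟩ := exists_pou hK (U := fun i : t => (G.pa i.1).V)
    (fun i => (G.pa i.1).isOpen_V) (by simpa only [iUnion_subtype] using ht)
  have z : ∀ f : E3 → ℝ, ∀ p, w p = 0 → p ∉ K → f p • Y p = 0 := fun f p hp h => by
    rw [h0 p hp h, smul_zero]
  have key : ∀ s : Finset t, ∫ p, G.dlagG X (fun p => (∑ i ∈ s, χ i p) • Y p) p +
      G.eulG X (fun p => (∑ i ∈ s, χ i p) • Y p) p ∂(muS w) = 0 := fun s => by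
    induction s using Finset.induction_on with
    | empty => simp [Geo.dlagG, Geo.eulG, Geo.jG, jet2_zero, dlag_zero, eul_zero]
    | insert i s hi ih =>
      have a1 := C2S.smul (c1 i) hY
      have a2 := C2S.smul (ContDiff.sum (s := s) fun i _ => c1 i) hY
      have i1 := int_var hI hK hKS hX a1 (z _) hs
      have i2 := int_var hI hK hKS hX a2 (z _) hs
      have h1 := fv_loc hI (G.pa i.1) (hK.inter_right (isClosed_tsupport (χ i)))
        (fun p hp => ⟨hKS hp.1, c3 i hp.2⟩) hX a1 (fun p hp h => by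
          by_cases h' : p ∈ K
          · rw [image_eq_zero_of_notMem_tsupport fun h'' => h ⟨h', h''⟩, zero_smul]
          · exact z _ p hp h') fun p hp => hs p hp.1
      refine (integral_congr_ae ((ae_mem G).mono fun p hp => ?_)).trans
        ((integral_add (i1.1.add i1.2) (i2.1.add i2.2)).trans
          ((congrArg₂ (· + ·) h1 ih).trans (add_zero 0)))
      have h2 := (exists_chart G hp).1
      simp only [Finset.sum_insert hi, add_smul, Geo.dlagG, Geo.eulG, Geo.jG, Pi.add_apply]
      rw [jet2_add (a1 _ _ h2) (a2 _ _ h2), dlag_add, eul_add]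
      ring
  have e : ∀ p, w p = 0 → (∑ i, χ i p) • Y p = Y p := fun p hp => by
    by_cases h : p ∈ K
    · rw [(c6 p h).self_of_nhds, one_smul]
    · rw [h0 p hp h, smul_zero]
  have i0 := int_var hI hK hKS hX hY h0 hs
  rw [← add_eq_zero_iff_eq_neg, ← integral_add i0.1 i0.2, ← key Finset.univ]
  refine integral_congr_ae ((ae_mem G).mono fun p hp => ?_)
  simp only [Geo.dlagG, Geo.eulG]
  rw [e p hp, jG_congr (u := fun p => (∑ i, χ i p) • Y p) (v := Y) hp
    (mem_of_superset self_mem_nhdsWithin e)]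

theorem varF (hI : InvF G zm) : VarF G where
  fin := by
    have := locFin G
    infer_instance
  int _ := integrable_of_bdd G
  pos _ := eq_zero_of_integral G
  chart P _ f hKO hK _ := chartC P hKO hK f
  ends _ _ _ := ends G hI.per
  fv X Y R hX hY h0 hs := fv hI (G.cpt R) (fun _ hp => hp.1) hX hY
    (fun p hp h => h0 p hp (not_le.1 fun h' => h ⟨hp, h'⟩))
    fun p hp => hs p hp.1 (by linarith [hp.2])
  cont X Y f R hX hY hf h0 hs := by
    have hc : IsClosed {p | G.σ p ≤ R} := isClosed_le G.σ_sm.continuous continuous_const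
    refine ⟨fun p hp => ?_, fun p hp => ?_⟩ <;> by_cases h : G.σ p ≤ R
    · exact (hf p hp).mul (cwa_var hI hX hY hp (hs p hp (by linarith))).1
    · exact cwa_of_zero hc (fun q hq h' => by rw [h0 q hq (not_le.1 h'), zero_mul]) hp h
    · exact (hf p hp).mul (cwa_var hI hX hY hp (hs p hp (by linarith))).2.2
    · exact cwa_of_zero hc (fun q hq h' => by rw [h0 q hq (not_le.1 h'), zero_mul]) hp h

end Var

theorem varStmt (hI : InvStmt) : VarStmt := fun w D G => Var.varF (hI w D G 0)

end Vale.Agent.P218N.Core
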