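import Vale.Agent.P218N.Core.Abs
import Vale.Agent.P218N.Core.Cyl
import Vale.Agent.P218N.Core.Box
import Vale.Agent.P218N.Core.Dbl
import Vale.Agent.P218N.Core.Geo1
import Vale.Agent.P218N.Core.EndF
import Vale.Agent.P218N.Core.Green
import Vale.Agent.P218N.Core.Hol
import Vale.Agent.P218N.Core.Inv
import Vale.Agent.P218N.Core.Lag
import Vale.Agent.P218N.Core.Nem
import Vale.Agent.P218N.Core.Rot
import Vale.Agent.P218N.Core.Trans
import Vale.Agent.P218N.Core.Var
import Vale.Agent.P218N.Core.Fin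

/-! Existence of the context. -/

open Set Filter Topology Metric MeasureTheory
open scoped RealInnerProductSpace ContDiff Matrix NNReal

noncomputable section

namespace Vale.Agent.P218N.Core

open Vale.Agent.P218.H313 Vale.Agent.P218N.H Vale.Agent.P218N.End Vale.Agent.P272.K.LIN

theorem exists_ctx (hM : MaxStmt) (hL : LimStmt) (hL2 : Lag2Stmt) {w : E3 → ℝ} {D : EndData w}
    {jE : En D → Path → EJ} {dS πS : En D → ℝ → WD} {Z C : ℝ} (hw : Shr w) (hp : ∃ p, w p = 0)
    (hE : RealEnds D jE dS πS Z C) : ∃ (G : Geo D) (z1 : ℝ), ∀ zm, z1 ≤ zm →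
    ∃ (X : Type) (_ : TopologicalSpace X) (_ : ChartedSpace R2 X) (_ : T2Space X)
      (_ : CompactSpace X) (_ : RSm R2 X) (C : Ctx2 G zm X),
      ∀ e n, (C.B e).jS n = jE e (gam zm 0 n) := by
  obtain ⟨G⟩ := geoStmt w D hw
  obtain ⟨z1, h1⟩ := hM w D G
  obtain ⟨z2, h2⟩ := boxStmt pathStmt w D jE dS πS Z C hE
  obtain ⟨z3, h3⟩ := cylStmt w D jE dS πS Z C hw hE
  obtain ⟨z4, h4⟩ := lagStmt pathStmt w D
  obtain ⟨z5, h5⟩ := hL2 w D
  refine ⟨G, max (max (G.z0 + 1) 1000) (max (max z1 z2) (max z3 (max z4 z5))), fun zm hz => ?_⟩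
  simp only [max_le_iff] at hz
  obtain ⟨⟨a0, a1⟩, ⟨b1, b2⟩, b3, b4, b5⟩ := hz
  obtain ⟨X, _, _, _, _, _, ⟨Z⟩⟩ := dblStmt w D G zm a0 hp
  choose B hB using h2 zm b2
  have pf := pathStmt w D zm a1
  have iv := invStmt' w D G zm
  have vf := varStmt invStmt' w D G
  have hf := holStmt X Z.𝒞 Z.pou
  obtain ⟨yf, lf⟩ := hL w D zm a1 pf
  choose Gi hG using fun e => lf e (B e)
  exact ⟨X, inferInstance, inferInstance, inferInstance, inferInstance, inferInstance,
    { Z := Z, B := B, hz := a0, pf := pf, jf := jetStmt w D, iv := iv, ef := endFStmt w D G zm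
      vf := vf, gf := greenStmt jetStmt invStmt' (varStmt invStmt') w D G zm, hf := hf
      tf := transF Z pf iv vf a0 hf, nem := nemStmt, abs := absStmt
      cy := fun b => (h3 zm b3 b (B _) (hB _)).some, Gi := Gi, big := a1, lf := hG, yf := yf
      mx := h1 zm b1, rot := rotStmt w D G zm a0, lag := fun e => h4 zm b4 e (B e)
      lag2 := fun e => h5 zm b5 e (B e) }, hB⟩

end Vale.Agent.P218N.Core
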