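import Vale.Agent.P218N.Core.TopA
import Vale.Agent.P218N.Core.Lim
import Vale.Agent.P218N.Core.Op
import Vale.Agent.P218N.Core.Phi
import Vale.Agent.P218N.Core.Ker
import Vale.Agent.P218N.Core.Asy
import Vale.Agent.P218N.Core.FV
import Vale.Agent.P218N.Core.Lag2
import Vale.Agent.P218N.Core.Jac
import Vale.Agent.P218N.Core.Chart
import Vale.Agent.P218N.Core.DMax
import Vale.Agent.P218N.Core.Gam
import Vale.Agent.P218N.Core.Lin
import Vale.Agent.P218N.Core.Solv

/-! The core problem, from the maximum principle on the ends. -/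

namespace Vale.Agent.P218N.Core

theorem coreStmt_of (hM : MaxStmt) : CoreStmt := by
  intro w D jE dS πS Z C hw hp hE
  obtain ⟨G, z1, h⟩ := exists_ctx hM limStmt (lag2Stmt pathStmt) hw hp hE
  refine ⟨G, z1, fun zm hz => ?_⟩
  obtain ⟨X, _, _, _, _, _, C, hC⟩ := h zm hz
  have h1 := C.toCtx.opS
  simpa only [hC] using C.core ⟨h1, C.dmaxS h1, C.gamS, C.linS h1 C.gamS⟩ C.phiS C.kerS C.invS
    C.solvS C.outS C.eqS C.fvS C.chartS C.dinjS

end Vale.Agent.P218N.Core
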