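import Vale.Agent.P218N.Core.TransA

/-! Transfers between the double and the surface. -/

open Set Filter Topology Metric Function MeasureTheory
open scoped ContDiff

noncomputable section

namespace Vale.Agent.P218N.Core.Tr

open Vale.Agent.P218.H313 Vale.Agent.P218N.H Vale.Agent.P218N.End Vale.Agent.P272.K.LIN

variable {w : E3 → ℝ} {D : EndData w} {G : Geo D} {zm : ℝ} {X : Type} [TopologicalSpace X]
  [ChartedSpace R2 X] (Z : Dbl G zm X)

theorem dn_pr {V : Type} [Zero V] (f : X → V) {x : X} (hx : 0 < Z.τ x) :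
    Z.dn f (Z.pr x) = f x := by
  have h : ∃ x', Z.pr x' = Z.pr x ∧ 0 < Z.τ x' := ⟨x, rfl, hx⟩
  rw [Dbl.dn, dif_pos h]
  obtain ⟨h1, h2⟩ := h.choose_spec
  congr 1
  refine Z.inj _ _ h1 ?_
  have h3 := (Z.mem h.choose).2
  have h4 := (Z.mem x).2
  rw [h1] at h3
  exact (pow_left_inj₀ h2.le hx.le two_ne_zero).1 (by linarith)

theorem ex {p : E3} (hp : w p = 0) (h : G.σ p < zm + 8) : ∃ x, Z.pr x = p ∧ 0 < Z.τ x := by
  obtain ⟨x, h1, h2⟩ := Z.surj p √(zm + 8 - G.σ p) hp (by rw [Real.sq_sqrt (by linarith)]; ring)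
  exact ⟨x, h1, h2 ▸ Real.sqrt_pos.2 (by linarith)⟩

/-- a chart which comes from a patch -/
theorem chart_of {P : Patch (SS w)} {e : OpenPartialHomeomorph X R2}
    (hs : e.source = {x | 0 < Z.τ x ∧ Z.pr x ∈ P.V}) (he : ∀ x ∈ e.source, e x = P.ι (Z.pr x))
    {x : X} (hx : x ∈ e.source) : e x ∈ P.O ∧ P.φ (e x) = Z.pr x ∧ ∀ᶠ y in 𝓝 (e x),
      Z.pr (e.symm y) = P.φ y ∧ 0 < Z.τ (e.symm y) := by
  have h : ∀ x ∈ e.source, e x ∈ P.O ∧ P.φ (e x) = Z.pr x := fun x hx => by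
    rw [he x hx]
    exact P.inv _ (Z.mem x).1 (hs ▸ hx : x ∈ {x | 0 < Z.τ x ∧ Z.pr x ∈ P.V}).2
  refine ⟨(h x hx).1, (h x hx).2, ?_⟩
  filter_upwards [e.open_target.mem_nhds (e.map_source hx)] with y hy
  have h1 := e.map_target hy
  refine ⟨?_, (hs ▸ h1 : e.symm y ∈ {x | 0 < Z.τ x ∧ Z.pr x ∈ P.V}).1⟩
  rw [← (h _ h1).2, e.right_inv hy]

theorem chart {i : Fin Z.𝒞.N} (hi : i ∈ Z.A) {x : X} (hx : x ∈ (Z.𝒞.e i).source) :
    Z.𝒞.e i x ∈ (Z.P i).O ∧ (Z.P i).φ (Z.𝒞.e i x) = Z.pr x ∧ ∀ᶠ y in 𝓝 (Z.𝒞.e i x),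
      Z.pr ((Z.𝒞.e i).symm y) = (Z.P i).φ y ∧ 0 < Z.τ ((Z.𝒞.e i).symm y) :=
  chart_of Z (Z.src i hi) (Z.chart i hi) hx

theorem dn_ck {V : Type} [NormedAddCommGroup V] [NormedSpace ℝ V] {k : WithTop ℕ∞} {f : X → V}
    (hf : CkFn R2 k f) (P : Patch (SS w)) {y : R2} (hy : y ∈ P.O) (h : G.σ (P.φ y) < zm + 8) :
    ContDiffAt ℝ k (fun z => Z.dn f (P.φ z)) y := by
  obtain ⟨e, he, hs, hc⟩ := Z.up P
  obtain ⟨x, h1, h2⟩ := ex Z (P.maps y hy).1 h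
  have hx : x ∈ e.source := by rw [hs]; exact ⟨h2, h1 ▸ (P.maps y hy).2⟩
  have h3 : e x = y := by rw [hc x hx, h1, P.left y hy]
  have h4 := hf e he x hx
  have h5 := (chart_of Z hs hc hx).2.2
  rw [h3] at h4 h5
  refine h4.congr_of_eventuallyEq ?_
  filter_upwards [h5] with z hz
  rw [← hz.1, dn_pr Z f hz.2]

omit [ChartedSpace R2 X] in
theorem tendsto_symm {e : OpenPartialHomeomorph X R2} {x : X} (hx : x ∈ e.source) :
    Tendsto e.symm (𝓝 (e x)) (𝓝 x) := by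
  have := e.symm.continuousAt (x := e x) (e.map_source hx)
  unfold ContinuousAt at this
  rwa [e.left_inv hx] at this

/-- near a point with `τ < 1` -/
theorem upF_zero {V : Type} [Zero V] {f : E3 → V}
    (h0 : ∀ p, w p = 0 → zm + 7 ≤ G.σ p → f p = 0) {x : X} (hx : Z.τ x < 1) :
    ∀ᶠ x' in 𝓝 x, Z.upF f x' = 0 := by
  filter_upwards [(ckFn_continuous Z.τ_sm).continuousAt.eventually (gt_mem_nhds hx)] with x' hx'
  unfold Dbl.upF
  split_ifs with h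
  · refine h0 _ (Z.mem x').1 ?_
    have := (Z.mem x').2
    nlinarith
  · rfl

theorem up_ck [RSm R2 X] {V : Type} [NormedAddCommGroup V] [NormedSpace ℝ V] {k : WithTop ℕ∞}
    {f : E3 → V} (hk : k ≤ ∞) (hf : ∀ (P : Patch (SS w)), ∀ y ∈ P.O, G.σ (P.φ y) < zm + 8 →
      ContDiffAt ℝ k (fun z => f (P.φ z)) y)
    (h0 : ∀ p, w p = 0 → zm + 7 ≤ G.σ p → f p = 0) : CkFn R2 k (Z.upF f) := by
  refine ckFn_of_local hk fun x => ?_
  rcases lt_or_ge (Z.τ x) 1 with hx | hx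
  · exact ⟨chartAt R2 x, chart_mem_atlas R2 x, mem_chart_source R2 x,
      (contDiffAt_const (c := (0 : V))).congr_of_eventuallyEq
        ((tendsto_symm (mem_chart_source R2 x)).eventually (upF_zero Z h0 hx))⟩
  · obtain ⟨e, he, hs, hc⟩ := Z.up (G.pa (Z.pr x))
    have hx' : x ∈ e.source := by
      rw [hs]; exact ⟨by linarith, G.pa_mem _ (Z.mem x).1⟩
    obtain ⟨h1, h2, h3⟩ := chart_of Z hs hc hx'
    refine ⟨e, he, hx', (hf _ _ h1 ?_).congr_of_eventuallyEq ?_⟩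
    · have := (Z.mem x).2
      rw [h2]
      nlinarith
    · filter_upwards [h3] with y hy
      rw [Dbl.upF, if_pos hy.2, hy.1]

theorem base [T2Space X] [RSm R2 X] (hI : InvF G zm) {i : Fin Z.𝒞.N} (hi : i ∈ Z.A) :
    CkFn R2 ∞ fun x => Z.𝒞.η i x • G.bJ zm (Z.P i).φ (Z.𝒞.e i x) := by
  refine Z.𝒞.η_smul_ck i le_rfl fun y hy => ?_
  have h := (chart Z hi ((Z.𝒞.e i).map_target hy)).1
  rw [(Z.𝒞.e i).right_inv hy] at h
  exact (hI.base _ y h).2.2.2.2.2.2.2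

theorem ckFn_zero {f : X → ℂ} (hf : Continuous f) : CkFn R2 0 f := fun e _ _ hx =>
  contDiffAt_zero.2 ⟨e.target, e.open_target.mem_nhds (e.map_source hx),
    hf.comp_continuousOn e.continuousOn_symm⟩

theorem dn_cont (hI : InvF G zm) {f : X → ℂ} (hf : Continuous f) {p : E3} (hp : w p = 0)
    (h : G.σ p < zm + 8) : ContinuousWithinAt (Z.dn f) (SS w) p := by
  obtain ⟨h1, h2⟩ := (G.pa p).inv p hp (G.pa_mem p hp)
  have h3 := (dn_ck Z (ckFn_zero hf) (G.pa p) h1 (by rwa [h2])).continuousAt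
  have h4 := hI.nhds (G.pa p) _ h1
  unfold ContinuousWithinAt
  rw [ContinuousAt, h2] at h3
  rw [h2] at h4
  rw [← h4]
  exact h3

theorem dn_add (f g : X → ℂ) (p : E3) : Z.dn (fun x => f x + g x) p = Z.dn f p + Z.dn g p := by
  unfold Dbl.dn
  split_ifs <;> simp

theorem dn_smul (z : ℂ) (f : X → ℂ) (p : E3) : Z.dn (fun x => z * f x) p = z * Z.dn f p := by
  unfold Dbl.dn
  split_ifs <;> simp

theorem dn_le {f : X → ℂ} {C : ℝ} (hC : 0 ≤ C) (h : ∀ x, ‖f x‖ ≤ C) (p : E3) :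
    ‖Z.dn f p‖ ≤ C := by
  unfold Dbl.dn
  split_ifs
  · exact h _
  · simpa using hC

theorem bdd_of {ψ : E3 → ℂ} {R : ℝ} (h0 : ∀ p, w p = 0 → R ≤ G.σ p → ψ p = 0) : Bdd w ψ := by
  obtain ⟨C, hC⟩ := (G.cpt R).isBounded.exists_norm_le
  refine ⟨C + 1, fun p hp h => h0 p hp ?_⟩
  by_contra h1
  have := hC p ⟨hp, (not_le.1 h1).le⟩
  linarith

theorem int [T2Space X] [RSm R2 X] (hI : InvF G zm) (hV : VarF G) {ψ : E3 → ℂ}
    (hψ : ContinuousOn ψ (SS w)) (h0 : ∀ p, w p = 0 → zm + 7 ≤ G.σ p → ψ p = 0) :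
    ∃ l : HH Z.𝒞 ℂ →L[ℂ] ℂ, ∀ f, l f = ∫ p, Z.dn f p * ψ p ∂(muS w) := by
  have hi : ∀ f : HH Z.𝒞 ℂ, Integrable (fun p => Z.dn f p * ψ p) (muS w) := fun f => by
    refine hV.int _ (fun p hp => ?_) (bdd_of (G := G) (R := zm + 7) fun p hp h => by
      rw [h0 p hp h, mul_zero])
    rcases lt_or_ge (G.σ p) (zm + 8) with h | h
    · exact (dn_cont Z hI (Z.𝒞.hol_continuous (by norm_num) f) hp h).mul (hψ p hp)
    · have h1 : ∀ᶠ p' in 𝓝[SS w] p, Z.dn f p' * ψ p' = 0 := by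
        filter_upwards [self_mem_nhdsWithin, mem_nhdsWithin_of_mem_nhds
          (G.σ_sm.continuous.continuousAt.eventually (lt_mem_nhds (by linarith : zm + 7 < G.σ p)))]
          with p' h2 h3
        rw [h0 p' h2 h3.le, mul_zero]
      exact (continuousWithinAt_const (b := (0 : ℂ))).congr_of_eventuallyEq h1
        (by rw [h0 p hp (by linarith), mul_zero])
  have hψi := (hV.int ψ hψ (bdd_of h0)).norm
  let L : HH Z.𝒞 ℂ →ₗ[ℂ] ℂ :=
    { toFun := fun f => ∫ p, Z.dn f p * ψ p ∂(muS w)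
      map_add' := fun f g => by
        rw [← integral_add (hi f) (hi g)]
        congr 1
        funext p
        rw [← add_mul, ← dn_add]
        rfl
      map_smul' := fun z f => by
        rw [RingHom.id_apply, smul_eq_mul, ← integral_const_mul]
        congr 1
        funext p
        rw [← mul_assoc, ← dn_smul]
        rfl }
  refine ⟨L.mkContinuous (∫ p, ‖ψ p‖ ∂(muS w)) fun f => ?_, fun f => rfl⟩
  rw [mul_comm, ← integral_const_mul]
  refine norm_integral_le_of_norm_le (hψi.const_mul _) (Eventually.of_forall fun p => ?_)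
  rw [norm_mul]
  exact mul_le_mul_of_nonneg_right (dn_le Z (norm_nonneg _) f.norm_apply_le p) (norm_nonneg _)

/-- the charts at the points over the ends -/
theorem end_chart {i : Fin Z.𝒞.N} {x : X} (hη : Z.𝒞.η i x ≠ 0) (h1 : 1 ≤ Z.τ x)
    (h2 : zm ≤ G.σ (Z.pr x)) : ∃ e : En D, G.z0 < (Z.𝒞.e i x).1 ∧ pt e (Z.𝒞.e i x) = Z.pr x ∧
      ∀ᶠ y in 𝓝 (Z.𝒞.e i x), G.z0 < y.1 ∧ Z.pr ((Z.𝒞.e i).symm y) = pt e y ∧
        0 < Z.τ ((Z.𝒞.e i).symm y) := by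
  have hi := Z.act i x hη h1
  rcases Z.ends i hi with ⟨e, θ, he⟩ | h
  · obtain ⟨h3, h4, h5⟩ := chart Z hi (Z.𝒞.η_ne_zero hη).1
    rw [he, G.ep_φ] at h4 h5
    rw [he, G.ep_O] at h3
    exact ⟨e, h3.1, h4, (continuous_fst.continuousAt.eventually (lt_mem_nhds h3.1)).and h5⟩
  · exact absurd (h x hη) (not_lt.2 h2)

end Vale.Agent.P218N.Core.Tr
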