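import Vale.Agent.P218N.Core.Defs
import Mathlib.Analysis.Calculus.LineDeriv.IntegrationByParts
import Mathlib.Analysis.Complex.SqrtDeriv

/-! The first variation formula in the plane. -/

open Set Filter Topology Metric MeasureTheory
open scoped Matrix

noncomputable section

namespace Vale.Agent.P218N.Core.Var

theorem gram (b c u Y : C3) : ((b ⬝ᵥ b) * (c ⬝ᵥ c) - (b ⬝ᵥ c) ^ 2) * (u ⬝ᵥ Y) =
    det3 b c u * det3 b c Y + (c ⬝ᵥ c) * ((u ⬝ᵥ b) * (b ⬝ᵥ Y)) -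
      (b ⬝ᵥ c) * ((u ⬝ᵥ b) * (c ⬝ᵥ Y) + (u ⬝ᵥ c) * (b ⬝ᵥ Y)) +
      (b ⬝ᵥ b) * ((u ⬝ᵥ c) * (c ⬝ᵥ Y)) := by
  simp only [det3, cross_apply, dotProduct, Fin.sum_univ_three, Matrix.cons_val_zero,
    Matrix.cons_val_one, Matrix.cons_val]
  ring

theorem sq_sqrt (z : ℂ) : Complex.sqrt z ^ 2 = z := Complex.cpow_ofNat_inv_pow z 2

theorem hasDerivAt_dot {a b : ℝ → C3} {a' b' : C3} {t : ℝ} (ha : HasDerivAt a a' t)
    (hb : HasDerivAt b b' t) : HasDerivAt (fun s => a s ⬝ᵥ b s) (a' ⬝ᵥ b t + a t ⬝ᵥ b') t := by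
  simp only [dotProduct, ← Finset.sum_add_distrib]
  exact HasDerivAt.fun_sum fun i _ => (hasDerivAt_pi.1 ha i).fun_mul (hasDerivAt_pi.1 hb i)

/-- a component of the flux -/
def fl (a b c Y : C3) (r : ℂ) : ℂ :=
  Complex.exp (-(a ⬝ᵥ a) / 4) * ((c ⬝ᵥ c) * (b ⬝ᵥ Y) - (b ⬝ᵥ c) * (c ⬝ᵥ Y)) / r

/-- its derivative -/
def fl' (a b c Y a' b' c' Y' : C3) (r : ℂ) : ℂ := Complex.exp (-(a ⬝ᵥ a) / 4) *
  ((-(a ⬝ᵥ a') / 2 * ((c ⬝ᵥ c) * (b ⬝ᵥ Y) - (b ⬝ᵥ c) * (c ⬝ᵥ Y)) +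
    (2 * (c' ⬝ᵥ c) * (b ⬝ᵥ Y) + (c ⬝ᵥ c) * (b' ⬝ᵥ Y + b ⬝ᵥ Y') -
      ((b' ⬝ᵥ c + c' ⬝ᵥ b) * (c ⬝ᵥ Y) + (b ⬝ᵥ c) * (c' ⬝ᵥ Y + c ⬝ᵥ Y')))) * r ^ 2 -
    ((c ⬝ᵥ c) * (b ⬝ᵥ Y) - (b ⬝ᵥ c) * (c ⬝ᵥ Y)) *
      ((b' ⬝ᵥ b) * (c ⬝ᵥ c) + (b ⬝ᵥ b) * (c' ⬝ᵥ c) - (b ⬝ᵥ c) * (b' ⬝ᵥ c + c' ⬝ᵥ b))) / r ^ 3

theorem hasDerivAt_fl {a b c Y : ℝ → C3} {a' b' c' Y' : C3} {r : ℝ → ℂ} {t : ℝ}
    (ha : HasDerivAt a a' t) (hb : HasDerivAt b b' t) (hc : HasDerivAt c c' t)
    (hY : HasDerivAt Y Y' t) (hr : DifferentiableAt ℝ r t) (h0 : r t ≠ 0)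
    (h2 : ∀ᶠ s in 𝓝 t, r s ^ 2 = (b s ⬝ᵥ b s) * (c s ⬝ᵥ c s) - (b s ⬝ᵥ c s) ^ 2) :
    HasDerivAt (fun s => fl (a s) (b s) (c s) (Y s) (r s))
      (fl' (a t) (b t) (c t) (Y t) a' b' c' Y' (r t)) t := by
  have h3 := (hr.hasDerivAt.fun_pow 2).unique ((((hasDerivAt_dot hb hb).fun_mul
    (hasDerivAt_dot hc hc)).fun_sub ((hasDerivAt_dot hb hc).fun_pow 2)).congr_of_eventuallyEq h2)
  refine (((((hasDerivAt_dot ha ha).fun_neg.div_const 4).cexp).fun_mul
    (((hasDerivAt_dot hc hc).fun_mul (hasDerivAt_dot hb hY)).fun_sub ((hasDerivAt_dot hb hc).fun_mul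
      (hasDerivAt_dot hc hY)))).fun_div hr.hasDerivAt h0).congr_deriv ?_
  rw [fl', dotProduct_comm a' (a t)]
  rw [dotProduct_comm (c t) c', dotProduct_comm (b t) c'] at h3 ⊢
  rw [dotProduct_comm (b t) b'] at h3
  field_simp
  norm_num at h3
  linear_combination (-4 * ((c t ⬝ᵥ c t) * (b t ⬝ᵥ Y t) - (b t ⬝ᵥ c t) * (c t ⬝ᵥ Y t))) * h3

theorem fl'_add (b j k : J2 C3) {s : ℂ} (hs : s ^ 2 = dg b) (h0 : dg j / dg b ≠ 0) :
    fl' (j 0) (j 1) (j 2) (k 0) (j 1) (j 3) (j 4) (k 1) (sq b j * s) +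
      fl' (j 0) (j 2) (j 1) (k 0) (j 2) (j 5) (j 4) (k 2) (sq b j * s) =
      (dlag b j k + eul b j (k 0)) * s := by
  have hq : sq b j ^ 2 = dg j / dg b := sq_sqrt _
  have q0 : sq b j ≠ 0 := fun h => h0 (by rw [← hq, h]; simp)
  have s0 : s ≠ 0 := fun h => h0 (by rw [← hs, h]; simp)
  have hr : (sq b j * s) ^ 2 = dg j := by
    rw [mul_pow, hq, hs, div_mul_cancel₀]
    exact hs ▸ pow_ne_zero 2 s0
  have e1 : (dlag b j k + eul b j (k 0)) * s = eG j * ((-(j 0 ⬝ᵥ k 0) / 2 * (sq b j * s) ^ 2 +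
      (g22 j * (j 1 ⬝ᵥ k 1) - g12 j * (j 2 ⬝ᵥ k 1) + g11 j * (j 2 ⬝ᵥ k 2) - g12 j * (j 1 ⬝ᵥ k 2))) *
      (sq b j * s) ^ 2 + Mp j * det3 (j 1) (j 2) (k 0)) / (sq b j * s) ^ 3 := by
    simp only [dlag, eul, lag, flx, ← hs, smul_dotProduct, add_dotProduct, smul_eq_mul]
    field_simp
    ring
  have e2 : Mp j = g22 j * det3 (j 1) (j 2) (j 3) - 2 * g12 j * det3 (j 1) (j 2) (j 4) +
      g11 j * det3 (j 1) (j 2) (j 5) + dg j / 2 * det3 (j 1) (j 2) (j 0) := by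
    simp only [Mp, det3, dotProduct_add, dotProduct_sub, dotProduct_smul, smul_eq_mul]
  rw [e1, e2, fl', fl', hr, ← add_div, ← mul_add, dotProduct_comm (j 2) (j 1)]
  congr 2
  simp only [dg, g11, g12, g22]
  linear_combination (j 2 ⬝ᵥ j 2) * gram (j 1) (j 2) (j 3) (k 0) -
    2 * (j 1 ⬝ᵥ j 2) * gram (j 1) (j 2) (j 4) (k 0) + (j 1 ⬝ᵥ j 1) * gram (j 1) (j 2) (j 5) (k 0) +
    ((j 1 ⬝ᵥ j 1) * (j 2 ⬝ᵥ j 2) - (j 1 ⬝ᵥ j 2) ^ 2) / 2 * gram (j 1) (j 2) (j 0) (k 0)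

section jets

variable {V : Type} [NormedAddCommGroup V] [NormedSpace ℝ V] {F : R2 → V} {y : R2}

theorem hasFDerivAt_fderiv (h : ContDiffAt ℝ 2 F y) :
    HasFDerivAt (fderiv ℝ F) (fderiv ℝ (fderiv ℝ F) y) y :=
  ((h.fderiv_right (m := 1) (by norm_num)).differentiableAt one_ne_zero).hasFDerivAt

theorem continuousAt_jet2 (h : ContDiffAt ℝ 2 F y) : ContinuousAt (jet2 F) y := by
  have h1 := (hasFDerivAt_fderiv h).continuousAt
  have h2 := (h.fderiv_right (m := 1) (by norm_num)).continuousAt_fderiv one_ne_zero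
  refine continuousAt_pi.2 fun k => ?_
  fin_cases k
  · exact h.continuousAt
  · exact h1.clm_apply continuousAt_const
  · exact h1.clm_apply continuousAt_const
  all_goals exact (h2.clm_apply continuousAt_const).clm_apply continuousAt_const

theorem line0 (h : ContDiffAt ℝ 2 F y) (v : R2) :
    HasDerivAt (fun t : ℝ => F (y + t • v)) (fderiv ℝ F y v) 0 :=
  (h.differentiableAt two_ne_zero).hasFDerivAt.hasLineDerivAt v

theorem line1 (h : ContDiffAt ℝ 2 F y) (u v : R2) :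
    HasDerivAt (fun t : ℝ => fderiv ℝ F (y + t • v) u) (fderiv ℝ (fderiv ℝ F) y v u) 0 :=
  (((ContinuousLinearMap.apply ℝ V u).hasFDerivAt.comp y (hasFDerivAt_fderiv h)).hasLineDerivAt v :)

end jets

theorem differentiableAt_dg {X : R2 → C3} {y : R2} (h : ContDiffAt ℝ 2 X y) :
    DifferentiableAt ℝ (fun z => dg (jet2 X z)) y := by
  have h1 : ∀ u i, DifferentiableAt ℝ (fun z => fderiv ℝ X z u i) y := fun u i =>
    differentiableAt_pi.1 ((hasFDerivAt_fderiv h).differentiableAt.clm_apply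
      (differentiableAt_const u)) i
  simp only [dg, g11, g12, g22, jet2, dotProduct, Fin.sum_univ_three, Matrix.cons_val_one,
    Matrix.cons_val_zero, Matrix.cons_val]
  fun_prop

theorem integral_line {K : Set R2} (hK : IsCompact K) {F F' : R2 → ℂ} {v : R2}
    (hF : ContinuousOn F K) (hF' : ContinuousOn F' K) (h : ∀ y ∈ K, HasLineDerivAt ℝ F (F' y) y v)
    (h0 : ∀ y ∈ K, ∀ᶠ z in 𝓝 y, z ∉ K → F z = 0) : ∫ y in K, F' y = 0 := by
  have hm := hK.measurableSet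
  have := integral_bilinear_hasLineDerivAt_right_eq_neg_left_of_integrable (μ := volume)
    (f := fun _ : R2 => (1 : ℝ)) (f' := fun _ => 0) (g := K.indicator F) (g' := K.indicator F')
    (v := v) (B := ContinuousLinearMap.lsmul ℝ ℝ) (by simp)
    (by simpa using (integrable_indicator_iff hm).2 (hF'.integrableOn_compact hK))
    (by simpa using (integrable_indicator_iff hm).2 (hF.integrableOn_compact hK))
    (fun x _ => (hasFDerivAt_const (1 : ℝ) x).hasLineDerivAt v) fun y _ => by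
      by_cases hy : y ∈ K
      · rw [indicator_of_mem hy]
        refine (h y hy).congr_of_eventuallyEq ((h0 y hy).mono fun z hz => ?_)
        by_cases hz' : z ∈ K
        exacts [indicator_of_mem hz' _, (indicator_of_notMem hz' _).trans (hz hz').symm]
      · rw [indicator_of_notMem hy]
        refine ((hasFDerivAt_const (0 : ℂ) y).hasLineDerivAt v).congr_of_eventuallyEq ?_
        filter_upwards [hK.isClosed.isOpen_compl.mem_nhds hy] with z hz
        exact indicator_of_notMem hz _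
  simpa [integral_indicator hm] using this

@[fun_prop]
theorem continuousAt_dot {T : Type} [TopologicalSpace T] {a b : T → C3} {t : T}
    (ha : ContinuousAt a t) (hb : ContinuousAt b t) : ContinuousAt (fun s => a s ⬝ᵥ b s) t :=
  (continuous_fst.dotProduct continuous_snd).continuousAt.comp (ha.prodMk hb)

@[fun_prop]
theorem continuousAt_cexp {T : Type} [TopologicalSpace T] {a : T → ℂ} {t : T}
    (ha : ContinuousAt a t) : ContinuousAt (fun s => Complex.exp (a s)) t :=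
  Complex.continuous_exp.continuousAt.comp ha

theorem continuousAt_fl {T : Type} [TopologicalSpace T] {a b c Y : T → C3} {r : T → ℂ} {t : T}
    (ha : ContinuousAt a t) (hb : ContinuousAt b t) (hc : ContinuousAt c t)
    (hY : ContinuousAt Y t) (hr : ContinuousAt r t) (h0 : r t ≠ 0) :
    ContinuousAt (fun s => fl (a s) (b s) (c s) (Y s) (r s)) t := by
  unfold fl
  fun_prop (disch := first | assumption | norm_num)

theorem continuousAt_fl' {T : Type} [TopologicalSpace T] {a b c Y a' b' c' Y' : T → C3} {r : T → ℂ}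
    {t : T} (ha : ContinuousAt a t) (hb : ContinuousAt b t) (hc : ContinuousAt c t)
    (hY : ContinuousAt Y t) (ha' : ContinuousAt a' t) (hb' : ContinuousAt b' t)
    (hc' : ContinuousAt c' t) (hY' : ContinuousAt Y' t) (hr : ContinuousAt r t) (h0 : r t ≠ 0) :
    ContinuousAt (fun s => fl' (a s) (b s) (c s) (Y s) (a' s) (b' s) (c' s) (Y' s) (r s)) t := by
  have h3 := pow_ne_zero 3 h0
  unfold fl'
  fun_prop (disch := first | assumption | norm_num)

/-- the first variation formula in the plane -/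
theorem planar {K : Set R2} (hK : IsCompact K) {B X Y : R2 → C3}
    (hB : ∀ y ∈ K, ContDiffAt ℝ 2 B y) (hX : ∀ y ∈ K, ContDiffAt ℝ 2 X y)
    (hY : ∀ y ∈ K, ContDiffAt ℝ 2 Y y) (h0 : ∀ y ∈ K, ∀ᶠ z in 𝓝 y, z ∉ K → Y z = 0)
    (hb : ∀ y ∈ K, dg (jet2 B y) ∈ Complex.slitPlane)
    (hs : ∀ y ∈ K, dg (jet2 X y) / dg (jet2 B y) ∈ Complex.slitPlane) :
    ∫ y in K, (dlag (jet2 B y) (jet2 X y) (jet2 Y y) + eul (jet2 B y) (jet2 X y) (Y y)) *
      Complex.sqrt (dg (jet2 B y)) = 0 := by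
  set r : R2 → ℂ := fun z => sq (jet2 B z) (jet2 X z) * Complex.sqrt (dg (jet2 B z)) with hr
  have d : ∀ y ∈ K, DifferentiableAt ℝ r y := fun y hy => by
    have d1 := differentiableAt_dg (hB y hy)
    have d2 : DifferentiableAt ℝ (fun z => dg (jet2 X z) / dg (jet2 B z)) y := by
      simpa only [div_eq_mul_inv] using (differentiableAt_dg (hX y hy)).fun_mul
        (d1.fun_inv (Complex.slitPlane_ne_zero (hb y hy)))
    exact (DifferentiableAt.comp (g := Complex.sqrt) y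
      ((Complex.differentiableAt_sqrt (hs y hy)).restrictScalars ℝ) d2).mul
      (DifferentiableAt.comp (g := Complex.sqrt) y
        ((Complex.differentiableAt_sqrt (hb y hy)).restrictScalars ℝ) d1)
  have r2 : ∀ y ∈ K, ∀ᶠ z in 𝓝 y, r z ^ 2 = dg (jet2 X z) := fun y hy => by
    filter_upwards [(differentiableAt_dg (hB y hy)).continuousAt.eventually_ne
      (Complex.slitPlane_ne_zero (hb y hy))] with z hz
    rw [hr, mul_pow, sq, sq_sqrt, sq_sqrt, div_mul_cancel₀ _ hz]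
  have r0 : ∀ y ∈ K, r y ≠ 0 := fun y hy h => Complex.slitPlane_ne_zero (hs y hy) (by
    rw [← (r2 y hy).self_of_nhds, h]; simp)
  have cX : ∀ k, ∀ y ∈ K, ContinuousAt (fun z => jet2 X z k) y := fun k y hy =>
    continuousAt_pi.1 (continuousAt_jet2 (hX y hy)) k
  have cY : ∀ k, ∀ y ∈ K, ContinuousAt (fun z => jet2 Y z k) y := fun k y hy =>
    continuousAt_pi.1 (continuousAt_jet2 (hY y hy)) k
  have ln : ∀ y v : R2, Tendsto (fun t : ℝ => y + t • v) (𝓝 0) (𝓝 y) := fun y v => by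
    simpa using (by fun_prop : Continuous fun t : ℝ => y + t • v).tendsto 0
  have dl : ∀ y ∈ K, ∀ v : R2, DifferentiableAt ℝ (fun t : ℝ => r (y + t • v)) 0 :=
    fun y hy v => (d y hy).lineDifferentiableAt
  have c1 : ContinuousOn (fun z => fl' (jet2 X z 0) (jet2 X z 1) (jet2 X z 2) (jet2 Y z 0)
      (jet2 X z 1) (jet2 X z 3) (jet2 X z 4) (jet2 Y z 1) (r z)) K := fun y hy =>
    (continuousAt_fl' (cX 0 y hy) (cX 1 y hy) (cX 2 y hy) (cY 0 y hy) (cX 1 y hy) (cX 3 y hy)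
      (cX 4 y hy) (cY 1 y hy) (d y hy).continuousAt (r0 y hy)).continuousWithinAt
  have c2 : ContinuousOn (fun z => fl' (jet2 X z 0) (jet2 X z 2) (jet2 X z 1) (jet2 Y z 0)
      (jet2 X z 2) (jet2 X z 5) (jet2 X z 4) (jet2 Y z 2) (r z)) K := fun y hy =>
    (continuousAt_fl' (cX 0 y hy) (cX 2 y hy) (cX 1 y hy) (cY 0 y hy) (cX 2 y hy) (cX 5 y hy)
      (cX 4 y hy) (cY 2 y hy) (d y hy).continuousAt (r0 y hy)).continuousWithinAt
  have i1 := integral_line hK (v := (1, 0)) (F := fun z => fl (jet2 X z 0) (jet2 X z 1) (jet2 X z 2)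
    (jet2 Y z 0) (r z)) (fun y hy => (continuousAt_fl (cX 0 y hy) (cX 1 y hy) (cX 2 y hy)
      (cY 0 y hy) (d y hy).continuousAt (r0 y hy)).continuousWithinAt) c1 (fun y hy => by
      have := hasDerivAt_fl (line0 (hX y hy) (1, 0)) (line1 (hX y hy) (1, 0) (1, 0))
        (line1 (hX y hy) (0, 1) (1, 0)) (line0 (hY y hy) (1, 0)) (dl y hy (1, 0))
        (by simpa using r0 y hy) ((ln y _).eventually (r2 y hy))
      simp only [zero_smul, add_zero] at this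
      exact this) fun y hy => (h0 y hy).mono fun z hz hz' => by simp [fl, jet2, hz hz']
  have i2 := integral_line hK (v := (0, 1)) (F := fun z => fl (jet2 X z 0) (jet2 X z 2) (jet2 X z 1)
    (jet2 Y z 0) (r z)) (fun y hy => (continuousAt_fl (cX 0 y hy) (cX 2 y hy) (cX 1 y hy)
      (cY 0 y hy) (d y hy).continuousAt (r0 y hy)).continuousWithinAt) c2 (fun y hy => by
      have := hasDerivAt_fl (line0 (hX y hy) (0, 1)) (line1 (hX y hy) (0, 1) (0, 1))
        (line1 (hX y hy) (1, 0) (0, 1)) (line0 (hY y hy) (0, 1)) (dl y hy (0, 1))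
        (by simpa using r0 y hy) (((ln y _).eventually (r2 y hy)).mono fun t ht => by
          rw [ht, mul_comm, dotProduct_comm (fderiv ℝ X _ (0, 1)) (fderiv ℝ X _ (1, 0))]
          rfl)
      simp only [zero_smul, add_zero] at this
      rw [((hX y hy).isSymmSndFDerivAt (by simp)).eq (0, 1) (1, 0)] at this
      exact this) fun y hy => (h0 y hy).mono fun z hz hz' => by simp [fl, jet2, hz hz']
  rw [← add_zero (0 : ℂ)]
  nth_rw 1 [← i1]
  rw [← i2, ← integral_add (c1.integrableOn_compact hK) (c2.integrableOn_compact hK)]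
  exact setIntegral_congr_fun hK.measurableSet fun y hy =>
    (fl'_add _ _ (jet2 Y y) (sq_sqrt _) (Complex.slitPlane_ne_zero (hs y hy))).symm

end Vale.Agent.P218N.Core.Var
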