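import Vale.Agent.P218N.Core.Spec
import Vale.Agent.P218N.Core.VarP
import Vale.Agent.P218GA.Jac

/-! The area measure of the surface in charts. -/

open Set Filter Topology Metric MeasureTheory
open scoped Matrix RealInnerProductSpace ContDiff

noncomputable section

namespace Vale.Agent.P218N.Core.Var

open Vale.Agent.P218.H313 Vale.Agent.P218N.H Vale.Agent.P218GA

variable {w : E3 → ℝ} {D : EndData w}

/-- the complexification -/
def cxL : E3 →L[ℝ] C3 :=
  ContinuousLinearMap.pi fun i => Complex.ofRealCLM.comp (EuclideanSpace.proj i)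

theorem cxL_apply (p : E3) : cxL p = cx p := rfl

theorem cx_dot (p q : E3) : cx p ⬝ᵥ cx q = (⟪p, q⟫ : ℝ) := by
  simp [cx, dotProduct, PiLp.inner_apply, mul_comm]

theorem contDiffAt_cx {k : WithTop ℕ∞} {φ : R2 → E3} {y : R2} (h : ContDiffAt ℝ k φ y) :
    ContDiffAt ℝ k (fun z => cx (φ z)) y := cxL.contDiff.contDiffAt.comp y h

/-- the area element -/
def ar (φ : R2 → E3) (y : R2) : ℝ := par (fderiv ℝ φ y (1, 0)) (fderiv ℝ φ y (0, 1))

theorem dg_jS {φ : R2 → E3} {y : R2} (h : ContDiffAt ℝ 2 φ y) :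
    dg (jS φ y) = (ar φ y ^ 2 : ℝ) := by
  have e : jS φ y = fun k => cx (jet2 φ y k) := jet2_clm cxL h
  have h1 := real_inner_mul_inner_self_le (fderiv ℝ φ y (1, 0)) (fderiv ℝ φ y (0, 1))
  rw [real_inner_self_eq_norm_sq, real_inner_self_eq_norm_sq, ← pow_two] at h1
  rw [ar, par, Real.sq_sqrt (sub_nonneg.2 h1)]
  simp only [dg, g11, g12, g22, e, cx_dot, real_inner_self_eq_norm_sq]
  push_cast
  rfl

theorem ar_pos {φ : R2 → E3} {y : R2} (h : Function.Injective (fderiv ℝ φ y)) : 0 < ar φ y :=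
  (mul_pos_iff_of_pos_left (cH_pos' 2)).1 (isJac_prod.pos _ h)

theorem sqrt_dg {φ : R2 → E3} {y : R2} (h : ContDiffAt ℝ 2 φ y) :
    Complex.sqrt (dg (jS φ y)) = ar φ y := by
  rw [dg_jS h, Complex.sqrt_of_nonneg (Complex.zero_le_real.2 (sq_nonneg _)), Complex.ofReal_re,
    Real.sqrt_sq (x := ar φ y) (Real.sqrt_nonneg _)]

theorem continuousAt_ar {φ : R2 → E3} {y : R2} (h : ContDiffAt ℝ 2 φ y) : ContinuousAt (ar φ) y := by
  have h1 := (hasFDerivAt_fderiv h).continuousAt
  have h2 := h1.clm_apply (continuousAt_const (y := ((1, 0) : R2)))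
  have h3 := h1.clm_apply (continuousAt_const (y := ((0, 1) : R2)))
  exact (((h2.norm.pow 2).mul (h3.norm.pow 2)).sub ((h2.inner h3).pow 2)).sqrt

section area

variable {F : Type} [NormedAddCommGroup F] [NormedSpace ℝ F] {φ : R2 → E3} {O K : Set R2}

theorem hausdorff_two : (μH[2] : Measure E3) = cH 2 • μHE[2] := by
  simpa using hausdorff_eq_smul (X := E3) 2

theorem integral_image (hO : IsOpen O) (hφ : ContDiffOn ℝ 1 φ O)
    (hi : ∀ y ∈ O, Function.Injective (fderiv ℝ φ y)) (hK : MeasurableSet K) (hKO : K ⊆ O)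
    (hinj : InjOn φ K) (hS : φ '' K ⊆ SS w) (f : E3 → F) :
    ∫ p in φ '' K, f p ∂(muS w) = ∫ y in K, ar φ y • f (φ y) := by
  have h := isJac_prod.integral_image hO hφ hi hK hKO hinj f
  simp only [hausdorff_two, Measure.restrict_smul, integral_smul_nnreal_measure, jac2, mul_smul,
    integral_smul] at h
  rw [muS, Measure.restrict_restrict_of_subset hS]
  exact smul_right_injective F (cH_pos' 2).ne' h

theorem integrableOn_image (hO : IsOpen O) (hφ : ContDiffOn ℝ 1 φ O)
    (hi : ∀ y ∈ O, Function.Injective (fderiv ℝ φ y)) (hK : MeasurableSet K) (hKO : K ⊆ O)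
    (hinj : InjOn φ K) (hS : φ '' K ⊆ SS w) (f : E3 → F) :
    IntegrableOn f (φ '' K) (muS w) ↔ IntegrableOn (fun y => ar φ y • f (φ y)) K := by
  have h := isJac_prod.integrableOn_image hO hφ hi hK hKO hinj f
  simp only [hausdorff_two, jac2, mul_smul] at h
  rw [IntegrableOn, Measure.restrict_smul, ENNReal.smul_def, integrable_smul_measure
    (by simpa using (cH_pos 2).ne') ENNReal.coe_ne_top] at h
  rw [IntegrableOn, muS, Measure.restrict_restrict_of_subset hS, h]
  exact integrable_smul_iff (cH_pos' 2).ne' _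

end area

variable (P : Patch (SS w))

theorem cd {y : R2} (hy : y ∈ P.O) : ContDiffAt ℝ 2 P.φ y :=
  (P.smooth.contDiffAt (P.isOpen_O.mem_nhds hy)).of_le (by norm_cast)

theorem injOn : InjOn P.φ P.O := fun y hy y' hy' h => by rw [← P.left y hy, h, P.left y' hy']

theorem chart {F : Type} [NormedAddCommGroup F] [NormedSpace ℝ F] {K : Set R2} (hKO : K ⊆ P.O)
    (hK : MeasurableSet K) (f : E3 → F) :
    ∫ p in P.φ '' K, f p ∂(muS w) = ∫ y in K, ar P.φ y • f (P.φ y) :=
  integral_image P.isOpen_O (P.smooth.of_le (by norm_cast)) P.imm hK hKO ((injOn P).mono hKO)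
    (image_subset_iff.2 fun y hy => (P.maps y (hKO hy)).1) f

theorem chart_int {F : Type} [NormedAddCommGroup F] [NormedSpace ℝ F] {K : Set R2} (hKO : K ⊆ P.O)
    (hK : MeasurableSet K) (f : E3 → F) :
    IntegrableOn f (P.φ '' K) (muS w) ↔ IntegrableOn (fun y => ar P.φ y • f (P.φ y)) K :=
  integrableOn_image P.isOpen_O (P.smooth.of_le (by norm_cast)) P.imm hK hKO ((injOn P).mono hKO)
    (image_subset_iff.2 fun y hy => (P.maps y (hKO hy)).1) f

theorem chartC {K : Set R2} (hKO : K ⊆ P.O) (hK : MeasurableSet K) (f : E3 → ℂ) :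
    ∫ p in P.φ '' K, f p ∂(muS w) = ∫ y in K, f (P.φ y) * Complex.sqrt (dg (jS P.φ y)) := by
  rw [chart P hKO hK]
  exact setIntegral_congr_fun hK fun y hy => by
    simp only [sqrt_dg (cd P (hKO hy)), Complex.real_smul, mul_comm]

theorem map_nhds {y : R2} (hy : y ∈ P.O) : map P.φ (𝓝 y) = 𝓝[SS w] (P.φ y) := by
  have hV := P.isOpen_V.mem_nhds (P.maps y hy).2
  refine le_antisymm (tendsto_nhdsWithin_iff.2 ⟨(cd P hy).continuousAt, mem_of_superset
    (P.isOpen_O.mem_nhds hy) fun z hz => (P.maps z hz).1⟩) fun s hs => ?_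
  have h1 : Tendsto P.ι (𝓝[SS w] (P.φ y)) (𝓝 y) := by
    have := P.cont _ (P.maps y hy)
    rwa [ContinuousWithinAt, P.left y hy, nhdsWithin_inter_of_mem' (nhdsWithin_le_nhds hV)] at this
  filter_upwards [h1 (mem_map.1 hs), self_mem_nhdsWithin, nhdsWithin_le_nhds hV] with p h2 h3 h4
  rwa [← (P.inv p h3 h4).2]

variable (G : Geo D)
include G

theorem exists_chart {p : E3} (hp : w p = 0) :
    (G.pa p).ι p ∈ (G.pa p).O ∧ (G.pa p).φ ((G.pa p).ι p) = p := (G.pa p).inv p hp (G.pa_mem p hp)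

theorem isClosed_SS : IsClosed (SS w) := isClosed_eq G.shr.smooth.continuous continuous_const

theorem ae_mem : ∀ᵐ p ∂(muS w), w p = 0 := ae_restrict_mem (isClosed_SS G).measurableSet

theorem locFin : IsLocallyFiniteMeasure (muS w) := ⟨fun p => by
  by_cases hp : w p = 0
  · obtain ⟨h1, h2⟩ := exists_chart G hp
    obtain ⟨K, hK, hKO, hc⟩ := local_compact_nhds ((G.pa p).isOpen_O.mem_nhds h1)
    have h3 := (chart_int (G.pa p) hKO hc.measurableSet fun _ => (1 : ℝ)).2
      (ContinuousOn.integrableOn_compact hc fun y hy => ((continuousAt_ar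
        (cd _ (hKO hy))).smul continuousAt_const).continuousWithinAt)
    have h4 := image_mem_map (m := (G.pa p).φ) hK
    rw [map_nhds _ h1, h2] at h4
    obtain ⟨U, hU, hU'⟩ := mem_nhdsWithin_iff_exists_mem_nhds_inter.1 h4
    refine ⟨U, hU, lt_of_le_of_lt (measure_mono_ae ?_)
      (((integrableOn_const_iff (by simp)).1 h3).resolve_left (by simp))⟩
    filter_upwards [ae_mem G] with q hq hq' using hU' ⟨hq', hq⟩
  · refine ⟨(SS w)ᶜ, (isClosed_SS G).isOpen_compl.mem_nhds hp, ?_⟩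
    rw [show muS w (SS w)ᶜ = 0 from ae_mem G]
    exact ENNReal.zero_lt_top⟩

theorem integrable_of_compact {F : Type} [NormedAddCommGroup F] {f : E3 → F} {K : Set E3}
    (hK : IsCompact K) (hf : ContinuousOn f K)
    (h0 : ∀ p, w p = 0 → p ∉ K → f p = 0) : Integrable f (muS w) := by
  have := locFin G
  exact (hf.integrableOn_compact hK).integrable_of_ae_notMem_eq_zero
    ((ae_mem G).mono fun p hp => h0 p hp)

theorem integrable_of_bdd {F : Type} [NormedAddCommGroup F] {f : E3 → F}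
    (hf : ContinuousOn f (SS w)) (hb : Bdd w f) : Integrable f (muS w) := by
  obtain ⟨R, hR⟩ := hb
  exact integrable_of_compact G ((isCompact_closedBall 0 R).inter_left (isClosed_SS G))
    (hf.mono inter_subset_left) fun p hp h => hR p hp
      (not_lt.1 fun h' => h ⟨hp, mem_closedBall_zero_iff.2 h'.le⟩)

theorem eq_zero_of_integral {f : E3 → ℝ} (hf : ContinuousOn f (SS w)) (hb : Bdd w f)
    (h0 : ∀ p, w p = 0 → 0 ≤ f p) (h : ∫ p, f p ∂(muS w) = 0) (p : E3) (hp : w p = 0) :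
    f p = 0 := by
  obtain ⟨h1, h2⟩ := exists_chart G hp
  set P := G.pa p
  have hi := integrable_of_bdd G hf hb
  have h3 := (integral_eq_zero_iff_of_nonneg_ae ((ae_mem G).mono h0) hi).1 h
  have h4 := chart P Subset.rfl P.isOpen_O.measurableSet f
  rw [integral_eq_zero_of_ae (ae_restrict_of_ae h3)] at h4
  have h5 := (integral_eq_zero_iff_of_nonneg_ae ((ae_restrict_mem P.isOpen_O.measurableSet).mono
    fun y hy => smul_nonneg (ar_pos (P.imm y hy)).le (h0 _ (P.maps y hy).1))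
    ((chart_int P Subset.rfl P.isOpen_O.measurableSet f).1 hi.integrableOn)).1 h4.symm
  have h6 := Measure.eqOn_open_of_ae_eq h5 P.isOpen_O (ContinuousOn.smul (fun y hy =>
    (continuousAt_ar (cd P hy)).continuousWithinAt) (hf.comp P.smooth.continuousOn
      fun y hy => (P.maps y hy).1)) continuousOn_const h1
  simpa [h2, (ar_pos (P.imm _ h1)).ne'] using h6

theorem mem_ep (e : En D) {q : R2} (hq : G.z0 < q.1) : q ∈ (G.ep e q.2).O := by
  rw [G.ep_O]
  exact ⟨hq, by linarith [Real.pi_pos], by linarith [Real.pi_pos]⟩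

theorem ends (per : ∀ (e : En D) ζ θ, pt e (ζ, θ + 2 * Real.pi) = pt e (ζ, θ)) {f : E3 → ℂ}
    {a b : ℝ} (hf : ContinuousOn f (SS w)) (ha : G.z0 < a) (hab : a ≤ b)
    (h0 : ∀ p, w p = 0 → G.σ p ∉ Icc a b → f p = 0) : ∫ p, f p ∂(muS w) =
      ∑ e : En D, ∫ ζ in a..b, ∫ θ in (0 : ℝ)..2 * Real.pi,
        f (pt e (ζ, θ)) * Complex.sqrt (dg (jS (pt e) (ζ, θ))) := by
  have hπ : 0 < 2 * Real.pi := by positivity
  set K : Set R2 := Icc a b ×ˢ Ioc 0 (2 * Real.pi) with hK
  have hm : MeasurableSet K := measurableSet_Icc.prod measurableSet_Ioc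
  have hO : IsOpen {q : R2 | G.z0 < q.1} := isOpen_lt continuous_const continuous_fst
  have hKO : K ⊆ {q : R2 | G.z0 < q.1} := fun q hq => ha.trans_le hq.1.1
  have c2 : ∀ e : En D, ∀ q : R2, G.z0 < q.1 → ContDiffAt ℝ 2 (pt e) q := fun e q hq =>
    G.ep_φ e q.2 ▸ cd _ (mem_ep G e hq)
  have c1 : ∀ e : En D, ContDiffOn ℝ 1 (pt e) {q : R2 | G.z0 < q.1} := fun e q hq =>
    ((c2 e q hq).of_le (by norm_num)).contDiffWithinAt
  have im : ∀ e : En D, ∀ q ∈ {q : R2 | G.z0 < q.1}, Function.Injective (fderiv ℝ (pt e) q) :=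
    fun e q hq => G.ep_φ e q.2 ▸ (G.ep e q.2).imm q (mem_ep G e hq)
  have hS : ∀ e : En D, pt e '' K ⊆ SS w := fun e => image_subset_iff.2 fun q hq =>
    G.ep_φ e q.2 ▸ ((G.ep e q.2).maps q (mem_ep G e (hKO hq))).1
  have inj : ∀ e : En D, InjOn (pt e) K := fun e q hq q' hq' h => by
    obtain ⟨k, rfl⟩ := G.inj e q q' (hKO hq) (hKO hq') h
    have h1 : (k : ℝ) < 1 := by nlinarith [hq.2.1, hq'.2.2]
    have h2 : (-1 : ℝ) < k := by nlinarith [hq.2.2, hq'.2.1]
    obtain rfl : k = 0 := by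
      have h1 : k < 1 := by exact_mod_cast h1
      have h2 : -1 < k := by exact_mod_cast h2
      omega
    simp
  have hi : Integrable f (muS w) := integrable_of_compact G (G.cpt b)
    (hf.mono fun p hp => hp.1) fun p hp h => h0 p hp fun h' => h ⟨hp, h'.2⟩
  rw [← setIntegral_eq_integral_of_ae_compl_eq_zero (s := ⋃ e : En D, pt e '' K)
    ((ae_mem G).mono fun p hp h => h0 p hp fun h' => h ?_), integral_iUnion_fintype
      (fun e => measurableSet_image (c1 e).continuousOn hm hKO (inj e)) (fun e e' hne => ?_)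
      fun e => hi.integrableOn]
  · refine Finset.sum_congr rfl fun e _ => ?_
    have e1 : EqOn (fun q => ar (pt e) q • f (pt e q))
        (fun q => f (pt e q) * Complex.sqrt (dg (jS (pt e) q))) K := fun q hq => by
      simp only [sqrt_dg (c2 e q (hKO hq)), Complex.real_smul, mul_comm]
    rw [integral_image hO (c1 e) (im e) hm hKO (inj e) (hS e), setIntegral_congr_fun hm e1,
      intervalIntegral.integral_of_le hab, ← integral_Icc_eq_integral_Ioc]
    simp only [intervalIntegral.integral_of_le hπ.le]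
    exact setIntegral_prod _ (((integrableOn_image hO (c1 e) (im e) hm hKO (inj e) (hS e) f).1
      hi.integrableOn).congr_fun e1 hm)
  · refine disjoint_left.2 ?_
    rintro _ ⟨q, hq, rfl⟩ ⟨q', hq', h⟩
    have h1 := G.ind_pt e e q (hKO hq)
    rw [← h, G.ind_pt e e' q' (hKO hq')] at h1
    simp [hne] at h1
  · obtain ⟨e, q, hq, rfl⟩ := G.cover p hp (ha.trans_le h'.1)
    rw [G.σ_pt e q hq] at h'
    refine mem_iUnion.2 ⟨e, (q.1, toIocMod hπ 0 q.2), ⟨h', by simpa using toIocMod_mem_Ioc hπ 0 q.2⟩,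
      ?_⟩
    exact Function.Periodic.sub_zsmul_eq (f := fun θ => pt e (q.1, θ)) (per e q.1) _

end Vale.Agent.P218N.Core.Var
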